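import Crest.Agent.R40.T1B

/-!
# R40 / T1, block M5: continuity of the structured part
-/

set_option autoImplicit false

namespace Crest.Agent.R40.T1B

open Complex MeasureTheory Filter Topology Crest.Agent.R40.T1

variable {y : ℕ → E} {ν : Measure (Dual F)} [IsFiniteMeasure ν]

/-- The statement on the base field which is bootstrapped. -/
def EHyp (y : ℕ → E) : Prop :=
  ∀ μ : Measure (Dual E), IsFiniteMeasure μ → RotInv μ → μ (LimSet y) = 0 →
    ∀ x : E, x ≠ 0 → ∫ χ, (χ x : ℂ) ∂μ = 0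

/-- `{χ | x ∈ W_χ}` -/
def SW (y : ℕ → E) (x : F) : Set (Dual F) := {χ | InW y χ x}

lemma measurableSet_SW (x : F) : MeasurableSet (SW y x) := measurableSet_inW x

lemma norm_eval (χ : Dual F) (x : F) : ‖(χ x : ℂ)‖ = 1 := Circle.norm_coe _

lemma integrable_eval (μ : Measure (Dual F)) [IsFiniteMeasure μ] (x : F) :
    Integrable (fun χ : Dual F => (χ x : ℂ)) μ :=
  Integrable.of_bound (measurable_eval x).aestronglyMeasurable 1
    (ae_of_all _ fun χ => (norm_eval χ x).le)

lemma SW_rot_E {v : E} (hv : v ≠ 0) (x : F) : rot (ι v) ⁻¹' (SW y x) = SW y x := by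
  ext χ
  show InW y (rot (ι v) χ) x ↔ InW y χ x
  rw [inW_rot]
  constructor
  · intro h
    have := h.smul v⁻¹
    have e : ι v⁻¹ * (ι v * x) = x := by
      rw [← mul_assoc, ← map_mul, inv_mul_cancel₀ hv, map_one, one_mul]
    rwa [e] at this
  · intro h; exact h.smul v

lemma rot_line (v : E) (x : F) (χ : Dual F) : rot v (line x χ) = line x (rot (ι v) χ) := by
  ext a
  simp only [rot_apply, line_apply, map_mul, mul_assoc]

/-- on `{x ∉ W}` the `x`-th coefficient vanishes -/
lemma integral_compl_SW (hE : EHyp y) (hν : RotInv ν) {x : F} (_hx : x ≠ 0) :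
    ∫ χ in (SW y x)ᶜ, (χ x : ℂ) ∂ν = 0 := by
  set ν' : Measure (Dual F) := ν.restrict (SW y x)ᶜ with hν'
  set μ : Measure (Dual E) := ν'.map (line x) with hμ
  have hfin : IsFiniteMeasure μ := by rw [hμ]; infer_instance
  have hinv : RotInv μ := by
    intro v hv
    have hv0 : v ≠ 0 := by
      rintro rfl; simp at hv
    have hmp : MeasurePreserving (rot (ι v)) ν' ν' := by
      have h1 := (measurePreserving_rot hν (u := ι v) hv).restrict_preimage
        (measurableSet_SW (y := y) x).compl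
      rwa [Set.preimage_compl, SW_rot_E hv0] at h1
    rw [hμ, Measure.map_map (measurable_rot v) (measurable_line x)]
    have : rot v ∘ line x = line x ∘ rot (ι v) := by
      funext χ; exact rot_line v x χ
    rw [this, ← Measure.map_map (measurable_line x) (measurable_rot _), hmp.map_eq]
  have hnull : μ (LimSet y) = 0 := by
    rw [hμ, Measure.map_apply (measurable_line x) measurableSet_limSet, hν',
      Measure.restrict_apply ((measurable_line x) measurableSet_limSet)]
    have : line x ⁻¹' LimSet y ∩ (SW y x)ᶜ = ∅ := by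
      ext χ; simp only [Set.mem_inter_iff, Set.mem_preimage, Set.mem_compl_iff, Set.mem_empty_iff_false,
        iff_false, not_and, not_not]
      exact fun h => h
    rw [this, measure_empty]
  have := hE μ hfin hinv hnull 1 one_ne_zero
  rw [hμ, integral_map (measurable_line x).aemeasurable
    (measurable_eval 1).aestronglyMeasurable] at this
  rw [← this]
  congr 1
  funext χ
  rw [line_apply, map_one, one_mul]

/-- the set on which `W = F` -/
def Z (y : ℕ → E) : Set (Dual F) := SW y 1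

lemma measurableSet_Z : MeasurableSet (Z y) := measurableSet_SW 1

lemma ae_SW_iff (hν : RotInv ν) {x : F} (hx : x ≠ 0) : ∀ᵐ χ ∂ν, χ ∈ SW y x ↔ χ ∈ Z y := by
  filter_upwards [ae_full (y := y) hν] with χ hχ
  constructor
  · intro h
    have := hχ x⁻¹ x h
    rwa [inv_mul_cancel₀ hx] at this
  · intro h
    have := hχ x 1 h
    rwa [mul_one] at this

/-- the structured part of the Fourier coefficients -/
noncomputable def psi (y : ℕ → E) (ν : Measure (Dual F)) (x : F) : ℂ := ∫ χ in Z y, (χ x : ℂ) ∂ν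

lemma integral_eq_psi (hE : EHyp y) (hν : RotInv ν) {x : F} (hx : x ≠ 0) :
    ∫ χ, (χ x : ℂ) ∂ν = psi y ν x := by
  rw [← integral_add_compl (measurableSet_SW (y := y) x) (integrable_eval ν x),
    integral_compl_SW hE hν hx, add_zero, psi]
  congr 1
  apply Measure.restrict_congr_set
  filter_upwards [ae_SW_iff (y := y) hν hx] with χ hχ
  exact propext hχ

/-- `D x = ∫_Z |χ(x) - 1|²` -/
noncomputable def DD (y : ℕ → E) (ν : Measure (Dual F)) (x : F) : ℝ :=
  ∫ χ in Z y, ‖(χ x : ℂ) - 1‖ ^ 2 ∂ν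

lemma integrable_sq (μ : Measure (Dual F)) [IsFiniteMeasure μ] (x : F) :
    Integrable (fun χ : Dual F => ‖(χ x : ℂ) - 1‖ ^ 2) μ := by
  refine Integrable.of_bound (C := 4) ?_ (ae_of_all _ fun χ => ?_)
  · exact (((measurable_eval x).sub_const 1).norm.pow_const 2).aestronglyMeasurable
  · rw [Real.norm_of_nonneg (by positivity)]
    have : ‖(χ x : ℂ) - 1‖ ≤ 2 := by
      refine (norm_sub_le _ _).trans ?_
      rw [norm_eval, norm_one]; norm_num
    nlinarith [norm_nonneg ((χ x : ℂ) - 1)]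

lemma restrict_Z_rot (hν : RotInv ν) {u : F} (hu : ‖(u : ℂ)‖ = 1) :
    MeasurePreserving (rot u) (ν.restrict (Z y)) (ν.restrict (Z y)) := by
  have h1 := (measurePreserving_rot hν hu).restrict_preimage (measurableSet_Z (y := y))
  have hu0 : u ≠ 0 := by rintro rfl; simp at hu
  have h2 : ν.restrict (rot u ⁻¹' Z y) = ν.restrict (Z y) := by
    apply Measure.restrict_congr_set
    filter_upwards [ae_SW_iff (y := y) hν hu0] with χ hχ
    apply propext
    show InW y (rot u χ) 1 ↔ χ ∈ Z y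
    rw [inW_rot, mul_one]
    exact hχ
  rwa [h2] at h1

lemma DD_rot (hν : RotInv ν) {u : F} (hu : ‖(u : ℂ)‖ = 1) (x : F) :
    DD y ν (u * x) = DD y ν x := by
  have h := restrict_Z_rot (y := y) hν hu
  unfold DD
  conv_rhs => rw [← h.map_eq]
  rw [integral_map (measurable_rot u).aemeasurable
    (((measurable_eval x).sub_const 1).norm.pow_const 2).aestronglyMeasurable]
  rfl

lemma norm_mul_sub_one_sq (z w : ℂ) (hz : ‖z‖ = 1) :
    ‖z * w - 1‖ ^ 2 ≤ 2 * ‖z - 1‖ ^ 2 + 2 * ‖w - 1‖ ^ 2 := by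
  have h1 : ‖z * w - 1‖ ≤ ‖z - 1‖ + ‖w - 1‖ := by
    have : z * w - 1 = (z - 1) + z * (w - 1) := by ring
    rw [this]
    refine (norm_add_le _ _).trans ?_
    rw [norm_mul, hz, one_mul]
  nlinarith [norm_nonneg (z * w - 1), norm_nonneg (z - 1), norm_nonneg (w - 1),
    sq_nonneg (‖z - 1‖ - ‖w - 1‖)]

lemma DD_add (x x' : F) : DD y ν (x + x') ≤ 2 * DD y ν x + 2 * DD y ν x' := by
  unfold DD
  rw [← integral_const_mul, ← integral_const_mul, ← integral_add
    ((integrable_sq _ x).const_mul 2) ((integrable_sq _ x').const_mul 2)]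
  refine integral_mono (integrable_sq _ _)
    (((integrable_sq _ x).const_mul 2).add ((integrable_sq _ x').const_mul 2)) fun χ => ?_
  simp only [AddChar.map_add_eq_mul, Circle.coe_mul]
  exact norm_mul_sub_one_sq _ _ (norm_eval χ x)

lemma DD_doubling (hν : RotInv ν) {x z : F} (hz : z ≠ 0) (h : ‖(x : ℂ)‖ ≤ 2 * ‖(z : ℂ)‖) :
    DD y ν x ≤ 4 * DD y ν z := by
  obtain ⟨u, hu, v, hv, hu1, hv1, e⟩ := exists_unit_comb z.2 x.2
    (by simpa using hz) h
  have e' : x = (⟨u, hu⟩ : F) * z + (⟨v, hv⟩ : F) * z := Subtype.ext e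
  rw [e']
  refine (DD_add _ _).trans ?_
  rw [DD_rot (u := ⟨u, hu⟩) hν hu1, DD_rot (u := ⟨v, hv⟩) hν hv1]
  linarith

omit [IsFiniteMeasure ν] in
lemma DD_nonneg (x : F) : 0 ≤ DD y ν x := integral_nonneg fun χ => by positivity

lemma DD_tendsto : Tendsto (fun n => DD y ν (ι (y n))) atTop (𝓝 0) := by
  unfold DD
  have : (0 : ℝ) = ∫ χ in Z y, (0 : ℝ) ∂ν := by simp
  rw [this]
  refine tendsto_integral_of_dominated_convergence (fun _ => 4) ?_ (integrable_const _) ?_ ?_
  · intro n
    exact (((measurable_eval _).sub_const 1).norm.pow_const 2).aestronglyMeasurable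
  · intro n
    refine ae_of_all _ fun χ => ?_
    rw [Real.norm_of_nonneg (by positivity)]
    have : ‖(χ (ι (y n)) : ℂ) - 1‖ ≤ 2 := by
      refine (norm_sub_le _ _).trans ?_
      rw [norm_eval, norm_one]; norm_num
    nlinarith [norm_nonneg ((χ (ι (y n)) : ℂ) - 1)]
  · rw [ae_restrict_iff' measurableSet_Z]
    refine ae_of_all _ fun χ hχ => ?_
    have h1 := (inW_iff.1 hχ) 1
    have h2 : Tendsto (fun n => (χ (ι (y n)) : ℂ)) atTop (𝓝 1) := by
      refine h1.congr fun n => ?_
      rw [mul_one, mul_one]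
    have h3 := ((h2.sub_const 1).norm.pow 2)
    simpa using h3

lemma DD_small (hν : RotInv ν) (hy0 : ∀ n, y n ≠ 0) {ε : ℝ} (hε : 0 < ε) :
    ∃ δ > 0, ∀ x : F, ‖(x : ℂ)‖ ≤ δ → DD y ν x < ε := by
  have h := (DD_tendsto (y := y) (ν := ν)).eventually (gt_mem_nhds (show (0 : ℝ) < ε / 4 by positivity))
  obtain ⟨n, hn⟩ := h.exists
  have hyn : ι (y n) ≠ 0 := by
    simpa using hy0 n
  have hyn' : 0 < ‖((ι (y n) : F) : ℂ)‖ := by
    rw [norm_pos_iff]
    simpa using hyn
  refine ⟨2 * ‖((ι (y n) : F) : ℂ)‖, by positivity, fun x hx => ?_⟩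
  have := DD_doubling (y := y) hν hyn hx
  linarith

lemma psi_sub_le (x x' : F) {ε : ℝ} (hε : 0 < ε) :
    ‖psi y ν x - psi y ν x'‖ ≤ ε * (ν.real (Z y)) + DD y ν (x - x') / (4 * ε) := by
  unfold psi
  rw [← integral_sub (integrable_eval _ x) (integrable_eval _ x')]
  refine (norm_integral_le_integral_norm _).trans ?_
  have h1 : ∀ χ : Dual F, ‖(χ x : ℂ) - (χ x' : ℂ)‖ ≤ ε + ‖(χ (x - x') : ℂ) - 1‖ ^ 2 / (4 * ε) := by
    intro χ
    have e1 : (χ x : ℂ) - (χ x' : ℂ) = (χ x' : ℂ) * ((χ (x - x') : ℂ) - 1) := by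
      have : χ x = χ x' * χ (x - x') := by
        rw [← AddChar.map_add_eq_mul]; congr 1; ring
      rw [this, Circle.coe_mul]; ring
    rw [e1, norm_mul, norm_eval, one_mul]
    set t := ‖(χ (x - x') : ℂ) - 1‖
    have : t ^ 2 / (4 * ε) + ε - t = (t - 2 * ε) ^ 2 / (4 * ε) := by
      field_simp; ring
    have h0 : 0 ≤ (t - 2 * ε) ^ 2 / (4 * ε) := by positivity
    linarith
  have hint : Integrable (fun χ : Dual F => ε + ‖(χ (x - x') : ℂ) - 1‖ ^ 2 / (4 * ε))
      (ν.restrict (Z y)) :=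
    (integrable_const ε).add ((integrable_sq _ _).div_const _)
  refine (integral_mono ((integrable_eval _ x).sub (integrable_eval _ x')).norm hint h1).trans ?_
  rw [integral_add (integrable_const ε) ((integrable_sq _ _).div_const _), integral_const,
    integral_div]
  apply le_of_eq
  simp [DD, Measure.real, mul_comm]

lemma psi_uniformContinuous (hν : RotInv ν) (hy0 : ∀ n, y n ≠ 0) :
    UniformContinuous (psi y ν) := by
  rw [Metric.uniformContinuous_iff]
  intro ε hε
  set M := ν.real (Z y) + 1 with hM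
  have hM0 : 0 < M := by
    have : 0 ≤ ν.real (Z y) := measureReal_nonneg
    linarith
  obtain ⟨δ, hδ, h⟩ := DD_small (y := y) hν hy0 (ε := ε ^ 2 / M) (by positivity)
  refine ⟨δ, hδ, fun {a b} hab => ?_⟩
  have hd : ‖((a - b : F) : ℂ)‖ ≤ δ := by
    have : dist a b = ‖((a - b : F) : ℂ)‖ := by
      rw [Subtype.dist_eq, dist_eq_norm]; rfl
    rw [← this]; exact hab.le
  have h1 := psi_sub_le (y := y) (ν := ν) a b (ε := ε / (2 * M)) (by positivity)
  have h2 := h _ hd
  rw [dist_eq_norm]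
  refine lt_of_le_of_lt h1 ?_
  have h3 : ε / (2 * M) * ν.real (Z y) < ε / 2 := by
    have : ε / (2 * M) * M = ε / 2 := by field_simp
    rw [← this]
    apply mul_lt_mul_of_pos_left _ (by positivity)
    rw [hM]; linarith
  have h4 : DD y ν (a - b) / (4 * (ε / (2 * M))) ≤ ε / 2 := by
    rw [div_le_iff₀ (by positivity)]
    have : ε / 2 * (4 * (ε / (2 * M))) = ε ^ 2 / M := by field_simp; ring
    rw [this]; exact h2.le
  linarith

lemma K_dense : Dense (K : Set ℝ) := by
  have h : DenseRange ((↑) : ℚ → ℝ) := Rat.denseRange_cast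
  refine Dense.mono ?_ h
  rintro _ ⟨r, rfl⟩
  exact SubfieldClass.ratCast_mem K r

lemma F_dense : Dense (F : Set ℂ) := by
  have h := (K_dense.prod K_dense).preimage
    (f := Complex.equivRealProdCLM.toHomeomorph) (Homeomorph.isOpenMap _)
  exact h

/-- **M5.** -/
theorem main (hE : EHyp y) (hy0 : ∀ n, y n ≠ 0) (hν : RotInv ν) :
    ∃ q : ℂ → ℂ, UniformContinuous q ∧ ∀ x : F, x ≠ 0 → ∫ χ, (χ x : ℂ) ∂ν = q x := by
  have hu := psi_uniformContinuous (y := y) hν hy0
  refine ⟨F_dense.extend (psi y ν), F_dense.uniformContinuous_extend hu, fun x hx => ?_⟩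
  rw [integral_eq_psi hE hν hx]
  exact (F_dense.extend_of_ind hu x).symm

end Crest.Agent.R40.T1B
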