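import Mathlib

/-!
# R40 / T1: canonical definitions (arbitrary colouring => measurable colouring)

* `K`  : smallest subfield of `ℝ` closed under square roots of nonnegative elements;
* `F`  : `K(i)` as a subfield of `ℂ` (countable);
* `E`  : `ℚ(i)` as a subfield of `ℂ`;
* `e t = exp(2 π i t)` in `Circle`, `ch k x = e(Re(k x))`;
* `Dual A = AddChar A Circle` with the sigma-algebra generated by the evaluations.
-/

set_option autoImplicit false

open MeasureTheory Complex

namespace Crest.Agent.R40.T1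

/-- real constructible numbers -/
noncomputable def K : Subfield ℝ := sInf {L : Subfield ℝ | ∀ x ∈ L, 0 ≤ x → √x ∈ L}

theorem sqrt_mem_K {x : ℝ} (hx : x ∈ K) (h0 : 0 ≤ x) : √x ∈ K := by
  simp only [K, Subfield.mem_sInf, Set.mem_ofPred_eq] at hx ⊢
  exact fun L hL => hL x (hx L hL) h0

theorem K_le {L : Subfield ℝ} (hL : ∀ x ∈ L, 0 ≤ x → √x ∈ L) : K ≤ L :=
  sInf_le hL

theorem K_algebraic {x : ℝ} (hx : x ∈ K) : IsAlgebraic ℚ x := by
  have h : K ≤ (algebraicClosure ℚ ℝ).toSubfield := by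
    apply K_le
    intro y hy _
    rename_i h0
    have hy' : IsAlgebraic ℚ y := mem_algebraicClosure_iff.1 hy
    have : IsAlgebraic ℚ (√y) := by
      apply IsAlgebraic.of_pow (n := 2) (by norm_num)
      rw [Real.sq_sqrt h0]; exact hy'
    exact mem_algebraicClosure_iff.2 this
  exact mem_algebraicClosure_iff.1 (h hx)

/-- `F = K(i)` -/
noncomputable def F : Subfield ℂ where
  carrier := {z | z.re ∈ K ∧ z.im ∈ K}
  mul_mem' := by
    rintro a b ⟨ha, ha'⟩ ⟨hb, hb'⟩
    refine ⟨?_, ?_⟩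
    · rw [Complex.mul_re]; exact K.sub_mem (K.mul_mem ha hb) (K.mul_mem ha' hb')
    · rw [Complex.mul_im]; exact K.add_mem (K.mul_mem ha hb') (K.mul_mem ha' hb)
  one_mem' := ⟨by simp, by simp⟩
  add_mem' := by
    rintro a b ⟨ha, ha'⟩ ⟨hb, hb'⟩
    exact ⟨K.add_mem ha hb, K.add_mem ha' hb'⟩
  zero_mem' := ⟨by simp, by simp⟩
  neg_mem' := by
    rintro a ⟨ha, ha'⟩
    exact ⟨K.neg_mem ha, K.neg_mem ha'⟩
  inv_mem' := by
    rintro a ⟨ha, ha'⟩
    have hn : Complex.normSq a ∈ K := by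
      rw [Complex.normSq_apply]; exact K.add_mem (K.mul_mem ha ha) (K.mul_mem ha' ha')
    refine ⟨?_, ?_⟩
    · rw [Complex.inv_re]; exact K.div_mem ha hn
    · rw [Complex.inv_im]; exact K.div_mem (K.neg_mem ha') hn

theorem mem_F {z : ℂ} : z ∈ F ↔ z.re ∈ K ∧ z.im ∈ K := Iff.rfl

/-- `E = ℚ(i)` -/
noncomputable def E : Subfield ℂ where
  carrier := {z | (∃ a : ℚ, (a : ℝ) = z.re) ∧ ∃ b : ℚ, (b : ℝ) = z.im}
  mul_mem' := by
    rintro a b ⟨⟨p, hp⟩, q, hq⟩ ⟨⟨r, hr⟩, s, hs⟩
    exact ⟨⟨p * r - q * s, by push_cast; rw [Complex.mul_re, hp, hq, hr, hs]⟩,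
      ⟨p * s + q * r, by push_cast; rw [Complex.mul_im, hp, hq, hr, hs]⟩⟩
  one_mem' := ⟨⟨1, by simp⟩, 0, by simp⟩
  add_mem' := by
    rintro a b ⟨⟨p, hp⟩, q, hq⟩ ⟨⟨r, hr⟩, s, hs⟩
    exact ⟨⟨p + r, by push_cast; rw [Complex.add_re, hp, hr]⟩,
      ⟨q + s, by push_cast; rw [Complex.add_im, hq, hs]⟩⟩
  zero_mem' := ⟨⟨0, by simp⟩, 0, by simp⟩
  neg_mem' := by
    rintro a ⟨⟨p, hp⟩, q, hq⟩
    exact ⟨⟨-p, by push_cast; rw [Complex.neg_re, hp]⟩, ⟨-q, by push_cast; rw [Complex.neg_im, hq]⟩⟩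
  inv_mem' := by
    rintro a ⟨⟨p, hp⟩, q, hq⟩
    refine ⟨⟨p / (p * p + q * q), ?_⟩, ⟨-q / (p * p + q * q), ?_⟩⟩
    · push_cast; rw [Complex.inv_re, Complex.normSq_apply, hp, hq]
    · push_cast; rw [Complex.inv_im, Complex.normSq_apply, hp, hq]

theorem mem_E {z : ℂ} : z ∈ E ↔ (∃ a : ℚ, (a : ℝ) = z.re) ∧ ∃ b : ℚ, (b : ℝ) = z.im := Iff.rfl

theorem E_le_F : E ≤ F := by
  rintro z ⟨⟨a, ha⟩, b, hb⟩
  exact ⟨by rw [← ha]; exact SubfieldClass.ratCast_mem K a,
    by rw [← hb]; exact SubfieldClass.ratCast_mem K b⟩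

/-- `e(t) = exp(2 π i t)` -/
noncomputable def e (t : ℝ) : Circle := Circle.exp (2 * Real.pi * t)

/-- `ch k x = e(Re(k x))` -/
noncomputable def ch (k x : ℂ) : Circle := e ((k * x).re)

/-- the dual of a discrete abelian group -/
abbrev Dual (A : Type*) [AddMonoid A] := AddChar A Circle

noncomputable instance instMeasurableSpaceDual (A : Type*) [AddMonoid A] : MeasurableSpace (Dual A) :=
  MeasurableSpace.comap (fun (χ : Dual A) (a : A) => (χ a : ℂ)) MeasurableSpace.pi

theorem measurable_eval {A : Type*} [AddMonoid A] (a : A) :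
    Measurable (fun χ : Dual A => (χ a : ℂ)) :=
  (measurable_pi_apply a).comp
    (comap_measurable (fun (χ : Dual A) (a : A) => (χ a : ℂ)))

theorem measurable_dual_iff {A : Type*} [AddMonoid A] {Ω : Type*} [MeasurableSpace Ω]
    {g : Ω → Dual A} : Measurable g ↔ ∀ a, Measurable (fun ω => (g ω a : ℂ)) := by
  constructor
  · exact fun h a => (measurable_eval a).comp h
  · intro h
    rw [measurable_comap_iff]
    exact measurable_pi_iff.2 h

/-- rotation by `u` on the dual of a ring: `(u.χ)(x) = χ(u x)` -/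
noncomputable def rot {R : Type*} [Ring R] (u : R) (χ : Dual R) : Dual R :=
  χ.compAddMonoidHom (AddMonoidHom.mulLeft u)

@[simp] theorem rot_apply {R : Type*} [Ring R] (u : R) (χ : Dual R) (x : R) :
    rot u χ x = χ (u * x) := rfl

theorem measurable_rot {R : Type*} [Ring R] (u : R) : Measurable (rot u : Dual R → Dual R) :=
  measurable_dual_iff.2 fun a => measurable_eval (u * a)

/-- restriction of a character of `F` to the line `E x` (seen as a character of `E`) -/
noncomputable def line (x : F) (χ : Dual F) : Dual E :=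
  χ.compAddMonoidHom ((AddMonoidHom.mulRight x).comp
    ((Subfield.inclusion E_le_F : E →+* F) : E →+ F))

@[simp] theorem line_apply (x : F) (χ : Dual F) (a : E) :
    line x χ a = χ ((Subfield.inclusion E_le_F a) * x) := rfl

theorem measurable_line (x : F) : Measurable (line x) :=
  measurable_dual_iff.2 fun _ => measurable_eval _

/-- invariance under multiplication by unit vectors of the field -/
def RotInv {L : Subfield ℂ} (ν : Measure (Dual L)) : Prop :=
  ∀ u : L, ‖(u : ℂ)‖ = 1 → ν.map (rot u) = ν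

end Crest.Agent.R40.T1
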