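import Mathlib

/-!
# R40 (S0054), module T1, block END

From a stationary-like random field indexed by a dense set of points of the plane with
continuous covariances (off the diagonal) which vanish at unit distance, we build a measurable
fuzzy colouring of the plane.  Elementary proof: averages over finite sets of nearby indices,
almost sure convergence, Fubini.
-/

set_option autoImplicit false

open MeasureTheory Filter Topology
open scoped ENNReal

namespace Crest.Agent.R40.T1End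

set_option linter.unusedSectionVars false

variable {Ω ι : Type*} [MeasurableSpace Ω]

/-- average of the random field `g` over the finite index set `S` -/
noncomputable def avg (S : Finset ι) (g : ι → Ω → ℝ) (ω : Ω) : ℝ :=
  (S.card : ℝ)⁻¹ * ∑ a ∈ S, g a ω

lemma avg_measurable (S : Finset ι) {g : ι → Ω → ℝ} (hg : ∀ a, Measurable (g a)) :
    Measurable (avg S g) := by
  unfold avg
  exact (Finset.measurable_sum _ (fun a _ => hg a)).const_mul _

lemma avg_nonneg (S : Finset ι) {g : ι → Ω → ℝ} (h0 : ∀ a ω, 0 ≤ g a ω) (ω : Ω) :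
    0 ≤ avg S g ω :=
  mul_nonneg (by positivity) (Finset.sum_nonneg (fun a _ => h0 a ω))

lemma avg_le_one (S : Finset ι) {g : ι → Ω → ℝ} (h1 : ∀ a ω, g a ω ≤ 1) (ω : Ω) :
    avg S g ω ≤ 1 := by
  unfold avg
  rcases S.eq_empty_or_nonempty with rfl | hS
  · simp
  · have hc : (0 : ℝ) < S.card := by exact_mod_cast hS.card_pos
    have : ∑ a ∈ S, g a ω ≤ S.card := by
      calc ∑ a ∈ S, g a ω ≤ ∑ a ∈ S, (1 : ℝ) := Finset.sum_le_sum (fun a _ => h1 a ω)
        _ = S.card := by simp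
    calc (S.card : ℝ)⁻¹ * ∑ a ∈ S, g a ω ≤ (S.card : ℝ)⁻¹ * S.card := by gcongr
      _ = 1 := inv_mul_cancel₀ hc.ne'

lemma integrable_of_unit {P : Measure Ω} [IsProbabilityMeasure P] {f : Ω → ℝ}
    (hf : Measurable f) (h0 : ∀ ω, 0 ≤ f ω) (h1 : ∀ ω, f ω ≤ 1) : Integrable f P :=
  Integrable.of_bound hf.aestronglyMeasurable 1
    (ae_of_all _ (fun ω => by rw [Real.norm_eq_abs, abs_of_nonneg (h0 ω)]; exact h1 ω))

lemma integrable_mul_of_unit {P : Measure Ω} [IsProbabilityMeasure P] {f g : Ω → ℝ}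
    (hf : Measurable f) (h0 : ∀ ω, 0 ≤ f ω) (h1 : ∀ ω, f ω ≤ 1)
    (hg : Measurable g) (k0 : ∀ ω, 0 ≤ g ω) (k1 : ∀ ω, g ω ≤ 1) :
    Integrable (fun ω => f ω * g ω) P :=
  integrable_of_unit (hf.mul hg) (fun ω => mul_nonneg (h0 ω) (k0 ω))
    (fun ω => mul_le_one₀ (h1 ω) (k0 ω) (k1 ω))

lemma avg_cov (P : Measure Ω) [IsProbabilityMeasure P] {S S' : Finset ι}
    (hS : S.Nonempty) (hS' : S'.Nonempty) {g : ι → Ω → ℝ} (hg : ∀ a, Measurable (g a))
    (h0 : ∀ a ω, 0 ≤ g a ω) (h1 : ∀ a ω, g a ω ≤ 1) {q₀ ε C : ℝ} (hε : 0 ≤ ε) (hC : 0 ≤ C)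
    (hoff : ∀ a ∈ S, ∀ b ∈ S', a ≠ b → |(∫ ω, g a ω * g b ω ∂P) - q₀| ≤ ε)
    (hdiag : ∀ a ∈ S, |(∫ ω, g a ω * g a ω ∂P) - q₀| ≤ C) :
    |(∫ ω, avg S g ω * avg S' g ω ∂P) - q₀| ≤ ε + C / S'.card := by
  classical
  have hc : (0 : ℝ) < S.card := by exact_mod_cast hS.card_pos
  have hc' : (0 : ℝ) < S'.card := by exact_mod_cast hS'.card_pos
  have hint : ∀ a b, Integrable (fun ω => g a ω * g b ω) P := fun a b =>
    integrable_mul_of_unit (hg a) (h0 a) (h1 a) (hg b) (h0 b) (h1 b)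
  have e1 : ∀ ω, avg S g ω * avg S' g ω
      = (S.card : ℝ)⁻¹ * (S'.card : ℝ)⁻¹ * ∑ a ∈ S, ∑ b ∈ S', g a ω * g b ω := by
    intro ω
    unfold avg
    rw [← Finset.sum_mul_sum]
    ring
  have e2 : (∫ ω, avg S g ω * avg S' g ω ∂P)
      = (S.card : ℝ)⁻¹ * (S'.card : ℝ)⁻¹ * ∑ a ∈ S, ∑ b ∈ S', ∫ ω, g a ω * g b ω ∂P := by
    simp_rw [e1]
    rw [integral_const_mul, integral_finsetSum _ (fun a _ => integrable_finsetSum _ (fun b _ => hint a b))]
    congr 1
    refine Finset.sum_congr rfl (fun a _ => ?_)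
    rw [integral_finsetSum _ (fun b _ => hint a b)]
  have e3 : (∫ ω, avg S g ω * avg S' g ω ∂P) - q₀
      = (S.card : ℝ)⁻¹ * (S'.card : ℝ)⁻¹ *
        ∑ a ∈ S, ∑ b ∈ S', ((∫ ω, g a ω * g b ω ∂P) - q₀) := by
    rw [e2]
    simp only [Finset.sum_sub_distrib, Finset.sum_const, nsmul_eq_mul]
    field_simp
  rw [e3, abs_mul, abs_of_nonneg (by positivity)]
  have e4 : |∑ a ∈ S, ∑ b ∈ S', ((∫ ω, g a ω * g b ω ∂P) - q₀)|
      ≤ S.card * S'.card * ε + S.card * C := by
    calc |∑ a ∈ S, ∑ b ∈ S', ((∫ ω, g a ω * g b ω ∂P) - q₀)|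
        ≤ ∑ a ∈ S, |∑ b ∈ S', ((∫ ω, g a ω * g b ω ∂P) - q₀)| := Finset.abs_sum_le_sum_abs _ _
      _ ≤ ∑ a ∈ S, ∑ b ∈ S', |(∫ ω, g a ω * g b ω ∂P) - q₀| :=
          Finset.sum_le_sum (fun a _ => Finset.abs_sum_le_sum_abs _ _)
      _ ≤ ∑ a ∈ S, ∑ b ∈ S', (ε + if a = b then C else 0) := by
          refine Finset.sum_le_sum (fun a ha => Finset.sum_le_sum (fun b hb => ?_))
          by_cases hab : a = b
          · subst hab
            simp only [if_true]
            linarith [hdiag a ha]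
          · simp only [hab, if_false, add_zero]
            exact hoff a ha b hb hab
      _ ≤ ∑ a ∈ S, (S'.card * ε + C) := by
          refine Finset.sum_le_sum (fun a ha => ?_)
          rw [Finset.sum_add_distrib, Finset.sum_const, nsmul_eq_mul, Finset.sum_ite_eq]
          split_ifs <;> linarith
      _ = S.card * S'.card * ε + S.card * C := by
          rw [Finset.sum_const, nsmul_eq_mul]; ring
  calc (S.card : ℝ)⁻¹ * (S'.card : ℝ)⁻¹ * |∑ a ∈ S, ∑ b ∈ S', ((∫ ω, g a ω * g b ω ∂P) - q₀)|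
      ≤ (S.card : ℝ)⁻¹ * (S'.card : ℝ)⁻¹ * (S.card * S'.card * ε + S.card * C) := by gcongr
    _ = ε + C / S'.card := by field_simp


/-- the second moment of the difference of two averages over nearby index sets is small -/
lemma avg_sub_sq (P : Measure Ω) [IsProbabilityMeasure P] {S S' : Finset ι}
    (hS : S.Nonempty) (hS' : S'.Nonempty) {g : ι → Ω → ℝ} (hg : ∀ a, Measurable (g a))
    (h0 : ∀ a ω, 0 ≤ g a ω) (h1 : ∀ a ω, g a ω ≤ 1) {q₀ ε C N : ℝ} (hε : 0 ≤ ε) (hC : 0 ≤ C)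
    (hN : 0 < N) (hNS : N ≤ S.card) (hNS' : N ≤ S'.card)
    (hoff : ∀ a b, (a ∈ S ∨ a ∈ S') → (b ∈ S ∨ b ∈ S') → a ≠ b → |(∫ ω, g a ω * g b ω ∂P) - q₀| ≤ ε)
    (hdiag : ∀ a, |(∫ ω, g a ω * g a ω ∂P) - q₀| ≤ C) :
    (∫ ω, (avg S g ω - avg S' g ω) ^ 2 ∂P) ≤ 4 * (ε + C / N) := by
  classical
  have hi : ∀ T T' : Finset ι, Integrable (fun ω => avg T g ω * avg T' g ω) P := fun T T' =>
    integrable_mul_of_unit (avg_measurable T hg) (avg_nonneg T h0) (avg_le_one T h1)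
      (avg_measurable T' hg) (avg_nonneg T' h0) (avg_le_one T' h1)
  have e : (∫ ω, (avg S g ω - avg S' g ω) ^ 2 ∂P)
      = ((∫ ω, avg S g ω * avg S g ω ∂P) - 2 * ∫ ω, avg S g ω * avg S' g ω ∂P)
        + ∫ ω, avg S' g ω * avg S' g ω ∂P := by
    have e0 : ∀ ω, (avg S g ω - avg S' g ω) ^ 2
        = (avg S g ω * avg S g ω - 2 * (avg S g ω * avg S' g ω)) + avg S' g ω * avg S' g ω := by
      intro ω; ring
    simp_rw [e0]
    have hsub : Integrable (fun ω => avg S g ω * avg S g ω - 2 * (avg S g ω * avg S' g ω)) P :=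
      (hi S S).sub ((hi S S').const_mul 2)
    rw [integral_add hsub (hi S' S'),
      integral_sub (hi S S) ((hi S S').const_mul 2), integral_const_mul]
  have b1 : |(∫ ω, avg S g ω * avg S g ω ∂P) - q₀| ≤ ε + C / N := by
    refine (avg_cov P hS hS hg h0 h1 hε hC (fun a ha b hb hab => hoff a b ?_ ?_ hab)
      (fun a _ => hdiag a)).trans ?_
    · exact Or.inl ha
    · exact Or.inl hb
    · gcongr
  have b2 : |(∫ ω, avg S g ω * avg S' g ω ∂P) - q₀| ≤ ε + C / N := by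
    refine (avg_cov P hS hS' hg h0 h1 hε hC (fun a ha b hb hab => hoff a b ?_ ?_ hab)
      (fun a _ => hdiag a)).trans ?_
    · exact Or.inl ha
    · exact Or.inr hb
    · gcongr
  have b3 : |(∫ ω, avg S' g ω * avg S' g ω ∂P) - q₀| ≤ ε + C / N := by
    refine (avg_cov P hS' hS' hg h0 h1 hε hC (fun a ha b hb hab => hoff a b ?_ ?_ hab)
      (fun a _ => hdiag a)).trans ?_
    · exact Or.inr ha
    · exact Or.inr hb
    · gcongr
  rw [e]
  rw [abs_le] at b1 b2 b3
  linarith [b1.2, b2.1, b3.2]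

/-- almost sure convergence from summability of second moments of the increments -/
lemma ae_tendsto_of_sq {P : Measure Ω} [IsProbabilityMeasure P] {f : ℕ → Ω → ℝ}
    (hf : ∀ n, Measurable (f n)) (h0 : ∀ n ω, 0 ≤ f n ω) (h1 : ∀ n ω, f n ω ≤ 1) {K : ℝ}
    (hK : ∀ n, (∫ ω, (f n ω - f (n + 1) ω) ^ 2 ∂P) ≤ K / 4 ^ n) :
    ∀ᵐ ω ∂P, ∃ l, Tendsto (fun n => f n ω) atTop (𝓝 l) := by
  have hD : ∀ n, Measurable (fun ω => f n ω - f (n + 1) ω) := fun n => (hf n).sub (hf (n + 1))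
  have hDi : ∀ n, Integrable (fun ω => f n ω - f (n + 1) ω) P := fun n =>
    (integrable_of_unit (hf n) (h0 n) (h1 n)).sub
      (integrable_of_unit (hf (n + 1)) (h0 (n + 1)) (h1 (n + 1)))
  have hD2 : ∀ n, Integrable (fun ω => (f n ω - f (n + 1) ω) ^ 2) P := by
    intro n
    refine Integrable.of_bound ((hD n).pow_const 2).aestronglyMeasurable 1
      (ae_of_all _ (fun ω => ?_))
    rw [Real.norm_eq_abs, abs_of_nonneg (sq_nonneg _)]
    have := h0 n ω; have := h1 n ω; have := h0 (n + 1) ω; have := h1 (n + 1) ω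
    rw [sq_le_one_iff_abs_le_one, abs_le]
    constructor <;> linarith
  have hb : ∀ n, (∫ ω, ‖f n ω - f (n + 1) ω‖ ∂P) ≤ (1 + K) / 2 * (1 / 2) ^ n := by
    intro n
    have h2 : (0 : ℝ) < 2 ^ n := by positivity
    have h24 : (4 : ℝ) ^ n = 2 ^ n * 2 ^ n := by rw [← mul_pow]; norm_num
    calc (∫ ω, ‖f n ω - f (n + 1) ω‖ ∂P)
        ≤ ∫ ω, ((1 / 2) * (1 / 2) ^ n + (2 ^ n / 2) * (f n ω - f (n + 1) ω) ^ 2) ∂P := by
          refine integral_mono (hDi n).norm ?_ (fun ω => ?_)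
          · exact (integrable_const _).add ((hD2 n).const_mul _)
          · simp only [Real.norm_eq_abs]
            set d := |f n ω - f (n + 1) ω| with hd
            have hd2 : (f n ω - f (n + 1) ω) ^ 2 = d ^ 2 := by rw [hd, sq_abs]
            rw [hd2, one_div, inv_pow]
            have h3 : (0 : ℝ) ≤ (2 ^ n * d - 1) ^ 2 / (2 * 2 ^ n) := by positivity
            have h4 : (2 ^ n * d - 1) ^ 2 / (2 * 2 ^ n)
                = 2⁻¹ * (2 ^ n)⁻¹ + 2 ^ n / 2 * d ^ 2 - d := by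
              field_simp; ring
            linarith
      _ = (1 / 2) * (1 / 2) ^ n + (2 ^ n / 2) * ∫ ω, (f n ω - f (n + 1) ω) ^ 2 ∂P := by
          rw [integral_add (integrable_const _) ((hD2 n).const_mul _),
            integral_const_mul (2 ^ n / 2)]
          simp only [integral_const, probReal_univ, smul_eq_mul, one_mul]
      _ ≤ (1 / 2) * (1 / 2) ^ n + (2 ^ n / 2) * (K / 4 ^ n) := by
          gcongr
          exact hK n
      _ = (1 + K) / 2 * (1 / 2) ^ n := by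
          rw [h24, one_div, inv_pow]; field_simp
  have hK0 : 0 ≤ K := by
    have := hK 0
    have h5 : 0 ≤ ∫ ω, (f 0 ω - f (0 + 1) ω) ^ 2 ∂P := integral_nonneg (fun ω => sq_nonneg _)
    simp only [pow_zero, div_one] at this
    linarith
  have hl : (∫⁻ ω, ∑' n, ‖f n ω - f (n + 1) ω‖ₑ ∂P) ≠ ∞ := by
    rw [lintegral_tsum (fun n => (hD n).enorm.aemeasurable)]
    have hle : ∀ n, (∫⁻ ω, ‖f n ω - f (n + 1) ω‖ₑ ∂P)
        ≤ ENNReal.ofReal ((1 + K) / 2 * (1 / 2) ^ n) := by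
      intro n
      rw [← ofReal_integral_norm_eq_lintegral_enorm (hDi n)]
      exact ENNReal.ofReal_le_ofReal (hb n)
    refine ne_top_of_le_ne_top ?_ (ENNReal.tsum_le_tsum hle)
    rw [← ENNReal.ofReal_tsum_of_nonneg (fun n => by positivity)]
    · exact ENNReal.ofReal_ne_top
    · exact (summable_geometric_two).mul_left _
  have hae := ae_lt_top' (AEMeasurable.tsum (fun n => (hD n).enorm.aemeasurable)) hl
  filter_upwards [hae] with ω hω
  have hc : CauchySeq (fun n => f n ω) := by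
    refine cauchySeq_of_edist_le_of_tsum_ne_top (fun n => ‖f n ω - f (n + 1) ω‖ₑ) (fun n => ?_)
      hω.ne
    rw [edist_eq_enorm_sub]
  exact cauchySeq_tendsto_of_complete hc

/-- index of the grid cell of side `s` containing `z` -/
noncomputable def cell (s : ℝ) (z : ℂ) : ℤ × ℤ := (⌊z.re / s⌋, ⌊z.im / s⌋)

/-- lower left corner of a grid cell -/
noncomputable def corner (s : ℝ) (k : ℤ × ℤ) : ℂ := ⟨s * k.1, s * k.2⟩

lemma cell_measurable (s : ℝ) : Measurable (cell s) := by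
  unfold cell
  exact ((Complex.measurable_re.div_const s).floor).prodMk
    ((Complex.measurable_im.div_const s).floor)

lemma norm_sub_corner {s : ℝ} (hs : 0 < s) (z : ℂ) : ‖z - corner s (cell s z)‖ ≤ 2 * s := by
  have key : ∀ x : ℝ, |x - s * (⌊x / s⌋ : ℤ)| ≤ s := by
    intro x
    have h1 := Int.floor_le (x / s)
    have h2 := Int.lt_floor_add_one (x / s)
    rw [le_div_iff₀ hs] at h1
    rw [div_lt_iff₀ hs] at h2
    rw [abs_le]
    constructor <;> nlinarith
  refine (Complex.norm_le_abs_re_add_abs_im _).trans ?_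
  have h1 := key z.re
  have h2 := key z.im
  simp only [Complex.sub_re, Complex.sub_im, corner, cell]
  linarith

lemma exists_finset (σ : ι → ℂ) (hσ : DenseRange σ) (p : ℂ) {s : ℝ} (hs : 0 < s) (N : ℕ) :
    ∃ S : Finset ι, S.card = N ∧ ∀ a ∈ S, ‖σ a - p‖ < s := by
  have hinf : (σ ⁻¹' Metric.ball p s).Infinite := by
    intro hfin
    have hfin2 : (σ '' (σ ⁻¹' Metric.ball p s)).Finite := hfin.image σ
    have hopen : IsOpen (Metric.ball p s \ (σ '' (σ ⁻¹' Metric.ball p s))) :=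
      Metric.isOpen_ball.sdiff hfin2.isClosed
    have hne : (Metric.ball p s \ (σ '' (σ ⁻¹' Metric.ball p s))).Nonempty := by
      have : (Metric.ball p s).Infinite := by
        exact infinite_of_mem_nhds p (Metric.ball_mem_nhds p hs)
      exact (this.sdiff hfin2).nonempty
    obtain ⟨a, ha⟩ := hσ.exists_mem_open hopen hne
    exact ha.2 ⟨a, ha.1, rfl⟩
  obtain ⟨S, hS, hc⟩ := hinf.exists_subset_card_eq N
  exact ⟨S, hc, fun a ha => by simpa [dist_eq_norm] using hS ha⟩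


/-- the discretised field at scale `s n` -/
noncomputable def gn (s : ℕ → ℝ) (S : ℕ → ℤ × ℤ → Finset ι) (g : ι → Ω → ℝ) (n : ℕ) (z : ℂ)
    (ω : Ω) : ℝ := avg (S n (cell (s n) z)) g ω

/-- the limit field -/
noncomputable def glim (s : ℕ → ℝ) (S : ℕ → ℤ × ℤ → Finset ι) (g : ι → Ω → ℝ) (z : ℂ)
    (ω : Ω) : ℝ := limsup (fun n => gn s S g n z ω) atTop

lemma gn_measurable (s : ℕ → ℝ) (S : ℕ → ℤ × ℤ → Finset ι) {g : ι → Ω → ℝ}
    (hg : ∀ a, Measurable (g a)) (n : ℕ) :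
    Measurable (fun p : ℂ × Ω => gn s S g n p.1 p.2) := by
  have h1 : Measurable (fun p : (ℤ × ℤ) × Ω => avg (S n p.1) g p.2) :=
    measurable_from_prod_countable_right (fun k => avg_measurable (S n k) hg)
  exact h1.comp (((cell_measurable (s n)).comp measurable_fst).prodMk measurable_snd)

lemma gn_measurable_right (s : ℕ → ℝ) (S : ℕ → ℤ × ℤ → Finset ι) {g : ι → Ω → ℝ}
    (hg : ∀ a, Measurable (g a)) (n : ℕ) (z : ℂ) : Measurable (gn s S g n z) :=
  avg_measurable _ hg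

lemma glim_measurable (s : ℕ → ℝ) (S : ℕ → ℤ × ℤ → Finset ι) {g : ι → Ω → ℝ}
    (hg : ∀ a, Measurable (g a)) :
    Measurable (fun p : ℂ × Ω => glim s S g p.1 p.2) :=
  Measurable.limsup (fun n => gn_measurable s S hg n)

lemma glim_measurable_right (s : ℕ → ℝ) (S : ℕ → ℤ × ℤ → Finset ι) {g : ι → Ω → ℝ}
    (hg : ∀ a, Measurable (g a)) (z : ℂ) : Measurable (glim s S g z) :=
  Measurable.limsup (fun n => gn_measurable_right s S hg n z)

lemma glim_measurable_left (s : ℕ → ℝ) (S : ℕ → ℤ × ℤ → Finset ι) {g : ι → Ω → ℝ}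
    (hg : ∀ a, Measurable (g a)) (ω : Ω) : Measurable (fun z => glim s S g z ω) := by
  have h := (glim_measurable s S hg).comp
    (measurable_prodMk_right (y := ω) : Measurable (fun z : ℂ => (z, ω)))
  rw [Function.comp_def] at h
  exact h

lemma glim_measurable_comp {β : Type*} [MeasurableSpace β] (s : ℕ → ℝ)
    (S : ℕ → ℤ × ℤ → Finset ι) {g : ι → Ω → ℝ}
    (hg : ∀ a, Measurable (g a)) {u : β → ℂ} {v : β → Ω} (hu : Measurable u)
    (hv : Measurable v) : Measurable (fun b => glim s S g (u b) (v b)) := by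
  have h := (glim_measurable s S hg).comp (hu.prodMk hv)
  rw [Function.comp_def] at h
  exact h

lemma sigma_close {σ : ι → ℂ} {s : ℕ → ℝ} {S : ℕ → ℤ × ℤ → Finset ι} (hs : ∀ n, 0 < s n)
    (hS : ∀ n k, ∀ a ∈ S n k, ‖σ a - corner (s n) k‖ < s n) (n : ℕ) (z : ℂ) {a : ι}
    (ha : a ∈ S n (cell (s n) z)) : ‖σ a - z‖ < 3 * s n := by
  have h1 := hS n _ a ha
  have h2 := norm_sub_corner (hs n) z
  calc ‖σ a - z‖ = ‖(σ a - corner (s n) (cell (s n) z)) - (z - corner (s n) (cell (s n) z))‖ := by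
        congr 1; ring
    _ ≤ ‖σ a - corner (s n) (cell (s n) z)‖ + ‖z - corner (s n) (cell (s n) z)‖ := norm_sub_le _ _
    _ < 3 * s n := by linarith

lemma gn_tendsto (P : Measure Ω) [IsProbabilityMeasure P] {σ : ι → ℂ} {s : ℕ → ℝ}
    {S : ℕ → ℤ × ℤ → Finset ι} (hs : ∀ n, 0 < s n)
    (hS : ∀ n k, ∀ a ∈ S n k, ‖σ a - corner (s n) k‖ < s n) (hc : ∀ n k, (S n k).card = 4 ^ n)
    {g : ι → Ω → ℝ} (hg : ∀ a, Measurable (g a)) (h0 : ∀ a ω, 0 ≤ g a ω)
    (h1 : ∀ a ω, g a ω ≤ 1) {q : ℂ → ℝ}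
    (hcov : ∀ a b, a ≠ b → (∫ ω, g a ω * g b ω ∂P) = q (σ b - σ a))
    (hq : ∀ n w, ‖w‖ < 6 * s n → |q w - q 0| ≤ 1 / 4 ^ n) (z : ℂ) :
    ∀ᵐ ω ∂P, Tendsto (fun n => gn s S g n z ω) atTop (𝓝 (glim s S g z ω)) := by
  have key : ∀ᵐ ω ∂P, ∃ l, Tendsto (fun n => gn s S g n z ω) atTop (𝓝 l) := by
    refine ae_tendsto_of_sq (fun n => gn_measurable_right s S hg n z)
      (fun n ω => avg_nonneg _ h0 ω) (fun n ω => avg_le_one _ h1 ω) (K := 4 * (1 + (1 + |q 0|)))
      (fun n => ?_)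
    have hne : ∀ n k, (S n k).Nonempty := fun n k => by
      rw [← Finset.card_pos, hc]; positivity
    have hq' : ∀ n₁ n₂ w, n ≤ n₁ → n ≤ n₂ → ‖w‖ < 3 * s n₁ + 3 * s n₂ →
        |q w - q 0| ≤ 1 / 4 ^ n := by
      have hmono : ∀ m, n ≤ m → (1 : ℝ) / 4 ^ m ≤ 1 / 4 ^ n := by
        intro m hm
        apply one_div_le_one_div_of_le (by positivity)
        exact pow_le_pow_right₀ (by norm_num) hm
      intro n₁ n₂ w hn₁ hn₂ hw
      rcases le_total (s n₁) (s n₂) with h | h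
      · exact (hq n₂ w (by linarith)).trans (hmono _ hn₂)
      · exact (hq n₁ w (by linarith)).trans (hmono _ hn₁)
    have hoff : ∀ n₁ n₂ a b, n ≤ n₁ → n ≤ n₂ → a ∈ S n₁ (cell (s n₁) z) →
        b ∈ S n₂ (cell (s n₂) z) → a ≠ b → |(∫ ω, g a ω * g b ω ∂P) - q 0| ≤ 1 / 4 ^ n := by
      intro n₁ n₂ a b hn₁ hn₂ ha hb hab
      rw [hcov a b hab]
      apply hq' n₁ n₂ _ hn₁ hn₂
      have ha' := sigma_close hs hS n₁ z ha
      have hb' := sigma_close hs hS n₂ z hb
      calc ‖σ b - σ a‖ = ‖(σ b - z) - (σ a - z)‖ := by congr 1; ring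
        _ ≤ ‖σ b - z‖ + ‖σ a - z‖ := norm_sub_le _ _
        _ < _ := by linarith
    have := avg_sub_sq P (hne n (cell (s n) z)) (hne (n + 1) (cell (s (n + 1)) z)) hg h0 h1
      (q₀ := q 0) (ε := 1 / 4 ^ n) (C := 1 + |q 0|) (N := 4 ^ n) (by positivity) (by positivity)
      (by positivity) (by rw [hc]; push_cast; exact le_rfl)
      (by rw [hc]; push_cast; exact pow_le_pow_right₀ (by norm_num) (Nat.le_succ n))
      (by
        intro a b ha hb hab
        rcases ha with ha | ha <;> rcases hb with hb | hb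
        · exact hoff n n a b le_rfl le_rfl ha hb hab
        · exact hoff n (n + 1) a b le_rfl (Nat.le_succ n) ha hb hab
        · exact hoff (n + 1) n a b (Nat.le_succ n) le_rfl ha hb hab
        · exact hoff (n + 1) (n + 1) a b (Nat.le_succ n) (Nat.le_succ n) ha hb hab)
      (by
        intro a
        have hb0 : 0 ≤ ∫ ω, g a ω * g a ω ∂P :=
          integral_nonneg (fun ω => mul_nonneg (h0 a ω) (h0 a ω))
        have hb1 : (∫ ω, g a ω * g a ω ∂P) ≤ 1 := by
          have := integral_mono (μ := P) (integrable_mul_of_unit (hg a) (h0 a) (h1 a) (hg a) (h0 a)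
            (h1 a)) (integrable_const (1 : ℝ)) (fun ω => mul_le_one₀ (h1 a ω) (h0 a ω) (h1 a ω))
          simpa using this
        calc |(∫ ω, g a ω * g a ω ∂P) - q 0| ≤ |∫ ω, g a ω * g a ω ∂P| + |q 0| := abs_sub _ _
          _ ≤ 1 + |q 0| := by rw [abs_of_nonneg hb0]; linarith)
    refine this.trans (le_of_eq ?_)
    ring
  filter_upwards [key] with ω hω
  obtain ⟨l, hl⟩ := hω
  have : glim s S g z ω = l := hl.limsup_eq
  rw [this]
  exact hl

lemma cov_tendsto (P : Measure Ω) [IsProbabilityMeasure P] {σ : ι → ℂ} {s : ℕ → ℝ}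
    {S : ℕ → ℤ × ℤ → Finset ι} (hs : ∀ n, 0 < s n) (hs0 : Tendsto s atTop (𝓝 0))
    (hS : ∀ n k, ∀ a ∈ S n k, ‖σ a - corner (s n) k‖ < s n) (hc : ∀ n k, (S n k).card = 4 ^ n)
    {g : ι → Ω → ℝ} (hg : ∀ a, Measurable (g a)) (h0 : ∀ a ω, 0 ≤ g a ω)
    (h1 : ∀ a ω, g a ω ≤ 1) {q : ℂ → ℝ} (hqc : Continuous q)
    (hcov : ∀ a b, a ≠ b → (∫ ω, g a ω * g b ω ∂P) = q (σ b - σ a)) (z z' : ℂ) :
    Tendsto (fun n => ∫ ω, gn s S g n z ω * gn s S g n z' ω ∂P) atTop (𝓝 (q (z' - z))) := by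
  have hne : ∀ n k, (S n k).Nonempty := fun n k => by
    rw [← Finset.card_pos, hc]; positivity
  rw [Metric.tendsto_atTop]
  intro η hη
  obtain ⟨δ, hδ, hδq⟩ := Metric.continuous_iff.1 hqc (z' - z) (η / 3) (by positivity)
  have hev1 : ∀ᶠ n in atTop, 6 * s n < δ := by
    have : Tendsto (fun n => 6 * s n) atTop (𝓝 (6 * 0)) := hs0.const_mul 6
    rw [mul_zero] at this
    exact this.eventually_lt_const hδ
  have hev2 : ∀ᶠ n : ℕ in atTop, (1 + |q (z' - z)|) / 4 ^ n < η / 3 := by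
    have h4 : Tendsto (fun n : ℕ => ((1 : ℝ) / 4) ^ n) atTop (𝓝 0) :=
      tendsto_pow_atTop_nhds_zero_of_lt_one (by norm_num) (by norm_num)
    have : Tendsto (fun n : ℕ => (1 + |q (z' - z)|) * ((1 : ℝ) / 4) ^ n) atTop
        (𝓝 ((1 + |q (z' - z)|) * 0)) := h4.const_mul _
    rw [mul_zero] at this
    filter_upwards [this.eventually_lt_const (show (0 : ℝ) < η / 3 by positivity)] with n hn
    refine lt_of_eq_of_lt ?_ hn
    rw [one_div, inv_pow]; rfl
  obtain ⟨N, hN⟩ := eventually_atTop.1 (hev1.and hev2)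
  refine ⟨N, fun n hn => ?_⟩
  obtain ⟨hn1, hn2⟩ := hN n hn
  have hb := avg_cov P (hne n (cell (s n) z)) (hne n (cell (s n) z')) hg h0 h1
    (q₀ := q (z' - z)) (ε := η / 3) (C := 1 + |q (z' - z)|) (by positivity) (by positivity)
    (by
      intro a ha b hb hab
      rw [hcov a b hab]
      have ha' := sigma_close hs hS n z ha
      have hb' := sigma_close hs hS n z' hb
      have : dist (σ b - σ a) (z' - z) < δ := by
        rw [dist_eq_norm]
        calc ‖σ b - σ a - (z' - z)‖ = ‖(σ b - z') - (σ a - z)‖ := by congr 1; ring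
          _ ≤ ‖σ b - z'‖ + ‖σ a - z‖ := norm_sub_le _ _
          _ < δ := by linarith
      have := hδq _ this
      rw [Real.dist_eq] at this
      exact this.le)
    (by
      intro a _
      have hb0 : 0 ≤ ∫ ω, g a ω * g a ω ∂P :=
        integral_nonneg (fun ω => mul_nonneg (h0 a ω) (h0 a ω))
      have hb1 : (∫ ω, g a ω * g a ω ∂P) ≤ 1 := by
        have := integral_mono (μ := P) (integrable_mul_of_unit (hg a) (h0 a) (h1 a) (hg a) (h0 a)
          (h1 a)) (integrable_const (1 : ℝ)) (fun ω => mul_le_one₀ (h1 a ω) (h0 a ω) (h1 a ω))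
        simpa using this
      calc |(∫ ω, g a ω * g a ω ∂P) - q (z' - z)|
          ≤ |∫ ω, g a ω * g a ω ∂P| + |q (z' - z)| := abs_sub _ _
        _ ≤ 1 + |q (z' - z)| := by rw [abs_of_nonneg hb0]; linarith)
  rw [Real.dist_eq]
  rw [hc] at hb
  push_cast at hb
  calc |(∫ ω, gn s S g n z ω * gn s S g n z' ω ∂P) - q (z' - z)|
      ≤ η / 3 + (1 + |q (z' - z)|) / 4 ^ n := hb
    _ < η := by linarith


/-- covariance of the limit field -/
lemma cov_eq (P : Measure Ω) [IsProbabilityMeasure P] {σ : ι → ℂ} {s : ℕ → ℝ}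
    {S : ℕ → ℤ × ℤ → Finset ι} (hs : ∀ n, 0 < s n) (hs0 : Tendsto s atTop (𝓝 0))
    (hS : ∀ n k, ∀ a ∈ S n k, ‖σ a - corner (s n) k‖ < s n) (hc : ∀ n k, (S n k).card = 4 ^ n)
    {g : ι → Ω → ℝ} (hg : ∀ a, Measurable (g a)) (h0 : ∀ a ω, 0 ≤ g a ω)
    (h1 : ∀ a ω, g a ω ≤ 1) {q : ℂ → ℝ} (hqc : Continuous q)
    (hcov : ∀ a b, a ≠ b → (∫ ω, g a ω * g b ω ∂P) = q (σ b - σ a))
    (hq : ∀ n w, ‖w‖ < 6 * s n → |q w - q 0| ≤ 1 / 4 ^ n) (z z' : ℂ) :
    (∫ ω, glim s S g z ω * glim s S g z' ω ∂P) = q (z' - z) := by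
  have t1 := cov_tendsto P hs hs0 hS hc hg h0 h1 hqc hcov z z'
  have t2 : Tendsto (fun n => ∫ ω, gn s S g n z ω * gn s S g n z' ω ∂P) atTop
      (𝓝 (∫ ω, glim s S g z ω * glim s S g z' ω ∂P)) := by
    refine tendsto_integral_of_dominated_convergence (fun _ => (1 : ℝ)) (fun n => ?_)
      (integrable_const _) (fun n => ae_of_all _ (fun ω => ?_)) ?_
    · exact ((gn_measurable_right s S hg n z).mul (gn_measurable_right s S hg n z')).aestronglyMeasurable
    · have a0 : 0 ≤ gn s S g n z ω := avg_nonneg _ h0 ω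
      have a1 : gn s S g n z ω ≤ 1 := avg_le_one _ h1 ω
      have b0 : 0 ≤ gn s S g n z' ω := avg_nonneg _ h0 ω
      have b1 : gn s S g n z' ω ≤ 1 := avg_le_one _ h1 ω
      rw [Real.norm_eq_abs, abs_of_nonneg (mul_nonneg a0 b0)]
      exact mul_le_one₀ a1 b0 b1
    · filter_upwards [gn_tendsto P hs hS hc hg h0 h1 hcov hq z,
        gn_tendsto P hs hS hc hg h0 h1 hcov hq z'] with ω hω hω'
      exact hω.mul hω'
  exact tendsto_nhds_unique t2 t1

/-- **END.**  A random field with values in the simplex, indexed by a dense family of points of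
the plane, with off-diagonal covariances given by continuous functions vanishing on the unit
circle, yields a measurable fuzzy colouring of the plane. -/
theorem exists_fuzzy (P : Measure Ω) [IsProbabilityMeasure P] {κ : Type*} [Fintype κ]
    (σ : ι → ℂ) (hσ : DenseRange σ) (g : κ → ι → Ω → ℝ) (hg : ∀ i a, Measurable (g i a))
    (h0 : ∀ i a ω, 0 ≤ g i a ω) (hsum : ∀ a ω, ∑ i, g i a ω = 1)
    (q : κ → ℂ → ℝ) (hq : ∀ i, Continuous (q i))
    (hcov : ∀ i a b, a ≠ b → (∫ ω, g i a ω * g i b ω ∂P) = q i (σ b - σ a))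
    (hunit : ∀ i u, ‖u‖ = 1 → q i u = 0) :
    ∃ G : κ → ℂ → ℝ, (∀ i, Measurable (G i)) ∧ (∀ᵐ z, ∑ i, G i z = 1) ∧
      (∀ i, ∀ᵐ z, 0 ≤ G i z) ∧
      ∀ i, ∀ᵐ z : ℂ, ∀ᵐ θ : ℝ, G i z * G i (z + Complex.exp (θ * Complex.I)) = 0 := by
  classical
  have h1 : ∀ i a ω, g i a ω ≤ 1 := by
    intro i a ω
    calc g i a ω ≤ ∑ j, g j a ω :=
          Finset.single_le_sum (f := fun j => g j a ω) (fun j _ => h0 j a ω) (Finset.mem_univ i)
      _ = 1 := hsum a ω
  -- choice of scales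
  have hs : ∀ n : ℕ, ∃ t : ℝ, 0 < t ∧ t ≤ 1 / (n + 1) ∧
      ∀ i w, ‖w‖ < 6 * t → |q i w - q i 0| ≤ 1 / 4 ^ n := by
    intro n
    have hcont : Continuous (fun w => (fun i => q i w)) := continuous_pi hq
    obtain ⟨δ, hδ, hδq⟩ := Metric.continuous_iff.1 hcont 0 (1 / 4 ^ n) (by positivity)
    refine ⟨min (δ / 6) (1 / (n + 1)), lt_min (by positivity) (by positivity), min_le_right _ _,
      fun i w hw => ?_⟩
    have hw' : dist w 0 < δ := by
      rw [dist_zero_right]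
      have := min_le_left (δ / 6) (1 / ((n : ℝ) + 1))
      linarith
    have h2 := hδq w hw'
    have h3 := (dist_le_pi_dist (fun i => q i w) (fun i => q i 0) i).trans h2.le
    rwa [Real.dist_eq] at h3
  choose s hs using hs
  have hspos : ∀ n, 0 < s n := fun n => (hs n).1
  have hs0 : Tendsto s atTop (𝓝 0) :=
    squeeze_zero (fun n => (hspos n).le) (fun n => (hs n).2.1)
      tendsto_one_div_add_atTop_nhds_zero_nat
  -- choice of the finite sets
  have hSe : ∀ (n : ℕ) (k : ℤ × ℤ), ∃ T : Finset ι, T.card = 4 ^ n ∧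
      ∀ a ∈ T, ‖σ a - corner (s n) k‖ < s n := fun n k =>
    exists_finset σ hσ _ (hspos n) _
  choose S hS using hSe
  have hc : ∀ n k, (S n k).card = 4 ^ n := fun n k => (hS n k).1
  have hSc : ∀ n k, ∀ a ∈ S n k, ‖σ a - corner (s n) k‖ < s n := fun n k => (hS n k).2
  have hq0 : ∀ i n w, ‖w‖ < 6 * s n → |q i w - q i 0| ≤ 1 / 4 ^ n := fun i n w hw =>
    (hs n).2.2 i w hw
  have ht : ∀ i z, ∀ᵐ ω ∂P, Tendsto (fun n => gn s S (g i) n z ω) atTop
      (𝓝 (glim s S (g i) z ω)) := fun i z =>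
    gn_tendsto P hspos hSc hc (hg i) (h0 i) (h1 i) (hcov i) (hq0 i) z
  -- properties for every fixed point
  have hpos : ∀ i z, ∀ᵐ ω ∂P, 0 ≤ glim s S (g i) z ω := by
    intro i z
    filter_upwards [ht i z] with ω hω
    exact ge_of_tendsto' hω (fun n => avg_nonneg _ (h0 i) ω)
  have hone : ∀ z, ∀ᵐ ω ∂P, ∑ i, glim s S (g i) z ω = 1 := by
    intro z
    filter_upwards [ae_all_iff.2 (fun i => ht i z)] with ω hω
    have t1 : Tendsto (fun n => ∑ i, gn s S (g i) n z ω) atTop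
        (𝓝 (∑ i, glim s S (g i) z ω)) := tendsto_finsetSum _ (fun i _ => hω i)
    have e1 : (fun n => ∑ i, gn s S (g i) n z ω) = fun _ => (1 : ℝ) := by
      funext n
      unfold gn avg
      rw [← Finset.mul_sum, Finset.sum_comm]
      simp only [hsum, Finset.sum_const, nsmul_eq_mul, mul_one, hc]
      push_cast
      exact inv_mul_cancel₀ (by positivity)
    rw [e1] at t1
    exact (tendsto_nhds_unique t1 tendsto_const_nhds)
  have hprod : ∀ i z (θ : ℝ), ∀ᵐ ω ∂P,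
      glim s S (g i) z ω * glim s S (g i) (z + Complex.exp (θ * Complex.I)) ω = 0 := by
    intro i z θ
    have e := cov_eq P hspos hs0 hSc hc (hg i) (h0 i) (h1 i) (hq i) (hcov i) (hq0 i) z
      (z + Complex.exp (θ * Complex.I))
    rw [add_sub_cancel_left, hunit i _ (Complex.norm_exp_ofReal_mul_I θ)] at e
    have hm : ∀ z, Measurable (glim s S (g i) z) := fun z =>
      glim_measurable_right s S (hg i) z
    have hle : ∀ z, ∀ᵐ ω ∂P, glim s S (g i) z ω ≤ 1 := by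
      intro z
      filter_upwards [ht i z] with ω hω
      exact le_of_tendsto' hω (fun n => avg_le_one _ (h1 i) ω)
    have hnn : 0 ≤ᵐ[P] fun ω => glim s S (g i) z ω *
        glim s S (g i) (z + Complex.exp (θ * Complex.I)) ω := by
      filter_upwards [hpos i z, hpos i (z + Complex.exp (θ * Complex.I))] with ω a b
      exact mul_nonneg a b
    have hint : Integrable (fun ω => glim s S (g i) z ω *
        glim s S (g i) (z + Complex.exp (θ * Complex.I)) ω) P := by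
      refine Integrable.of_bound ((hm _).mul (hm _)).aestronglyMeasurable 1 ?_
      filter_upwards [hpos i z, hpos i (z + Complex.exp (θ * Complex.I)), hle z,
        hle (z + Complex.exp (θ * Complex.I))] with ω a b c d
      rw [Real.norm_eq_abs, abs_of_nonneg (mul_nonneg a b)]
      exact mul_le_one₀ c b d
    exact (integral_eq_zero_iff_of_nonneg_ae hnn hint).1 e
  -- Fubini
  have m0 : ∀ i, Measurable (fun p : ℂ × Ω => glim s S (g i) p.1 p.2) := fun i =>
    glim_measurable s S (hg i)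
  have f1 : ∀ᵐ ω ∂P, ∀ᵐ z : ℂ, ∑ i, glim s S (g i) z ω = 1 := by
    refine (Measure.ae_ae_comm (p := fun z ω => ∑ i, glim s S (g i) z ω = 1) ?_).1
      (ae_of_all _ hone)
    exact measurableSet_eq_fun (Finset.measurable_sum _ (fun i _ => m0 i)) measurable_const
  have f2 : ∀ i, ∀ᵐ ω ∂P, ∀ᵐ z : ℂ, 0 ≤ glim s S (g i) z ω := by
    intro i
    refine (Measure.ae_ae_comm (p := fun z ω => 0 ≤ glim s S (g i) z ω) ?_).1
      (ae_of_all _ (hpos i))
    exact measurableSet_le measurable_const (m0 i)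
  have f3 : ∀ i, ∀ᵐ ω ∂P, ∀ᵐ y : ℂ × ℝ,
      glim s S (g i) y.1 ω * glim s S (g i) (y.1 + Complex.exp (y.2 * Complex.I)) ω = 0 := by
    intro i
    refine (Measure.ae_ae_comm (p := fun (y : ℂ × ℝ) ω => glim s S (g i) y.1 ω *
      glim s S (g i) (y.1 + Complex.exp (y.2 * Complex.I)) ω = 0) ?_).1
      (ae_of_all _ (fun y => hprod i y.1 y.2))
    refine measurableSet_eq_fun (Measurable.mul ?_ ?_) measurable_const
    · exact glim_measurable_comp s S (hg i) (measurable_fst.comp measurable_fst) measurable_snd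
    · exact glim_measurable_comp s S (hg i) ((measurable_fst.comp measurable_fst).add
        (Complex.measurable_exp.comp ((Complex.measurable_ofReal.comp
          (measurable_snd.comp measurable_fst)).mul_const _))) measurable_snd
  obtain ⟨ω, hω⟩ := (f1.and ((ae_all_iff.2 f2).and (ae_all_iff.2 f3))).exists
  refine ⟨fun i z => glim s S (g i) z ω, fun i => glim_measurable_left s S (hg i) ω, hω.1,
    hω.2.1, fun i => ?_⟩
  exact Measure.ae_ae_of_ae_prod (hω.2.2 i)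

/-- **END**, version with sets. -/
theorem exists_sets (P : Measure Ω) [IsProbabilityMeasure P] {κ : Type*} [Fintype κ]
    (σ : ι → ℂ) (hσ : DenseRange σ) (g : κ → ι → Ω → ℝ) (hg : ∀ i a, Measurable (g i a))
    (h0 : ∀ i a ω, 0 ≤ g i a ω) (hsum : ∀ a ω, ∑ i, g i a ω = 1)
    (q : κ → ℂ → ℝ) (hq : ∀ i, Continuous (q i))
    (hcov : ∀ i a b, a ≠ b → (∫ ω, g i a ω * g i b ω ∂P) = q i (σ b - σ a))
    (hunit : ∀ i u, ‖u‖ = 1 → q i u = 0) :
    ∃ A : κ → Set ℂ, (∀ i, MeasurableSet (A i)) ∧ (∀ᵐ z, ∃ i, z ∈ A i) ∧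
      ∀ i, ∀ᵐ z : ℂ, ∀ᵐ θ : ℝ, ¬ (z ∈ A i ∧ z + Complex.exp (θ * Complex.I) ∈ A i) := by
  obtain ⟨G, hG, hG1, -, hG2⟩ := exists_fuzzy P σ hσ g hg h0 hsum q hq hcov hunit
  refine ⟨fun i => {z | 0 < G i z}, fun i => measurableSet_lt measurable_const (hG i), ?_, ?_⟩
  · filter_upwards [hG1] with z hz
    by_contra hcon
    rw [not_exists] at hcon
    have : ∑ i, G i z ≤ 0 := Finset.sum_nonpos (fun i _ => not_lt.1 (hcon i))
    linarith
  · intro i
    filter_upwards [hG2 i] with z hz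
    filter_upwards [hz] with θ hθ
    rintro ⟨h1, h2⟩
    exact (mul_pos h1 h2).ne' hθ

/-- **END** for a group action: `T x` (`x ∈ F`) measure preserving with `T (x + y) = T x ∘ T y`,
`f i` a measurable partition of unity, and the covariance of `f i` along the action given by a
continuous function off `0`, vanishing at the unit vectors of `F`. -/
theorem exists_sets_of_action (P : Measure Ω) [IsProbabilityMeasure P] {κ : Type*} [Fintype κ]
    {F : Type*} [AddGroup F] (σ : F → ℂ) (hσadd : ∀ x y, σ (x + y) = σ x + σ y)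
    (hσ : DenseRange σ)
    (hσunit : ∀ u : ℂ, ‖u‖ = 1 → u ∈ closure (σ '' {x | ‖σ x‖ = 1}))
    (T : F → Ω → Ω) (hT : ∀ x, MeasurePreserving (T x) P P)
    (hTadd : ∀ x y ω, T (x + y) ω = T x (T y ω))
    (f : κ → Ω → ℝ) (hf : ∀ i, Measurable (f i)) (h0 : ∀ i ω, 0 ≤ f i ω)
    (hsum : ∀ ω, ∑ i, f i ω = 1)
    (hunit : ∀ i x, ‖σ x‖ = 1 → (∫ ω, f i ω * f i (T x ω) ∂P) = 0)
    (q : κ → ℂ → ℝ) (hq : ∀ i, Continuous (q i))
    (hcov : ∀ i x, x ≠ 0 → (∫ ω, f i ω * f i (T x ω) ∂P) = q i (σ x)) :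
    ∃ A : κ → Set ℂ, (∀ i, MeasurableSet (A i)) ∧ (∀ᵐ z, ∃ i, z ∈ A i) ∧
      ∀ i, ∀ᵐ z : ℂ, ∀ᵐ θ : ℝ, ¬ (z ∈ A i ∧ z + Complex.exp (θ * Complex.I) ∈ A i) := by
  have hσ0 : σ 0 = 0 := by
    have := hσadd 0 0
    rw [add_zero] at this
    exact left_eq_add.1 this
  have hσneg : ∀ x, σ (-x) = - σ x := by
    intro x
    have := hσadd x (-x)
    rw [add_neg_cancel, hσ0] at this
    exact (neg_eq_of_add_eq_zero_right this.symm).symm
  refine exists_sets P σ hσ (fun i x ω => f i (T x ω)) (fun i x => (hf i).comp (hT x).measurable)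
    (fun i x ω => h0 i _) (fun x ω => hsum _) q hq ?_ ?_
  · intro i a b hab
    have hne : b + -a ≠ 0 := by
      intro h
      exact hab (by rw [add_eq_zero_iff_eq_neg, neg_neg] at h; exact h.symm)
    have e1 : (∫ ω, f i (T a ω) * f i (T b ω) ∂P)
        = ∫ ω, f i ω * f i (T (b + -a) ω) ∂P := by
      have e2 : ∀ ω, f i (T a ω) * f i (T b ω)
          = (fun ω' => f i ω' * f i (T (b + -a) ω')) (T a ω) := by
        intro ω
        simp only
        rw [← hTadd, neg_add_cancel_right]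
      simp_rw [e2]
      have hm : AEStronglyMeasurable (fun ω' => f i ω' * f i (T (b + -a) ω')) (P.map (T a)) :=
        ((hf i).mul ((hf i).comp (hT _).measurable)).aestronglyMeasurable
      rw [← integral_map (hT a).measurable.aemeasurable hm, (hT a).map_eq]
    show (∫ ω, f i (T a ω) * f i (T b ω) ∂P) = _
    rw [e1, hcov i _ hne, hσadd, hσneg, sub_eq_add_neg]
  · intro i u hu
    have hcl : IsClosed {w : ℂ | q i w = 0} := isClosed_eq (hq i) continuous_const
    have hsub : σ '' {x | ‖σ x‖ = 1} ⊆ {w : ℂ | q i w = 0} := by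
      rintro _ ⟨x, hx, rfl⟩
      have hx0 : x ≠ 0 := by
        rintro rfl
        simp [hσ0] at hx
      show q i (σ x) = 0
      rw [← hcov i x hx0]
      exact hunit i x hx
    exact closure_minimal hsub hcl (hσunit u hu)

end Crest.Agent.R40.T1End
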