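import Mathlib

/-!
# R40 / T1: invariant means on abelian groups (elementary, by ultrafilter limits)
-/

set_option autoImplicit false

open Filter Topology

namespace Crest.Agent.R40.T1

/-- bounded real function -/
def Bdd {X : Type*} (h : X → ℝ) : Prop := ∃ C, ∀ x, |h x| ≤ C

theorem Bdd.add {X : Type*} {f g : X → ℝ} (hf : Bdd f) (hg : Bdd g) : Bdd (fun x => f x + g x) := by
  obtain ⟨C, hC⟩ := hf
  obtain ⟨D, hD⟩ := hg
  exact ⟨C + D, fun x => (abs_add_le _ _).trans (add_le_add (hC x) (hD x))⟩

theorem Bdd.smul {X : Type*} {f : X → ℝ} (hf : Bdd f) (c : ℝ) : Bdd (fun x => c * f x) := by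
  obtain ⟨C, hC⟩ := hf
  exact ⟨|c| * C, fun x => by rw [abs_mul]; exact mul_le_mul_of_nonneg_left (hC x) (abs_nonneg c)⟩

theorem Bdd.const {X : Type*} (c : ℝ) : Bdd (fun _ : X => c) := ⟨|c|, fun _ => le_rfl⟩

theorem Bdd.comp {X Y : Type*} {f : X → ℝ} (hf : Bdd f) (g : Y → X) : Bdd (fun y => f (g y)) := by
  obtain ⟨C, hC⟩ := hf
  exact ⟨C, fun y => hC _⟩

/-- finitely additive mean on bounded functions -/
structure IsMean {X : Type*} (m : (X → ℝ) → ℝ) : Prop where
  add : ∀ f g, Bdd f → Bdd g → m (fun x => f x + g x) = m f + m g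
  smul : ∀ (c : ℝ) f, Bdd f → m (fun x => c * f x) = c * m f
  nonneg : ∀ f, Bdd f → (∀ x, 0 ≤ f x) → 0 ≤ m f
  one : m (fun _ => 1) = 1

namespace IsMean

variable {X : Type*} {m : (X → ℝ) → ℝ}

theorem const (hm : IsMean m) (c : ℝ) : m (fun _ => c) = c := by
  have := hm.smul c (fun _ => 1) (Bdd.const 1)
  simpa [hm.one] using this

theorem mono (hm : IsMean m) {f g : X → ℝ} (hf : Bdd f) (hg : Bdd g) (h : ∀ x, f x ≤ g x) :
    m f ≤ m g := by
  have h1 : m g = m f + m (fun x => g x + (-1) * f x) := by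
    rw [← hm.add f _ hf (hg.add (hf.smul (-1)))]
    congr 1; funext x; ring
  have h2 : 0 ≤ m (fun x => g x + (-1) * f x) :=
    hm.nonneg _ (hg.add (hf.smul (-1))) (fun x => by linarith [h x])
  linarith

theorem abs_le (hm : IsMean m) {f : X → ℝ} {C : ℝ} (h : ∀ x, |f x| ≤ C) : |m f| ≤ C := by
  have hf : Bdd f := ⟨C, h⟩
  rw [_root_.abs_le]
  constructor
  · rw [← hm.const (-C)]
    exact hm.mono (Bdd.const _) hf (fun x => (_root_.abs_le.1 (h x)).1)
  · rw [← hm.const C]
    exact hm.mono hf (Bdd.const _) (fun x => (_root_.abs_le.1 (h x)).2)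

end IsMean

/-- pointwise ultralimit of functionals -/
noncomputable def ulim {X ι : Type*} (l : Ultrafilter ι) (m : ι → (X → ℝ) → ℝ) (f : X → ℝ) : ℝ :=
  limUnder (l : Filter ι) (fun i => m i f)

theorem tendsto_ulim {X ι : Type*} (l : Ultrafilter ι) (m : ι → (X → ℝ) → ℝ)
    (hm : ∀ i, IsMean (m i)) {f : X → ℝ} (hf : Bdd f) :
    Tendsto (fun i => m i f) l (𝓝 (ulim l m f)) := by
  obtain ⟨C, hC⟩ := hf
  apply tendsto_nhds_limUnder
  have hmem : Set.Icc (-C) C ∈ (l.map (fun i => m i f) : Filter ℝ) := by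
    rw [Ultrafilter.coe_map, Filter.mem_map]
    exact Filter.univ_mem' fun i => _root_.abs_le.1 ((hm i).abs_le hC)
  obtain ⟨x, -, hx⟩ := isCompact_Icc.ultrafilter_le_nhds (l.map (fun i => m i f))
    (by rwa [Filter.le_principal_iff])
  exact ⟨x, hx⟩

theorem isMean_ulim {X ι : Type*} (l : Ultrafilter ι) (m : ι → (X → ℝ) → ℝ)
    (hm : ∀ i, IsMean (m i)) : IsMean (ulim l m) where
  add := by
    intro f g hf hg
    refine tendsto_nhds_unique (tendsto_ulim l m hm (hf.add hg)) ?_
    refine ((tendsto_ulim l m hm hf).add (tendsto_ulim l m hm hg)).congr fun i => ?_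
    exact ((hm i).add f g hf hg).symm
  smul := by
    intro c f hf
    refine tendsto_nhds_unique (tendsto_ulim l m hm (hf.smul c)) ?_
    refine ((tendsto_ulim l m hm hf).const_mul c).congr fun i => ?_
    exact ((hm i).smul c f hf).symm
  nonneg := by
    intro f hf h0
    exact ge_of_tendsto' (tendsto_ulim l m hm hf) (fun i => (hm i).nonneg f hf h0)
  one := by
    refine tendsto_nhds_unique (tendsto_ulim l m hm (Bdd.const 1)) ?_
    refine tendsto_const_nhds.congr fun i => ?_
    exact ((hm i).one).symm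

theorem ulim_eq {X Y ι : Type*} (l : Ultrafilter ι) (m : ι → (X → ℝ) → ℝ)
    (hm : ∀ i, IsMean (m i)) {f g : X → ℝ} (hf : Bdd f) (hg : Bdd g)
    (h : Tendsto (fun i => m i f - m i g) l (𝓝 0)) (_ : Y = Y) : ulim l m f = ulim l m g := by
  have h1 := (tendsto_ulim l m hm hf).sub (tendsto_ulim l m hm hg)
  have := tendsto_nhds_unique h1 h
  linarith

/-- averaging a mean over the orbit of `a` -/
noncomputable def avgOp {A : Type*} [AddCommGroup A] (m : (A → ℝ) → ℝ) (a : A) (N : ℕ)
    (f : A → ℝ) : ℝ :=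
  (∑ j ∈ Finset.range (N + 1), m (fun x => f (x + j • a))) / (N + 1)

theorem isMean_avgOp {A : Type*} [AddCommGroup A] {m : (A → ℝ) → ℝ} (hm : IsMean m) (a : A)
    (N : ℕ) : IsMean (avgOp m a N) where
  add := by
    intro f g hf hg
    unfold avgOp
    rw [← add_div, ← Finset.sum_add_distrib]
    congr 1
    refine Finset.sum_congr rfl fun j _ => ?_
    exact hm.add _ _ (hf.comp _) (hg.comp _)
  smul := by
    intro c f hf
    unfold avgOp
    rw [mul_div_assoc', Finset.mul_sum]
    congr 1
    refine Finset.sum_congr rfl fun j _ => ?_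
    exact hm.smul c _ (hf.comp _)
  nonneg := by
    intro f hf h0
    unfold avgOp
    exact div_nonneg (Finset.sum_nonneg fun j _ => hm.nonneg _ (hf.comp _) fun x => h0 _)
      (by positivity)
  one := by
    unfold avgOp
    simp only [hm.one, Finset.sum_const, Finset.card_range, nsmul_eq_mul, mul_one]
    push_cast
    exact div_self (by positivity)

theorem exists_mean_finset {A : Type*} [AddCommGroup A] (S : Finset A) :
    ∃ m : (A → ℝ) → ℝ, IsMean m ∧
      ∀ a ∈ S, ∀ f, Bdd f → m (fun x => f (x + a)) = m f := by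
  classical
  induction S using Finset.induction_on with
  | empty =>
    refine ⟨fun f => f 0, ⟨fun _ _ _ _ => rfl, fun _ _ _ => rfl, fun _ _ h => h 0, rfl⟩, ?_⟩
    simp
  | insert a S _ ih =>
    obtain ⟨m, hm, hinv⟩ := ih
    let l : Ultrafilter ℕ := Ultrafilter.of atTop
    have hl : (l : Filter ℕ) ≤ atTop := Ultrafilter.of_le atTop
    refine ⟨ulim l (avgOp m a), isMean_ulim l _ fun N => isMean_avgOp hm a N, ?_⟩
    intro b hb f hf
    rw [Finset.mem_insert] at hb
    rcases hb with rfl | hb
    · refine ulim_eq (Y := ℕ) l _ (fun N => isMean_avgOp hm b N) (hf.comp _) hf ?_ rfl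
      obtain ⟨C, hC⟩ := hf
      have key : ∀ N : ℕ, avgOp m b N (fun x => f (x + b)) - avgOp m b N f
          = (m (fun x => f (x + (N + 1) • b)) - m f) / (N + 1) := by
        intro N
        unfold avgOp
        rw [← sub_div]
        congr 1
        have h1 : ∀ j : ℕ, m (fun x => f (x + j • b + b)) = m (fun x => f (x + (j + 1) • b)) := by
          intro j
          congr 1; funext x; congr 1
          rw [add_smul, one_smul, add_assoc]
        rw [← Finset.sum_sub_distrib]
        simp only [h1]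
        rw [Finset.sum_range_sub (fun j => m (fun x => f (x + j • b)))]
        simp
      have hb : Tendsto (fun N : ℕ => 2 * C / ((N : ℝ) + 1)) atTop (𝓝 0) := by
        have h0 := tendsto_one_div_add_atTop_nhds_zero_nat (𝕜 := ℝ)
        have h1 := h0.const_mul (2 * C)
        simpa [div_eq_mul_inv] using h1
      refine squeeze_zero_norm (fun N => ?_) (hb.mono_left hl)
      rw [key N, Real.norm_eq_abs, abs_div, abs_of_nonneg (by positivity : (0 : ℝ) ≤ (N : ℝ) + 1)]
      apply div_le_div_of_nonneg_right _ (by positivity)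
      have h1 : |m (fun x => f (x + (N + 1) • b))| ≤ C := hm.abs_le fun x => hC _
      have h2 : |m f| ≤ C := hm.abs_le hC
      calc |m (fun x => f (x + (N + 1) • b)) - m f|
          ≤ |m (fun x => f (x + (N + 1) • b))| + |m f| := abs_sub _ _
        _ ≤ 2 * C := by linarith
    · refine ulim_eq (Y := ℕ) l _ (fun N => isMean_avgOp hm a N) (hf.comp _) hf ?_ rfl
      have key : ∀ N : ℕ, avgOp m a N (fun x => f (x + b)) - avgOp m a N f = 0 := by
        intro N
        unfold avgOp
        rw [← sub_div, ← Finset.sum_sub_distrib]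
        rw [Finset.sum_eq_zero, zero_div]
        intro j _
        rw [sub_eq_zero]
        have := hinv b hb (fun x => f (x + j • a)) (hf.comp _)
        rw [← this]
        congr 1; funext x; congr 1
        rw [add_right_comm]
      simp only [key]
      exact tendsto_const_nhds

/-- invariant mean on an abelian group -/
theorem exists_mean (A : Type*) [AddCommGroup A] :
    ∃ m : (A → ℝ) → ℝ, IsMean m ∧ ∀ a : A, ∀ f, Bdd f → m (fun x => f (x + a)) = m f := by
  classical
  choose m hm hinv using fun S : Finset A => exists_mean_finset S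
  let l : Ultrafilter (Finset A) := Ultrafilter.of atTop
  have hl : (l : Filter (Finset A)) ≤ atTop := Ultrafilter.of_le atTop
  refine ⟨ulim l m, isMean_ulim l m hm, ?_⟩
  intro a f hf
  refine ulim_eq (Y := ℕ) l m hm (hf.comp _) hf ?_ rfl
  refine Tendsto.congr' ?_ tendsto_const_nhds
  have : ∀ᶠ S : Finset A in l, {a} ≤ S := hl (Filter.eventually_ge_atTop ({a} : Finset A))
  filter_upwards [this] with S hS
  rw [hinv S a (hS (Finset.mem_singleton_self a)) f hf, sub_self]

end Crest.Agent.R40.T1
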