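import Mathlib
import Crest.Agent.R40.T1Defs
import Crest.Agent.R40.T1Mean

/-!
# R40 / T1 (M1): a random proper colouring of `F`, invariant under translations and rotations
-/

set_option autoImplicit false

open Filter Topology MeasureTheory

namespace Crest.Agent.R40.T1

open CompactlySupported in
/-- Riesz-Markov for a normalised positive functional on `C(Ω, ℝ)`, `Ω` compact. -/
theorem exists_measure_of_functional {Ω : Type*} [TopologicalSpace Ω] [CompactSpace Ω] [T2Space Ω]
    [MeasurableSpace Ω] [BorelSpace Ω] (Λ : (Ω → ℝ) → ℝ)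
    (hadd : ∀ f g : C(Ω, ℝ), Λ (fun x => f x + g x) = Λ f + Λ g)
    (hsmul : ∀ (c : ℝ) (f : C(Ω, ℝ)), Λ (fun x => c * f x) = c * Λ f)
    (hpos : ∀ f : C(Ω, ℝ), (∀ x, 0 ≤ f x) → 0 ≤ Λ f)
    (hone : Λ (fun _ => 1) = 1) :
    ∃ P : Measure Ω, IsProbabilityMeasure P ∧ ∀ f : C(Ω, ℝ), ∫ x, f x ∂P = Λ f := by
  have hmono : ∀ f g : C(Ω, ℝ), (∀ x, f x ≤ g x) → Λ f ≤ Λ g := by
    intro f g h
    have h1 : Λ g = Λ f + Λ (g - f : C(Ω, ℝ)) := by
      rw [← hadd f (g - f)]
      congr 1; funext x; simp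
    have h2 := hpos (g - f) (fun x => by simpa using h x)
    linarith
  let L : C_c(Ω, ℝ) →ₚ[ℝ] ℝ :=
  { toFun g := Λ g
    map_add' g g' := hadd g.toContinuousMap g'.toContinuousMap
    map_smul' c g := hsmul c g.toContinuousMap
    monotone' g g' hgg' := hmono g.toContinuousMap g'.toContinuousMap hgg' }
  have key : ∀ f : C(Ω, ℝ), ∫ x, f x ∂(RealRMK.rieszMeasure L) = Λ f := by
    intro f
    let f' : C_c(Ω, ℝ) :=
    { toFun := f
      hasCompactSupport' := HasCompactSupport.of_compactSpace _ }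
    exact RealRMK.integral_rieszMeasure L f'
  refine ⟨RealRMK.rieszMeasure L, ?_, key⟩
  have h1 := key (ContinuousMap.const Ω (1 : ℝ))
  simp only [ContinuousMap.coe_const, Function.const_apply, integral_const, smul_eq_mul,
    mul_one] at h1
  have h3 : (RealRMK.rieszMeasure L).real Set.univ = 1 := h1.trans hone
  refine ⟨?_⟩
  rw [measureReal_def] at h3
  have : (RealRMK.rieszMeasure L) Set.univ ≠ ⊤ := measure_ne_top _ _
  rw [← ENNReal.ofReal_toReal this, h3, ENNReal.ofReal_one]

instance : Countable F := by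
  have hK : Countable K := by
    have : (K : Set ℝ) ⊆ {x : ℝ | IsAlgebraic ℚ x} := fun x hx => K_algebraic hx
    exact ((Algebraic.countable ℚ ℝ).mono this).to_subtype
  have : Function.Injective (fun z : F => ((⟨(z : ℂ).re, z.2.1⟩ : K), (⟨(z : ℂ).im, z.2.2⟩ : K))) := by
    intro z w h
    simp only [Prod.mk.injEq, Subtype.mk.injEq] at h
    exact Subtype.ext (Complex.ext h.1 h.2)
  exact this.countable

/-- the colouring `z ↦ c (u z + x)` -/
noncomputable def pull (c : ℂ → Fin 5) (u x : F) : F → Fin 5 := fun z => c ((u * z + x : F) : ℂ)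

/-- norm one elements -/
def U : Subgroup Fˣ where
  carrier := {u | ‖((u : F) : ℂ)‖ = 1}
  mul_mem' := by
    intro a b ha hb
    simp only [Set.mem_ofPred_eq] at *
    push_cast
    rw [norm_mul, ha, hb, one_mul]
  one_mem' := by simp
  inv_mem' := by
    intro a ha
    simp only [Set.mem_ofPred_eq] at *
    have h1 : ((a : F) : ℂ) * (((a⁻¹ : Fˣ) : F) : ℂ) = 1 := by
      rw [← Subfield.coe_mul, Units.mul_inv]; rfl
    have h2 := congrArg norm h1
    rw [norm_mul, ha, one_mul, norm_one] at h2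
    exact h2

theorem exists_invariant (c : ℂ → Fin 5) (hc : ∀ x y : ℂ, ‖x - y‖ = 1 → c x ≠ c y) :
    ∃ P : Measure (F → Fin 5), IsProbabilityMeasure P ∧
      (∀ y : F, MeasurePreserving (fun (ω : F → Fin 5) (x : F) => ω (x + y)) P P) ∧
      (∀ u : F, ‖(u : ℂ)‖ = 1 →
        MeasurePreserving (fun (ω : F → Fin 5) (x : F) => ω (u * x)) P P) ∧
      ∀ x y : F, ‖(x : ℂ) - y‖ = 1 → ∀ᵐ ω ∂P, ω x ≠ ω y := by
  obtain ⟨mF, hmF, hmFinv⟩ := exists_mean F
  obtain ⟨mU, hmU, hmUinv⟩ := exists_mean (Additive U)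
  let Λ : ((F → Fin 5) → ℝ) → ℝ := fun φ =>
    mU fun u => mF fun x => φ (pull c ((u.toMul : Fˣ) : F) x)
  have hbdd : ∀ φ : C(F → Fin 5, ℝ), ∃ C, ∀ ω, |φ ω| ≤ C := by
    intro φ
    exact ⟨‖φ‖, fun ω => φ.norm_coe_le_norm ω⟩
  have hb1 : ∀ (φ : C(F → Fin 5, ℝ)) (u : F), Bdd (fun x => φ (pull c u x)) := by
    intro φ u
    obtain ⟨C, hC⟩ := hbdd φ
    exact ⟨C, fun x => hC _⟩
  have hb2 : ∀ (φ : C(F → Fin 5, ℝ)),
      Bdd (fun u : Additive U => mF fun x => φ (pull c ((u.toMul : Fˣ) : F) x)) := by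
    intro φ
    obtain ⟨C, hC⟩ := hbdd φ
    exact ⟨C, fun u => hmF.abs_le fun x => hC _⟩
  obtain ⟨P, hP, hPi⟩ := exists_measure_of_functional Λ
    (by
      intro f g
      simp only [Λ]
      rw [← hmU.add _ _ (hb2 f) (hb2 g)]
      congr 1; funext u
      exact hmF.add _ _ (hb1 f _) (hb1 g _))
    (by
      intro a f
      simp only [Λ]
      rw [← hmU.smul _ _ (hb2 f)]
      congr 1; funext u
      exact hmF.smul _ _ (hb1 f _))
    (by
      intro f h0
      simp only [Λ]
      exact hmU.nonneg _ (hb2 f) fun u => hmF.nonneg _ (hb1 f _) fun x => h0 _)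
    (by
      simp only [Λ]
      rw [hmF.one, hmU.one])
  -- invariance criterion
  have hinv : ∀ τ : (F → Fin 5) → (F → Fin 5), Continuous τ →
      (∀ φ : C(F → Fin 5, ℝ), Λ (fun ω => φ (τ ω)) = Λ φ) → MeasurePreserving τ P P := by
    intro τ hτ h
    refine ⟨hτ.measurable, ?_⟩
    have : IsProbabilityMeasure (P.map τ) := Measure.isProbabilityMeasure_map hτ.measurable.aemeasurable
    refine ext_of_forall_integral_eq_of_IsFiniteMeasure fun φ => ?_
    rw [integral_map hτ.measurable.aemeasurable φ.continuous.aestronglyMeasurable]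
    have h1 := hPi (φ.toContinuousMap.comp ⟨τ, hτ⟩)
    have h2 := hPi φ.toContinuousMap
    have h3 := h φ.toContinuousMap
    calc ∫ x, φ (τ x) ∂P = Λ (fun ω => φ (τ ω)) := h1
      _ = Λ φ := h3
      _ = ∫ x, φ x ∂P := h2.symm
  refine ⟨P, hP, ?_, ?_, ?_⟩
  · intro y
    refine hinv _ (by fun_prop) ?_
    intro φ
    simp only [Λ]
    congr 1; funext u
    rw [← hmFinv (((u.toMul : Fˣ) : F) * y) _ (hb1 φ _)]
    congr 1; funext x; congr 1
    funext z
    simp only [pull]
    congr 2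
    ring
  · intro v hv
    refine hinv _ (by fun_prop) ?_
    intro φ
    simp only [Λ]
    have hv0 : v ≠ 0 := by
      rintro rfl
      simp at hv
    let v' : U := ⟨Units.mk0 v hv0, hv⟩
    rw [← hmUinv (Additive.ofMul v') _ (hb2 φ)]
    congr 1; funext u
    congr 1; funext x; congr 1
    funext z
    simp only [pull, toMul_add, toMul_ofMul, Subgroup.coe_mul, Units.val_mul, v', Units.val_mk0]
    congr 2
    ring
  · intro x y hxy
    have hcl : IsClopen {ω : F → Fin 5 | ω x = ω y} := by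
      have h1 : Continuous (fun ω : F → Fin 5 => (ω x, ω y)) := by fun_prop
      have h2 : IsClopen {p : Fin 5 × Fin 5 | p.1 = p.2} := isClopen_discrete _
      exact h2.preimage h1
    let φ : C(F → Fin 5, ℝ) := ⟨Set.indicator {ω : F → Fin 5 | ω x = ω y} (fun _ => (1 : ℝ)),
      hcl.continuous_indicator continuous_const |> fun h => h⟩
    have h1 := hPi φ
    have h2 : Λ φ = 0 := by
      simp only [Λ]
      have h3 : ∀ (u : Additive U) (t : F), φ (pull c ((u.toMul : Fˣ) : F) t) = 0 := by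
        intro u t
        simp only [φ, ContinuousMap.coe_mk]
        apply Set.indicator_of_notMem
        simp only [Set.mem_ofPred_eq, pull]
        apply hc
        have hu : ‖(((u.toMul : Fˣ) : F) : ℂ)‖ = 1 := (u.toMul).2
        push_cast
        have : (((u.toMul : Fˣ) : F) : ℂ) * (x : ℂ) + (t : ℂ)
            - ((((u.toMul : Fˣ) : F) : ℂ) * (y : ℂ) + (t : ℂ))
            = (((u.toMul : Fˣ) : F) : ℂ) * ((x : ℂ) - y) := by ring
        rw [this, norm_mul, hu, hxy, one_mul]
      simp only [h3]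
      rw [hmF.const, hmU.const]
    have hms : MeasurableSet {ω : F → Fin 5 | ω x = ω y} := hcl.1.measurableSet
    rw [h2] at h1
    simp only [φ, ContinuousMap.coe_mk] at h1
    rw [integral_indicator_const _ hms, smul_eq_mul, mul_one] at h1
    have h4 : P {ω : F → Fin 5 | ω x = ω y} = 0 := by
      rwa [measureReal_eq_zero_iff] at h1
    rw [ae_iff]
    simpa using h4

end Crest.Agent.R40.T1
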