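import Mathlib
import Crest.Agent.R40.T1Defs
import Crest.Agent.R40.T1Inv
import Crest.Agent.R40.T1End
import Crest.Agent.R040.T2d

/-!
# R40 / T1: glue

`T1Glue.exists_U`: from an arbitrary proper 5-colouring of the plane we get disjoint regular open
unit-avoiding sets with dense union, provided that
* (M2) stationary correlations are Fourier transforms of finite measures on the dual of `F`,
  which are determined by their Fourier coefficients;
* (M5) the Fourier transform of a rotation invariant finite measure on the dual of `F` agrees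
  outside `0` with a continuous function on the plane.
-/

set_option autoImplicit false

open MeasureTheory Filter Topology

namespace Crest.Agent.R40.T1Glue

open Crest.Agent.R40.T1

/-- `F` is dense in the plane -/
theorem denseRange_F : DenseRange (fun x : F => (x : ℂ)) := by
  have h1 : DenseRange (fun p : ℚ × ℚ => (((p.1 : ℝ), (p.2 : ℝ)) : ℝ × ℝ)) :=
    (Rat.denseRange_cast (𝕜 := ℝ)).prodMap (Rat.denseRange_cast (𝕜 := ℝ))
  have h2 : DenseRange (fun p : ℚ × ℚ => Complex.equivRealProdCLM.symm (((p.1 : ℝ), (p.2 : ℝ)))) :=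
    (Complex.equivRealProdCLM.symm.surjective.denseRange).comp h1
      Complex.equivRealProdCLM.symm.continuous
  refine h2.mono ?_
  rintro _ ⟨p, rfl⟩
  refine ⟨⟨_, E_le_F (show _ ∈ E from ⟨⟨p.1, ?_⟩, p.2, ?_⟩)⟩, rfl⟩
  · simp
  · simp

theorem norm_mem_K (x : F) : ‖(x : ℂ)‖ ∈ K := by
  rw [Complex.norm_def, Complex.normSq_apply]
  exact sqrt_mem_K (K.add_mem (K.mul_mem x.2.1 x.2.1) (K.mul_mem x.2.2 x.2.2))
    (add_nonneg (mul_self_nonneg _) (mul_self_nonneg _))

/-- real elements of `K` are in `F` -/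
theorem ofReal_mem_F {t : ℝ} (ht : t ∈ K) : (t : ℂ) ∈ F :=
  ⟨by simpa using ht, by simp⟩

/-- the unit vectors of `F` are dense in the unit circle -/
theorem unit_dense (u : ℂ) (hu : ‖u‖ = 1) :
    u ∈ closure ((fun x : F => (x : ℂ)) '' {x | ‖(x : ℂ)‖ = 1}) := by
  have hu0 : u ≠ 0 := by
    rintro rfl
    simp at hu
  have hcont : ContinuousAt (fun y : ℂ => y / (‖y‖ : ℂ)) u := by
    refine ContinuousAt.div continuousAt_id ?_ ?_
    · exact (Complex.continuous_ofReal.comp continuous_norm).continuousAt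
    · rw [hu]; simp
  have hcl : u ∈ closure ({y : ℂ | y ≠ 0} ∩ Set.range (fun x : F => (x : ℂ))) :=
    Dense.open_subset_closure_inter denseRange_F isOpen_ne hu0
  have h1 := mem_closure_image (f := fun y : ℂ => y / (‖y‖ : ℂ)) hcont hcl
  have h2 : u / (‖u‖ : ℂ) = u := by
    simp [hu]
  rw [h2] at h1
  refine closure_mono ?_ h1
  rintro _ ⟨y, ⟨hy, ⟨x, rfl⟩⟩, rfl⟩
  refine ⟨⟨(x : ℂ) / (‖(x : ℂ)‖ : ℂ), F.div_mem x.2 (ofReal_mem_F (norm_mem_K x))⟩, ?_, rfl⟩
  have hy' : (x : ℂ) ≠ 0 := hy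
  show ‖(x : ℂ) / (‖(x : ℂ)‖ : ℂ)‖ = 1
  rw [norm_div, Complex.norm_real, norm_norm, div_self (norm_ne_zero_iff.2 hy')]


/-- indicator of the colour `i` at the point `x` -/
noncomputable def ind (i : Fin 5) (x : F) (ω : F → Fin 5) : ℝ := if ω x = i then 1 else 0

theorem ind_measurable (i : Fin 5) (x : F) : Measurable (ind i x) := by
  have h : Measurable (fun j : Fin 5 => if j = i then (1 : ℝ) else 0) := measurable_of_countable _
  exact h.comp (measurable_pi_apply x)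

theorem ind_nonneg (i : Fin 5) (x : F) (ω : F → Fin 5) : 0 ≤ ind i x ω := by
  unfold ind; split_ifs <;> norm_num

theorem ind_le_one (i : Fin 5) (x : F) (ω : F → Fin 5) : ind i x ω ≤ 1 := by
  unfold ind; split_ifs <;> norm_num

theorem ind_sum (x : F) (ω : F → Fin 5) : ∑ i, ind i x ω = 1 := by
  unfold ind
  simp

/-- from the random colouring of `F` to the measurable colouring of the plane -/
theorem exists_sets (P : Measure (F → Fin 5)) [IsProbabilityMeasure P]
    (hT : ∀ y : F, MeasurePreserving (fun (ω : F → Fin 5) (x : F) => ω (x + y)) P P)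
    (hav : ∀ x y : F, ‖(x : ℂ) - y‖ = 1 → ∀ᵐ ω ∂P, ω x ≠ ω y)
    (hspec : ∀ i : Fin 5, ∃ q : ℂ → ℂ, Continuous q ∧
      ∀ x : F, x ≠ 0 → ((∫ ω, ind i 0 ω * ind i x ω ∂P : ℝ) : ℂ) = q x) :
    ∃ A : Fin 5 → Set ℂ, (∀ i, MeasurableSet (A i)) ∧ (∀ᵐ z, ∃ i, z ∈ A i) ∧
      ∀ i, ∀ᵐ z : ℂ, ∀ᵐ θ : ℝ, ¬ (z ∈ A i ∧ z + Complex.exp (θ * Complex.I) ∈ A i) := by
  choose q hq hqx using hspec
  have hind : ∀ i (x : F) (ω : F → Fin 5), ind i x ω = ind i 0 (fun z => ω (z + x)) := by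
    intro i x ω
    simp [ind]
  refine T1End.exists_sets_of_action P (fun x : F => (x : ℂ)) (fun x y => by push_cast; rfl)
    denseRange_F unit_dense (fun y ω x => ω (x + y)) hT
    (fun x y ω => by funext z; simp [add_assoc]) (fun i => ind i 0) (fun i => ind_measurable i 0)
    (fun i ω => ind_nonneg i 0 ω) (fun ω => ind_sum 0 ω) ?_ (fun i z => (q i z).re)
    (fun i => Complex.continuous_re.comp (hq i)) ?_
  · intro i x hx
    have h0 : ∀ᵐ ω ∂P, ind i 0 ω * ind i 0 (fun z => ω (z + x)) = 0 := by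
      filter_upwards [hav 0 x (by simpa using hx)] with ω hω
      simp only [ind, zero_add]
      by_cases h1 : ω 0 = i
      · by_cases h2 : ω x = i
        · exact absurd (h1.trans h2.symm) hω
        · simp [h2]
      · simp [h1]
    rw [integral_congr_ae h0]
    simp
  · intro i x hx
    have := hqx i x hx
    show (∫ ω, ind i 0 ω * ind i 0 (fun z => ω (z + x)) ∂P) = (q i x).re
    rw [← this, Complex.ofReal_re]
    refine integral_congr_ae (ae_of_all _ (fun ω => ?_))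
    simp only
    rw [hind i x ω]

/-- (M2) spectral measures -/
def SpectralTarget : Prop :=
  ∀ (Ω : Type) [MeasurableSpace Ω] (P : Measure Ω) [IsProbabilityMeasure P]
    (T : F → Ω → Ω) (_ : ∀ x, MeasurePreserving (T x) P P)
    (_ : ∀ x y ω, T (x + y) ω = T x (T y ω))
    (f : Ω → ℝ) (_ : Measurable f) (_ : ∀ ω, 0 ≤ f ω) (_ : ∀ ω, f ω ≤ 1),
    ∃ ν : Measure (Dual F), IsFiniteMeasure ν ∧
      ∀ x, (∫ χ : Dual F, (χ x : ℂ) ∂ν) = ((∫ ω, f ω * f (T x ω) ∂P : ℝ) : ℂ)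

/-- (M2) uniqueness -/
def UniqTarget : Prop :=
  ∀ (ν ν' : Measure (Dual F)) [IsFiniteMeasure ν] [IsFiniteMeasure ν'],
    (∀ x, (∫ χ : Dual F, (χ x : ℂ) ∂ν) = ∫ χ : Dual F, (χ x : ℂ) ∂ν') → ν = ν'

/-- (M5) -/
def M5Target : Prop :=
  ∀ (ν : Measure (Dual F)) [IsFiniteMeasure ν], RotInv ν →
    ∃ q : ℂ → ℂ, Continuous q ∧ ∀ x : F, x ≠ 0 → (∫ χ : Dual F, (χ x : ℂ) ∂ν) = q x

theorem rotInv_of {ν : Measure (Dual F)} [IsFiniteMeasure ν] (huniq : UniqTarget)
    (h : ∀ u : F, ‖(u : ℂ)‖ = 1 → ∀ x, (∫ χ : Dual F, (χ (u * x) : ℂ) ∂ν)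
      = ∫ χ : Dual F, (χ x : ℂ) ∂ν) : RotInv ν := by
  intro u hu
  refine huniq _ _ (fun x => ?_)
  rw [integral_map (measurable_rot u).aemeasurable
    (measurable_eval x).aestronglyMeasurable]
  simpa using h u hu x

theorem exists_spec (P : Measure (F → Fin 5)) [IsProbabilityMeasure P]
    (hT : ∀ y : F, MeasurePreserving (fun (ω : F → Fin 5) (x : F) => ω (x + y)) P P)
    (hU : ∀ u : F, ‖(u : ℂ)‖ = 1 →
      MeasurePreserving (fun (ω : F → Fin 5) (x : F) => ω (u * x)) P P)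
    (hspec : SpectralTarget) (huniq : UniqTarget) (h5 : M5Target) (i : Fin 5) :
    ∃ q : ℂ → ℂ, Continuous q ∧
      ∀ x : F, x ≠ 0 → ((∫ ω, ind i 0 ω * ind i x ω ∂P : ℝ) : ℂ) = q x := by
  obtain ⟨ν, hν, hνx⟩ := hspec (F → Fin 5) P (fun y ω x => ω (x + y)) hT
    (fun x y ω => by funext z; simp [add_assoc]) (ind i 0) (ind_measurable i 0)
    (fun ω => ind_nonneg i 0 ω) (fun ω => ind_le_one i 0 ω)
  have hνx' : ∀ x, (∫ χ : Dual F, (χ x : ℂ) ∂ν) = ((∫ ω, ind i 0 ω * ind i x ω ∂P : ℝ) : ℂ) := by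
    intro x
    rw [hνx x]
    congr 1
    refine integral_congr_ae (ae_of_all _ (fun ω => ?_))
    simp [ind]
  have hrot : RotInv ν := by
    refine rotInv_of huniq (fun u hu x => ?_)
    rw [hνx', hνx']
    congr 1
    have hm : AEStronglyMeasurable (fun ω => ind i 0 ω * ind i x ω)
        (P.map (fun (ω : F → Fin 5) (x : F) => ω (u * x))) :=
      ((ind_measurable i 0).mul (ind_measurable i x)).aestronglyMeasurable
    have e := integral_map (hU u hu).measurable.aemeasurable hm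
    rw [(hU u hu).map_eq] at e
    rw [e]
    refine integral_congr_ae (ae_of_all _ (fun ω => ?_))
    simp [ind]
  obtain ⟨q, hq, hqx⟩ := h5 ν hrot
  exact ⟨q, hq, fun x hx => by rw [← hνx', hqx x hx]⟩

/-- T1 + T2, from the targets M2, M5 -/
theorem exists_U_of (hspec : SpectralTarget) (huniq : UniqTarget) (h5 : M5Target)
    (c : ℂ → Fin 5) (hc : ∀ x y : ℂ, ‖x - y‖ = 1 → c x ≠ c y) :
    ∃ U : Fin 5 → Set ℂ, (∀ i, IsOpen (U i)) ∧ (∀ i, interior (closure (U i)) = U i) ∧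
      (∀ i j, i ≠ j → Disjoint (U i) (U j)) ∧
      (∀ i, ∀ x ∈ U i, ∀ y ∈ U i, dist x y ≠ 1) ∧ Dense (⋃ i, U i) := by
  obtain ⟨P, hP, hT, hU, hav⟩ := exists_invariant c hc
  obtain ⟨A, hA, hcov, hA2⟩ := exists_sets P hT hav
    (fun i => exists_spec P hT hU hspec huniq h5 i)
  refine Crest.Agent.R040.T2.main hA (fun i => ?_) hcov
  filter_upwards [hA2 i] with z hz hzA
  filter_upwards [hz] with θ hθ hθA
  exact hθ ⟨hzA, hθA⟩

end Crest.Agent.R40.T1Glue
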