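import Mathlib
import Crest.Agent.R40.T1Glue
import Crest.Agent.R40.T1BMain

/-!
# R40 / T1: assembly

`hT1_of`: the statement T1 (in the form used in `T3Main.S0054_of`) from the spectral theorem
(`SpectralTarget`, `UniqTarget`) and the theorem on characters of `ℚ(i)` (`EHyp`).
-/

set_option autoImplicit false

open MeasureTheory Filter Topology

namespace Crest.Agent.R40.T1Glue

open Crest.Agent.R40.T1

theorem m5_of {y : ℕ → E} (hE : T1B.EHyp y) (hy0 : ∀ n, y n ≠ 0) : M5Target := by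
  intro ν hν hrot
  obtain ⟨q, hq, hqx⟩ := T1B.main hE hy0 hrot
  exact ⟨q, hq.continuous, hqx⟩

/-- T1 in the form used by `T3Main.S0054_of` -/
theorem hT1_of {y : ℕ → E} (hE : T1B.EHyp y) (hy0 : ∀ n, y n ≠ 0) (hspec : SpectralTarget)
    (huniq : UniqTarget) (c : ℂ → Fin 5) (hc : ∀ x y : ℂ, ‖x - y‖ = 1 → c x ≠ c y) :
    ∃ A : Fin 5 → Set ℂ, (∀ i, MeasurableSet (A i)) ∧
      (∀ i, ∀ᵐ p : ℂ × ℝ, ¬ (p.1 ∈ A i ∧ p.1 + Complex.exp (Complex.I * p.2) ∈ A i)) ∧
      ∀ᵐ z, ∃ i, z ∈ A i := by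
  obtain ⟨P, hP, hT, hU, hav⟩ := exists_invariant c hc
  obtain ⟨A, hA, hcov, hA2⟩ := exists_sets P hT hav
    (fun i => exists_spec P hT hU hspec huniq (m5_of hE hy0) i)
  refine ⟨A, hA, fun i => ?_, hcov⟩
  have hm : MeasurableSet {p : ℂ × ℝ |
      ¬ (p.1 ∈ A i ∧ p.1 + Complex.exp (Complex.I * p.2) ∈ A i)} := by
    refine MeasurableSet.compl (MeasurableSet.inter ?_ ?_)
    · exact measurable_fst (hA i)
    · have h2 : Measurable (fun p : ℂ × ℝ => p.1 + Complex.exp (Complex.I * p.2)) :=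
        measurable_fst.add (Complex.measurable_exp.comp
          ((Complex.measurable_ofReal.comp measurable_snd).const_mul _))
      exact h2 (hA i)
  rw [Measure.volume_eq_prod, Measure.ae_prod_iff_ae_ae hm]
  filter_upwards [hA2 i] with z hz
  filter_upwards [hz] with θ hθ
  rw [mul_comm Complex.I]
  exact hθ

end Crest.Agent.R40.T1Glue
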