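import Crest.Agent.R40.T1BField

/-!
# R40 / T1, block M5: bootstrap from `E = ℚ(i)` to `F`
-/

set_option autoImplicit false

namespace Crest.Agent.R40.T1B

open Complex MeasureTheory Filter Topology Crest.Agent.R40.T1

/-- inclusion `E → F` -/
noncomputable abbrev ι : E →+* F := Subfield.inclusion E_le_F

/-- characters of `E` which tend to one along `y n * a`. -/
def LimSet (y : ℕ → E) : Set (Dual E) :=
  {χ | ∀ a : E, Tendsto (fun n => (χ (y n * a) : ℂ)) atTop (𝓝 1)}

/-- `x ∈ W_χ` -/
def InW (y : ℕ → E) (χ : Dual F) (x : F) : Prop := line x χ ∈ LimSet y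

lemma inW_iff {y : ℕ → E} {χ : Dual F} {x : F} :
    InW y χ x ↔ ∀ a : E, Tendsto (fun n => (χ (ι (y n * a) * x) : ℂ)) atTop (𝓝 1) := Iff.rfl

instance : Countable E := by
  have : (E : Set ℂ).Countable := F_countable.mono E_le_F
  exact this.to_subtype

variable {y : ℕ → E}

lemma InW.add {χ : Dual F} {x x' : F} (h : InW y χ x) (h' : InW y χ x') : InW y χ (x + x') := by
  rw [inW_iff] at *
  intro a
  have := (h a).mul (h' a)
  rw [one_mul] at this
  refine this.congr fun n => ?_
  rw [mul_add, AddChar.map_add_eq_mul, Circle.coe_mul]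

lemma InW.smul {χ : Dual F} {x : F} (h : InW y χ x) (b : E) : InW y χ (ι b * x) := by
  rw [inW_iff] at *
  intro a
  refine (h (a * b)).congr fun n => ?_
  have : ι (y n * (a * b)) * x = ι (y n * a) * (ι b * x) := by
    simp only [map_mul]; ring
  rw [this]

lemma InW.neg {χ : Dual F} {x : F} (h : InW y χ x) : InW y χ (-x) := by
  have := h.smul (-1)
  rwa [map_neg, map_one, neg_one_mul] at this

lemma InW.sub {χ : Dual F} {x x' : F} (h : InW y χ x) (h' : InW y χ x') : InW y χ (x - x') := by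
  rw [sub_eq_add_neg]; exact h.add h'.neg

lemma inW_zero (χ : Dual F) : InW y χ 0 := by
  rw [inW_iff]; intro a
  simp

lemma inW_rot {χ : Dual F} {u x : F} : InW y (rot u χ) x ↔ InW y χ (u * x) := by
  simp only [inW_iff, rot_apply]
  constructor
  · intro h a
    refine (h a).congr fun n => ?_
    rw [mul_left_comm]
  · intro h a
    refine (h a).congr fun n => ?_
    rw [mul_left_comm]

lemma measurableSet_inW (x : F) : MeasurableSet {χ : Dual F | InW y χ x} := by
  have : {χ : Dual F | InW y χ x} =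
      ⋂ a : E, {χ : Dual F | Tendsto (fun n => (χ (ι (y n * a) * x) : ℂ)) atTop (𝓝 1)} := by
    ext χ; simp [inW_iff]
  rw [this]
  exact MeasurableSet.iInter fun a => measurableSet_tendsto _ fun n => measurable_eval _

lemma measurableSet_limSet : MeasurableSet (LimSet y) := by
  have : LimSet y =
      ⋂ a : E, {χ : Dual E | Tendsto (fun n => (χ (y n * a) : ℂ)) atTop (𝓝 1)} := by
    ext χ; simp [LimSet]
  rw [this]
  exact MeasurableSet.iInter fun a => measurableSet_tendsto _ fun n => measurable_eval _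

section B1

variable {ν : Measure (Dual F)} [IsFiniteMeasure ν]
set_option linter.unusedSectionVars false

lemma rotInv_ae {P : Dual F → Prop} (hν : RotInv ν) {u : F} (hu : ‖(u : ℂ)‖ = 1)
    (hP : MeasurableSet {χ | P χ}) : ν {χ | P (rot u χ)} = ν {χ | P χ} := by
  have h := hν u hu
  conv_rhs => rw [← h]
  rw [Measure.map_apply (measurable_rot u) hP]
  rfl

lemma measurePreserving_rot (hν : RotInv ν) {u : F} (hu : ‖(u : ℂ)‖ = 1) :
    MeasurePreserving (rot u) ν ν := ⟨measurable_rot u, hν u hu⟩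

/-- `a` acts on `W_χ` almost surely. -/
def Acts (y : ℕ → E) (ν : Measure (Dual F)) (a : ℂ) : Prop :=
  ∃ h : a ∈ F, ∀ x : F, ∀ᵐ χ ∂ν, InW y χ x → InW y χ (⟨a, h⟩ * x)

lemma acts_E {a : ℂ} (ha : a ∈ E) : Acts y ν a := by
  refine ⟨E_le_F ha, fun x => ae_of_all _ fun χ h => ?_⟩
  exact h.smul ⟨a, ha⟩

lemma Acts.add {a b : ℂ} (ha : Acts y ν a) (hb : Acts y ν b) : Acts y ν (a + b) := by
  obtain ⟨ha, ha'⟩ := ha
  obtain ⟨hb, hb'⟩ := hb
  refine ⟨add_mem ha hb, fun x => ?_⟩
  filter_upwards [ha' x, hb' x] with χ h1 h2 h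
  have := (h1 h).add (h2 h)
  rw [← add_mul] at this
  exact this

lemma Acts.mul {a b : ℂ} (ha : Acts y ν a) (hb : Acts y ν b) : Acts y ν (a * b) := by
  obtain ⟨ha, ha'⟩ := ha
  obtain ⟨hb, hb'⟩ := hb
  refine ⟨mul_mem ha hb, fun x => ?_⟩
  filter_upwards [ha' (⟨b, hb⟩ * x), hb' x] with χ h1 h2 h
  have := h1 (h2 h)
  rw [← mul_assoc] at this
  exact this

/-- the field of all `a` acting on `W_χ` almost surely -/
noncomputable def actField (y : ℕ → E) (ν : Measure (Dual F)) [IsFiniteMeasure ν] : Subfield ℂ where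
  carrier := {a | Acts y ν a}
  mul_mem' := Acts.mul
  one_mem' := acts_E (one_mem _)
  add_mem' := Acts.add
  zero_mem' := acts_E (zero_mem _)
  neg_mem' := by
    intro a ha
    have := (acts_E (ν := ν) (y := y) (neg_mem (one_mem E))).mul ha
    rwa [neg_one_mul] at this
  inv_mem' := by
    intro a ha
    let A : Subalgebra ℚ ℂ :=
      { carrier := {a | Acts y ν a}
        mul_mem' := Acts.mul
        one_mem' := acts_E (one_mem _)
        add_mem' := Acts.add
        zero_mem' := acts_E (zero_mem _)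
        algebraMap_mem' := fun r => acts_E ⟨⟨r, by simp⟩, 0, by simp⟩ }
    have halg : IsAlgebraic ℚ a := F_algebraic ha.1
    have := A.inv_mem_of_algebraic (x := ⟨a, ha⟩) halg
    exact this

lemma mem_actField {a : ℂ} : a ∈ actField y ν ↔ Acts y ν a := Iff.rfl

lemma ae_module (y : ℕ → E) (ν : Measure (Dual F)) [IsFiniteMeasure ν] :
    ∀ᵐ χ ∂ν, ∀ a : F, (a : ℂ) ∈ actField y ν → ∀ x : F, InW y χ x → InW y χ (a * x) := by
  rw [ae_all_iff]; intro a
  by_cases h : (a : ℂ) ∈ actField y ν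
  · have := (mem_actField.1 h)
    obtain ⟨h1, h2⟩ := this
    have h3 := ae_all_iff.2 h2
    filter_upwards [h3] with χ hχ _ x hx
    exact hχ x hx
  · exact ae_of_all _ fun χ h' => absurd h' h

/-- the family `v_n = (n + u) / (n + ū)` -/
lemma unit_acts (hν : RotInv ν) (u : ℂ) (huF : u ∈ F) (hu : ‖u‖ = 1)
    (hre : ((u.re : ℝ) : ℂ) ∈ actField y ν) : u ∈ actField y ν := by
  classical
  set a : ℝ := u.re with ha
  have hsq : u.re ^ 2 + u.im ^ 2 = 1 := by
    have := Complex.normSq_apply u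
    have h2 : normSq u = 1 := by rw [Complex.normSq_eq_norm_sq, hu]; norm_num
    rw [h2] at this; nlinarith
  by_cases ha1 : a ^ 2 = 1
  · have him : u.im = 0 := by
      have : u.im ^ 2 = 0 := by rw [← ha] at hsq; linarith
      exact pow_eq_zero_iff (two_ne_zero) |>.1 this
    have : u = ((u.re : ℝ) : ℂ) := by
      apply Complex.ext <;> simp [him]
    rw [this]; exact hre
  have ha2 : a ^ 2 < 1 := lt_of_le_of_ne (by rw [ha]; nlinarith [sq_nonneg u.im]) ha1
  have haabs : |a| < 1 := by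
    rw [← sq_lt_one_iff_abs_lt_one]; exact ha2
  have ha_lt := (abs_lt.1 haabs).2
  have ha_gt := (abs_lt.1 haabs).1
  -- the algebraic relation
  have hquad : u * u = 2 * (a : ℂ) * u - 1 := by
    apply Complex.ext
    · simp [Complex.mul_re]; nlinarith
    · simp [Complex.mul_re]; nlinarith
  -- elements of `F`
  let U : F := ⟨u, huF⟩
  have haF : (a : ℂ) ∈ F := (mem_actField.1 hre).1
  let AA : F := ⟨(a : ℂ), haF⟩
  let D : ℕ → ℝ := fun n => (n : ℝ) ^ 2 + 2 * n * a + 1
  have hDpos : ∀ n, 0 < D n := by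
    intro n
    have : D n = ((n : ℝ) + a) ^ 2 + (1 - a ^ 2) := by simp only [D]; ring
    rw [this]
    have : 0 < 1 - a ^ 2 := by linarith
    positivity
  have hDA : ∀ n, ((D n : ℝ) : ℂ) ∈ actField y ν := by
    intro n
    have : ((D n : ℝ) : ℂ) = (n : ℂ) ^ 2 + ((2 * n : ℕ) : ℂ) * a + 1 := by
      simp only [D]; push_cast; ring
    rw [this]
    exact add_mem (add_mem (pow_mem (natCast_mem _ n) 2) (mul_mem (natCast_mem _ _) hre)) (one_mem _)
  let p : ℕ → ℂ := fun n => ((n : ℂ) ^ 2 - 1) / (D n : ℝ)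
  let q : ℕ → ℂ := fun n => ((2 : ℕ) : ℂ) * ((n : ℂ) + a) / (D n : ℝ)
  have hpA : ∀ n, p n ∈ actField y ν := fun n =>
    div_mem (sub_mem (pow_mem (natCast_mem _ n) 2) (one_mem _)) (hDA n)
  have hqA : ∀ n, q n ∈ actField y ν := fun n =>
    div_mem (mul_mem (natCast_mem _ 2) (add_mem (natCast_mem _ n) hre)) (hDA n)
  have hpF : ∀ n, p n ∈ F := fun n => (mem_actField.1 (hpA n)).1
  have hqF : ∀ n, q n ∈ F := fun n => (mem_actField.1 (hqA n)).1
  let P : ℕ → F := fun n => ⟨p n, hpF n⟩
  let Q : ℕ → F := fun n => ⟨q n, hqF n⟩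
  let v : ℕ → F := fun n => P n + Q n * U
  have hvval : ∀ n, ((v n : F) : ℂ) = ((n : ℂ) + u) ^ 2 / (D n : ℝ) := by
    intro n
    have hD0 : ((D n : ℝ) : ℂ) ≠ 0 := by exact_mod_cast (hDpos n).ne'
    show p n + q n * u = _
    simp only [p, q]
    field_simp
    have : u ^ 2 = 2 * (a : ℂ) * u - 1 := by rw [sq]; exact hquad
    push_cast
    linear_combination (-1 : ℂ) * this
  have hvnorm : ∀ n, ‖((v n : F) : ℂ)‖ = 1 := by
    intro n
    rw [hvval, norm_div, norm_pow]
    have h1 : ‖(n : ℂ) + u‖ ^ 2 = D n := by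
      rw [← Complex.normSq_eq_norm_sq, normSq_apply]
      simp only [add_re, add_im, natCast_re, natCast_im, zero_add, D, ← ha]
      nlinarith [hsq]
    rw [h1, Complex.norm_real, Real.norm_of_nonneg (hDpos n).le, div_self (hDpos n).ne']
  -- determinant
  have hdet : ∀ n m : ℕ, n ≠ m → 1 ≤ n → 1 ≤ m → p n * q m - p m * q n ≠ 0 := by
    intro n m hnm hn hm
    have hDn : ((D n : ℝ) : ℂ) ≠ 0 := by exact_mod_cast (hDpos n).ne'
    have hDm : ((D m : ℝ) : ℂ) ≠ 0 := by exact_mod_cast (hDpos m).ne'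
    have e1 : p n * q m - p m * q n =
        ((2 * ((n : ℝ) - m) * (n * m + 1 + a * (n + m)) / (D n * D m) : ℝ) : ℂ) := by
      simp only [p, q]
      push_cast
      field_simp
      ring
    rw [e1]
    refine Complex.ofReal_ne_zero.2 ?_
    have hn' : (1 : ℝ) ≤ n := by exact_mod_cast hn
    have hm' : (1 : ℝ) ≤ m := by exact_mod_cast hm
    have h2 : (0 : ℝ) < n * m + 1 + a * (n + m) := by nlinarith
    have h3 : ((n : ℝ) - m) ≠ 0 := sub_ne_zero.2 (by exact_mod_cast hnm)
    exact div_ne_zero (mul_ne_zero (mul_ne_zero two_ne_zero h3) h2.ne')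
      (mul_ne_zero (hDpos n).ne' (hDpos m).ne')
  -- the two facts holding almost surely
  have hmod := ae_module y ν
  refine mem_actField.2 ⟨huF, fun x => ?_⟩
  have hsub : ∀ n, ∀ᵐ χ ∂ν, (InW y χ x ∧ InW y χ (U * x)) → InW y χ (v n * x) := by
    intro n
    filter_upwards [hmod] with χ hχ h
    have h1 := hχ (P n) (hpA n) x h.1
    have h2 := hχ (Q n) (hqA n) (U * x) h.2
    have h3 := h1.add h2
    have : P n * x + Q n * (U * x) = v n * x := by simp only [v]; ring
    rwa [this] at h3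
  have hspan : ∀ n m : ℕ, n ≠ m → 1 ≤ n → 1 ≤ m → ∀ᵐ χ ∂ν,
      (InW y χ (v n * x) ∧ InW y χ (v m * x)) → (InW y χ x ∧ InW y χ (U * x)) := by
    intro n m hnm hn hm
    have hd := hdet n m hnm hn hm
    set d : ℂ := p n * q m - p m * q n with hddef
    have hdA : d ∈ actField y ν := sub_mem (mul_mem (hpA n) (hqA m)) (mul_mem (hpA m) (hqA n))
    have mkmem : ∀ c : ℂ, c ∈ actField y ν → c ∈ F := fun c hc => (mem_actField.1 hc).1
    have c1 : q m / d ∈ actField y ν := div_mem (hqA m) hdA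
    have c2 : q n / d ∈ actField y ν := div_mem (hqA n) hdA
    have c3 : p m / d ∈ actField y ν := div_mem (hpA m) hdA
    have c4 : p n / d ∈ actField y ν := div_mem (hpA n) hdA
    let C1 : F := ⟨_, mkmem _ c1⟩
    let C2 : F := ⟨_, mkmem _ c2⟩
    let C3 : F := ⟨_, mkmem _ c3⟩
    let C4 : F := ⟨_, mkmem _ c4⟩
    filter_upwards [hmod] with χ hχ h
    have r1 := (hχ C1 c1 _ h.1).sub (hχ C2 c2 _ h.2)
    have r2 := (hχ C4 c4 _ h.2).sub (hχ C3 c3 _ h.1)
    constructor
    · have : C1 * (v n * x) - C2 * (v m * x) = x := by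
        have hc : C1 * v n - C2 * v m = 1 := by
          apply Subtype.ext
          show q m / d * (p n + q n * u) - q n / d * (p m + q m * u) = 1
          field_simp
          rw [hddef]; ring
        calc C1 * (v n * x) - C2 * (v m * x) = (C1 * v n - C2 * v m) * x := by ring
          _ = x := by rw [hc, one_mul]
      rwa [this] at r1
    · have : C4 * (v m * x) - C3 * (v n * x) = U * x := by
        have hc : C4 * v m - C3 * v n = U := by
          apply Subtype.ext
          show p n / d * (p m + q m * u) - p m / d * (p n + q n * u) = u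
          field_simp
          rw [hddef]; ring
        calc C4 * (v m * x) - C3 * (v n * x) = (C4 * v m - C3 * v n) * x := by ring
          _ = U * x := by rw [hc]
      rwa [this] at r2
  -- the events
  let G : Set (Dual F) := {χ | InW y χ x ∧ InW y χ (U * x)}
  have hG : MeasurableSet G := (measurableSet_inW x).inter (measurableSet_inW (U * x))
  let W : ℕ → Set (Dual F) := fun n => {χ | InW y χ (v (n + 1) * x)}
  have hW : ∀ n, MeasurableSet (W n) := fun n => measurableSet_inW _
  have hWν : ∀ n, ν (W n) = ν {χ | InW y χ x} := by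
    intro n
    have := rotInv_ae (P := fun χ => InW y χ x) hν (hvnorm (n + 1)) (measurableSet_inW x)
    rw [← this]
    congr 1
    ext χ
    exact inW_rot.symm
  have hGW : ∀ n, G ≤ᵐ[ν] W n := fun n => hsub (n + 1)
  have hEν : ∀ n, ν (W n \ G) = ν {χ | InW y χ x} - ν G := by
    intro n
    have h1 : ν (W n \ G) = ν (W n \ (G ∩ W n)) := by
      congr 1; ext χ; simp only [Set.mem_sdiff, Set.mem_inter_iff]; tauto
    have h2 : ν (G ∩ W n) = ν G := by
      apply measure_congr
      filter_upwards [hGW n] with χ hχ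
      apply propext
      exact ⟨fun h => h.1, fun h => ⟨h, hχ h⟩⟩
    rw [h1, measure_sdiff Set.inter_subset_right (hG.inter (hW n)).nullMeasurableSet
      (measure_ne_top _ _), h2, hWν]
  have hdisj : Pairwise (Function.onFun (AEDisjoint ν) (fun n => W n \ G)) := by
    intro n m hnm
    show ν ((W n \ G) ∩ (W m \ G)) = 0
    have h := hspan (n + 1) (m + 1) (by omega) (by omega) (by omega)
    rw [← nonpos_iff_eq_zero, ← (show ν ∅ = 0 from measure_empty)]
    apply measure_mono_ae
    filter_upwards [h] with χ hχ h'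
    exact absurd (hχ ⟨h'.1.1, h'.2.1⟩) h'.1.2
  have hzero : ν {χ | InW y χ x} - ν G = 0 := by
    by_contra hne
    have h1 := measure_iUnion₀ hdisj (fun n => ((hW n).diff hG).nullMeasurableSet)
    have h2 : ∑' n, ν (W n \ G) = ⊤ := by
      simp_rw [hEν]
      exact ENNReal.tsum_const_eq_top_of_ne_zero hne
    rw [h2] at h1
    exact measure_ne_top ν _ h1
  have hfin : ν ({χ | InW y χ x} \ G) = 0 := by
    have hGsub : G ⊆ {χ | InW y χ x} := fun χ h => h.1
    rw [measure_sdiff hGsub hG.nullMeasurableSet (measure_ne_top _ _), hzero]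
  have := measure_eq_zero_iff_ae_notMem.1 hfin
  filter_upwards [this] with χ hχ h
  by_contra hc
  exact hχ ⟨h, fun h' => hc h'.2⟩

/-- **B1**: almost surely `W_χ` is stable under all of `F`. -/
theorem ae_full (hν : RotInv ν) :
    ∀ᵐ χ ∂ν, ∀ a x : F, InW y χ x → InW y χ (a * x) := by
  have hall : ∀ z ∈ F, z ∈ actField y ν := fun z hz =>
    F_le_of_unit (A := actField y ν)
      (mem_actField.2 (acts_E ⟨⟨0, by simp⟩, 1, by simp⟩))
      (fun u huF hu1 hre => unit_acts hν u huF hu1 hre) z hz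
  filter_upwards [ae_module y ν] with χ hχ a x hx
  exact hχ a (hall _ a.2) x hx

end B1

end Crest.Agent.R40.T1B
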