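import Crest.Agent.R40.T1Defs

/-!
# R40 / T1 : the constructible field `K ⊂ ℝ` and `F = K(i) ⊂ ℂ`
-/

namespace Crest.Agent.R40.T1B

open Complex Crest.Agent.R40.T1

lemma sqrt_mem_K' {r : ℝ} (hr : r ∈ K) : Real.sqrt r ∈ K := by
  rcases le_or_gt 0 r with h0 | h0
  · exact sqrt_mem_K hr h0
  · rw [Real.sqrt_eq_zero_of_nonpos h0.le]; exact zero_mem _

lemma K_countable : (K : Set ℝ).Countable :=
  (Algebraic.countable ℚ ℝ).mono fun _ hr => K_algebraic hr

lemma I_mem_F : I ∈ F := ⟨by simp [zero_mem], by simp [one_mem]⟩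

lemma ofReal_mem_F {r : ℝ} : (r : ℂ) ∈ F ↔ r ∈ K := by
  simp [mem_F, zero_mem]

lemma conj_mem_F {z : ℂ} (hz : z ∈ F) : (starRingEnd ℂ) z ∈ F :=
  ⟨by simpa using hz.1, by simpa using neg_mem hz.2⟩

lemma normSq_mem_K {z : ℂ} (hz : z ∈ F) : normSq z ∈ K := by
  rw [normSq_apply]; exact add_mem (mul_mem hz.1 hz.1) (mul_mem hz.2 hz.2)

lemma norm_mem_K {z : ℂ} (hz : z ∈ F) : ‖z‖ ∈ K := by
  rw [Complex.norm_def]; exact sqrt_mem_K' (normSq_mem_K hz)

lemma F_countable : (F : Set ℂ).Countable := by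
  have h : ((fun p : ℝ × ℝ => (⟨p.1, p.2⟩ : ℂ)) '' ((K : Set ℝ) ×ˢ (K : Set ℝ))).Countable :=
    (K_countable.prod K_countable).image _
  refine h.mono ?_
  intro z hz
  exact ⟨(z.re, z.im), ⟨hz.1, hz.2⟩, rfl⟩

instance : Countable F := F_countable.to_subtype

lemma F_algebraic {z : ℂ} (hz : z ∈ F) : IsAlgebraic ℚ z := by
  have h1 : IsAlgebraic ℚ ((z.re : ℝ) : ℂ) := (K_algebraic hz.1).algebraMap
  have h2 : IsAlgebraic ℚ ((z.im : ℝ) : ℂ) := (K_algebraic hz.2).algebraMap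
  have hI : IsAlgebraic ℚ I := by
    refine ⟨Polynomial.X ^ 2 + 1, ?_, ?_⟩
    · intro h
      have := congrArg (Polynomial.eval 0) h
      simp at this
    · simp
  have := h1.add (h2.mul hI)
  rwa [re_add_im] at this

/-- The isosceles lemma: a vector of length at most `2` is a sum of two unit vectors of `F`. -/
lemma exists_unit_add_unit {w : ℂ} (hw : w ∈ F) (hw2 : ‖w‖ ≤ 2) :
    ∃ u ∈ F, ∃ v ∈ F, ‖u‖ = 1 ∧ ‖v‖ = 1 ∧ w = u + v := by
  rcases eq_or_ne w 0 with rfl | h0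
  · exact ⟨1, one_mem _, -1, neg_mem (one_mem _), by simp, by simp, by ring⟩
  have hn0 : 0 < ‖w‖ := norm_pos_iff.2 h0
  set n : ℝ := ‖w‖ with hn
  have hnK : n ∈ K := norm_mem_K hw
  set s : ℝ := Real.sqrt (1 - n ^ 2 / 4) with hs
  have h4 : (4 : ℝ) ∈ K := by
    have := natCast_mem K 4
    simp
  have h2 : (2 : ℂ) ∈ F := by
    have := natCast_mem F 2
    simp
  have hsK : s ∈ K := sqrt_mem_K' (sub_mem (one_mem _) (div_mem (pow_mem hnK 2) h4))
  have hs2 : s ^ 2 = 1 - n ^ 2 / 4 := by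
    rw [hs]; apply Real.sq_sqrt; nlinarith
  have hcF : (s / n : ℝ) * I ∈ F := mul_mem (ofReal_mem_F.2 (div_mem hsK hnK)) I_mem_F
  have key : ∀ ε : ℝ, ε ^ 2 = 1 → ‖w / 2 + ε * ((s / n : ℝ) * I) * w‖ = 1 := by
    intro ε hε
    have e1 : w / 2 + ε * ((s / n : ℝ) * I) * w = w * ((1 / 2 : ℝ) + ((ε * (s / n) : ℝ)) * I) := by
      push_cast; ring
    rw [e1, norm_mul, ← hn]
    have e2 : ‖((1 / 2 : ℝ) : ℂ) + ((ε * (s / n) : ℝ) : ℂ) * I‖ = 1 / n := by
      rw [Complex.norm_def, normSq_apply]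
      have e3 : ((((1 / 2 : ℝ) : ℂ) + ((ε * (s / n) : ℝ) : ℂ) * I)).re = 1 / 2 := by simp
      have e4 : ((((1 / 2 : ℝ) : ℂ) + ((ε * (s / n) : ℝ) : ℂ) * I)).im = ε * (s / n) := by simp
      rw [e3, e4]
      have e5 : (1 / 2 : ℝ) * (1 / 2) + ε * (s / n) * (ε * (s / n)) = (1 / n) ^ 2 := by
        have : ε * (s / n) * (ε * (s / n)) = ε ^ 2 * s ^ 2 / n ^ 2 := by
          field_simp
        rw [this, hε, hs2]
        field_simp
        ring
      rw [e5, Real.sqrt_sq (by positivity)]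
    rw [e2]; field_simp
  refine ⟨w / 2 + (1 : ℝ) * ((s / n : ℝ) * I) * w, ?_, w / 2 + (-1 : ℝ) * ((s / n : ℝ) * I) * w, ?_,
    key 1 (by norm_num), key (-1) (by norm_num), ?_⟩
  · exact add_mem (div_mem hw h2) (mul_mem (mul_mem (by simpa using one_mem F) hcF) hw)
  · refine add_mem (div_mem hw h2) (mul_mem (mul_mem ?_ hcF) hw)
    simpa using neg_mem (one_mem F)
  · push_cast; ring

/-- `exists_unit_add_unit` in scaled form. -/
lemma exists_unit_comb {y z : ℂ} (hy : y ∈ F) (hz : z ∈ F) (hy0 : y ≠ 0) (hzy : ‖z‖ ≤ 2 * ‖y‖) :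
    ∃ u ∈ F, ∃ v ∈ F, ‖u‖ = 1 ∧ ‖v‖ = 1 ∧ z = u * y + v * y := by
  obtain ⟨u, hu, v, hv, hu1, hv1, h⟩ := exists_unit_add_unit (w := z / y) (div_mem hz hy) (by
    rw [norm_div, div_le_iff₀ (norm_pos_iff.2 hy0)]; exact hzy)
  refine ⟨u, hu, v, hv, hu1, hv1, ?_⟩
  rw [← add_mul, ← h, div_mul_cancel₀ _ hy0]

/-- A subfield of `ℂ` (given by its membership predicate) containing `i` and all `u ∈ F` of modulus
one whose real part it contains contains all of `F`. -/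
lemma F_le_of_unit {A : Subfield ℂ} (hI : I ∈ A)
    (hu : ∀ u ∈ F, ‖u‖ = 1 → ((u.re : ℝ) : ℂ) ∈ A → u ∈ A) (z : ℂ) (hz : z ∈ F) : z ∈ A := by
  have hK : K ≤ (A ⊓ F).comap (Complex.ofRealHom) := by
    refine K_le ?_
    intro r hr h0
    rw [Subfield.mem_comap] at hr ⊢
    have hrA : ((r : ℝ) : ℂ) ∈ A := hr.1
    have hrF : ((r : ℝ) : ℂ) ∈ F := hr.2
    have hrK : r ∈ K := ofReal_mem_F.1 hrF
    have hsK : Real.sqrt r ∈ K := sqrt_mem_K' hrK
    have h1r : (0 : ℝ) < 1 + r := by linarith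
    have h1rK : (1 + r : ℝ) ∈ K := add_mem (one_mem _) hrK
    have h2K : (2 : ℝ) ∈ K := by simpa using natCast_mem K 2
    set u : ℂ := ⟨(1 - r) / (1 + r), 2 * Real.sqrt r / (1 + r)⟩ with hudef
    have huF : u ∈ F := ⟨div_mem (sub_mem (one_mem _) hrK) h1rK, div_mem (mul_mem h2K hsK) h1rK⟩
    have hu1 : ‖u‖ = 1 := by
      rw [Complex.norm_def, normSq_apply, hudef]
      simp only
      have : (1 - r) / (1 + r) * ((1 - r) / (1 + r)) +
          2 * Real.sqrt r / (1 + r) * (2 * Real.sqrt r / (1 + r)) = 1 := by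
        have hs : Real.sqrt r * Real.sqrt r = r := Real.mul_self_sqrt h0
        field_simp
        nlinarith [hs]
      rw [this, Real.sqrt_one]
    have hre : ((u.re : ℝ) : ℂ) ∈ A := by
      have : ((u.re : ℝ) : ℂ) = (1 - (r : ℂ)) / (1 + (r : ℂ)) := by
        rw [hudef]; push_cast; rfl
      rw [this]
      exact div_mem (sub_mem (one_mem _) hrA) (add_mem (one_mem _) hrA)
    have huA := hu u huF hu1 hre
    have him : ((Real.sqrt r : ℝ) : ℂ) = (u - (u.re : ℝ)) / I * (1 + (r : ℂ)) / 2 := by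
      have e1 : u - (u.re : ℝ) = ((u.im : ℝ) : ℂ) * I := by
        nth_rewrite 1 [← re_add_im u]; ring
      rw [e1, mul_div_cancel_right₀ _ I_ne_zero]
      have : u.im = 2 * Real.sqrt r / (1 + r) := rfl
      rw [this]
      have h1r' : (1 + (r : ℂ)) ≠ 0 := by
        intro h
        have := congrArg Complex.re h
        simp at this
        linarith
      push_cast
      field_simp
    refine ⟨?_, ofReal_mem_F.2 hsK⟩
    show ((Real.sqrt r : ℝ) : ℂ) ∈ A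
    rw [him]
    have h2A : (2 : ℂ) ∈ A := by simpa using natCast_mem A 2
    exact div_mem (mul_mem (div_mem (sub_mem huA hre) hI) (add_mem (one_mem _) hrA)) h2A
  have h1 := hK hz.1
  have h2 := hK hz.2
  rw [Subfield.mem_comap] at h1 h2
  have := add_mem h1.1 (mul_mem h2.1 hI)
  have e : Complex.ofRealHom z.re + Complex.ofRealHom z.im * I = z := re_add_im z
  rwa [e] at this

end Crest.Agent.R40.T1B
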