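import Mathlib

/-!
# R40 / T1: almost invariant vectors on abelian groups (Reiter's property), elementary
-/

set_option autoImplicit false

open Filter Topology

namespace Crest.Agent.R40.T1

structure FinProb {A : Type*} (α : A → ℝ) : Prop where
  nonneg : ∀ a, 0 ≤ α a
  fin : (Function.support α).Finite
  sum_eq : ∑' a, α a = 1

theorem summable_of_fin {A : Type*} {α : A → ℝ} (h : (Function.support α).Finite) :
    Summable α := summable_of_hasFiniteSupport h

theorem fin_shift {A : Type*} [AddCommGroup A] {α : A → ℝ} (h : (Function.support α).Finite)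
    (x : A) : (Function.support fun b => α (b + x)).Finite := by
  have : (Function.support fun b => α (b + x)) = (fun b => b + x) ⁻¹' (Function.support α) := by
    ext b; simp
  rw [this]
  exact h.preimage (add_left_injective x).injOn

theorem tsum_shift {A : Type*} [AddCommGroup A] (f : A → ℝ) (x : A) :
    ∑' b, f (b + x) = ∑' b, f b := (Equiv.addRight x).tsum_eq f

theorem reiter {A : Type*} [AddCommGroup A] (S : Finset A) {ε : ℝ} (hε : 0 < ε) :
    ∃ α : A → ℝ, FinProb α ∧ ∀ x ∈ S, ∑' b, |α (b + x) - α b| ≤ ε := by
  classical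
  induction S using Finset.induction_on with
  | empty =>
    refine ⟨Pi.single 0 1, ⟨?_, ?_, ?_⟩, by simp⟩
    · intro a
      by_cases h : a = 0
      · subst h; simp
      · simp [Pi.single_apply, h]
    · exact (Set.finite_singleton 0).subset Pi.support_single_subset
    · exact tsum_pi_single 0 1
  | insert a S _ ih =>
    obtain ⟨α, hα, hS⟩ := ih
    obtain ⟨N, hN⟩ := exists_nat_gt (2 / ε)
    have hN1 : (0 : ℝ) < (N : ℝ) + 1 := by positivity
    have hN2 : 2 / ((N : ℝ) + 1) ≤ ε := by
      rw [div_le_iff₀ hN1]
      rw [div_lt_iff₀ hε] at hN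
      nlinarith
    have hfinj : ∀ j : ℕ, (Function.support fun b => α (b + j • a)).Finite :=
      fun j => fin_shift hα.fin _
    have hfin' : (Function.support fun b =>
        (∑ j ∈ Finset.range (N + 1), α (b + j • a)) / ((N : ℝ) + 1)).Finite := by
      refine (Set.Finite.biUnion (Finset.range (N + 1)).finite_toSet
        (fun j _ => hfinj j)).subset ?_
      intro b hb
      rw [Function.mem_support] at hb
      have : (∑ j ∈ Finset.range (N + 1), α (b + j • a)) ≠ 0 := by
        intro h; rw [h] at hb; simp at hb
      obtain ⟨j, hj, hj'⟩ := Finset.exists_ne_zero_of_sum_ne_zero this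
      exact Set.mem_biUnion hj hj'
    refine ⟨fun b => (∑ j ∈ Finset.range (N + 1), α (b + j • a)) / ((N : ℝ) + 1),
      ⟨?_, hfin', ?_⟩, ?_⟩
    · intro b
      exact div_nonneg (Finset.sum_nonneg fun j _ => hα.nonneg _) hN1.le
    · rw [tsum_div_const, Summable.tsum_finsetSum fun j _ => summable_of_fin (hfinj j)]
      simp only [tsum_shift α, hα.sum_eq, Finset.sum_const, Finset.card_range, nsmul_eq_mul,
        mul_one]
      push_cast
      exact div_self hN1.ne'
    · intro x hx
      have hdiffin : ∀ (y : A) (j : ℕ), (Function.support fun b =>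
          |α (b + j • a + y) - α (b + j • a)|).Finite := by
        intro y j
        refine ((fin_shift hα.fin (j • a + y)).union (hfinj j)).subset ?_
        intro b hb
        rw [Function.mem_support] at hb
        by_contra h
        simp only [Set.mem_union, Function.mem_support, not_or, not_not] at h
        apply hb
        rw [add_assoc, h.1, h.2]; simp
      rw [Finset.mem_insert] at hx
      rcases hx with rfl | hx
      · have key : ∀ b, (∑ j ∈ Finset.range (N + 1), α (b + x + j • x)) / ((N : ℝ) + 1)
            - (∑ j ∈ Finset.range (N + 1), α (b + j • x)) / ((N : ℝ) + 1)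
            = (α (b + (N + 1) • x) - α b) / ((N : ℝ) + 1) := by
          intro b
          rw [← sub_div]
          congr 1
          rw [← Finset.sum_sub_distrib]
          have h1 : ∀ j : ℕ, α (b + x + j • x) = α (b + (j + 1) • x) := by
            intro j
            congr 1
            rw [add_smul, one_smul]; abel
          simp only [h1]
          rw [Finset.sum_range_sub (fun j => α (b + j • x))]
          simp
        simp only [key, abs_div, abs_of_pos hN1]
        rw [tsum_div_const]
        refine le_trans ?_ hN2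
        apply div_le_div_of_nonneg_right _ hN1.le
        have hs1 : Summable fun b => |α (b + (N + 1) • x)| :=
          (summable_of_fin (fin_shift hα.fin ((N + 1) • x))).abs
        have hs2 : Summable fun b => |α b| := (summable_of_fin hα.fin).abs
        have hs3 : Summable fun b => |α (b + (N + 1) • x) - α b| :=
          ((summable_of_fin (fin_shift hα.fin ((N + 1) • x))).sub (summable_of_fin hα.fin)).abs
        calc ∑' b, |α (b + (N + 1) • x) - α b|
            ≤ ∑' b, (|α (b + (N + 1) • x)| + |α b|) :=
              hs3.tsum_le_tsum (fun b => abs_sub _ _) (hs1.add hs2)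
          _ = ∑' b, |α (b + (N + 1) • x)| + ∑' b, |α b| := hs1.tsum_add hs2
          _ = 2 := by
              have h3 : ∀ b, |α b| = α b := fun b => abs_of_nonneg (hα.nonneg b)
              simp only [h3]
              rw [tsum_shift α, hα.sum_eq]; norm_num
      · have hs : ∀ j : ℕ, Summable fun b => |α (b + j • a + x) - α (b + j • a)| :=
          fun j => summable_of_fin (hdiffin x j)
        have hs' : Summable fun b => (∑ j ∈ Finset.range (N + 1),
            |α (b + j • a + x) - α (b + j • a)|) / ((N : ℝ) + 1) :=
          (summable_sum fun j _ => hs j).div_const _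
        have hle : ∀ b, |(∑ j ∈ Finset.range (N + 1), α (b + x + j • a)) / ((N : ℝ) + 1)
            - (∑ j ∈ Finset.range (N + 1), α (b + j • a)) / ((N : ℝ) + 1)|
            ≤ (∑ j ∈ Finset.range (N + 1),
            |α (b + j • a + x) - α (b + j • a)|) / ((N : ℝ) + 1) := by
          intro b
          rw [← sub_div, abs_div, abs_of_pos hN1, ← Finset.sum_sub_distrib]
          apply div_le_div_of_nonneg_right _ hN1.le
          refine (Finset.abs_sum_le_sum_abs _ _).trans (le_of_eq ?_)
          refine Finset.sum_congr rfl fun j _ => ?_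
          rw [add_right_comm]
        have hs0 : Summable fun b => |(∑ j ∈ Finset.range (N + 1), α (b + x + j • a)) / ((N : ℝ) + 1)
            - (∑ j ∈ Finset.range (N + 1), α (b + j • a)) / ((N : ℝ) + 1)| :=
          Summable.of_nonneg_of_le (fun b => abs_nonneg _) hle hs'
        refine (hs0.tsum_le_tsum hle hs').trans ?_
        rw [tsum_div_const, Summable.tsum_finsetSum fun j _ => hs j, div_le_iff₀ hN1]
        have h1 : ∀ j ∈ Finset.range (N + 1),
            ∑' b, |α (b + j • a + x) - α (b + j • a)| ≤ ε := by
          intro j _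
          have := tsum_shift (fun b => |α (b + x) - α b|) (j • a)
          rw [this]
          exact hS x hx
        refine (Finset.sum_le_sum h1).trans ?_
        simp only [Finset.sum_const, Finset.card_range, nsmul_eq_mul]
        push_cast
        linarith

theorem sqrt_sub_sq_le {u v : ℝ} (hu : 0 ≤ u) (hv : 0 ≤ v) : (√u - √v) ^ 2 ≤ |u - v| := by
  have h1 : u - v = (√u - √v) * (√u + √v) := by
    nlinarith [Real.mul_self_sqrt hu, Real.mul_self_sqrt hv]
  rw [h1, abs_mul, abs_of_nonneg (by positivity : 0 ≤ √u + √v), ← sq_abs, sq]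
  apply mul_le_mul_of_nonneg_left _ (abs_nonneg _)
  rw [abs_le]
  constructor <;> linarith [Real.sqrt_nonneg u, Real.sqrt_nonneg v]

/-- almost invariant unit vectors -/
theorem folner {A : Type*} [AddCommGroup A] (S : Finset A) {ε : ℝ} (hε : 0 < ε) :
    ∃ (B : Finset A) (β : A → ℝ), (∀ b, b ∉ B → β b = 0) ∧ ∑ b ∈ B, β b * β b = 1 ∧
      ∀ x ∈ S, |∑ b ∈ B, β b * β (b + x) - 1| ≤ ε := by
  classical
  obtain ⟨α, hα, hS⟩ := reiter S hε
  have hB : ∀ b, b ∉ hα.fin.toFinset → √(α b) = 0 := by
    intro b hb
    simp only [Set.Finite.mem_toFinset, Function.mem_support, not_not] at hb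
    rw [hb, Real.sqrt_zero]
  have hB' : ∀ b, b ∉ hα.fin.toFinset → α b = 0 := by
    intro b hb
    simpa only [Set.Finite.mem_toFinset, Function.mem_support, not_not] using hb
  have hsq : ∀ b, √(α b) * √(α b) = α b := fun b => Real.mul_self_sqrt (hα.nonneg b)
  have hsum : ∑ b ∈ hα.fin.toFinset, √(α b) * √(α b) = 1 := by
    simp only [hsq]
    rw [← hα.sum_eq, tsum_eq_sum hB']
  refine ⟨hα.fin.toFinset, fun b => √(α b), hB, hsum, ?_⟩
  intro x hx
  have hs1 : Summable fun b => √(α b) * √(α (b + x)) := by
    refine summable_of_fin (hα.fin.subset ?_)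
    intro b hb
    rw [Function.mem_support] at hb ⊢
    intro h; apply hb; rw [h]; simp
  have h1 : ∑ b ∈ hα.fin.toFinset, √(α b) * √(α (b + x)) = ∑' b, √(α b) * √(α (b + x)) := by
    rw [tsum_eq_sum]
    intro b hb
    rw [hB b hb, zero_mul]
  have hsα : Summable α := summable_of_fin hα.fin
  have hsα' : Summable fun b => α (b + x) := summable_of_fin (fin_shift hα.fin x)
  have h2 : ∑' b, (√(α (b + x)) - √(α b)) ^ 2 = 2 - 2 * ∑' b, √(α b) * √(α (b + x)) := by
    have : ∀ b, (√(α (b + x)) - √(α b)) ^ 2
        = (α (b + x) + α b) - 2 * (√(α b) * √(α (b + x))) := by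
      intro b
      nlinarith [hsq b, hsq (b + x)]
    simp only [this]
    rw [Summable.tsum_sub (hsα'.add hsα) (hs1.mul_left 2), hsα'.tsum_add hsα, tsum_mul_left,
      tsum_shift α, hα.sum_eq]
    norm_num
  have h3 : ∑' b, (√(α (b + x)) - √(α b)) ^ 2 ≤ ∑' b, |α (b + x) - α b| := by
    have hs3 : Summable fun b => |α (b + x) - α b| := (hsα'.sub hsα).abs
    have hs4 : Summable fun b => (√(α (b + x)) - √(α b)) ^ 2 :=
      Summable.of_nonneg_of_le (fun b => sq_nonneg _)
        (fun b => sqrt_sub_sq_le (hα.nonneg _) (hα.nonneg _)) hs3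
    exact hs4.tsum_le_tsum (fun b => sqrt_sub_sq_le (hα.nonneg _) (hα.nonneg _)) hs3
  have h4 : 0 ≤ ∑' b, (√(α (b + x)) - √(α b)) ^ 2 := tsum_nonneg fun b => sq_nonneg _
  have h5 := hS x hx
  simp only [h1]
  rw [abs_le]
  constructor <;> linarith

end Crest.Agent.R40.T1
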