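import Mathlib
import Crest.Agent.R40.T1Defs
import Crest.Agent.R40.T1Mean
import Crest.Agent.R40.T1Inv
import Crest.Agent.R40.T1Folner

/-!
# R40 / T1 (M2): Bochner's theorem on countable discrete abelian groups
-/

set_option autoImplicit false

open Filter Topology MeasureTheory
open scoped ComplexConjugate

namespace Crest.Agent.R40.T1

theorem IsMean.sum {X ι : Type*} {m : (X → ℝ) → ℝ} (hm : IsMean m) (s : Finset ι)
    (f : ι → X → ℝ) (hf : ∀ i, Bdd (f i)) :
    m (fun x => ∑ i ∈ s, f i x) = ∑ i ∈ s, m (f i) ∧ Bdd (fun x => ∑ i ∈ s, f i x) := by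
  classical
  induction s using Finset.induction_on with
  | empty => simp only [Finset.sum_empty]; exact ⟨hm.const 0, Bdd.const 0⟩
  | insert a s ha ih =>
    simp only [Finset.sum_insert ha]
    exact ⟨by rw [hm.add _ _ (hf a) ih.2, ih.1], (hf a).add ih.2⟩

theorem dual_norm {A : Type*} [AddCommGroup A] (χ : Dual A) (x : A) : ‖(χ x : ℂ)‖ = 1 :=
  Circle.norm_coe _

theorem bdd_char {A : Type*} [AddCommGroup A] (x : A) (z : ℂ) :
    Bdd (fun χ : Dual A => (z * (χ x : ℂ)).re) := by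
  refine ⟨‖z‖, fun χ => ?_⟩
  refine (Complex.abs_re_le_norm _).trans ?_
  rw [norm_mul, dual_norm, mul_one]

/-- invariant mean on the dual: replaces Haar measure -/
theorem exists_dual_mean (A : Type*) [AddCommGroup A] [DecidableEq A]
    (hsep : ∀ x : A, x ≠ 0 → ∃ χ : Dual A, χ x ≠ 1) :
    ∃ m : (Dual A → ℝ) → ℝ, IsMean m ∧ ∀ (x : A) (z : ℂ),
      m (fun χ => (z * (χ x : ℂ)).re) = if x = 0 then z.re else 0 := by
  obtain ⟨m', hm', hinv⟩ := exists_mean (Additive (Dual A))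
  refine ⟨fun f => m' (fun χ => f χ.toMul),
    ⟨fun f g hf hg => hm'.add _ _ (hf.comp _) (hg.comp _), fun c f hf => hm'.smul c _ (hf.comp _),
      fun f hf h0 => hm'.nonneg _ (hf.comp _) fun x => h0 _, hm'.one⟩, ?_⟩
  have hb : ∀ (x : A) (z : ℂ), Bdd (fun χ : Additive (Dual A) => (z * ((χ.toMul) x : ℂ)).re) :=
    fun x z => (bdd_char x z).comp _
  intro x z
  by_cases hx : x = 0
  · subst hx
    simp only [AddChar.map_zero_eq_one, Circle.coe_one, mul_one]
    rw [if_pos trivial]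
    exact hm'.const _
  · rw [if_neg hx]
    obtain ⟨χ₀, hχ₀⟩ := hsep x hx
    -- invariance
    have h1 : ∀ w : ℂ, m' (fun χ => (w * (χ₀ x : ℂ) * ((χ.toMul) x : ℂ)).re)
        = m' (fun χ => (w * ((χ.toMul) x : ℂ)).re) := by
      intro w
      rw [← hinv (Additive.ofMul χ₀) _ (hb x w)]
      congr 1; funext χ
      simp only [toMul_add, toMul_ofMul, AddChar.mul_apply, Circle.coe_mul]
      congr 1; ring
    have h2 : ∀ w : ℂ, m' (fun χ => (w * (1 - (χ₀ x : ℂ)) * ((χ.toMul) x : ℂ)).re) = 0 := by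
      intro w
      have h3 := hm'.add _ _ (hb x w) (((hb x (w * (χ₀ x : ℂ)))).smul (-1))
      rw [hm'.smul (-1) _ (hb x (w * (χ₀ x : ℂ))), h1 w] at h3
      have h4 : (fun χ : Additive (Dual A) => (w * (1 - (χ₀ x : ℂ)) * ((χ.toMul) x : ℂ)).re)
          = fun χ => (w * ((χ.toMul) x : ℂ)).re + -1 * (w * (χ₀ x : ℂ) * ((χ.toMul) x : ℂ)).re := by
        funext χ
        have : w * (1 - (χ₀ x : ℂ)) * ((χ.toMul) x : ℂ)
            = w * ((χ.toMul) x : ℂ) - w * (χ₀ x : ℂ) * ((χ.toMul) x : ℂ) := by ring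
        rw [this, Complex.sub_re]; ring
      rw [h4, h3]; ring
    have hne : (1 : ℂ) - (χ₀ x : ℂ) ≠ 0 := by
      intro h
      apply hχ₀
      apply Circle.ext
      rw [Circle.coe_one]
      exact (sub_eq_zero.1 h).symm
    have h5 := h2 (z / (1 - (χ₀ x : ℂ)))
    rwa [div_mul_cancel₀ _ hne] at h5

/-- positive definite real function -/
def PosDef {A : Type*} [AddCommGroup A] (ψ : A → ℝ) : Prop :=
  ∀ (B : Finset A) (c : A → ℂ),
    0 ≤ (∑ b ∈ B, ∑ b' ∈ B, c b * conj (c b') * (ψ (b - b') : ℂ)).re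

/-- Fejer type density -/
noncomputable def hfun {A : Type*} [AddCommGroup A] (ψ : A → ℝ) (B : Finset A) (β : A → ℝ)
    (χ : Dual A) : ℝ :=
  ∑ b ∈ B, ∑ b' ∈ B, (β b * β b' * ψ (b - b')) * ((χ (b - b') : ℂ)).re

theorem char_sub_coe {A : Type*} [AddCommGroup A] (χ : Dual A) (x y : A) :
    (χ (x - y) : ℂ) = (χ x : ℂ) * conj (χ y : ℂ) := by
  rw [AddChar.map_sub_eq_div, Circle.coe_div, div_eq_mul_inv, ← Circle.coe_inv,
    Circle.coe_inv_eq_conj]

theorem char_add_coe {A : Type*} [AddCommGroup A] (χ : Dual A) (x y : A) :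
    (χ (x + y) : ℂ) = (χ x : ℂ) * (χ y : ℂ) := by
  rw [AddChar.map_add_eq_mul, Circle.coe_mul]

theorem hfun_nonneg {A : Type*} [AddCommGroup A] {ψ : A → ℝ} (hpd : PosDef ψ) (B : Finset A)
    (β : A → ℝ) (χ : Dual A) : 0 ≤ hfun ψ B β χ := by
  have h := hpd B (fun b => (β b : ℂ) * (χ b : ℂ))
  rw [Complex.re_sum] at h
  unfold hfun
  refine h.trans (le_of_eq ?_)
  refine Finset.sum_congr rfl fun b _ => ?_
  rw [Complex.re_sum]
  refine Finset.sum_congr rfl fun b' _ => ?_
  rw [map_mul, Complex.conj_ofReal]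
  have : (β b : ℂ) * (χ b : ℂ) * ((β b' : ℂ) * conj (χ b' : ℂ)) * (ψ (b - b') : ℂ)
      = ((β b * β b' * ψ (b - b') : ℝ) : ℂ) * ((χ b : ℂ) * conj (χ b' : ℂ)) := by
    push_cast; ring
  rw [this, ← char_sub_coe, Complex.re_ofReal_mul]

theorem bdd_hfun {A : Type*} [AddCommGroup A] (ψ : A → ℝ) (B : Finset A)
    (β : A → ℝ) : Bdd (hfun ψ B β) := by
  refine ⟨∑ b ∈ B, ∑ b' ∈ B, |β b * β b' * ψ (b - b')|, fun χ => ?_⟩
  unfold hfun
  refine (Finset.abs_sum_le_sum_abs _ _).trans (Finset.sum_le_sum fun b _ => ?_)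
  refine (Finset.abs_sum_le_sum_abs _ _).trans (Finset.sum_le_sum fun b' _ => ?_)
  rw [abs_mul]
  have : |((χ (b - b') : ℂ)).re| ≤ 1 := (Complex.abs_re_le_norm _).trans (dual_norm _ _).le
  exact mul_le_of_le_one_right (abs_nonneg _) this

theorem Bdd.mul {X : Type*} {f g : X → ℝ} (hf : Bdd f) (hg : Bdd g) : Bdd (fun x => f x * g x) := by
  obtain ⟨C, hC⟩ := hf
  obtain ⟨D, hD⟩ := hg
  refine ⟨C * D, fun x => ?_⟩
  rw [abs_mul]
  exact mul_le_mul (hC x) (hD x) (abs_nonneg _) ((abs_nonneg _).trans (hC x))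

theorem mean_hfun {A : Type*} [AddCommGroup A] {m : (Dual A → ℝ) → ℝ} (hm : IsMean m)
    [DecidableEq A]
    (horth : ∀ (x : A) (z : ℂ), m (fun χ => (z * (χ x : ℂ)).re) = if x = 0 then z.re else 0)
    (ψ : A → ℝ) (B : Finset A) (β : A → ℝ) (hβ : ∀ b, b ∉ B → β b = 0) (x : A) (z : ℂ) :
    m (fun χ => (z * (χ x : ℂ)).re * hfun ψ B β χ)
      = z.re / 2 * (ψ x * ∑ b ∈ B, β b * β (b + -x) + ψ (-x) * ∑ b ∈ B, β b * β (b + x)) := by
  have hterm : ∀ (d : A) (k : ℝ), m (fun χ => k * ((z * (χ x : ℂ)).re * ((χ d : ℂ)).re))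
      = k / 2 * ((if x + d = 0 then z.re else 0) + (if x - d = 0 then z.re else 0)) := by
    intro d k
    have h1 : (fun χ : Dual A => k * ((z * (χ x : ℂ)).re * ((χ d : ℂ)).re))
        = fun χ => (k / 2) * ((z * (χ (x + d) : ℂ)).re + (z * (χ (x - d) : ℂ)).re) := by
      funext χ
      rw [char_add_coe, char_sub_coe]
      have : (z * ((χ x : ℂ) * (χ d : ℂ))).re + (z * ((χ x : ℂ) * conj (χ d : ℂ))).re
          = 2 * ((z * (χ x : ℂ)).re * ((χ d : ℂ)).re) := by
        rw [← mul_assoc, ← mul_assoc, Complex.mul_re (z * (χ x : ℂ)) (χ d : ℂ),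
          Complex.mul_re (z * (χ x : ℂ)) (conj (χ d : ℂ)), Complex.conj_re, Complex.conj_im]
        ring
      rw [this]; ring
    rw [h1, hm.smul _ _ ((bdd_char _ _).add (bdd_char _ _)),
      hm.add _ _ (bdd_char _ _) (bdd_char _ _), horth, horth]
  have hb : ∀ (b b' : A), Bdd (fun χ : Dual A => (β b * β b' * ψ (b - b'))
      * ((z * (χ x : ℂ)).re * ((χ (b - b') : ℂ)).re)) := by
    intro b b'
    refine Bdd.smul (Bdd.mul (bdd_char _ _) ?_) _
    have := bdd_char (b - b') 1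
    simpa using this
  have h2 : (fun χ : Dual A => (z * (χ x : ℂ)).re * hfun ψ B β χ)
      = fun χ => ∑ b ∈ B, ∑ b' ∈ B, (β b * β b' * ψ (b - b'))
      * ((z * (χ x : ℂ)).re * ((χ (b - b') : ℂ)).re) := by
    funext χ
    unfold hfun
    rw [Finset.mul_sum]
    refine Finset.sum_congr rfl fun b _ => ?_
    rw [Finset.mul_sum]
    refine Finset.sum_congr rfl fun b' _ => ?_
    ring
  rw [h2, (hm.sum B _ fun b => (hm.sum B _ fun b' => hb b b').2).1]
  have h3 : ∀ b ∈ B, m (fun χ : Dual A => ∑ b' ∈ B, (β b * β b' * ψ (b - b'))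
      * ((z * (χ x : ℂ)).re * ((χ (b - b') : ℂ)).re))
      = z.re / 2 * (ψ (-x) * (β b * β (b + x)) + ψ x * (β b * β (b + -x))) := by
    intro b _
    rw [(hm.sum B _ fun b' => hb b b').1]
    simp only [hterm]
    have hA : ∀ y : A, ∀ g : A → ℝ, ∑ b' ∈ B, β b' * g b' * (if b' = y then 1 else 0)
        = β y * g y := by
      intro y g
      simp only [mul_ite, mul_one, mul_zero]
      rw [Finset.sum_ite_eq']
      split_ifs with h
      · rfl
      · rw [hβ y h, zero_mul]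
    have h4 : ∀ b' ∈ B, β b * β b' * ψ (b - b') / 2 *
        ((if x + (b - b') = 0 then z.re else 0) + (if x - (b - b') = 0 then z.re else 0))
        = z.re / 2 * β b * (β b' * ψ (b - b') * (if b' = b + x then 1 else 0))
          + z.re / 2 * β b * (β b' * ψ (b - b') * (if b' = b + -x then 1 else 0)) := by
      intro b' _
      have e1 : (x + (b - b') = 0) ↔ (b' = b + x) := by
        constructor
        · intro h
          have : b' = x + (b - b') + b' := by rw [h, zero_add]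
          rw [this]; abel
        · rintro rfl; abel
      have e2 : (x - (b - b') = 0) ↔ (b' = b + -x) := by
        constructor
        · intro h
          have : b' = b' + (x - (b - b')) - (x - (b - b')) := by abel
          rw [this, h, sub_zero, add_zero]
          have h5 : x = b - b' := sub_eq_zero.1 h
          rw [h5]; abel
        · rintro rfl; abel
      simp only [e1, e2]
      split_ifs <;> ring
    rw [Finset.sum_congr rfl h4, Finset.sum_add_distrib, ← Finset.mul_sum, ← Finset.mul_sum,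
      hA, hA]
    have e3 : b - (b + x) = -x := by abel
    have e4 : b - (b + -x) = x := by abel
    rw [e3, e4]; ring
  rw [Finset.sum_congr rfl h3, ← Finset.mul_sum, Finset.sum_add_distrib, ← Finset.mul_sum,
    ← Finset.mul_sum]
  ring

end Crest.Agent.R40.T1
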