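import Mathlib
import Crest.Agent.R40.T1Bochner

/-!
# R40 / T1 (M2): Bochner's theorem on countable discrete abelian groups, part 2
-/

set_option autoImplicit false

open Filter Topology MeasureTheory
open scoped ComplexConjugate

namespace Crest.Agent.R40.T1

noncomputable local instance instMSCircle : MeasurableSpace Circle := borel Circle
local instance instBSCircle : BorelSpace Circle := ⟨rfl⟩

open CompactlySupported in
/-- Riesz-Markov for a positive functional on `C(Ω, ℝ)`, `Ω` compact. -/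
theorem exists_measure_of_functional' {Ω : Type*} [TopologicalSpace Ω] [CompactSpace Ω] [T2Space Ω]
    [MeasurableSpace Ω] [BorelSpace Ω] (Λ : (Ω → ℝ) → ℝ)
    (hadd : ∀ f g : C(Ω, ℝ), Λ (fun x => f x + g x) = Λ f + Λ g)
    (hsmul : ∀ (c : ℝ) (f : C(Ω, ℝ)), Λ (fun x => c * f x) = c * Λ f)
    (hpos : ∀ f : C(Ω, ℝ), (∀ x, 0 ≤ f x) → 0 ≤ Λ f) :
    ∃ P : Measure Ω, IsFiniteMeasure P ∧ ∀ f : C(Ω, ℝ), ∫ x, f x ∂P = Λ f := by
  have hmono : ∀ f g : C(Ω, ℝ), (∀ x, f x ≤ g x) → Λ f ≤ Λ g := by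
    intro f g h
    have h1 : Λ g = Λ f + Λ (g - f : C(Ω, ℝ)) := by
      rw [← hadd f (g - f)]
      congr 1; funext x; simp
    have h2 := hpos (g - f) (fun x => by simpa using h x)
    linarith
  let L : C_c(Ω, ℝ) →ₚ[ℝ] ℝ :=
  { toFun g := Λ g
    map_add' g g' := hadd g.toContinuousMap g'.toContinuousMap
    map_smul' c g := hsmul c g.toContinuousMap
    monotone' g g' hgg' := hmono g.toContinuousMap g'.toContinuousMap hgg' }
  refine ⟨RealRMK.rieszMeasure L, inferInstance, ?_⟩
  intro f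
  let f' : C_c(Ω, ℝ) :=
  { toFun := f
    hasCompactSupport' := HasCompactSupport.of_compactSpace _ }
  exact RealRMK.integral_rieszMeasure L f'

theorem tendsto_limUnder_of_bdd {ι : Type*} (l : Ultrafilter ι) (u : ι → ℝ) {C : ℝ}
    (h : ∀ i, |u i| ≤ C) : Tendsto u l (𝓝 (limUnder (l : Filter ι) u)) := by
  apply tendsto_nhds_limUnder
  have hmem : Set.Icc (-C) C ∈ (l.map u : Filter ℝ) := by
    rw [Ultrafilter.coe_map, Filter.mem_map]
    exact Filter.univ_mem' fun i => _root_.abs_le.1 (h i)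
  obtain ⟨x, -, hx⟩ := isCompact_Icc.ultrafilter_le_nhds (l.map u)
    (by rwa [Filter.le_principal_iff])
  exact ⟨x, hx⟩

/-- a function `A → Circle` is a character -/
def IsChar {A : Type*} [AddCommGroup A] (g : A → Circle) : Prop :=
  ∀ x y, g (x + y) = g x * g y

open Classical in
/-- retraction to characters -/
noncomputable def retr {A : Type*} [AddCommGroup A] (g : A → Circle) : Dual A :=
  if h : IsChar g then
    { toFun := g
      map_zero_eq_one' := by
        have := h 0 0
        rw [add_zero] at this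
        exact (mul_eq_left.1 this.symm)
      map_add_eq_mul' := h }
  else 1

theorem measurableSet_isChar {A : Type*} [AddCommGroup A] [Countable A] :
    MeasurableSet {g : A → Circle | IsChar g} := by
  have : {g : A → Circle | IsChar g} = ⋂ x : A, ⋂ y : A, {g | g (x + y) = g x * g y} := by
    ext g; simp [IsChar]
  rw [this]
  refine MeasurableSet.iInter fun x => MeasurableSet.iInter fun y => ?_
  exact (isClosed_eq (by fun_prop) (by fun_prop)).measurableSet

theorem measurable_retr {A : Type*} [AddCommGroup A] [Countable A] :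
    Measurable (retr : (A → Circle) → Dual A) := by
  classical
  rw [measurable_dual_iff]
  intro a
  have : (fun g : A → Circle => ((retr g) a : ℂ))
      = fun g => if IsChar g then (g a : ℂ) else 1 := by
    funext g
    unfold retr
    split_ifs with h
    · rfl
    · simp
  rw [this]
  refine Measurable.ite measurableSet_isChar ?_ measurable_const
  exact (by fun_prop : Continuous (fun g : A → Circle => (g a : ℂ))).measurable

theorem bochner {A : Type*} [AddCommGroup A] [Countable A]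
    (hsep : ∀ x : A, x ≠ 0 → ∃ χ : Dual A, χ x ≠ 1) (ψ : A → ℝ) (hpd : PosDef ψ)
    (hsymm : ∀ x, ψ (-x) = ψ x) :
    ∃ ν : Measure (Dual A), IsFiniteMeasure ν ∧ ∀ x : A, ∫ χ, (χ x : ℂ) ∂ν = (ψ x : ℂ) := by
  classical
  obtain ⟨m, hm, horth⟩ := exists_dual_mean A hsep
  choose B β hβ0 hβ1 hβ2 using fun p : Finset A × ℕ =>
    folner p.1 (ε := 1 / ((p.2 : ℝ) + 1)) (by positivity)
  let l : Ultrafilter (Finset A × ℕ) := Ultrafilter.of atTop
  have hl : (l : Filter (Finset A × ℕ)) ≤ atTop := Ultrafilter.of_le atTop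
  -- convergence of the correlation coefficients
  have hcorr : ∀ x : A, Tendsto (fun i => ∑ b ∈ B i, β i b * β i (b + x)) l (𝓝 1) := by
    intro x
    rw [tendsto_iff_norm_sub_tendsto_zero]
    have h1 : Tendsto (fun i : Finset A × ℕ => 1 / ((i.2 : ℝ) + 1)) l (𝓝 0) := by
      have h2 : Tendsto (fun i : Finset A × ℕ => i.2) l atTop :=
        (tendsto_snd.comp (le_of_eq prod_atTop_atTop_eq.symm)).mono_left hl
      exact tendsto_one_div_add_atTop_nhds_zero_nat.comp h2
    refine squeeze_zero' (Eventually.of_forall fun _ => norm_nonneg _) ?_ h1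
    have h3 : ∀ᶠ i : Finset A × ℕ in l, ({x}, 0) ≤ i :=
      hl (Filter.eventually_ge_atTop (({x}, 0) : Finset A × ℕ))
    filter_upwards [h3] with i hi
    exact hβ2 i x (hi.1 (Finset.mem_singleton_self x))
  -- masses
  have hmass : ∀ i, m (hfun ψ (B i) (β i)) = ψ 0 := by
    intro i
    have h := mean_hfun hm horth ψ (B i) (β i) (hβ0 i) 0 1
    simp only [AddChar.map_zero_eq_one, Circle.coe_one, mul_one, Complex.one_re, one_mul,
      neg_zero, add_zero, hβ1 i] at h
    rw [h]; ring
  have hh0 : ∀ i χ, 0 ≤ hfun ψ (B i) (β i) χ := fun i χ => hfun_nonneg hpd _ _ _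
  have hhb : ∀ i, Bdd (hfun ψ (B i) (β i)) := fun i => bdd_hfun ψ _ _
  let ev : Dual A → (A → Circle) := fun χ => χ
  let pre : ((A → Circle) → ℝ) → (Finset A × ℕ) → ℝ := fun φ i =>
    m (fun χ => φ (ev χ) * hfun ψ (B i) (β i) χ)
  have hbφ : ∀ φ : C(A → Circle, ℝ), Bdd (fun χ : Dual A => φ (ev χ)) :=
    fun φ => ⟨‖φ‖, fun ω => φ.norm_coe_le_norm _⟩
  have hpreb : ∀ φ : C(A → Circle, ℝ), ∀ i, |pre φ i| ≤ ‖φ‖ * ψ 0 := by
    intro φ i
    have hb1 : Bdd (fun χ => φ (ev χ) * hfun ψ (B i) (β i) χ) := (hbφ φ).mul (hhb i)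
    have hφ : ∀ χ : Dual A, |φ (ev χ)| ≤ ‖φ‖ := fun χ => φ.norm_coe_le_norm _
    rw [abs_le]
    constructor
    · have h1 := hm.mono ((hhb i).smul (-‖φ‖)) hb1 (fun χ =>
        mul_le_mul_of_nonneg_right (abs_le.1 (hφ χ)).1 (hh0 i χ))
      rw [hm.smul _ _ (hhb i), hmass i] at h1
      linarith
    · have h1 := hm.mono hb1 ((hhb i).smul (‖φ‖)) (fun χ =>
        mul_le_mul_of_nonneg_right (abs_le.1 (hφ χ)).2 (hh0 i χ))
      rw [hm.smul _ _ (hhb i), hmass i] at h1
      exact h1
  let Λ : ((A → Circle) → ℝ) → ℝ := fun φ => limUnder (l : Filter _) (pre φ)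
  have hΛ : ∀ φ : C(A → Circle, ℝ), Tendsto (pre φ) l (𝓝 (Λ φ)) :=
    fun φ => tendsto_limUnder_of_bdd l _ (hpreb φ)
  obtain ⟨ν₀, hν₀, hint⟩ := exists_measure_of_functional' Λ
    (by
      intro f g
      refine tendsto_nhds_unique (hΛ (f + g)) ?_
      refine ((hΛ f).add (hΛ g)).congr fun i => ?_
      simp only [pre]
      rw [← hm.add _ _ ((hbφ f).mul (hhb i)) ((hbφ g).mul (hhb i))]
      congr 1; funext χ
      simp only [ContinuousMap.add_apply]; ring)
    (by
      intro c f
      refine tendsto_nhds_unique (hΛ (c • f)) ?_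
      refine ((hΛ f).const_mul c).congr fun i => ?_
      simp only [pre]
      rw [← hm.smul _ _ ((hbφ f).mul (hhb i))]
      congr 1; funext χ
      simp only [ContinuousMap.smul_apply, smul_eq_mul]; ring)
    (by
      intro f hf
      exact ge_of_tendsto' (hΛ f) fun i =>
        hm.nonneg _ ((hbφ f).mul (hhb i)) fun χ => mul_nonneg (hf _) (hh0 i χ))
  -- Fourier coefficients
  have hcoef : ∀ (x : A) (z : ℂ), ∫ g : A → Circle, (z * (g x : ℂ)).re ∂ν₀ = z.re * ψ x := by
    intro x z
    let φ : C(A → Circle, ℝ) := ⟨fun g => (z * (g x : ℂ)).re, by fun_prop⟩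
    have h1 := hint φ
    have h2 : Tendsto (pre φ) l (𝓝 (z.re / 2 * (ψ x * 1 + ψ (-x) * 1))) := by
      have h3 : pre φ = fun i => z.re / 2 * (ψ x * ∑ b ∈ B i, β i b * β i (b + -x)
          + ψ (-x) * ∑ b ∈ B i, β i b * β i (b + x)) := by
        funext i
        exact mean_hfun hm horth ψ (B i) (β i) (hβ0 i) x z
      rw [h3]
      exact (((hcorr (-x)).const_mul _).add ((hcorr x).const_mul _)).const_mul _
    have h4 := tendsto_nhds_unique (hΛ φ) h2
    rw [h4, hsymm] at h1
    calc ∫ g : A → Circle, (z * (g x : ℂ)).re ∂ν₀ = ∫ g, φ g ∂ν₀ := rfl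
      _ = _ := by rw [h1]; ring
  -- concentrated on characters
  have hchar : ∀ᵐ g ∂ν₀, IsChar g := by
    unfold IsChar
    rw [ae_all_iff]; intro x
    rw [ae_all_iff]; intro y
    let φ : C(A → Circle, ℝ) := ⟨fun g => ‖(g (x + y) : ℂ) - (g x : ℂ) * (g y : ℂ)‖, by fun_prop⟩
    have h1 := hint φ
    have h2 : pre φ = fun _ => 0 := by
      funext i
      simp only [pre]
      have : ∀ χ : Dual A, φ (ev χ) = 0 := by
        intro χ
        simp only [φ, ev, ContinuousMap.coe_mk]
        rw [char_add_coe, sub_self, norm_zero]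
      simp only [this, zero_mul]
      exact hm.const 0
    have h3 : Λ φ = 0 := by
      refine tendsto_nhds_unique (hΛ φ) ?_
      rw [h2]; exact tendsto_const_nhds
    rw [h3] at h1
    have hb : Integrable φ ν₀ := by
      refine Integrable.of_bound φ.continuous.aestronglyMeasurable ‖φ‖ ?_
      exact Eventually.of_forall fun g => φ.norm_coe_le_norm g
    rw [integral_eq_zero_iff_of_nonneg (f := φ) (fun g => (norm_nonneg
      ((g (x + y) : ℂ) - (g x : ℂ) * (g y : ℂ)) : (0 : ℝ) ≤ _)) hb] at h1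
    filter_upwards [h1] with g hg
    have : ‖(g (x + y) : ℂ) - (g x : ℂ) * (g y : ℂ)‖ = 0 := hg
    rw [norm_eq_zero, sub_eq_zero] at this
    apply Circle.ext
    rw [Circle.coe_mul]
    exact this
  refine ⟨ν₀.map retr, Measure.isFiniteMeasure_map ν₀ retr, ?_⟩
  intro x
  rw [integral_map measurable_retr.aemeasurable (measurable_eval x).aestronglyMeasurable]
  have h1 : ∫ g, ((retr g) x : ℂ) ∂ν₀ = ∫ g : A → Circle, (g x : ℂ) ∂ν₀ := by
    refine integral_congr_ae ?_
    filter_upwards [hchar] with g hg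
    unfold retr
    rw [dif_pos hg]
    rfl
  rw [h1]
  have hmx : Measurable (fun g : A → Circle => (g x : ℂ)) :=
    (by fun_prop : Continuous (fun g : A → Circle => (g x : ℂ))).measurable
  have hbx : Integrable (fun g : A → Circle => (g x : ℂ)) ν₀ :=
    Integrable.of_bound hmx.aestronglyMeasurable 1
      (Eventually.of_forall fun g => (Circle.norm_coe _).le)
  have h2 : ∀ z : ℂ, (z * ∫ g : A → Circle, (g x : ℂ) ∂ν₀).re = z.re * ψ x := by
    intro z
    rw [← integral_const_mul, ← hcoef x z]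
    exact (integral_re (hbx.const_mul z)).symm
  apply Complex.ext
  · have := h2 1
    simpa using this
  · have := h2 Complex.I
    simpa using this

/-- The spectral measure of a bounded observable of a measure preserving action of a countable
abelian group. -/
theorem exists_spectral' {A : Type*} [AddCommGroup A] [Countable A]
    (hsep : ∀ x : A, x ≠ 0 → ∃ χ : Dual A, χ x ≠ 1) {Ω : Type*} [MeasurableSpace Ω]
    (P : Measure Ω) [IsProbabilityMeasure P] (T : A → Ω → Ω)
    (hT : ∀ a, MeasurePreserving (T a) P P) (hTadd : ∀ a b ω, T (a + b) ω = T a (T b ω))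
    (f : Ω → ℝ) (hf : Measurable f) {C : ℝ} (hC : ∀ ω, |f ω| ≤ C) :
    ∃ ν : Measure (Dual A), IsFiniteMeasure ν ∧
      ∀ x : A, ∫ χ, (χ x : ℂ) ∂ν = ((∫ ω, f ω * f (T x ω) ∂P : ℝ) : ℂ) := by
  have hmf : ∀ a, Measurable fun ω => f (T a ω) := fun a => hf.comp (hT a).measurable
  have hi2 : ∀ a b, Integrable (fun ω => f (T a ω) * f (T b ω)) P := by
    intro a b
    refine Integrable.of_bound ((hmf a).mul (hmf b)).aestronglyMeasurable (C * C) ?_
    refine Eventually.of_forall fun ω => ?_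
    rw [Real.norm_eq_abs, abs_mul]
    exact mul_le_mul (hC _) (hC _) (abs_nonneg _) ((abs_nonneg _).trans (hC ω))
  have hψ : ∀ a b, ∫ ω, f (T a ω) * f (T b ω) ∂P = ∫ ω, f ω * f (T (a - b) ω) ∂P := by
    intro a b
    have hm : Measurable (fun ω => f ω * f (T (a - b) ω)) := hf.mul (hmf _)
    have h1 : ∫ ω, f ω * f (T (a - b) ω) ∂(P.map (T b))
        = ∫ ω, f (T b ω) * f (T (a - b) (T b ω)) ∂P :=
      integral_map (hT b).measurable.aemeasurable hm.aestronglyMeasurable
    rw [(hT b).map_eq] at h1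
    rw [h1]
    refine integral_congr_ae (Eventually.of_forall fun ω => ?_)
    simp only
    rw [← hTadd, sub_add_cancel, mul_comm]
  refine bochner hsep (fun x => ∫ ω, f ω * f (T x ω) ∂P) ?_ ?_
  · intro B c
    rw [Complex.re_sum]
    have h1 : ∀ b ∈ B, (∑ b' ∈ B, c b * conj (c b') *
        ((∫ ω, f ω * f (T (b - b') ω) ∂P : ℝ) : ℂ)).re
        = ∑ b' ∈ B, ∫ ω, (c b * conj (c b')).re * (f (T b ω) * f (T b' ω)) ∂P := by
      intro b _
      rw [Complex.re_sum]
      refine Finset.sum_congr rfl fun b' _ => ?_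
      rw [integral_const_mul, hψ, Complex.re_mul_ofReal]
    rw [Finset.sum_congr rfl h1]
    have hi3 : ∀ b b', Integrable
        (fun ω => (c b * conj (c b')).re * (f (T b ω) * f (T b' ω))) P :=
      fun b b' => (hi2 b b').const_mul _
    have h2 : ∑ b ∈ B, ∑ b' ∈ B, ∫ ω, (c b * conj (c b')).re * (f (T b ω) * f (T b' ω)) ∂P
        = ∫ ω, ∑ b ∈ B, ∑ b' ∈ B, (c b * conj (c b')).re * (f (T b ω) * f (T b' ω)) ∂P := by
      rw [integral_finsetSum _ fun b _ => integrable_finsetSum _ fun b' _ => hi3 b b']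
      refine Finset.sum_congr rfl fun b _ => ?_
      rw [integral_finsetSum _ fun b' _ => hi3 b b']
    rw [h2]
    refine integral_nonneg fun ω => ?_
    have h3 : ∑ b ∈ B, ∑ b' ∈ B, (c b * conj (c b')).re * (f (T b ω) * f (T b' ω))
        = Complex.normSq (∑ b ∈ B, c b * (f (T b ω) : ℂ)) := by
      have h4 : ((Complex.normSq (∑ b ∈ B, c b * (f (T b ω) : ℂ)) : ℝ) : ℂ)
          = ∑ b ∈ B, ∑ b' ∈ B, (c b * conj (c b')) * ((f (T b ω) * f (T b' ω) : ℝ) : ℂ) := by
        rw [← Complex.mul_conj, map_sum, Finset.sum_mul_sum]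
        refine Finset.sum_congr rfl fun b _ => Finset.sum_congr rfl fun b' _ => ?_
        rw [map_mul, Complex.conj_ofReal]
        push_cast; ring
      have h5 := congrArg Complex.re h4
      rw [Complex.ofReal_re, Complex.re_sum] at h5
      rw [h5]
      refine Finset.sum_congr rfl fun b _ => ?_
      rw [Complex.re_sum]
      refine Finset.sum_congr rfl fun b' _ => ?_
      rw [Complex.re_mul_ofReal]
    simp only [Pi.zero_apply]
    rw [h3]
    exact Complex.normSq_nonneg _
  · intro x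
    have h1 := hψ 0 x
    rw [zero_sub] at h1
    rw [← h1]
    have hm : Measurable (fun ω => f ω * f (T x ω)) := hf.mul (hmf _)
    have h2 : ∫ ω, f ω * f (T x ω) ∂(P.map (T 0)) = ∫ ω, f (T 0 ω) * f (T x (T 0 ω)) ∂P :=
      integral_map (hT 0).measurable.aemeasurable hm.aestronglyMeasurable
    rw [(hT 0).map_eq] at h2
    rw [h2]
    refine integral_congr_ae (Eventually.of_forall fun ω => ?_)
    simp only
    rw [← hTadd x 0, add_zero]

/-- The spectral measure of a bounded observable of a measure preserving action of a countable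
abelian group. -/
theorem exists_spectral {A : Type*} [AddCommGroup A] [Countable A]
    (hsep : ∀ x : A, x ≠ 0 → ∃ χ : Dual A, χ x ≠ 1) {Ω : Type*} [MeasurableSpace Ω]
    (P : Measure Ω) [IsProbabilityMeasure P] (T : A → Ω → Ω)
    (hT : ∀ a, MeasurePreserving (T a) P P) (hTadd : ∀ a b ω, T (a + b) ω = T a (T b ω))
    (_ : ∀ ω, T 0 ω = ω)
    (f : Ω → ℝ) (hf : Measurable f) {C : ℝ} (hC : ∀ ω, |f ω| ≤ C) :
    ∃ ν : Measure (Dual A), IsFiniteMeasure ν ∧
      ∀ x : A, ∫ χ, (χ x : ℂ) ∂ν = ((∫ ω, f ω * f (T x ω) ∂P : ℝ) : ℂ) :=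
  exists_spectral' hsep P T hT hTadd f hf hC

end Crest.Agent.R40.T1
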