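import Crest.Agent.R40.T1Defs

/-!
# R40 / T1 / R2 : definitions and targets

`E` is any field with an embedding `σ : E →+* ℂ` and a compatible `ι : ℤ[i] →+* E`
(later `E = ℚ(i)`).  Characters are `AddChar E Circle` with the σ-algebra generated by the
complex valued evaluations; `U(E)` acts by `χ ↦ χ.mulShift u`.
-/

set_option autoImplicit false

namespace Crest.Agent.R40.T1R2

open MeasureTheory Filter
open scoped FourierTransform

open Crest.Agent.R40.T1 (Dual instMeasurableSpaceDual measurable_eval measurable_dual_iff rot)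

/-- a map into characters is measurable iff all evaluations are -/
theorem measurable_to_char {E Ω : Type*} [AddMonoid E] [MeasurableSpace Ω]
    {f : Ω → AddChar E Circle} (h : ∀ a, Measurable (fun ω => ((f ω a : Circle) : ℂ))) :
    Measurable f := measurable_dual_iff.2 h

theorem measurable_mulShift {E : Type*} [Ring E] (u : E) :
    Measurable (fun χ : AddChar E Circle => χ.mulShift u) := by
  apply measurable_to_char
  intro a
  simpa using measurable_eval (u * a)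

/-- `mulShift` is `rot` of `T1Defs` -/
theorem mulShift_eq_rot {E : Type*} [Ring E] (u : E) (χ : AddChar E Circle) :
    χ.mulShift u = rot u χ := rfl

/-- a field with an embedding into `ℂ` and a compatible copy of the Gaussian integers -/
structure Emb (E : Type*) [Field E] where
  σ : E →+* ℂ
  ι : GaussianInt →+* E
  compat : ∀ z, σ (ι z) = GaussianInt.toComplex z

/-- `π = 2 + i` -/
def P : GaussianInt := ⟨2, 1⟩
/-- `conj π = 2 - i` -/
def Pb : GaussianInt := ⟨2, -1⟩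

namespace Emb

variable {E : Type*} [Field E] (S : Emb E)

/-- `a ∈ g⁻¹ ℤ[i]` -/
def InLat (g : GaussianInt) (a : E) : Prop := ∃ b : GaussianInt, S.ι g * a = S.ι b

/-- the imaginary unit of `E` -/
def I : E := S.ι ⟨0, 1⟩

/-- `u₀ = conj π / π` -/
def u0 : E := S.ι Pb / S.ι P

/-- `θ = 1/π` -/
def θ : E := (S.ι P)⁻¹

/-- `w_a = (a+i)/(a-i)` -/
def w (a : ℕ) : E := ((a : E) + S.I) / ((a : E) - S.I)

/-- the continuous character `a ↦ e(Re(s a))` -/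
noncomputable def eps (s : ℂ) : AddChar E Circle where
  toFun a := 𝐞 (s * S.σ a).re
  map_zero_eq_one' := by simp
  map_add_eq_mul' a b := by
    rw [map_add, mul_add, Complex.add_re, AddChar.map_add_eq_mul]

theorem eps_apply (s : ℂ) (a : E) : S.eps s a = 𝐞 (s * S.σ a).re := rfl

/-- `χ' = χ · e(Re(s ·))` on `g⁻¹ℤ[i]` -/
def Rel (g : GaussianInt) (χ χ' : AddChar E Circle) (s : ℂ) : Prop :=
  ∀ a, S.InLat g a → χ' a = χ a * S.eps s a

/-- `χ(N a) = e(Re(η N a))` on `m⁻¹ℤ[i][1/π]` -/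
def StrAt (m : GaussianInt) (χ : AddChar E Circle) (η : ℂ) (N : ℕ) : Prop :=
  ∀ (n : ℕ) (a : E), S.InLat (P ^ n * m) a → χ ((N : E) * a) = S.eps η ((N : E) * a)

/-- structured characters (only the lattices `π⁻ⁿℤ[i]` are needed, remark of helper476) -/
def IsStructured (χ : AddChar E Circle) : Prop :=
  ∃ (η : ℂ) (N : ℕ), 0 < N ∧ S.StrAt 1 χ η N

/-- good data at level `n` for `χ` (output of P1, input of P2): a measurable set containing `χ`,
of measure at least `c0 (5/6)^n`, all pairs of which are related with `|s| ≤ 1` on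
`π^{-n} m⁻¹ ℤ[i]`. -/
def HasClass (ν : Measure (AddChar E Circle)) (m : GaussianInt) (c0 : ℝ) (n : ℕ)
    (χ : AddChar E Circle) : Prop :=
  ∃ C : Set (AddChar E Circle), MeasurableSet C ∧ χ ∈ C ∧
    c0 * (5 / 6 : ℝ) ^ n ≤ ν.real C ∧
    ∀ χ₁ ∈ C, ∀ χ₂ ∈ C, ∃ s : ℂ, ‖s‖ ≤ 1 ∧ S.Rel (P ^ n * m) χ₁ χ₂ s

/-- the σ-algebra generated by the evaluations at `a ∈ R = ⋃_{π ∤ m} m⁻¹ℤ[i]` -/
@[reducible] noncomputable def sigmaR : MeasurableSpace (AddChar E Circle) :=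
  ⨆ (a : E) (_ : ∃ m : GaussianInt, ¬ (P ∣ m) ∧ S.InLat m a),
    MeasurableSpace.comap (fun χ : AddChar E Circle => ((χ a : Circle) : ℂ)) inferInstance

/-- Target P1 (helper775). `DD` is only `T`-invariant. -/
def TargetP1 (ν : Measure (AddChar E Circle)) : Prop :=
  ∃ Λ : ℝ, 0 < Λ ∧ ∀ DD : Set (AddChar E Circle), MeasurableSet DD →
    (∀ᵐ χ ∂ν, χ ∈ DD → χ.mulShift S.u0 ∈ DD) →
    ∀ (m : GaussianInt), ¬ (P ∣ m) → ∀ (Q : ℂ × ℂ → ℂ), Continuous Q →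
    ∀ κ : ℝ, ν.real (DD ∩ {χ | 1 / 8 ≤ ‖((χ S.θ : Circle) : ℂ) -
        Q (((χ (S.ι m)⁻¹ : Circle) : ℂ), ((χ (S.I * (S.ι m)⁻¹) : Circle) : ℂ))‖}) ≤ κ →
      ∃ (K : Set (AddChar E Circle)) (c0 : ℝ), 0 < c0 ∧ MeasurableSet K ∧ ν.real Kᶜ ≤ Λ * κ ∧
        ∀ᵐ χ ∂ν, χ ∈ K → χ ∈ DD → ∀ᶠ n in atTop, S.HasClass ν m c0 n χ

/-- Target P2 (helper476). -/
def TargetP2 (ν : Measure (AddChar E Circle)) : Prop :=
  ∀ (m : GaussianInt), ¬ (P ∣ m) → ∀ c0 : ℝ, 0 < c0 → ∀ χ : AddChar E Circle,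
    (∀ᶠ n in atTop, S.HasClass ν m c0 n χ) → ∃ (η : ℂ) (N : ℕ), 0 < N ∧ S.StrAt m χ η N

/-- Target P3 (helper916): approximation. -/
def TargetP3 (ν : Measure (AddChar E Circle)) : Prop :=
  ∀ h : AddChar E Circle → ℂ, @Measurable _ _ S.sigmaR _ h → ∀ κ : ℝ, 0 < κ →
      ∃ (m : GaussianInt) (Q : ℂ × ℂ → ℂ), ¬ (P ∣ m) ∧ Continuous Q ∧
        ν.real {χ | 1 / 8 ≤ ‖h χ -
          Q (((χ (S.ι m)⁻¹ : Circle) : ℂ), ((χ (S.I * (S.ι m)⁻¹) : Circle) : ℂ))‖} ≤ κ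

/-- (R2): final statement of M4. `DD` is only `T`-invariant, `T = mulShift u₀`. -/
def TargetR2 (ν : Measure (AddChar E Circle)) : Prop :=
  ∀ DD : Set (AddChar E Circle), MeasurableSet DD →
    (∀ᵐ χ ∂ν, χ ∈ DD → χ.mulShift S.u0 ∈ DD) →
    ∀ h : AddChar E Circle → ℂ, @Measurable _ _ S.sigmaR _ h →
    (∀ᵐ χ ∂ν, χ ∈ DD → ((χ S.θ : Circle) : ℂ) = h χ) →
    ∀ᵐ χ ∂ν, χ ∈ DD → S.IsStructured χ

/-- invariance of a measure under the rotations of `E` -/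
def Invariant (ν : Measure (AddChar E Circle)) : Prop :=
  ∀ u : E, ‖S.σ u‖ = 1 → ν.map (fun χ => χ.mulShift u) = ν

/-- assembly -/
theorem targetR2_of {ν : Measure (AddChar E Circle)} [IsFiniteMeasure ν]
    (h1 : S.TargetP1 ν) (h2 : S.TargetP2 ν) (h3 : S.TargetP3 ν) :
    S.TargetR2 ν := by
  intro DD hDD hinv h hh hae
  obtain ⟨Λ, hΛ, h1⟩ := h1
  rw [ae_iff]
  set B := {χ : AddChar E Circle | ¬ (χ ∈ DD → S.IsStructured χ)} with hB
  by_contra hne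
  have hr : 0 < (ν B).toReal := ENNReal.toReal_pos hne (measure_ne_top _ _)
  obtain ⟨m, Q, hm, hQ, hκ⟩ := h3 h hh ((ν B).toReal / (2 * Λ)) (by positivity)
  have hκ' : ν.real (DD ∩ {χ | 1 / 8 ≤ ‖((χ S.θ : Circle) : ℂ) -
      Q (((χ (S.ι m)⁻¹ : Circle) : ℂ), ((χ (S.I * (S.ι m)⁻¹) : Circle) : ℂ))‖}) ≤
        (ν B).toReal / (2 * Λ) := by
    refine le_trans ?_ hκ
    apply ENNReal.toReal_mono (measure_ne_top _ _)
    apply measure_mono_ae
    filter_upwards [hae] with χ hχ hmem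
    obtain ⟨h1, h2⟩ := hmem
    have h2' : 1 / 8 ≤ ‖((χ S.θ : Circle) : ℂ) -
      Q (((χ (S.ι m)⁻¹ : Circle) : ℂ), ((χ (S.I * (S.ι m)⁻¹) : Circle) : ℂ))‖ := h2
    rw [hχ h1] at h2'
    exact h2'
  obtain ⟨K, c0, hc0, hK, hKc, hae2⟩ := h1 DD hDD hinv m hm Q hQ _ hκ'
  have hsub : ∀ᵐ χ ∂ν, χ ∈ B → χ ∈ Kᶜ := by
    filter_upwards [hae2] with χ hχ hBχ hKχ
    apply hBχ
    intro hχD
    obtain ⟨η, N, hN, hstr⟩ := h2 m hm c0 hc0 χ (hχ hKχ hχD)
    refine ⟨η, N, hN, ?_⟩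
    intro n a ha
    apply hstr n a
    obtain ⟨b, hb⟩ := ha
    refine ⟨m * b, ?_⟩
    rw [map_mul S.ι m b, ← hb]
    simp only [map_mul, mul_one]
    ring
  have hle : ν B ≤ ν Kᶜ := measure_mono_ae hsub
  have hle' : (ν B).toReal ≤ ν.real Kᶜ := by
    rw [measureReal_def]
    exact ENNReal.toReal_mono (measure_ne_top _ _) hle
  have : Λ * ((ν B).toReal / (2 * Λ)) = (ν B).toReal / 2 := by field_simp
  rw [this] at hKc
  linarith

end Emb

end Crest.Agent.R40.T1R2
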