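import Crest.Agent.R40.T1BMain
import Crest.Agent.R40.T1R2P2

/-!
# R40 / T1: glue on the field `E = ℚ(i)`
-/

set_option autoImplicit false

namespace Crest.Agent.R40.T1EGlue

open Complex MeasureTheory Filter Topology
open Crest.Agent.R40.T1 (E Dual RotInv rot mem_E measurable_eval)
open Crest.Agent.R40.T1B (LimSet EHyp measurableSet_limSet)
open Crest.Agent.R40.T1R2

/-- `ℤ[i] → ℚ(i)` -/
noncomputable def gι : GaussianInt →+* E :=
  GaussianInt.toComplex.codRestrict E (fun z => by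
    rw [GaussianInt.toComplex_def]
    exact ⟨⟨z.re, by simp⟩, z.im, by simp⟩)

/-- the embedding data of `E = ℚ(i)` -/
noncomputable def SE : Emb E where
  σ := E.subtype
  ι := gι
  compat := fun _ => rfl

lemma σ_apply (a : E) : SE.σ a = (a : ℂ) := rfl

lemma P_ne : SE.ι P ≠ 0 := by
  intro h
  have := congrArg (fun a : E => (a : ℂ)) h
  have h2 : ((SE.ι P : E) : ℂ) = GaussianInt.toComplex P := rfl
  rw [h2] at this
  simp [P, GaussianInt.toComplex_def] at this
  have := congrArg Complex.re this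
  simp at this

lemma norm_ιP : ‖((SE.ι P : E) : ℂ)‖ = Real.sqrt 5 := by
  have h2 : ((SE.ι P : E) : ℂ) = GaussianInt.toComplex P := rfl
  rw [h2, Complex.norm_def, Complex.normSq_apply]
  simp [P, GaussianInt.toComplex_def]
  norm_num

/-- the sequence `n! / π^(n²)` -/
noncomputable def yseq (n : ℕ) : E := (n.factorial : E) * (SE.θ) ^ (n ^ 2)

lemma yseq_ne (n : ℕ) : yseq n ≠ 0 := by
  unfold yseq
  have h1 : ((n.factorial : ℕ) : E) ≠ 0 := by
    exact_mod_cast n.factorial_ne_zero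
  have h2 : SE.θ ≠ 0 := inv_ne_zero P_ne
  exact mul_ne_zero h1 (pow_ne_zero _ h2)

lemma norm_yseq_le (n : ℕ) (hn : 1 ≤ n) : ‖((yseq n : E) : ℂ)‖ ≤ n / 2 ^ n := by
  have h1 : ‖((yseq n : E) : ℂ)‖ = (n.factorial : ℝ) * (1 / Real.sqrt 5) ^ (n ^ 2) := by
    have : ((yseq n : E) : ℂ) = ((n.factorial : ℕ) : ℂ) * (((SE.ι P : E) : ℂ)⁻¹) ^ (n ^ 2) := by
      simp [yseq, Emb.θ]
    rw [this, norm_mul, norm_pow, norm_inv, norm_ιP, Complex.norm_natCast, one_div]
  rw [h1]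
  have h5 : (1 / Real.sqrt 5) ≤ 1 / 2 := by
    apply one_div_le_one_div_of_le (by norm_num)
    apply Real.le_sqrt_of_sq_le; norm_num
  have h6 : (n.factorial : ℝ) ≤ (n : ℝ) ^ n := by exact_mod_cast Nat.factorial_le_pow n
  have h7 : (1 / Real.sqrt 5) ^ (n ^ 2) ≤ (1 / 2) ^ (n ^ 2) :=
    pow_le_pow_left₀ (by positivity) h5 _
  calc (n.factorial : ℝ) * (1 / Real.sqrt 5) ^ (n ^ 2) ≤ (n : ℝ) ^ n * (1 / 2) ^ (n ^ 2) := by
        gcongr
    _ = ((n : ℝ) / 2 ^ n) ^ n := by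
        rw [div_pow (n : ℝ), ← pow_mul, sq, one_div, inv_pow, div_eq_mul_inv]
    _ ≤ (n : ℝ) / 2 ^ n := by
        have h8 : (n : ℝ) / 2 ^ n ≤ 1 := by
          rw [div_le_one (by positivity)]
          exact_mod_cast (Nat.lt_two_pow_self (n := n)).le
        exact pow_le_of_le_one (by positivity) h8 (by omega)

lemma yseq_tendsto : Tendsto (fun n => ((yseq n : E) : ℂ)) atTop (𝓝 0) := by
  rw [tendsto_zero_iff_norm_tendsto_zero]
  have h : Tendsto (fun n : ℕ => (n : ℝ) / 2 ^ n) atTop (𝓝 0) := by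
    have := tendsto_pow_const_div_const_pow_of_one_lt 1 (r := (2 : ℝ)) (by norm_num)
    simpa using this
  refine squeeze_zero' (Eventually.of_forall fun n => norm_nonneg _) ?_ h
  filter_upwards [eventually_ge_atTop 1] with n hn
  exact norm_yseq_le n hn

lemma eps_tendsto (η : ℂ) (a : E) :
    Tendsto (fun n => ((SE.eps η (yseq n * a) : Circle) : ℂ)) atTop (𝓝 1) := by
  have h1 : Tendsto (fun n => (η * ((yseq n : E) : ℂ) * (a : ℂ)).re) atTop (𝓝 0) := by
    have := ((yseq_tendsto.const_mul η).mul_const (a : ℂ))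
    rw [mul_zero, zero_mul] at this
    have h2 := (Complex.continuous_re.tendsto _).comp this
    rw [Complex.zero_re] at h2
    exact h2
  have h2 : Continuous (fun t : ℝ => ((Real.fourierChar t : Circle) : ℂ)) := by
    exact continuous_subtype_val.comp Real.continuous_fourierChar
  have h3 := (h2.tendsto 0).comp h1
  have h4 : ((Real.fourierChar (0 : ℝ) : Circle) : ℂ) = 1 := by simp
  rw [h4] at h3
  refine h3.congr fun n => ?_
  show ((Real.fourierChar _ : Circle) : ℂ) = ((Real.fourierChar _ : Circle) : ℂ)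
  congr 2
  rw [map_mul]
  simp only [σ_apply, mul_assoc]

/-- every element of `E` has a natural number denominator. -/
lemma exists_den (a : E) : ∃ d : ℕ, 0 < d ∧ ∃ b : GaussianInt, (d : E) * a = gι b := by
  obtain ⟨⟨p, hp⟩, q, hq⟩ := mem_E.1 a.2
  refine ⟨p.den * q.den, Nat.mul_pos p.pos q.pos, ⟨p.num * q.den, q.num * p.den⟩, ?_⟩
  apply Subtype.ext
  have h2 : ((gι ⟨p.num * q.den, q.num * p.den⟩ : E) : ℂ) =
    GaussianInt.toComplex ⟨p.num * q.den, q.num * p.den⟩ := rfl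
  rw [h2, GaussianInt.toComplex_def]
  have hp' : (p : ℝ) * p.den = p.num := by exact_mod_cast Rat.mul_den_eq_num p
  have hq' : (q : ℝ) * q.den = q.num := by exact_mod_cast Rat.mul_den_eq_num q
  apply Complex.ext
  · simp [← hp]
    linear_combination (q.den : ℝ) * hp'
  · simp [← hq]
    linear_combination (p.den : ℝ) * hq'

theorem structured_limSet {χ : Dual E} (h : SE.IsStructured χ) : χ ∈ LimSet yseq := by
  obtain ⟨η, N, hN, hstr⟩ := h
  intro a
  obtain ⟨d, hd, b, hb⟩ := exists_den a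
  refine (eps_tendsto η a).congr' ?_
  filter_upwards [eventually_ge_atTop (N * d)] with n hn
  have hdvd : N * d ∣ n.factorial := (Nat.dvd_factorial (Nat.mul_pos hN hd) hn)
  obtain ⟨k, hk⟩ := hdvd
  set x : E := (k : E) * gι b * SE.θ ^ (n ^ 2) with hx
  have e : yseq n * a = (N : E) * x := by
    unfold yseq
    rw [hk, hx, ← hb]; push_cast; ring
  have hlat : SE.InLat (P ^ (n ^ 2) * 1) x := by
    refine ⟨(k : GaussianInt) * b, ?_⟩
    rw [mul_one, hx, map_pow, Emb.θ]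
    have : SE.ι P ^ n ^ 2 * ((k : E) * gι b * (SE.ι P)⁻¹ ^ n ^ 2) =
        (k : E) * gι b * (SE.ι P * (SE.ι P)⁻¹) ^ n ^ 2 := by rw [mul_pow]; ring
    rw [this, mul_inv_cancel₀ P_ne, one_pow, mul_one, map_mul, map_natCast]
    rfl
  have := hstr (n ^ 2) x hlat
  rw [e, this]

lemma exists_inLat (x : E) : ∃ g : GaussianInt, g ≠ 0 ∧ SE.InLat g x := by
  obtain ⟨d, hd, b, hb⟩ := exists_den x
  refine ⟨(d : GaussianInt), by exact_mod_cast hd.ne', b, ?_⟩
  rw [map_natCast]; exact hb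

lemma invariant_of_rotInv {μ : Measure (Dual E)} (h : RotInv μ) : SE.Invariant μ :=
  fun u hu => h u hu

/-- statement of the host block -/
def HostStmt : Prop :=
  ∀ (ν : Measure (Dual E)) [IsFiniteMeasure ν], SE.Invariant ν → ∀ x : E, x ≠ 0 →
    (∃ g : GaussianInt, g ≠ 0 ∧ SE.InLat g x) → ∫ χ, (χ x : ℂ) ∂ν ≠ 0 →
    ∃ D : Set (Dual E), MeasurableSet D ∧ ν D ≠ 0 ∧
      (∀ᵐ χ ∂ν, χ ∈ D → χ.mulShift SE.u0 ∈ D) ∧
      ∃ h : Dual E → ℂ, @Measurable _ _ SE.sigmaR _ h ∧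
        ∀ᵐ χ ∂ν, χ ∈ D → ((χ SE.θ : Circle) : ℂ) = h χ

/-- statement of block P1 -/
def P1Stmt : Prop :=
  ∀ (ν : Measure (Dual E)) [IsFiniteMeasure ν], SE.Invariant ν → SE.TargetP1 ν

/-- statement of block P3 -/
def P3Stmt : Prop :=
  ∀ (ν : Measure (Dual E)) [IsFiniteMeasure ν], SE.TargetP3 ν

theorem ehyp_of (hH : HostStmt) (h1 : P1Stmt) (h3 : P3Stmt) : EHyp yseq := by
  intro μ hfin hinv hnull x hx
  by_contra hne
  have hI := invariant_of_rotInv hinv
  obtain ⟨D, hD, hD0, hT, h, hh, hae⟩ := hH μ hI x hx (exists_inLat x) hne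
  have hR2 := SE.targetR2_of (h1 μ hI) (T1R2P2.targetP2 SE hI) (h3 μ) D hD hT h hh hae
  have h5 : ∀ᵐ χ ∂μ, χ ∉ LimSet yseq := measure_eq_zero_iff_ae_notMem.1 hnull
  apply hD0
  rw [measure_eq_zero_iff_ae_notMem]
  filter_upwards [hR2, h5] with χ a b hχ
  exact b (structured_limSet (a hχ))

end Crest.Agent.R40.T1EGlue
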