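import Crest.Agent.R40.T1R2P1c

/-!
# R40 / T1 / R2 / P1d : proof of `TargetP1`
-/

set_option autoImplicit false

namespace Crest.Agent.R40.T1R2

open MeasureTheory Filter
open scoped FourierTransform Topology

/-- weights of the symbols -/
noncomputable def wt : Option (Cell 2) → ℝ
  | none => 40 / 41
  | some _ => 1 / 1025

theorem wt_nonneg (o : Option (Cell 2)) : 0 ≤ wt o := by
  cases o <;> simp only [wt] <;> norm_num

theorem sum_wt : ∑ o, wt o = 1 := by
  rw [Fintype.sum_option]
  simp only [wt, Finset.sum_const, Finset.card_univ, Fintype.card_prod, Fintype.card_fin,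
    nsmul_eq_mul]
  norm_num

namespace Emb

variable {E : Type*} [Field E] (S : Emb E)

/-- the set of good characters -/
def GG (m : GaussianInt) (Q : ℂ × ℂ → ℂ) : Set (AddChar E Circle) :=
  {χ | ‖((χ S.θ : Circle) : ℂ) -
        Q (((χ (S.ι m)⁻¹ : Circle) : ℂ), ((χ (S.I * (S.ι m)⁻¹) : Circle) : ℂ))‖ < 1 / 8}

theorem measurableSet_GG (m : GaussianInt) {Q : ℂ × ℂ → ℂ} (hQ : Continuous Q) :
    MeasurableSet (S.GG m Q) := by
  apply measurableSet_lt _ measurable_const
  exact ((T1.measurable_eval S.θ).sub (hQ.measurable.comp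
    ((T1.measurable_eval (S.ι m)⁻¹).prodMk (T1.measurable_eval (S.I * (S.ι m)⁻¹))))).norm

open Classical in
/-- the symbol of a character at time `0` -/
noncomputable def lab (m : GaussianInt) (Q : ℂ × ℂ → ℂ) (χ : AddChar E Circle) : Option (Cell 2) :=
  if χ ∈ S.GG m Q then none else some (cell 2 ((χ S.θ : Circle) : ℂ))

/-- names -/
abbrev Nm (k n : ℕ) := (Cell k × Cell k) × (Fin n → Option (Cell 2))

noncomputable def nm (m : GaussianInt) (Q : ℂ × ℂ → ℂ) (k n : ℕ) (χ : AddChar E Circle) : Nm k n :=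
  ((cell k ((χ (S.ι m)⁻¹ : Circle) : ℂ), cell k ((χ (S.I * (S.ι m)⁻¹) : Circle) : ℂ)),
    fun j => S.lab m Q (S.T^[(j : ℕ)] χ))

theorem measurableSet_lab (m : GaussianInt) {Q : ℂ × ℂ → ℂ} (hQ : Continuous Q)
    (o : Option (Cell 2)) : MeasurableSet (S.lab m Q ⁻¹' {o}) := by
  have hG := S.measurableSet_GG m hQ
  cases o with
  | none =>
    have : S.lab m Q ⁻¹' {none} = S.GG m Q := by
      ext χ
      simp [lab]
    rw [this]; exact hG
  | some c =>
    have : S.lab m Q ⁻¹' {some c} = (S.GG m Q)ᶜ ∩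
        (fun χ : AddChar E Circle => cell 2 ((χ S.θ : Circle) : ℂ)) ⁻¹' {c} := by
      ext χ
      simp [lab]
    rw [this]
    exact hG.compl.inter (((measurable_cell 2).comp (T1.measurable_eval S.θ))
      (measurableSet_singleton c))

theorem measurableSet_nm (m : GaussianInt) {Q : ℂ × ℂ → ℂ} (hQ : Continuous Q) (k n : ℕ)
    (a : Nm k n) : MeasurableSet (S.nm m Q k n ⁻¹' {a}) := by
  have : S.nm m Q k n ⁻¹' {a} =
      ((fun χ : AddChar E Circle => cell k ((χ (S.ι m)⁻¹ : Circle) : ℂ)) ⁻¹' {a.1.1} ∩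
       (fun χ : AddChar E Circle => cell k ((χ (S.I * (S.ι m)⁻¹) : Circle) : ℂ)) ⁻¹' {a.1.2}) ∩
      ⋂ j : Fin n, (S.T^[(j : ℕ)]) ⁻¹' (S.lab m Q ⁻¹' {a.2 j}) := by
    ext χ
    simp only [nm, Set.mem_preimage, Set.mem_singleton_iff, Set.mem_inter_iff, Set.mem_iInter]
    constructor
    · rintro rfl
      exact ⟨⟨rfl, rfl⟩, fun j => rfl⟩
    · rintro ⟨⟨h1, h2⟩, h3⟩
      refine Prod.ext (Prod.ext h1 h2) (funext h3)
  rw [this]
  refine ((((measurable_cell k).comp (T1.measurable_eval _)) (measurableSet_singleton _)).inter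
    (((measurable_cell k).comp (T1.measurable_eval _)) (measurableSet_singleton _))).inter ?_
  exact MeasurableSet.iInter fun j =>
    (S.measurable_T.iterate j) (S.measurableSet_lab m hQ _)

/-- the weight of a name -/
noncomputable def WW (k n : ℕ) (a : Nm k n) : ℝ :=
  ((Fintype.card (Cell k × Cell k) : ℝ))⁻¹ * ∏ j, wt (a.2 j)

theorem WW_nonneg (k n : ℕ) (a : Nm k n) : 0 ≤ WW k n a :=
  mul_nonneg (by positivity) (Finset.prod_nonneg fun _ _ => wt_nonneg _)

theorem sum_WW (k n : ℕ) : ∑ a, WW k n a = 1 := by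
  rw [Fintype.sum_prod_type]
  have h1 : ∀ p : Cell k × Cell k, ∑ f : Fin n → Option (Cell 2), WW k n (p, f) =
      ((Fintype.card (Cell k × Cell k) : ℝ))⁻¹ := by
    intro p
    simp only [WW]
    rw [← Finset.mul_sum]
    have h2 : ∑ f : Fin n → Option (Cell 2), ∏ j, wt (f j) = 1 := by
      have := Finset.prod_univ_sum (fun _ : Fin n => (Finset.univ : Finset (Option (Cell 2))))
        (fun _ o => wt o)
      rw [Fintype.piFinset_univ] at this
      rw [← this, Finset.prod_congr rfl fun _ _ => sum_wt, Finset.prod_const_one]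
    rw [h2, mul_one]
  rw [Finset.sum_congr rfl fun p _ => h1 p, Finset.sum_const, Finset.card_univ, nsmul_eq_mul]
  apply mul_inv_cancel₀
  have : 0 < Fintype.card (Cell k × Cell k) := Fintype.card_pos
  positivity

/-- same name ⇒ related -/
theorem rel_of_nm_eq {m : GaussianInt} (hm : ¬ P ∣ m) {Q : ℂ × ℂ → ℂ} (hQ : Continuous Q) :
    ∃ k : ℕ, ∀ (n : ℕ) (χ χ' : AddChar E Circle), S.nm m Q k n χ = S.nm m Q k n χ' →
      ∃ s : ℂ, ‖s‖ ≤ 1 ∧ S.Rel (P ^ n * m) χ χ' s := by
  have hm0 : m ≠ 0 := by rintro rfl; exact hm (dvd_zero _)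
  have huc : UniformContinuousOn Q (Metric.closedBall (0 : ℂ × ℂ) 1) :=
    (isCompact_closedBall _ _).uniformContinuousOn_of_continuous hQ.continuousOn
  rw [Metric.uniformContinuousOn_iff] at huc
  obtain ⟨δ, hδ, huc⟩ := huc (1 / 8) (by norm_num)
  set ρ : ℝ := min δ (1 / 8) / 7 with hρ
  have hρpos : 0 < ρ := by positivity
  have hπ : Real.pi < 3.15 := Real.pi_lt_d2
  have hπ0 := Real.pi_pos
  obtain ⟨k, hk⟩ := S.rel_init hm0 hρpos
  refine ⟨k, fun n χ χ' hnm => ?_⟩
  have h1 := congrArg (fun a => a.1.1) hnm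
  have h2 := congrArg (fun a => a.1.2) hnm
  have h3 := congrArg (fun a => a.2) hnm
  simp only [nm] at h1 h2 h3
  obtain ⟨s, hs, hrel⟩ := hk χ χ' h1 h2
  have hρs : 2 * Real.pi * ‖s‖ < min δ (1 / 8) := by
    have e : min δ (1 / 8) = 7 * ρ := by rw [hρ]; ring
    rw [e]
    have hn := norm_nonneg s
    nlinarith
  have hsδ : 2 * Real.pi * ‖s‖ < δ := lt_of_lt_of_le hρs (min_le_left _ _)
  have hs8 : 2 * Real.pi * ‖s‖ < 1 / 8 := lt_of_lt_of_le hρs (min_le_right _ _)
  refine ⟨s, ?_, ?_⟩
  · refine hs.trans ?_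
    rw [hρ]
    have : min δ (1 / 8) ≤ 1 / 8 := min_le_right _ _
    linarith
  -- induction
  have key : ∀ j : ℕ, j ≤ n → S.Rel (P ^ j * m) χ χ' s := by
    intro j
    induction j with
    | zero => intro _; simpa using hrel
    | succ j ih =>
      intro hj
      have ih' := ih (by omega)
      apply Rel.step S hm ih'
      have hlab := congrFun h3 ⟨j, by omega⟩
      simp only at hlab
      have heps : ‖1 - ((S.eps s (S.t j) : Circle) : ℂ)‖ < 1 / 8 := by
        rw [norm_sub_rev]
        exact lt_of_le_of_lt (S.norm_eps_sub_one_le (S.norm_σ_t_le j)) hs8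
      have e1 : (S.T^[j] χ) S.θ = χ (S.t j) := S.T_iterate_apply j χ S.θ
      have e1' : (S.T^[j] χ') S.θ = χ' (S.t j) := S.T_iterate_apply j χ' S.θ
      have hclose : ‖((χ' (S.t j) : Circle) : ℂ) - ((χ (S.t j) : Circle) : ℂ)‖ ≤ 3 / 4 := by
        by_cases hg : S.T^[j] χ ∈ S.GG m Q
        · have hg' : S.T^[j] χ' ∈ S.GG m Q := by
            by_contra hg'
            simp [lab, hg, hg'] at hlab
          have hg1 : ‖((χ (S.t j) : Circle) : ℂ) - Q (((χ (S.pt1 m j) : Circle) : ℂ),
              ((χ (S.pt2 m j) : Circle) : ℂ))‖ < 1 / 8 := by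
            have := hg
            simp only [GG, Set.mem_ofPred_eq, T_iterate_apply] at this
            exact this
          have hg2 : ‖((χ' (S.t j) : Circle) : ℂ) - Q (((χ' (S.pt1 m j) : Circle) : ℂ),
              ((χ' (S.pt2 m j) : Circle) : ℂ))‖ < 1 / 8 := by
            have := hg'
            simp only [GG, Set.mem_ofPred_eq, T_iterate_apply] at this
            exact this
          have hd1 := Rel.norm_sub_le S ih' (S.inLat_pt1 hm0 j) (S.norm_σ_pt1_le hm0 j)
          have hd2 := Rel.norm_sub_le S ih' (S.inLat_pt2 hm0 j) (S.norm_σ_pt2_le hm0 j)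
          have hQQ : dist (Q (((χ' (S.pt1 m j) : Circle) : ℂ), ((χ' (S.pt2 m j) : Circle) : ℂ)))
              (Q (((χ (S.pt1 m j) : Circle) : ℂ), ((χ (S.pt2 m j) : Circle) : ℂ))) < 1 / 8 := by
            apply huc
            · rw [mem_closedBall_zero_iff, Prod.norm_def]
              exact max_le (Circle.norm_coe _).le (Circle.norm_coe _).le
            · rw [mem_closedBall_zero_iff, Prod.norm_def]
              exact max_le (Circle.norm_coe _).le (Circle.norm_coe _).le
            · rw [Prod.dist_eq]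
              apply max_lt
              · rw [dist_eq_norm]; exact lt_of_le_of_lt hd1 hsδ
              · rw [dist_eq_norm]; exact lt_of_le_of_lt hd2 hsδ
          rw [dist_eq_norm] at hQQ
          set x := ((χ (S.t j) : Circle) : ℂ)
          set x' := ((χ' (S.t j) : Circle) : ℂ)
          set q := Q (((χ (S.pt1 m j) : Circle) : ℂ), ((χ (S.pt2 m j) : Circle) : ℂ))
          set q' := Q (((χ' (S.pt1 m j) : Circle) : ℂ), ((χ' (S.pt2 m j) : Circle) : ℂ))
          have e : x' - x = (x' - q') + (q' - q) - (x - q) := by ring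
          rw [e]
          have := norm_sub_le ((x' - q') + (q' - q)) (x - q)
          have := norm_add_le (x' - q') (q' - q)
          linarith
        · have hg' : S.T^[j] χ' ∉ S.GG m Q := by
            intro hg'
            simp [lab, hg, hg'] at hlab
          simp only [lab, hg, hg', if_false, Option.some.injEq] at hlab
          rw [e1, e1'] at hlab
          have hc := cell_close (Circle.norm_coe _) (Circle.norm_coe _) hlab
          rw [norm_sub_rev]
          push_cast at hc
          nlinarith [norm_nonneg (((χ (S.t j) : Circle) : ℂ) - ((χ' (S.t j) : Circle) : ℂ))]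
      linarith
  exact key n le_rfl

/-- P1 -/
theorem targetP1 (ν : Measure (AddChar E Circle)) [IsFiniteMeasure ν] (hinv : S.Invariant ν) :
    S.TargetP1 ν := by
  classical
  refine ⟨200, by norm_num, ?_⟩
  intro DD hDD hDT m hm Q hQ κ hκ
  have hT := S.measurePreserving_T hinv
  set B : Set (AddChar E Circle) := DD ∩ {χ | 1 / 8 ≤ ‖((χ S.θ : Circle) : ℂ) -
        Q (((χ (S.ι m)⁻¹ : Circle) : ℂ), ((χ (S.I * (S.ι m)⁻¹) : Circle) : ℂ))‖} with hB
  have hBG : B = DD ∩ (S.GG m Q)ᶜ := by
    rw [hB]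
    ext χ
    simp only [GG, Set.mem_inter_iff, Set.mem_ofPred_eq, Set.mem_compl_iff, not_lt]
  have hBm : MeasurableSet B := by
    rw [hBG]; exact hDD.inter (S.measurableSet_GG m hQ).compl
  obtain ⟨k, hk⟩ := S.rel_of_nm_eq hm hQ
  set bs : ℕ → AddChar E Circle → ℝ := fun n χ =>
    birkhoffSum S.T (B.indicator fun _ => (1 : ℝ)) n χ with hbs
  set K : Set (AddChar E Circle) := {χ | ∃ n : ℕ, (1 / 200 : ℝ) * n < bs n χ}ᶜ with hK
  have hbsm : ∀ n, Measurable (bs n) := by
    intro n
    simp only [hbs, birkhoffSum]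
    refine Finset.measurable_sum _ fun j _ => ?_
    exact (measurable_const.indicator hBm).comp (S.measurable_T.iterate j)
  have hKm : MeasurableSet K := by
    apply MeasurableSet.compl
    rw [Set.ofPred_exists]
    exact MeasurableSet.iUnion fun n => measurableSet_lt measurable_const (hbsm n)
  refine ⟨K, ((Fintype.card (Cell k × Cell k) : ℝ))⁻¹, ?_, hKm, ?_, ?_⟩
  · have : 0 < Fintype.card (Cell k × Cell k) := Fintype.card_pos
    positivity
  · rw [hK, compl_compl]
    have := maximal_visits hT hBm (l := 1 / 200) (by norm_num)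
    refine this.trans ?_
    norm_num
    exact hκ
  · have hBC := names_borel_cantelli (ν := ν) (Nm := fun n => Nm k n) (fun n => S.nm m Q k n)
      (fun n => WW k n) (fun n a => WW_nonneg k n a) (fun n => (sum_WW k n).le)
      (r := 19 / 20) (by norm_num) (by norm_num)
    have hDD' : ∀ᵐ χ ∂ν, ∀ j : ℕ, χ ∈ DD → S.T^[j] χ ∈ DD := by
      rw [ae_all_iff]
      intro j
      induction j with
      | zero => exact Eventually.of_forall fun χ h => h
      | succ j ih =>
        have h1 : ∀ᵐ χ ∂ν, (S.T^[j] χ ∈ DD → S.T (S.T^[j] χ) ∈ DD) :=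
          (hT.iterate j).quasiMeasurePreserving.ae hDT
        filter_upwards [ih, h1] with χ h2 h3 h4
        rw [Function.iterate_succ_apply']
        exact h3 (h2 h4)
    filter_upwards [hBC, hDD'] with χ h1 h2 hχK hχD
    filter_upwards [h1] with n hn
    refine ⟨S.nm m Q k n ⁻¹' {S.nm m Q k n χ}, S.measurableSet_nm m hQ k n _, rfl, ?_, ?_⟩
    · refine le_trans ?_ hn
      -- number of bad times
      set c : ℕ := ((Finset.range n).filter fun j => S.T^[j] χ ∈ B).card with hc
      have hbc : bs n χ = (c : ℝ) := by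
        simp only [hbs, birkhoffSum, Set.indicator_apply]
        rw [Finset.sum_ite]
        simp [hc]
      have hcn : 200 * c ≤ n := by
        have : ¬ (1 / 200 : ℝ) * n < bs n χ := by
          intro h
          exact hχK ⟨n, h⟩
        rw [hbc, not_lt] at this
        have h' : (200 : ℝ) * c ≤ n := by linarith
        exact_mod_cast h'
      have hprod : (40 / 41 : ℝ) ^ n * (1 / 1025) ^ c ≤
          ∏ j : Fin n, wt (S.lab m Q (S.T^[(j : ℕ)] χ)) := by
        have e := Finset.prod_range (n := n) (fun j => wt (S.lab m Q (S.T^[j] χ)))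
        rw [← e]
        have e2 : (40 / 41 : ℝ) ^ n * (1 / 1025) ^ c =
            ∏ j ∈ Finset.range n, ((40 / 41 : ℝ) * if S.T^[j] χ ∈ B then 1 / 1025 else 1) := by
          rw [Finset.prod_mul_distrib, Finset.prod_const, Finset.card_range, Finset.prod_ite,
            Finset.prod_const, Finset.prod_const_one, mul_one, hc]
        rw [e2]
        apply Finset.prod_le_prod
        · intro j _
          split_ifs <;> norm_num
        · intro j _
          by_cases hg : S.T^[j] χ ∈ S.GG m Q
          · have hnb : S.T^[j] χ ∉ B := by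
              rw [hBG]; exact fun h => h.2 hg
            simp only [lab, hg, hnb, if_true, if_false, wt]
            norm_num
          · have hb : S.T^[j] χ ∈ B := by
              rw [hBG]; exact ⟨h2 j hχD, hg⟩
            simp only [lab, hg, hb, if_true, if_false, wt]
            norm_num
      have hpow : (19 / 20 : ℝ) ^ n ≤ (1 / 1025) ^ c := by
        calc (19 / 20 : ℝ) ^ n ≤ (19 / 20 : ℝ) ^ (200 * c) :=
              pow_le_pow_of_le_one (by norm_num) (by norm_num) hcn
          _ = ((19 / 20 : ℝ) ^ 200) ^ c := by rw [pow_mul]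
          _ ≤ (1 / 1025) ^ c := pow_le_pow_left₀ (by positivity) (by norm_num) c
      simp only [WW, nm]
      set cc : ℝ := ((Fintype.card (Cell k × Cell k) : ℝ))⁻¹ with hcc
      have hcc0 : 0 ≤ cc := by positivity
      have hfin : (5 / 6 : ℝ) ^ n ≤ (19 / 20) ^ n * ((40 / 41) ^ n * (1 / 1025) ^ c) := by
        calc (5 / 6 : ℝ) ^ n ≤ ((19 / 20) * ((40 / 41) * (19 / 20))) ^ n :=
              pow_le_pow_left₀ (by norm_num) (by norm_num) n
          _ = (19 / 20) ^ n * ((40 / 41) ^ n * (19 / 20) ^ n) := by rw [mul_pow, mul_pow]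
          _ ≤ (19 / 20) ^ n * ((40 / 41) ^ n * (1 / 1025) ^ c) := by gcongr
      calc cc * (5 / 6 : ℝ) ^ n ≤ cc * ((19 / 20) ^ n * ((40 / 41) ^ n * (1 / 1025) ^ c)) := by
            gcongr
        _ ≤ cc * ((19 / 20) ^ n * ∏ j : Fin n, wt (S.lab m Q (S.T^[(j : ℕ)] χ))) := by
            gcongr
        _ = (19 / 20) ^ n * (cc * ∏ j : Fin n, wt (S.lab m Q (S.T^[(j : ℕ)] χ))) := by ring
    · intro χ₁ h3 χ₂ h4
      apply hk n χ₁ χ₂
      have h3' : S.nm m Q k n χ₁ = S.nm m Q k n χ := h3
      have h4' : S.nm m Q k n χ₂ = S.nm m Q k n χ := h4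
      rw [h3', h4']

end Emb

end Crest.Agent.R40.T1R2
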