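import Mathlib

/-!
# R40 / T1 / M4 (R2), part P3a: approximation of functions measurable with respect to
`sigma (chi a : a in R)` by trigonometric polynomials, in measure.
-/

set_option autoImplicit false

open MeasureTheory Filter Topology Set
open scoped ENNReal

namespace Crest.Agent.R40.T1R2P3

/-- Weierstrass on the circle. -/
theorem circle_approx (ψ : C(Circle, ℂ)) {ε : ℝ} (hε : 0 < ε) :
    ∃ c : ℤ →₀ ℂ, ∀ z : Circle, ‖ψ z - c.sum (fun n a => a * ((z ^ n : Circle) : ℂ))‖ < ε := by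
  have : Fact (0 < (1 : ℝ)) := ⟨one_pos⟩
  let f : C(AddCircle (1 : ℝ), ℂ) := ψ.comp ⟨AddCircle.toCircle, AddCircle.continuous_toCircle⟩
  have hf : f ∈ (Submodule.span ℂ (range (@fourier (1 : ℝ)))).topologicalClosure := by
    rw [span_fourier_closure_eq_top]; trivial
  have hf' : f ∈ closure ((Submodule.span ℂ (range (@fourier (1 : ℝ))) : Set C(AddCircle (1 : ℝ), ℂ))) := hf
  rw [Metric.mem_closure_iff] at hf'
  obtain ⟨g, hg, hfg⟩ := hf' ε hε
  obtain ⟨c, rfl⟩ := (Finsupp.mem_span_range_iff_exists_finsupp).1 hg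
  refine ⟨c, fun z => ?_⟩
  obtain ⟨t, ht⟩ := Circle.exp_surjective z
  let x : AddCircle (1 : ℝ) := ((t / (2 * Real.pi) : ℝ) : AddCircle (1 : ℝ))
  have hx : AddCircle.toCircle x = z := by
    rw [AddCircle.toCircle_apply_mk, ← ht]
    congr 1
    field_simp
  have h1 : ‖f x - (c.sum fun n a => a • (fourier n : C(AddCircle (1 : ℝ), ℂ))) x‖ < ε := by
    rw [← ContinuousMap.sub_apply]
    refine lt_of_le_of_lt (ContinuousMap.norm_coe_le_norm _ x) ?_
    rwa [← dist_eq_norm]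
  have h2 : f x = ψ z := by
    show ψ (AddCircle.toCircle x) = ψ z
    rw [hx]
  have h3 : (c.sum fun n a => a • (fourier n : C(AddCircle (1 : ℝ), ℂ))) x =
      c.sum (fun n a => a * ((z ^ n : Circle) : ℂ)) := by
    simp only [Finsupp.sum]
    rw [ContinuousMap.sum_apply]
    refine Finset.sum_congr rfl fun n _ => ?_
    rw [ContinuousMap.smul_apply, smul_eq_mul, fourier_apply, AddCircle.toCircle_zsmul, hx]
  rw [h2, h3] at h1
  exact h1

section Approx

variable {X : Type*} [MeasurableSpace X] {A : Type*} [AddCommGroup A]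

/-- trigonometric polynomials with frequencies in `R` -/
def TP (ev : X → AddChar A Circle) (R : AddSubgroup A) : Subalgebra ℂ (X → ℂ) :=
  Algebra.adjoin ℂ (range fun (a : R) (x : X) => (ev x (a : A) : ℂ))

omit [MeasurableSpace X] in
theorem eval_mem_TP (ev : X → AddChar A Circle) (R : AddSubgroup A) {a : A} (ha : a ∈ R) :
    (fun x => (ev x a : ℂ)) ∈ TP ev R :=
  Algebra.subset_adjoin ⟨⟨a, ha⟩, rfl⟩

omit [MeasurableSpace X] in
theorem mem_TP (ev : X → AddChar A Circle) (R : AddSubgroup A) {P : X → ℂ} (hP : P ∈ TP ev R) :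
    ∃ (s : Finset A) (q : A → ℂ), (∀ a ∈ s, a ∈ R) ∧
      P = fun x => ∑ a ∈ s, q a * (ev x a : ℂ) := by
  classical
  have h1 : ((Submonoid.closure (range fun (a : R) (x : X) => (ev x (a : A) : ℂ)) : Submonoid (X → ℂ)) : Set (X → ℂ)) ⊆
      (Submodule.span ℂ (range fun (a : R) (x : X) => (ev x (a : A) : ℂ)) : Set (X → ℂ)) := by
    intro f hf
    apply Submodule.subset_span
    refine Submonoid.closure_induction (motive := fun f _ =>
      f ∈ range fun (a : R) (x : X) => (ev x (a : A) : ℂ)) ?_ ?_ ?_ hf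
    · exact fun f hf => hf
    · refine ⟨0, ?_⟩
      funext x
      simp [AddChar.map_zero_eq_one]
    · rintro _ _ _ _ ⟨a, rfl⟩ ⟨b, rfl⟩
      refine ⟨a + b, ?_⟩
      funext x
      simp [AddChar.map_add_eq_mul]
  have h2 : P ∈ Submodule.span ℂ (range fun (a : R) (x : X) => (ev x (a : A) : ℂ)) := by
    have := Algebra.adjoin_eq_span_of_subset ℂ h1
    rw [← this]; exact hP
  obtain ⟨c, rfl⟩ := (Finsupp.mem_span_range_iff_exists_finsupp).1 h2
  refine ⟨c.support.map (Function.Embedding.subtype _), fun a => if h : a ∈ R then c ⟨a, h⟩ else 0,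
    ?_, ?_⟩
  · intro a ha
    rw [Finset.mem_map] at ha
    obtain ⟨b, _, rfl⟩ := ha
    exact b.2
  · funext x
    rw [Finset.sum_map, Finsupp.sum, Finset.sum_apply]
    refine Finset.sum_congr rfl fun a _ => ?_
    show c a * (ev x (a : A) : ℂ) = (if h : (a : A) ∈ R then c ⟨a, h⟩ else 0) * (ev x (a : A) : ℂ)
    rw [dif_pos a.2]

/-- approximable in measure by trigonometric polynomials -/
def Appr (ν : Measure X) (ev : X → AddChar A Circle) (R : AddSubgroup A) (f : X → ℂ) : Prop :=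
  ∀ ε : ℝ, 0 < ε → ∀ κ : ℝ≥0∞, κ ≠ 0 → ∃ P ∈ TP ev R, ν {x | ε ≤ ‖f x - P x‖} ≤ κ

variable {ν : Measure X} {ev : X → AddChar A Circle} {R : AddSubgroup A}

theorem Appr.of_mem {f : X → ℂ} (hf : f ∈ TP ev R) : Appr ν ev R f := by
  intro ε hε κ _
  refine ⟨f, hf, ?_⟩
  have : {x | ε ≤ ‖f x - f x‖} = ∅ := by
    ext x; simp [hε]
  rw [this]; simp

theorem Appr.of_close {f : X → ℂ}
    (h : ∀ ε : ℝ, 0 < ε → ∀ κ : ℝ≥0∞, κ ≠ 0 → ∃ g, Appr ν ev R g ∧ ν {x | ε ≤ ‖f x - g x‖} ≤ κ) :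
    Appr ν ev R f := by
  intro ε hε κ hκ
  obtain ⟨g, hg, hfg⟩ := h (ε / 2) (by positivity) (κ / 2) (by simpa using hκ)
  obtain ⟨P, hP, hgP⟩ := hg (ε / 2) (by positivity) (κ / 2) (by simpa using hκ)
  refine ⟨P, hP, ?_⟩
  have hsub : {x | ε ≤ ‖f x - P x‖} ⊆ {x | ε / 2 ≤ ‖f x - g x‖} ∪ {x | ε / 2 ≤ ‖g x - P x‖} := by
    intro x hx
    simp only [mem_ofPred_eq, mem_union] at hx ⊢
    by_contra hcon
    push Not at hcon
    have := norm_sub_le_norm_sub_add_norm_sub (f x) (g x) (P x)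
    linarith [hcon.1, hcon.2]
  calc ν {x | ε ≤ ‖f x - P x‖} ≤ ν ({x | ε / 2 ≤ ‖f x - g x‖} ∪ {x | ε / 2 ≤ ‖g x - P x‖}) :=
        measure_mono hsub
    _ ≤ ν {x | ε / 2 ≤ ‖f x - g x‖} + ν {x | ε / 2 ≤ ‖g x - P x‖} := measure_union_le _ _
    _ ≤ κ / 2 + κ / 2 := add_le_add hfg hgP
    _ = κ := ENNReal.add_halves κ

theorem Appr.add {f g : X → ℂ} (hf : Appr ν ev R f) (hg : Appr ν ev R g) :
    Appr ν ev R (fun x => f x + g x) := by
  intro ε hε κ hκ
  obtain ⟨P, hP, h1⟩ := hf (ε / 2) (by positivity) (κ / 2) (by simpa using hκ)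
  obtain ⟨Q, hQ, h2⟩ := hg (ε / 2) (by positivity) (κ / 2) (by simpa using hκ)
  refine ⟨P + Q, (TP ev R).add_mem hP hQ, ?_⟩
  have hsub : {x | ε ≤ ‖f x + g x - (P + Q) x‖} ⊆
      {x | ε / 2 ≤ ‖f x - P x‖} ∪ {x | ε / 2 ≤ ‖g x - Q x‖} := by
    intro x hx
    simp only [mem_ofPred_eq, mem_union, Pi.add_apply] at hx ⊢
    by_contra hcon
    push Not at hcon
    have : ‖f x + g x - (P x + Q x)‖ ≤ ‖f x - P x‖ + ‖g x - Q x‖ := by
      have : f x + g x - (P x + Q x) = (f x - P x) + (g x - Q x) := by ring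
      rw [this]; exact norm_add_le _ _
    linarith [hcon.1, hcon.2]
  calc ν {x | ε ≤ ‖f x + g x - (P + Q) x‖} ≤
        ν ({x | ε / 2 ≤ ‖f x - P x‖} ∪ {x | ε / 2 ≤ ‖g x - Q x‖}) := measure_mono hsub
    _ ≤ ν {x | ε / 2 ≤ ‖f x - P x‖} + ν {x | ε / 2 ≤ ‖g x - Q x‖} := measure_union_le _ _
    _ ≤ κ / 2 + κ / 2 := add_le_add h1 h2
    _ = κ := ENNReal.add_halves κ

theorem Appr.const_mul {f : X → ℂ} (hf : Appr ν ev R f) (c : ℂ) :
    Appr ν ev R (fun x => c * f x) := by
  rcases eq_or_ne c 0 with rfl | hc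
  · simp only [zero_mul]
    exact Appr.of_mem ((TP ev R).zero_mem)
  intro ε hε κ hκ
  have hc' : 0 < ‖c‖ := norm_pos_iff.2 hc
  obtain ⟨P, hP, h1⟩ := hf (ε / ‖c‖) (by positivity) κ hκ
  refine ⟨c • P, (TP ev R).smul_mem hP c, ?_⟩
  refine le_trans (measure_mono ?_) h1
  intro x hx
  simp only [mem_ofPred_eq, Pi.smul_apply, smul_eq_mul] at hx ⊢
  rw [← mul_sub, norm_mul] at hx
  rw [div_le_iff₀ hc']
  linarith

theorem Appr.mul_bdd {f g : X → ℂ} (hf : Appr ν ev R f) (hg : Appr ν ev R g)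
    (hf1 : ∀ x, ‖f x‖ ≤ 1) (hg1 : ∀ x, ‖g x‖ ≤ 1) :
    Appr ν ev R (fun x => f x * g x) := by
  intro ε hε κ hκ
  set δ : ℝ := min 1 (ε / 4) with hδ
  have hδ0 : 0 < δ := by positivity
  obtain ⟨P, hP, h1⟩ := hf δ hδ0 (κ / 2) (by simpa using hκ)
  obtain ⟨Q, hQ, h2⟩ := hg δ hδ0 (κ / 2) (by simpa using hκ)
  refine ⟨P * Q, (TP ev R).mul_mem hP hQ, ?_⟩
  have hsub : {x | ε ≤ ‖f x * g x - (P * Q) x‖} ⊆
      {x | δ ≤ ‖f x - P x‖} ∪ {x | δ ≤ ‖g x - Q x‖} := by
    intro x hx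
    simp only [mem_ofPred_eq, mem_union, Pi.mul_apply] at hx ⊢
    by_contra hcon
    push Not at hcon
    obtain ⟨ha, hb⟩ := hcon
    have h3 : ‖Q x‖ ≤ 2 := by
      have : Q x = g x - (g x - Q x) := by ring
      have h4 : ‖Q x‖ ≤ ‖g x‖ + ‖g x - Q x‖ := by
        conv_lhs => rw [this]
        exact norm_sub_le _ _
      have := hg1 x
      have := min_le_left 1 (ε / 4)
      linarith
    have h5 : ‖f x * g x - P x * Q x‖ ≤ ‖f x‖ * ‖g x - Q x‖ + ‖f x - P x‖ * ‖Q x‖ := by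
      have : f x * g x - P x * Q x = f x * (g x - Q x) + (f x - P x) * Q x := by ring
      rw [this]
      refine (norm_add_le _ _).trans ?_
      rw [norm_mul, norm_mul]
    have h6 : ‖f x‖ * ‖g x - Q x‖ ≤ 1 * δ :=
      mul_le_mul (hf1 x) hb.le (norm_nonneg _) zero_le_one
    have h7 : ‖f x - P x‖ * ‖Q x‖ ≤ δ * 2 :=
      mul_le_mul ha.le h3 (norm_nonneg _) hδ0.le
    have := min_le_right 1 (ε / 4)
    linarith
  calc ν {x | ε ≤ ‖f x * g x - (P * Q) x‖} ≤
        ν ({x | δ ≤ ‖f x - P x‖} ∪ {x | δ ≤ ‖g x - Q x‖}) := measure_mono hsub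
    _ ≤ ν {x | δ ≤ ‖f x - P x‖} + ν {x | δ ≤ ‖g x - Q x‖} := measure_union_le _ _
    _ ≤ κ / 2 + κ / 2 := add_le_add h1 h2
    _ = κ := ENNReal.add_halves κ

theorem Appr.of_tendsto [IsFiniteMeasure ν] {f : X → ℂ} {g : ℕ → X → ℂ}
    (hg : ∀ n, Appr ν ev R (g n)) (hm : ∀ n, AEStronglyMeasurable (g n) ν)
    (hlim : ∀ x, Tendsto (fun n => g n x) atTop (𝓝 (f x))) : Appr ν ev R f := by
  have h := tendstoInMeasure_of_tendsto_ae (f := g) (g := f) hm (ae_of_all _ hlim)
  refine Appr.of_close fun ε hε κ hκ => ?_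
  have h1 := h (ENNReal.ofReal ε) (by simpa using hε)
  have h2 := (ENNReal.tendsto_nhds_zero.1 h1) κ (pos_iff_ne_zero.2 hκ)
  obtain ⟨n, hn⟩ := h2.exists
  refine ⟨g n, hg n, le_trans (measure_mono ?_) hn⟩
  intro x hx
  simp only [mem_ofPred_eq] at hx ⊢
  rw [edist_comm, edist_dist, dist_eq_norm]
  exact ENNReal.ofReal_le_ofReal hx

theorem Appr.comp_circle [IsFiniteMeasure ν] (ψ : C(Circle, ℂ)) {a : A} (ha : a ∈ R) :
    Appr ν ev R (fun x => ψ (ev x a)) := by
  intro ε hε κ _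
  obtain ⟨c, hc⟩ := circle_approx ψ hε
  refine ⟨∑ n ∈ c.support, c n • (fun x => (ev x (n • a) : ℂ)), ?_, ?_⟩
  · exact (TP ev R).sum_mem fun n _ => (TP ev R).smul_mem (eval_mem_TP ev R (R.zsmul_mem ha n)) _
  · have : {x | ε ≤ ‖ψ (ev x a) - (∑ n ∈ c.support, c n • (fun x => (ev x (n • a) : ℂ))) x‖} = ∅ := by
      ext x
      simp only [mem_ofPred_eq, mem_empty_iff_false, iff_false, not_le]
      have := hc (ev x a)
      simpa [Finsupp.sum, Finset.sum_apply, AddChar.map_zsmul_eq_zpow] using this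
    rw [this]; simp

/-- the sigma-algebra of sets with approximable indicator -/
@[reducible] def mG (ν : Measure X) [IsFiniteMeasure ν] (ev : X → AddChar A Circle) (R : AddSubgroup A) :
    MeasurableSpace X where
  MeasurableSet' S := MeasurableSet S ∧ Appr ν ev R (S.indicator 1)
  measurableSet_empty := ⟨MeasurableSet.empty, by
    rw [indicator_empty]; exact Appr.of_mem (TP ev R).zero_mem⟩
  measurableSet_compl := by
    rintro S ⟨hS, hA⟩
    refine ⟨hS.compl, ?_⟩
    have h1 : (Sᶜ.indicator 1 : X → ℂ) = fun x => (fun _ => (1 : ℂ)) x + (-1) * S.indicator 1 x := by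
      funext x
      by_cases hx : x ∈ S <;> simp [hx]
    rw [h1]
    exact (Appr.of_mem (TP ev R).one_mem).add (hA.const_mul (-1))
  measurableSet_iUnion := by
    intro f hf
    refine ⟨MeasurableSet.iUnion fun n => (hf n).1, ?_⟩
    have hfin : ∀ n : ℕ, MeasurableSet (⋃ k ∈ Finset.range n, f k) ∧
        Appr ν ev R ((⋃ k ∈ Finset.range n, f k).indicator 1) := by
      intro n
      induction n with
      | zero =>
        simp only [Finset.range_zero, Finset.notMem_empty, iUnion_of_empty, iUnion_empty]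
        exact ⟨MeasurableSet.empty, by
          rw [indicator_empty]; exact Appr.of_mem (TP ev R).zero_mem⟩
      | succ n ih =>
        set T := ⋃ k ∈ Finset.range n, f k with hT
        have hTs : (⋃ k ∈ Finset.range (n + 1), f k) = T ∪ f n := by
          rw [Finset.range_add_one, Finset.set_biUnion_insert, union_comm]
        rw [hTs]
        refine ⟨ih.1.union (hf n).1, ?_⟩
        have h1 : ((T ∪ f n).indicator 1 : X → ℂ) = fun x =>
            (fun x => T.indicator 1 x + (f n).indicator 1 x) x +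
              (-1) * (T.indicator 1 x * (f n).indicator 1 x) := by
          funext x
          by_cases hx : x ∈ T <;> by_cases hx' : x ∈ f n <;> simp [hx, hx']
        rw [h1]
        refine (ih.2.add (hf n).2).add (Appr.const_mul (Appr.mul_bdd ih.2 (hf n).2 ?_ ?_) (-1))
        · intro x
          by_cases hx : x ∈ T <;> simp [hx]
        · intro x
          by_cases hx : x ∈ f n <;> simp [hx]
    refine Appr.of_tendsto (g := fun n => (⋃ k ∈ Finset.range n, f k).indicator 1)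
      (fun n => (hfin n).2) (fun n => ?_) (fun x => ?_)
    · exact (stronglyMeasurable_one.indicator (hfin n).1).aestronglyMeasurable
    · by_cases hx : x ∈ ⋃ i, f i
      · obtain ⟨i, hi⟩ := mem_iUnion.1 hx
        refine tendsto_const_nhds.congr' ?_
        filter_upwards [eventually_gt_atTop i] with n hn
        rw [indicator_of_mem hx, indicator_of_mem]
        simp only [mem_iUnion]
        exact ⟨i, Finset.mem_range.2 hn, hi⟩
      · refine tendsto_const_nhds.congr' (Eventually.of_forall fun n => ?_)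
        rw [indicator_of_notMem hx]
        show (0 : ℂ) = (⋃ k ∈ Finset.range n, f k).indicator 1 x
        rw [indicator_of_notMem]
        intro hcon
        simp only [mem_iUnion] at hcon
        obtain ⟨i, _, hi⟩ := hcon
        exact hx (mem_iUnion.2 ⟨i, hi⟩)

theorem comap_le_mG [IsFiniteMeasure ν] (hev : ∀ a ∈ R, Measurable fun x => (ev x a : ℂ))
    {a : A} (ha : a ∈ R) :
    MeasurableSpace.comap (fun x => (ev x a : ℂ)) (borel ℂ) ≤ mG ν ev R := by
  rw [← measurable_iff_comap_le]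
  show @Measurable X ℂ (mG ν ev R) Complex.measurableSpace (fun x => (ev x a : ℂ))
  refine @measurable_of_isClosed ℂ X _ _ _ (mG ν ev R) _ ?_
  intro U hU
  refine ⟨(hev a ha) hU.measurableSet, ?_⟩
  let ψ : ℕ → C(Circle, ℂ) := fun n =>
    ⟨fun z => ((hU.apprSeq n (z : ℂ) : NNReal) : ℂ), by fun_prop⟩
  refine Appr.of_tendsto (g := fun n x => ψ n (ev x a)) (fun n => Appr.comp_circle (ψ n) ha)
    (fun n => ?_) (fun x => ?_)
  · refine Measurable.aestronglyMeasurable ?_
    have h1 : Measurable (fun z : ℂ => ((hU.apprSeq n z : NNReal) : ℂ)) := by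
      apply Continuous.measurable
      fun_prop
    exact h1.comp (hev a ha)
  · have h1 := HasOuterApproxClosed.tendsto_apprSeq hU
    rw [tendsto_pi_nhds] at h1
    have h2 := h1 (ev x a : ℂ)
    have h3 : Tendsto (fun n => ((hU.apprSeq n (ev x a : ℂ) : NNReal) : ℂ)) atTop
        (𝓝 ((U.indicator (fun _ => (1 : NNReal)) (ev x a : ℂ) : NNReal) : ℂ)) :=
      ((Complex.continuous_ofReal.comp NNReal.continuous_coe).tendsto _).comp h2
    have h4 : (((fun x => (ev x a : ℂ)) ⁻¹' U).indicator 1 x : ℂ) =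
        ((U.indicator (fun _ => (1 : NNReal)) (ev x a : ℂ) : NNReal) : ℂ) := by
      by_cases hx : (ev x a : ℂ) ∈ U
      · rw [indicator_of_mem hx, indicator_of_mem (show x ∈ (fun x => (ev x a : ℂ)) ⁻¹' U from hx)]
        simp
      · rw [indicator_of_notMem hx,
          indicator_of_notMem (show x ∉ (fun x => (ev x a : ℂ)) ⁻¹' U from hx)]
        simp
    rw [h4]
    exact h3

/-- Main approximation theorem, abstract form. -/
theorem appr_of_stronglyMeasurable [IsFiniteMeasure ν]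
    (hev : ∀ a ∈ R, Measurable fun x => (ev x a : ℂ)) {g : X → ℂ}
    (hg : StronglyMeasurable[⨆ a ∈ R, MeasurableSpace.comap (fun x => (ev x a : ℂ)) (borel ℂ)] g) :
    Appr ν ev R g := by
  have hle : (⨆ a ∈ R, MeasurableSpace.comap (fun x => (ev x a : ℂ)) (borel ℂ)) ≤ mG ν ev R :=
    iSup₂_le fun a ha => comap_le_mG hev ha
  have hg' : StronglyMeasurable[mG ν ev R] g := hg.mono hle
  have hle' : mG ν ev R ≤ (inferInstance : MeasurableSpace X) := fun S hS => hS.1
  have hsimple : ∀ f : @SimpleFunc X (mG ν ev R) ℂ, Appr ν ev R f := by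
    intro f
    refine @SimpleFunc.induction X ℂ (mG ν ev R) _ (fun f => Appr ν ev R f) ?_ ?_ f
    · intro c s hs
      have h1 : ((@SimpleFunc.piecewise X ℂ (mG ν ev R) s hs (@SimpleFunc.const X ℂ (mG ν ev R) c)
          (@SimpleFunc.const X ℂ (mG ν ev R) 0) : @SimpleFunc X (mG ν ev R) ℂ) : X → ℂ) =
          fun x => c * s.indicator 1 x := by
        funext x
        by_cases hx : x ∈ s <;> simp [hx]
      show Appr ν ev R ((@SimpleFunc.piecewise X ℂ (mG ν ev R) s hs (@SimpleFunc.const X ℂ (mG ν ev R) c)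
          (@SimpleFunc.const X ℂ (mG ν ev R) 0) : @SimpleFunc X (mG ν ev R) ℂ) : X → ℂ)
      rw [h1]
      exact hs.2.const_mul c
    · intro f g _ hf hg
      exact hf.add hg
  refine Appr.of_tendsto (g := fun n => (hg'.approx n : X → ℂ)) (fun n => hsimple _) (fun n => ?_)
    (fun x => hg'.tendsto_approx x)
  have h1 : StronglyMeasurable[mG ν ev R] (hg'.approx n : X → ℂ) :=
    @SimpleFunc.stronglyMeasurable X ℂ (mG ν ev R) _ (hg'.approx n)
  exact (h1.mono hle').aestronglyMeasurable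

end Approx

end Crest.Agent.R40.T1R2P3
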