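import Crest.Agent.R40.T1R2Defs
import Crest.Agent.R40.T1R2P3a

/-!
# R40 / T1 / M4 (R2), part P3: proof of `TargetP3`
-/

set_option autoImplicit false

open MeasureTheory Filter Topology Set
open scoped ENNReal ComplexConjugate

namespace Crest.Agent.R40.T1R2P3

open Crest.Agent.R40.T1R2
open Crest.Agent.R40.T1 (Dual instMeasurableSpaceDual measurable_eval measurable_dual_iff rot)

/-- reduction modulo `π = 2 + i` -/
def red : GaussianInt →+* ZMod 5 := Zsqrtd.lift ⟨(3 : ZMod 5), by decide⟩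

theorem red_apply (z : GaussianInt) : red z = (z.re : ZMod 5) + (z.im : ZMod 5) * 3 := rfl

theorem P_dvd_iff (z : GaussianInt) : P ∣ z ↔ red z = 0 := by
  constructor
  · rintro ⟨w, rfl⟩
    rw [map_mul]
    have : red P = 0 := by rw [red_apply]; decide
    rw [this, zero_mul]
  · intro h
    rw [red_apply] at h
    have h1 : (((z.re + z.im * 3 : ℤ)) : ZMod 5) = 0 := by push_cast; exact h
    rw [ZMod.intCast_zmod_eq_zero_iff_dvd] at h1
    obtain ⟨k, hk⟩ := h1
    push_cast at hk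
    refine ⟨⟨2 * k - z.im, z.im - k⟩, ?_⟩
    rw [Zsqrtd.ext_iff]
    simp only [P, Zsqrtd.re_mul, Zsqrtd.im_mul]
    constructor <;> linarith

theorem prime_P : ∀ {m n : GaussianInt}, ¬ P ∣ m → ¬ P ∣ n → ¬ P ∣ m * n := by
  intro m n hm hn h
  rw [P_dvd_iff] at hm hn h
  rw [map_mul] at h
  have : Fact (Nat.Prime 5) := ⟨by norm_num⟩
  rcases mul_eq_zero.1 h with h | h
  · exact hm h
  · exact hn h

theorem not_P_dvd_one : ¬ P ∣ (1 : GaussianInt) := by
  rw [P_dvd_iff, map_one]; decide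

section

variable {E : Type*} [Field E] (S : Emb E)

theorem ι_ne_zero {m : GaussianInt} (hm : m ≠ 0) : S.ι m ≠ 0 := by
  intro h
  have h1 := S.compat m
  rw [h, map_zero] at h1
  exact hm (GaussianInt.toComplex_eq_zero.1 h1.symm)

theorem ne_zero_of_not_dvd {m : GaussianInt} (hm : ¬ P ∣ m) : m ≠ 0 := by
  rintro rfl; exact hm (dvd_zero _)

/-- the localised ring `R` as an additive subgroup -/
def Rsub : AddSubgroup E where
  carrier := {a | ∃ m : GaussianInt, ¬ (P ∣ m) ∧ S.InLat m a}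
  zero_mem' := ⟨1, not_P_dvd_one, 0, by simp⟩
  add_mem' := by
    rintro a b ⟨m, hm, x, hx⟩ ⟨n, hn, y, hy⟩
    refine ⟨m * n, prime_P hm hn, n * x + m * y, ?_⟩
    rw [map_mul, map_add, map_mul, map_mul, ← hx, ← hy]
    ring
  neg_mem' := by
    rintro a ⟨m, hm, x, hx⟩
    refine ⟨m, hm, -x, ?_⟩
    rw [map_neg, ← hx]
    ring

theorem mem_Rsub {a : E} : a ∈ Rsub S ↔ ∃ m : GaussianInt, ¬ (P ∣ m) ∧ S.InLat m a := Iff.rfl

theorem sigmaR_eq : S.sigmaR = ⨆ a ∈ Rsub S,
    MeasurableSpace.comap (fun χ : AddChar E Circle => ((χ a : Circle) : ℂ)) (borel ℂ) := rfl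

/-- common denominator -/
theorem common_denom (s : Finset E) (hs : ∀ a ∈ s, a ∈ Rsub S) :
    ∃ m : GaussianInt, ¬ P ∣ m ∧ ∀ a ∈ s, S.InLat m a := by
  classical
  induction s using Finset.induction with
  | empty => exact ⟨1, not_P_dvd_one, by simp⟩
  | insert a s ha ih =>
    obtain ⟨m, hm, hms⟩ := ih (fun b hb => hs b (Finset.mem_insert_of_mem hb))
    obtain ⟨n, hn, x, hx⟩ := hs a (Finset.mem_insert_self a s)
    refine ⟨m * n, prime_P hm hn, ?_⟩
    intro b hb
    rw [Finset.mem_insert] at hb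
    rcases hb with rfl | hb
    · exact ⟨m * x, by rw [map_mul, map_mul, ← hx]; ring⟩
    · obtain ⟨y, hy⟩ := hms b hb
      exact ⟨n * y, by rw [map_mul, map_mul, ← hy]; ring⟩

/-- continuous integer power on the unit circle -/
noncomputable def pw (n : ℤ) (z : ℂ) : ℂ := if 0 ≤ n then z ^ n.toNat else (conj z) ^ (-n).toNat

theorem continuous_pw (n : ℤ) : Continuous (pw n) := by
  unfold pw
  split_ifs
  · exact continuous_pow _
  · exact (Complex.continuous_conj).pow _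

theorem pw_circle (n : ℤ) (z : Circle) : pw n (z : ℂ) = ((z ^ n : Circle) : ℂ) := by
  unfold pw
  split_ifs with h
  · obtain ⟨k, rfl⟩ := Int.eq_ofNat_of_zero_le h
    simp
  · obtain ⟨k, hk⟩ := Int.eq_ofNat_of_zero_le (show 0 ≤ -n by omega)
    have hn : n = -(k : ℤ) := by omega
    subst hn
    simp only [neg_neg, Int.toNat_natCast, zpow_neg, zpow_natCast]
    rw [← Circle.coe_inv_eq_conj, ← Circle.coe_pow, inv_pow]

theorem ι_eq (b : GaussianInt) : S.ι b = (b.re : E) + (b.im : E) * S.I := by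
  have : b = (b.re : GaussianInt) + (b.im : GaussianInt) * ⟨0, 1⟩ := by
    rw [Zsqrtd.ext_iff]; simp
  conv_lhs => rw [this]
  rw [map_add, map_mul, map_intCast, map_intCast]
  rfl

theorem char_eval {m : GaussianInt} (hm : m ≠ 0) {a : E} {b : GaussianInt}
    (hb : S.ι m * a = S.ι b) (χ : AddChar E Circle) :
    ((χ a : Circle) : ℂ) = pw b.re ((χ (S.ι m)⁻¹ : Circle) : ℂ) *
      pw b.im ((χ (S.I * (S.ι m)⁻¹) : Circle) : ℂ) := by
  rw [pw_circle, pw_circle, ← Circle.coe_mul]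
  congr 1
  rw [← AddChar.map_zsmul_eq_zpow, ← AddChar.map_zsmul_eq_zpow, ← AddChar.map_add_eq_mul]
  congr 1
  have hm' := ι_ne_zero S hm
  rw [zsmul_eq_mul, zsmul_eq_mul]
  rw [ι_eq S b] at hb
  field_simp
  rw [mul_comm]
  rw [hb]

theorem targetP3 (ν : Measure (AddChar E Circle)) [IsFiniteMeasure ν] : S.TargetP3 ν := by
  intro h hh κ hκ
  have hev : ∀ a ∈ Rsub S, Measurable fun χ : AddChar E Circle => ((χ a : Circle) : ℂ) :=
    fun a _ => measurable_eval a
  have hA : Appr ν (fun χ : AddChar E Circle => χ) (Rsub S) h := by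
    apply appr_of_stronglyMeasurable hev
    rw [← sigmaR_eq]
    exact hh.stronglyMeasurable
  obtain ⟨Pp, hP, hm⟩ := hA (1 / 8) (by norm_num) (ENNReal.ofReal κ) (by simpa using hκ)
  obtain ⟨s, q, hs, rfl⟩ := mem_TP _ _ hP
  obtain ⟨m, hmP, hms⟩ := common_denom S s hs
  choose! b hb using hms
  refine ⟨m, fun z => ∑ a ∈ s, q a * (pw (b a).re z.1 * pw (b a).im z.2), hmP, ?_, ?_⟩
  · refine continuous_finsetSum _ fun a _ => continuous_const.mul ?_
    exact ((continuous_pw _).comp continuous_fst).mul ((continuous_pw _).comp continuous_snd)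
  · have hm0 := ne_zero_of_not_dvd hmP
    have hle : ν {χ : AddChar E Circle | 1 / 8 ≤ ‖h χ -
          ∑ a ∈ s, q a * (pw (b a).re ((χ (S.ι m)⁻¹ : Circle) : ℂ) *
            pw (b a).im ((χ (S.I * (S.ι m)⁻¹) : Circle) : ℂ))‖} ≤ ENNReal.ofReal κ := by
      refine le_trans (measure_mono ?_) hm
      intro χ hx
      have hx' : (1 / 8 : ℝ) ≤ ‖h χ -
          ∑ a ∈ s, q a * (pw (b a).re ((χ (S.ι m)⁻¹ : Circle) : ℂ) *
            pw (b a).im ((χ (S.I * (S.ι m)⁻¹) : Circle) : ℂ))‖ := hx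
      show (1 / 8 : ℝ) ≤ ‖h χ - ∑ a ∈ s, q a * ((χ a : Circle) : ℂ)‖
      refine le_trans hx' (le_of_eq ?_)
      congr 2
      refine Finset.sum_congr rfl fun a ha => ?_
      rw [char_eval S hm0 (hb a ha) χ]
    calc ν.real _ = (ν _).toReal := rfl
      _ ≤ (ENNReal.ofReal κ).toReal := ENNReal.toReal_mono ENNReal.ofReal_ne_top hle
      _ = κ := ENNReal.toReal_ofReal hκ.le

end

end Crest.Agent.R40.T1R2P3
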