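import Crest.Agent.R40.T1Host4
import Crest.Agent.R40.T1EGlue
import Crest.Agent.R40.T1R2P1d
import Crest.Agent.R40.T1R2P3b

/-!
# R40 / T1: the E-theorem `EHyp yseq`
-/

set_option autoImplicit false

namespace Crest.Agent.R40.T1EFinal

open Complex MeasureTheory Filter Topology
open Crest.Agent.R40.T1 (E Dual RotInv rot mem_E measurable_eval)
open Crest.Agent.R40.T1B (LimSet EHyp measurableSet_limSet)
open Crest.Agent.R40.T1R2 Crest.Agent.R40.T1EGlue

theorem targetR2 (ν : Measure (Dual E)) [IsFiniteMeasure ν] (h : SE.Invariant ν) : SE.TargetR2 ν :=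
  Emb.targetR2_of SE (Emb.targetP1 SE ν h) (Crest.Agent.R40.T1R2P2.targetP2 SE h) (Crest.Agent.R40.T1R2P3.targetP3 SE ν)

/-- **E-theorem** (Host + R2). -/
theorem ehyp : EHyp yseq := by
  intro μ hfin hrot hnull x hx
  have hinv : SE.Invariant μ := invariant_of_rotInv hrot
  have hfin' : IsFiniteMeasure (μ.map (fun χ : Dual E => χ.mulShift x)) := inferInstance
  refine T1Host.e_theorem SE hinv (measurableSet_limSet (y := yseq)) (fun χ h => structured_limSet h) x
    (targetR2 _ (T1Host.invariant_map SE hinv x)) ?_ hnull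
  intro χ hχ a
  have h1 := hχ (x⁻¹ * a)
  refine h1.congr fun n => ?_
  rw [AddChar.mulShift_apply]
  congr 2
  field_simp

end Crest.Agent.R40.T1EFinal
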