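import Mathlib
import Crest.Agent.R40.T1Bochner2

/-!
# R40 / T1 (M2): Fourier uniqueness on `Dual A`, rotation invariance of spectral measures
-/

set_option autoImplicit false

open Filter Topology MeasureTheory BoundedContinuousFunction
open scoped ComplexConjugate

namespace Crest.Agent.R40.T1

noncomputable local instance instMSCircle' : MeasurableSpace Circle := borel Circle
local instance instBSCircle' : BorelSpace Circle := ⟨rfl⟩

/-- coordinate functions as bounded continuous functions -/
noncomputable def coord {A : Type*} (x : A) : (A → Circle) →ᵇ ℂ :=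
  BoundedContinuousFunction.mkOfCompact ⟨fun g => (g x : ℂ), by fun_prop⟩

@[simp] theorem coord_apply {A : Type*} (x : A) (g : A → Circle) : coord x g = (g x : ℂ) := rfl

/-- linear span of the evaluations on the dual -/
noncomputable def trigSpan (A : Type*) [AddCommGroup A] : Submodule ℂ (Dual A → ℂ) :=
  Submodule.span ℂ (Set.range fun (x : A) (χ : Dual A) => (χ x : ℂ))

theorem trigSpan_mul {A : Type*} [AddCommGroup A] {p q : Dual A → ℂ} (hp : p ∈ trigSpan A)
    (hq : q ∈ trigSpan A) : p * q ∈ trigSpan A := by
  unfold trigSpan at *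
  induction hp using Submodule.span_induction with
  | mem p hp =>
    obtain ⟨x, rfl⟩ := hp
    induction hq using Submodule.span_induction with
    | mem q hq =>
      obtain ⟨y, rfl⟩ := hq
      apply Submodule.subset_span
      refine ⟨x + y, ?_⟩
      funext χ
      simp only [Pi.mul_apply]
      exact char_add_coe χ x y
    | zero => rw [mul_zero]; exact Submodule.zero_mem _
    | add q r _ _ h1 h2 => rw [mul_add]; exact Submodule.add_mem _ h1 h2
    | smul c q _ h1 => rw [mul_smul_comm]; exact Submodule.smul_mem _ c h1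
  | zero => rw [zero_mul]; exact Submodule.zero_mem _
  | add p r _ _ h1 h2 => rw [add_mul]; exact Submodule.add_mem _ h1 h2
  | smul c p _ h1 => rw [smul_mul_assoc]; exact Submodule.smul_mem _ c h1

theorem trigSpan_star {A : Type*} [AddCommGroup A] {p : Dual A → ℂ} (hp : p ∈ trigSpan A) :
    star p ∈ trigSpan A := by
  unfold trigSpan at *
  induction hp using Submodule.span_induction with
  | mem p hp =>
    obtain ⟨x, rfl⟩ := hp
    apply Submodule.subset_span
    refine ⟨-x, ?_⟩
    funext χ
    have := char_sub_coe χ 0 x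
    rw [zero_sub, AddChar.map_zero_eq_one, Circle.coe_one, one_mul] at this
    simp only [Pi.star_apply]
    exact this
  | zero => rw [star_zero]; exact Submodule.zero_mem _
  | add q r _ _ h1 h2 => rw [star_add]; exact Submodule.add_mem _ h1 h2
  | smul c q _ h1 => rw [star_smul]; exact Submodule.smul_mem _ _ h1

/-- Fourier uniqueness -/
theorem ext_of_fourier {A : Type*} [AddCommGroup A] [Countable A] {ν ν' : Measure (Dual A)}
    [IsFiniteMeasure ν] [IsFiniteMeasure ν']
    (h : ∀ x : A, ∫ χ, (χ x : ℂ) ∂ν = ∫ χ, (χ x : ℂ) ∂ν') : ν = ν' := by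
  -- the embedding into `A → Circle`
  let ev : Dual A → (A → Circle) := fun χ => χ
  have hcoe : ∀ {Ω : Type _} [MeasurableSpace Ω] (g : Ω → Circle),
      Measurable (fun ω => (g ω : ℂ)) → Measurable g := by
    intro Ω _ g hg
    have hce : Topology.IsClosedEmbedding (fun z : Circle => (z : ℂ)) :=
      (Continuous.isClosedEmbedding (by fun_prop) Circle.coe_injective)
    exact hce.measurableEmbedding.measurable_comp_iff.1 hg
  have hev : Measurable ev := by
    rw [measurable_pi_iff]
    intro a
    exact hcoe _ (measurable_eval a)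
  have hmap : ν.map ev = ν'.map ev := by
    let 𝒜 : StarSubalgebra ℂ ((A → Circle) →ᵇ ℂ) :=
    { carrier := {g | (fun χ : Dual A => g (ev χ)) ∈ trigSpan A}
      mul_mem' := fun {a b} ha hb => trigSpan_mul ha hb
      add_mem' := fun {a b} ha hb => (trigSpan A).add_mem ha hb
      algebraMap_mem' := by
        intro c
        have : (fun χ : Dual A => (algebraMap ℂ ((A → Circle) →ᵇ ℂ) c) (ev χ))
            = c • (fun χ : Dual A => (χ 0 : ℂ)) := by
          funext χ
          simp
        rw [Set.mem_ofPred_eq, this]
        exact (trigSpan A).smul_mem c (Submodule.subset_span ⟨0, rfl⟩)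
      star_mem' := fun {a} ha => trigSpan_star ha }
    have hmem : ∀ x : A, coord x ∈ 𝒜 := fun x => Submodule.subset_span ⟨x, rfl⟩
    have : IsFiniteMeasure (ν.map ev) := Measure.isFiniteMeasure_map ν ev
    have : IsFiniteMeasure (ν'.map ev) := Measure.isFiniteMeasure_map ν' ev
    have hpc : PolishSpace Circle :=
      (Continuous.isClosedEmbedding (f := fun z : Circle => (z : ℂ)) (by fun_prop)
        Circle.coe_injective).polishSpace
    refine ext_of_forall_mem_subalgebra_integral_eq_of_polish (𝕜 := ℂ) (A := 𝒜) ?_ ?_
    · intro g g' hgg'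
      obtain ⟨x, hx⟩ := Function.ne_iff.1 hgg'
      refine ⟨_, ⟨toContinuousMapStarₐ ℂ (coord x), ⟨coord x, hmem x, rfl⟩, rfl⟩, ?_⟩
      simp only [toContinuousMapStarₐ_apply_apply, coord_apply]
      exact fun h => hx (Circle.ext h)
    · intro g hg
      rw [integral_map hev.aemeasurable g.continuous.aestronglyMeasurable,
        integral_map hev.aemeasurable g.continuous.aestronglyMeasurable]
      have key : ∀ p ∈ trigSpan A, (Integrable p ν ∧ Integrable p ν') ∧ ∫ χ, p χ ∂ν = ∫ χ, p χ ∂ν' := by
        intro p hp
        unfold trigSpan at hp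
        induction hp using Submodule.span_induction with
        | mem p hp =>
          obtain ⟨x, rfl⟩ := hp
          exact ⟨⟨Integrable.of_bound (measurable_eval x).aestronglyMeasurable 1
            (Eventually.of_forall fun χ => (dual_norm χ x).le),
            Integrable.of_bound (measurable_eval x).aestronglyMeasurable 1
            (Eventually.of_forall fun χ => (dual_norm χ x).le)⟩, h x⟩
        | zero => exact ⟨⟨integrable_zero _ _ _, integrable_zero _ _ _⟩, by simp⟩
        | add p q _ _ h1 h2 =>
          refine ⟨⟨h1.1.1.add h2.1.1, h1.1.2.add h2.1.2⟩, ?_⟩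
          simp only [Pi.add_apply]
          rw [integral_add h1.1.1 h2.1.1, integral_add h1.1.2 h2.1.2, h1.2, h2.2]
        | smul c p _ h1 =>
          refine ⟨⟨h1.1.1.smul c, h1.1.2.smul c⟩, ?_⟩
          simp only [Pi.smul_apply]
          rw [integral_smul, integral_smul, h1.2]
      exact (key _ hg).2
  -- back to `Dual A`
  let cm : (A → Circle) → (A → ℂ) := fun g a => (g a : ℂ)
  have hcm : Measurable cm := by
    have : Continuous cm := by fun_prop
    rw [measurable_pi_iff]
    intro a
    exact (by fun_prop : Continuous (fun g : A → Circle => (g a : ℂ))).measurable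
  ext s hs
  obtain ⟨t, ht, rfl⟩ := hs
  have h1 : (fun (χ : Dual A) (a : A) => (χ a : ℂ)) ⁻¹' t = ev ⁻¹' (cm ⁻¹' t) := rfl
  rw [h1, ← Measure.map_apply hev (hcm ht), ← Measure.map_apply hev (hcm ht), hmap]

/-- the characters `x ↦ e(Re(kx))` separate the points of an additive subgroup of `ℂ` -/
theorem sep_subfield (L : Subfield ℂ) : ∀ x : L, x ≠ 0 → ∃ χ : Dual L, χ x ≠ 1 := by
  intro x hx
  have hx' : (x : ℂ) ≠ 0 := fun h => hx (Subtype.ext h)
  let k : ℂ := 1 / (2 * x)
  refine ⟨{ toFun := fun y => ch k y
            map_zero_eq_one' := by simp [ch, e]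
            map_add_eq_mul' := ?_ }, ?_⟩
  · intro a b
    simp only [ch, e, Subfield.coe_add]
    rw [← Circle.exp_add]
    congr 1
    rw [mul_add, Complex.add_re]; ring
  · intro h
    have h1 : ch k x = 1 := h
    unfold ch e at h1
    have h2 : k * (x : ℂ) = 1 / 2 := by
      simp only [k]
      field_simp
    rw [h2] at h1
    have h3 : 2 * Real.pi * ((1 / 2 : ℂ)).re = Real.pi := by
      norm_num
      ring
    rw [h3] at h1
    have h4 := congrArg (fun z : Circle => (z : ℂ)) h1
    simp only [Circle.coe_exp, Circle.coe_one, Complex.exp_pi_mul_I] at h4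
    norm_num at h4

/-- rotation invariance of a measure on `Dual F` from radiality of its Fourier transform -/
theorem rotInv_of_fourier {L : Subfield ℂ} [Countable L] {ν : Measure (Dual L)}
    [IsFiniteMeasure ν]
    (h : ∀ u x : L, ‖(u : ℂ)‖ = 1 → ∫ χ, (χ (u * x) : ℂ) ∂ν = ∫ χ, (χ x : ℂ) ∂ν) :
    RotInv ν := by
  intro u hu
  have : IsFiniteMeasure (ν.map (rot u)) := Measure.isFiniteMeasure_map ν _
  apply ext_of_fourier
  intro x
  rw [integral_map (measurable_rot u).aemeasurable (measurable_eval x).aestronglyMeasurable]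
  exact h u x hu

end Crest.Agent.R40.T1
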