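import Mathlib
import Crest.Agent.R40.T1Uniq
import Crest.Agent.R40.T1Glue

/-!
# R40 / T1: the targets `SpectralTarget`, `UniqTarget` of `T1Glue`
-/

set_option autoImplicit false

open MeasureTheory Filter

namespace Crest.Agent.R40.T1Glue

open Crest.Agent.R40.T1

theorem uniqTarget : UniqTarget := fun _ _ _ _ h => ext_of_fourier h

theorem spectralTarget : SpectralTarget := by
  intro Ω _ P _ T hT hadd f hf h0 h1
  -- replace `T 0` by the identity
  let T' : F → Ω → Ω := fun x ω => T x ω
  have hC : ∀ ω, |f ω| ≤ 1 := fun ω => by rw [abs_of_nonneg (h0 ω)]; exact h1 ω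
  exact exists_spectral' (sep_subfield F) P T hT hadd f hf hC

end Crest.Agent.R40.T1Glue
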