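import Crest.Agent.R40.T1EFinal
import Crest.Agent.R40.T1Assembly
import Crest.Agent.R40.T1Targets967

/-!
# R40 / T1: final statement (arbitrary proper 5-colouring of the plane ⇒ measurable one), no open input
-/

set_option autoImplicit false

open MeasureTheory

namespace Crest.Agent.R40.T1Final

theorem hT1 (c : ℂ → Fin 5) (hc : ∀ x y : ℂ, ‖x - y‖ = 1 → c x ≠ c y) :
    ∃ A : Fin 5 → Set ℂ, (∀ i, MeasurableSet (A i)) ∧
      (∀ i, ∀ᵐ p : ℂ × ℝ, ¬ (p.1 ∈ A i ∧ p.1 + Complex.exp (Complex.I * p.2) ∈ A i)) ∧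
      ∀ᵐ z, ∃ i, z ∈ A i :=
  T1Glue.hT1_of T1EFinal.ehyp T1EGlue.yseq_ne T1Glue.spectralTarget T1Glue.uniqTarget c hc

end Crest.Agent.R40.T1Final
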