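import Crest.Agent.R40.T1HostC
import Crest.Agent.R40.T1EGlue
import Crest.Agent.R40.T1R2P1d

/-!
# R40 / T1: Host's theorem and the E-theorem (`EHyp yseq`)
-/

set_option autoImplicit false

namespace Crest.Agent.R40.T1H

open MeasureTheory
open Crest.Agent.R40.T1EGlue Crest.Agent.R40.T1R2

theorem hostStmt : HostStmt := fun ν _ hν x hx hx' hne => host SE ν hν x hx hx' hne

theorem ehyp : Crest.Agent.R40.T1B.EHyp yseq :=
  ehyp_of hostStmt (fun ν _ h => SE.targetP1 ν h) (fun ν _ => Crest.Agent.R40.T1R2P3.targetP3 SE ν)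

end Crest.Agent.R40.T1H
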