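import Mathlib

/-!
# R40 / T1 / Host part 1: the abstract dynamical lemma

`(X, ν, T)` measure preserving, `B` a sub-sigma-algebra with `B ≤ B.comap T`, `L : X → Fin p` a label which is
`B.comap T`-measurable.  `q j` is a version of the conditional probability of `L = j` given `B`,
`m1 x = q (L x) x`, `mm n x = ∏_{j<n} m1 (T^j x)`.
-/

set_option autoImplicit false

open MeasureTheory Filter Topology Set
open scoped ENNReal

namespace Crest.Agent.R40.T1Host

/-- existence of the conditional masses `q j` -/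
theorem exists_q {X : Type*} {m0 : MeasurableSpace X} {p : ℕ} (ν : Measure X) [IsFiniteMeasure ν]
    (B : MeasurableSpace X) (hB : B ≤ m0)
    (L : X → Fin p) :
    ∃ q : Fin p → X → ℝ≥0∞, (∀ j, Measurable[B] (q j)) ∧
      ∀ j, ∀ g : X → ℝ≥0∞, Measurable[B] g →
        ∫⁻ x in L ⁻¹' {j}, g x ∂ν = ∫⁻ x, q j x * g x ∂ν := by
  classical
  have hfin : IsFiniteMeasure (ν.trim hB) := isFiniteMeasure_trim hB
  have hfin' : ∀ j, IsFiniteMeasure ((ν.restrict (L ⁻¹' {j})).trim hB) := fun j => isFiniteMeasure_trim hB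
  refine ⟨fun j => @Measure.rnDeriv X B ((ν.restrict (L ⁻¹' {j})).trim hB) (ν.trim hB), ?_, ?_⟩
  · intro j
    exact @Measure.measurable_rnDeriv X B _ _
  · intro j g hg
    have hac : ((ν.restrict (L ⁻¹' {j})).trim hB) ≪ (ν.trim hB) := by
      refine Measure.AbsolutelyContinuous.mk fun s hs h0 => ?_
      rw [trim_measurableSet_eq hB hs] at h0 ⊢
      exact le_antisymm ((Measure.restrict_apply_le _ _).trans h0.le) bot_le
    have h1 : ∫⁻ x in L ⁻¹' {j}, g x ∂ν = ∫⁻ x, g x ∂((ν.restrict (L ⁻¹' {j})).trim hB) :=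
      (lintegral_trim hB hg).symm
    rw [h1]
    conv_lhs => rw [← Measure.withDensity_rnDeriv_eq _ _ hac]
    rw [lintegral_withDensity_eq_lintegral_mul _ (@Measure.measurable_rnDeriv X B _ _) hg]
    rw [lintegral_trim hB]
    · rfl
    · exact (@Measure.measurable_rnDeriv X B _ _).mul hg

theorem meas_diag {X Z ι : Type*} [Countable ι] {m : MeasurableSpace X} [MeasurableSpace ι]
    [MeasurableSingletonClass ι] [MeasurableSpace Z] {L : X → ι} (hL : Measurable L)
    {f : ι → X → Z} (hf : ∀ j, Measurable (f j)) : Measurable (fun x => f (L x) x) := by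
  intro s hs
  have : (fun x => f (L x) x) ⁻¹' s = ⋃ j, (L ⁻¹' {j} ∩ (f j) ⁻¹' s) := by
    ext x; simp
  rw [this]
  exact MeasurableSet.iUnion fun j => (hL (measurableSet_singleton j)).inter (hf j hs)

/-- the data of the abstract system -/
structure Sys (X : Type*) [m0 : MeasurableSpace X] (ν : Measure X) (p : ℕ) where
  T : X → X
  hT : MeasurePreserving T ν ν
  L : X → Fin p
  q : Fin p → X → ℝ≥0∞
  B : MeasurableSpace X
  hB : B ≤ m0
  hBT : B ≤ B.comap T
  hL : Measurable[B.comap T] L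
  hq : ∀ j, Measurable[B] (q j)
  hqint : ∀ j, ∀ g : X → ℝ≥0∞, Measurable[B] g →
        ∫⁻ x in L ⁻¹' {j}, g x ∂ν = ∫⁻ x, q j x * g x ∂ν

namespace Sys

variable {X : Type*} [m0 : MeasurableSpace X] {ν : Measure X} {p : ℕ} (S : Sys X ν p)

theorem comap_le : S.B.comap S.T ≤ m0 := by
  rintro s ⟨t, ht, rfl⟩
  exact S.hT.measurable (S.hB _ ht)

theorem hL0 : Measurable S.L := S.hL.mono S.comap_le le_rfl

theorem hq0 (j : Fin p) : Measurable (S.q j) := (S.hq j).mono S.hB le_rfl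

/-- one step mass -/
def m1 (x : X) : ℝ≥0∞ := S.q (S.L x) x

theorem measurable_m1' : Measurable[S.B.comap S.T] S.m1 :=
  meas_diag (m := S.B.comap S.T) S.hL fun j => (S.hq j).mono S.hBT le_rfl

theorem measurable_m1 : Measurable S.m1 := S.measurable_m1'.mono S.comap_le le_rfl

/-- inverse masses -/
noncomputable def W : ℕ → X → ℝ≥0∞
  | 0, _ => 1
  | n + 1, x => (S.m1 x)⁻¹ * W n (S.T x)

theorem measurable_W (n : ℕ) : Measurable (S.W n) := by
  induction n with
  | zero => exact measurable_const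
  | succ n ih => exact S.measurable_m1.inv.mul (ih.comp S.hT.measurable)

/-- labels of the first `n` times -/
def addr : (n : ℕ) → X → (Fin n → Fin p)
  | 0, _ => Fin.elim0
  | n + 1, x => Fin.cons (S.L x) (addr n (S.T x))

theorem addr_apply (n : ℕ) (x : X) (j : Fin n) : S.addr n x j = S.L (S.T^[j] x) := by
  induction n generalizing x with
  | zero => exact j.elim0
  | succ n ih =>
    refine Fin.cases ?_ (fun i => ?_) j
    · simp [addr]
    · simp [addr, ih]

theorem measurable_addr (n : ℕ) : Measurable (S.addr n) := by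
  refine measurable_pi_iff.2 fun j => ?_
  have : (fun x => S.addr n x j) = fun x => S.L (S.T^[j] x) := by
    funext x; exact S.addr_apply n x j
  rw [this]
  exact S.hL0.comp (S.hT.measurable.iterate j)

theorem split_label (g : X → ℝ≥0∞) : ∫⁻ x, g x ∂ν = ∑ j, ∫⁻ x in S.L ⁻¹' {j}, g x ∂ν := by
  have h := lintegral_iUnion (μ := ν) (s := fun j : Fin p => S.L ⁻¹' {j})
    (fun j => S.hL0 (measurableSet_singleton j))
    (fun i j hij => by
      refine Set.disjoint_left.2 fun x hx hy => hij ?_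
      simp only [mem_preimage, mem_singleton_iff] at hx hy
      rw [← hx, ← hy]) g
  rw [tsum_fintype] at h
  rw [← h]
  have : (⋃ j : Fin p, S.L ⁻¹' {j}) = univ := by ext x; simp
  rw [this, Measure.restrict_univ]

/-- one step inequality -/
theorem step (g : Fin p → X → ℝ≥0∞) (hg : ∀ j, Measurable[S.B] (g j)) :
    ∫⁻ x, (S.m1 x)⁻¹ * g (S.L x) x ∂ν ≤ ∫⁻ x, ∑ j, g j x ∂ν := by
  rw [S.split_label, lintegral_finsetSum _ (fun j _ => (hg j).mono S.hB le_rfl)]
  refine Finset.sum_le_sum fun j _ => ?_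
  have h1 : ∫⁻ x in S.L ⁻¹' {j}, (S.m1 x)⁻¹ * g (S.L x) x ∂ν
      = ∫⁻ x in S.L ⁻¹' {j}, (S.q j x)⁻¹ * g j x ∂ν := by
    refine setLIntegral_congr_fun (S.hL0 (measurableSet_singleton j)) fun x hx => ?_
    simp only [mem_preimage, mem_singleton_iff] at hx
    simp only [m1, hx]
  have hm : Measurable[S.B] (fun x => (S.q j x)⁻¹ * g j x) := (S.hq j).inv.mul (hg j)
  rw [h1, S.hqint j _ hm]
  refine lintegral_mono fun x => ?_
  rcases eq_or_ne (S.q j x) 0 with h0 | h0
  · simp [h0]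
  rcases eq_or_ne (S.q j x) ∞ with h1 | h1
  · simp [h1]
  · simp only []
    rw [← mul_assoc, ENNReal.mul_inv_cancel h0 h1, one_mul]

/-- the key inequality -/
theorem key (n : ℕ) : ∀ g : (Fin n → Fin p) → X → ℝ≥0∞, (∀ w, Measurable[S.B] (g w)) →
    ∫⁻ x, S.W n x * g (S.addr n x) x ∂ν ≤ ∫⁻ x, ∑ w, g w x ∂ν := by
  induction n with
  | zero =>
    intro g _
    refine lintegral_mono fun x => ?_
    simp only [W, addr, one_mul]
    exact (Finset.single_le_sum (f := fun w => g w x) (fun _ _ => bot_le) (Finset.mem_univ _))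
  | succ n ih =>
    intro g hg
    -- `G w' x = g (cons (L x) w') x / m1 x` factors through `T`
    have hG : ∀ w' : Fin n → Fin p, ∃ h : X → ℝ≥0∞, Measurable[S.B] h ∧
        (fun x => (S.m1 x)⁻¹ * g (Fin.cons (S.L x) w') x) = h ∘ S.T := by
      intro w'
      have hm : Measurable[S.B.comap S.T] (fun x => (S.m1 x)⁻¹ * g (Fin.cons (S.L x) w') x) := by
        refine S.measurable_m1'.inv.mul ?_
        exact meas_diag (m := S.B.comap S.T) (f := fun j x => g (Fin.cons j w') x) S.hL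
          fun j => (hg _).mono S.hBT le_rfl
      exact @Measurable.exists_eq_measurable_comp X X ℝ≥0∞ S.B S.T _ _ _ _ hm
    choose h hhm hh using hG
    have hh' : ∀ w' x, (S.m1 x)⁻¹ * g (Fin.cons (S.L x) w') x = h w' (S.T x) := fun w' x =>
      congrFun (hh w') x
    calc ∫⁻ x, S.W (n + 1) x * g (S.addr (n + 1) x) x ∂ν
        = ∫⁻ x, (fun y => S.W n y * h (S.addr n y) y) (S.T x) ∂ν := by
          refine lintegral_congr fun x => ?_
          simp only [W, addr]
          rw [mul_right_comm, hh', mul_comm]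
      _ = ∫⁻ y, S.W n y * h (S.addr n y) y ∂ν := by
          refine S.hT.lintegral_comp (f := fun y => S.W n y * h (S.addr n y) y) ?_
          refine (S.measurable_W n).mul ?_
          exact meas_diag (f := fun w y => h w y) (S.measurable_addr n) fun w => (hhm w).mono S.hB le_rfl
      _ ≤ ∫⁻ y, ∑ w, h w y ∂ν := ih h hhm
      _ = ∫⁻ x, ∑ w, h w (S.T x) ∂ν := by
          refine (S.hT.lintegral_comp (f := fun y => ∑ w, h w y) ?_).symm
          exact Finset.measurable_fun_sum _ fun w _ => (hhm w).mono S.hB le_rfl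
      _ = ∫⁻ x, (S.m1 x)⁻¹ * (fun j x => ∑ w', g (Fin.cons j w') x) (S.L x) x ∂ν := by
          refine lintegral_congr fun x => ?_
          simp only [Finset.mul_sum]
          exact Finset.sum_congr rfl fun w _ => (hh' w x).symm
      _ ≤ ∫⁻ x, ∑ j, ∑ w', g (Fin.cons j w') x ∂ν :=
          S.step _ fun j => Finset.measurable_fun_sum _ fun w _ => hg _
      _ = ∫⁻ x, ∑ w, g w x ∂ν := by
          refine lintegral_congr fun x => ?_
          rw [← Fintype.sum_prod_type']
          exact Fintype.sum_equiv (Fin.consEquiv (fun _ => Fin p)) _ _ (fun _ => rfl)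

/-! ### the product masses and the limit -/

/-- product of the masses of the first `n` steps -/
noncomputable def mm : ℕ → X → ℝ≥0∞
  | 0, _ => 1
  | n + 1, x => S.m1 x * mm n (S.T x)

theorem measurable_mm (n : ℕ) : Measurable (S.mm n) := by
  induction n with
  | zero => exact measurable_const
  | succ n ih => exact S.measurable_m1.mul (ih.comp S.hT.measurable)

theorem sum_q [IsFiniteMeasure ν] : ∀ᵐ x ∂ν, ∑ j, S.q j x = 1 := by
  have hfin : IsFiniteMeasure (ν.trim S.hB) := isFiniteMeasure_trim S.hB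
  have hm : Measurable[S.B] (fun x => ∑ j, S.q j x) :=
    Finset.measurable_fun_sum _ fun j _ => S.hq j
  refine ae_eq_of_ae_eq_trim (hm := S.hB) (f₂ := fun _ => (1 : ℝ≥0∞)) ?_
  refine @ae_eq_of_forall_setLIntegral_eq_of_sigmaFinite X S.B _ _ _ _ hm
    (@measurable_const _ _ _ S.B _) ?_
  intro s hs _
  have h1 := setLIntegral_trim (μ := ν) S.hB hm hs
  have h2 := setLIntegral_trim (μ := ν) S.hB (@measurable_const ℝ≥0∞ X _ S.B 1) hs
  rw [h1, h2]
  have hs0 : MeasurableSet s := S.hB _ hs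
  have hind : Measurable[S.B] (s.indicator (fun _ => (1 : ℝ≥0∞))) :=
    Measurable.indicator (@measurable_const ℝ≥0∞ X _ S.B 1) hs
  have h3 : ∀ j, ∫⁻ x in s, S.q j x ∂ν = ∫⁻ x in S.L ⁻¹' {j}, s.indicator (fun _ => (1 : ℝ≥0∞)) x ∂ν := by
    intro j
    rw [S.hqint j _ hind, ← lintegral_indicator hs0]
    refine lintegral_congr fun x => ?_
    by_cases hx : x ∈ s <;> simp [hx]
  rw [lintegral_finsetSum _ (fun j _ => S.hq0 j), Finset.sum_congr rfl fun j _ => h3 j,
    ← S.split_label, lintegral_indicator hs0]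

theorem q_le_one [IsFiniteMeasure ν] : ∀ᵐ x ∂ν, ∀ j, S.q j x ≤ 1 := by
  filter_upwards [S.sum_q] with x hx j
  rw [← hx]
  exact Finset.single_le_sum (f := fun j => S.q j x) (fun _ _ => bot_le) (Finset.mem_univ _)

theorem m1_ne_zero : ∀ᵐ x ∂ν, S.m1 x ≠ 0 := by
  rw [ae_iff]
  have h0 : {x | ¬ S.m1 x ≠ 0} ⊆ ⋃ j, (S.L ⁻¹' {j} ∩ {x | S.q j x = 0}) := by
    intro x hx
    simp only [mem_ofPred_eq, not_not, m1] at hx
    exact mem_iUnion.2 ⟨S.L x, rfl, hx⟩
  refine measure_mono_null h0 (measure_iUnion_null fun j => ?_)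
  have hz : MeasurableSet[S.B] {x | S.q j x = 0} := S.hq j (measurableSet_singleton 0)
  have hind : Measurable[S.B] ({x | S.q j x = 0}.indicator (fun _ => (1 : ℝ≥0∞))) :=
    Measurable.indicator (@measurable_const ℝ≥0∞ X _ S.B 1) hz
  have h3 := S.hqint j _ hind
  have h4 : ∫⁻ x, S.q j x * {x | S.q j x = 0}.indicator (fun _ => (1 : ℝ≥0∞)) x ∂ν = 0 := by
    rw [← lintegral_zero (μ := ν)]
    refine lintegral_congr fun x => ?_
    by_cases hx : S.q j x = 0 <;> simp [hx]
  rw [h4, lintegral_indicator (S.hB _ hz), setLIntegral_one, Measure.restrict_apply (S.hB _ hz)] at h3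
  rw [inter_comm]
  exact h3

/-- good points -/
def Good (x : X) : Prop := ∀ n : ℕ, S.m1 (S.T^[n] x) ≠ 0 ∧ S.m1 (S.T^[n] x) ≤ 1

variable {S} in
theorem Good.next {x : X} (h : S.Good x) : S.Good (S.T x) := fun n => by
  have := h (n + 1)
  rwa [Function.iterate_succ_apply] at this

theorem ae_good [IsFiniteMeasure ν] : ∀ᵐ x ∂ν, S.Good x := by
  have h1 : ∀ᵐ x ∂ν, S.m1 x ≠ 0 ∧ S.m1 x ≤ 1 := by
    filter_upwards [S.m1_ne_zero, S.q_le_one] with x h1 h2 using ⟨h1, h2 _⟩
  have h2 : ∀ n : ℕ, ∀ᵐ x ∂ν, S.m1 (S.T^[n] x) ≠ 0 ∧ S.m1 (S.T^[n] x) ≤ 1 := fun n =>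
    (S.hT.iterate n).quasiMeasurePreserving.ae h1
  exact ae_all_iff.2 h2

variable {S} in
theorem Good.ne_zero {x : X} (h : S.Good x) : S.m1 x ≠ 0 := (h 0).1

variable {S} in
theorem Good.le_one {x : X} (h : S.Good x) : S.m1 x ≤ 1 := (h 0).2

variable {S} in
theorem Good.ne_top {x : X} (h : S.Good x) : S.m1 x ≠ ∞ := (lt_of_le_of_lt h.le_one ENNReal.one_lt_top).ne

variable {S} in
theorem Good.mm_le_one {x : X} (h : S.Good x) (n : ℕ) : S.mm n x ≤ 1 := by
  induction n generalizing x with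
  | zero => exact le_rfl
  | succ n ih => exact mul_le_one' (h 0).2 (ih h.next)

variable {S} in
theorem Good.mm_ne_zero {x : X} (h : S.Good x) (n : ℕ) : S.mm n x ≠ 0 := by
  induction n generalizing x with
  | zero => exact one_ne_zero
  | succ n ih => exact mul_ne_zero (h 0).1 (ih h.next)

variable {S} in
theorem Good.W_eq {x : X} (h : S.Good x) (n : ℕ) : S.W n x = (S.mm n x)⁻¹ := by
  induction n generalizing x with
  | zero => simp [W, mm]
  | succ n ih =>
    rw [W, mm, ih h.next, ENNReal.mul_inv (Or.inl h.ne_zero) (Or.inl h.ne_top)]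

variable {S} in
theorem Good.mm_succ_le {x : X} (h : S.Good x) (n : ℕ) : S.mm (n + 1) x ≤ S.mm n x := by
  induction n generalizing x with
  | zero => simpa [mm] using (h 0).2
  | succ n ih => exact mul_le_mul_right (ih h.next) _

/-- the limit mass -/
noncomputable def mInf (x : X) : ℝ≥0∞ := ⨅ n, S.mm n x

theorem measurable_mInf : Measurable S.mInf := Measurable.iInf S.measurable_mm

variable {S} in
theorem Good.mInf_eq {x : X} (h : S.Good x) : S.mInf x = S.m1 x * S.mInf (S.T x) := by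
  have h1 : S.mInf x = ⨅ n, S.mm (n + 1) x := by
    refine le_antisymm (le_iInf fun n => iInf_le _ _) (le_iInf fun n => ?_)
    exact (iInf_le _ n).trans (h.mm_succ_le n)
  rw [h1]
  show (⨅ n, S.m1 x * S.mm n (S.T x)) = S.m1 x * ⨅ n, S.mm n (S.T x)
  rw [ENNReal.mul_iInf_of_ne h.ne_zero h.ne_top]

variable {S} in
theorem Good.mInf_le {x : X} (h : S.Good x) : S.mInf x ≤ S.mInf (S.T x) := by
  rw [h.mInf_eq]
  exact (mul_le_mul_left (h 0).2 _).trans (one_mul _).le

variable {S} in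
theorem Good.mInf_le_one {x : X} (h : S.Good x) : S.mInf x ≤ 1 := (iInf_le _ 0).trans (h.mm_le_one 0)

theorem mInf_inv [IsFiniteMeasure ν] : S.mInf =ᵐ[ν] S.mInf ∘ S.T := by
  have hle : S.mInf ≤ᵐ[ν] S.mInf ∘ S.T := by
    filter_upwards [S.ae_good] with x hx using hx.mInf_le
  refine ae_eq_of_ae_le_of_lintegral_le hle ?_ (S.measurable_mInf.comp S.hT.measurable).aemeasurable ?_
  · have : ∫⁻ x, S.mInf x ∂ν ≤ ∫⁻ _, 1 ∂ν := by
      refine lintegral_mono_ae ?_
      filter_upwards [S.ae_good] with x hx using hx.mInf_le_one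
    refine (this.trans_lt ?_).ne
    rw [lintegral_one]; exact measure_lt_top _ _
  · exact (S.hT.lintegral_comp S.measurable_mInf).le

/-- the deterministic part -/
def DD : Set X := {x | S.mInf x ≠ 0}

theorem measurableSet_DD : MeasurableSet S.DD := by
  have : S.DD = S.mInf ⁻¹' {0}ᶜ := rfl
  rw [this]
  exact S.measurable_mInf (measurableSet_singleton 0).compl

theorem DD_inv [IsFiniteMeasure ν] : S.T ⁻¹' S.DD =ᵐ[ν] S.DD := by
  filter_upwards [S.mInf_inv] with x hx
  show (S.mInf (S.T x) ≠ 0) = (S.mInf x ≠ 0)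
  rw [hx]; rfl

theorem m1_eq_one [IsFiniteMeasure ν] : ∀ᵐ x ∂ν, x ∈ S.DD → S.m1 x = 1 := by
  filter_upwards [S.mInf_inv, S.ae_good] with x hx hg hD
  have h1 : S.mInf x = S.m1 x * S.mInf x := by
    conv_lhs => rw [hg.mInf_eq]
    rw [hx]; rfl
  have h2 : S.mInf x ≠ 0 := hD
  have h3 : S.mInf x ≠ ∞ := (lt_of_le_of_lt hg.mInf_le_one ENNReal.one_lt_top).ne
  have h4 : 1 * S.mInf x = S.m1 x * S.mInf x := by rw [one_mul]; exact h1
  exact ((ENNReal.mul_left_inj h2 h3).1 h4).symm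

/-- on `DD` the label is `B`-measurable -/
theorem q_DD [IsFiniteMeasure ν] : ∀ᵐ x ∂ν, x ∈ S.DD → ∀ j, S.q j x = if j = S.L x then 1 else 0 := by
  classical
  filter_upwards [S.m1_eq_one, S.sum_q] with x h1 h2 hD j
  have h3 : S.q (S.L x) x = 1 := h1 hD
  split_ifs with hj
  · rw [hj, h3]
  · rw [← Finset.add_sum_erase _ _ (Finset.mem_univ (S.L x)), h3] at h2
    have h4 : ∑ i ∈ Finset.univ.erase (S.L x), S.q i x = 0 := by
      have : (1 : ℝ≥0∞) + ∑ i ∈ Finset.univ.erase (S.L x), S.q i x = 1 + 0 := by rw [h2, add_zero]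
      exact (ENNReal.add_right_inj ENNReal.one_ne_top).1 this
    rw [Finset.sum_eq_zero_iff] at h4
    exact h4 j (Finset.mem_erase.2 ⟨hj, Finset.mem_univ _⟩)

theorem pointwise {h m c : ℝ≥0∞} (hm0 : m ≠ 0) (hm1 : m ≠ ∞) (hc0 : c ≠ 0) (hc1 : c ≠ ∞) :
    h ≤ c * (m⁻¹ * h ^ 2) + c⁻¹ * m := by
  rcases le_total h (c⁻¹ * m) with h1 | h1
  · exact h1.trans le_add_self
  · refine le_trans ?_ le_self_add
    calc h = (c * m⁻¹ * (c⁻¹ * m)) * h := by
          rw [mul_mul_mul_comm, ENNReal.mul_inv_cancel hc0 hc1, ENNReal.inv_mul_cancel hm0 hm1,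
            one_mul, one_mul]
      _ ≤ (c * m⁻¹ * h) * h := by gcongr
      _ = c * (m⁻¹ * h ^ 2) := by ring

/-- the final limit argument -/
theorem limit [IsFiniteMeasure ν] (hDD : ν S.DD = 0) {C : ℝ≥0∞} (hC : C ≠ ∞) (h : ℕ → X → ℝ≥0∞)
    (hW : ∀ n, ∫⁻ x, S.W n x * (h n x) ^ 2 ∂ν ≤ C) {I : ℝ≥0∞} (hI : ∀ n, I ≤ ∫⁻ x, h n x ∂ν) : I = 0 := by
  -- integrals of `mm n` tend to zero
  have hinf : ⨅ n, ∫⁻ x, S.mm n x ∂ν = 0 := by
    rw [← lintegral_iInf_ae S.measurable_mm]
    · refine (lintegral_eq_zero_iff S.measurable_mInf).2 ?_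
      rw [Filter.EventuallyEq, ae_iff]
      exact hDD
    · intro n
      filter_upwards [S.ae_good] with x hx using hx.mm_succ_le n
    · show ∫⁻ _, 1 ∂ν ≠ ∞
      rw [lintegral_one]; exact measure_ne_top _ _
  have hb : ∀ c : ℝ≥0∞, c ≠ 0 → c ≠ ∞ → I ≤ c * C := by
    intro c hc0 hc1
    have h1 : ∀ n, I ≤ c * C + c⁻¹ * ∫⁻ x, S.mm n x ∂ν := by
      intro n
      calc I ≤ ∫⁻ x, h n x ∂ν := hI n
        _ ≤ ∫⁻ x, (c * (S.W n x * (h n x) ^ 2) + c⁻¹ * S.mm n x) ∂ν := by
            refine lintegral_mono_ae ?_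
            filter_upwards [S.ae_good] with x hx
            rw [hx.W_eq]
            exact pointwise (hx.mm_ne_zero n)
              (lt_of_le_of_lt (hx.mm_le_one n) ENNReal.one_lt_top).ne hc0 hc1
        _ = c * ∫⁻ x, S.W n x * (h n x) ^ 2 ∂ν + c⁻¹ * ∫⁻ x, S.mm n x ∂ν := by
            rw [lintegral_add_right _ ((S.measurable_mm n).const_mul _),
              lintegral_const_mul' _ _ hc1, lintegral_const_mul _ (S.measurable_mm n)]
        _ ≤ c * C + c⁻¹ * ∫⁻ x, S.mm n x ∂ν := by gcongr; exact hW n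
    have h2 : I ≤ ⨅ n, (c * C + c⁻¹ * ∫⁻ x, S.mm n x ∂ν) := le_iInf h1
    rw [← ENNReal.add_iInf, ← ENNReal.mul_iInf_of_ne (ENNReal.inv_ne_zero.2 hc1)
      (ENNReal.inv_ne_top.2 hc0), hinf, mul_zero, add_zero] at h2
    exact h2
  by_contra hI0
  have hC' : C + 1 ≠ ∞ := ENNReal.add_ne_top.2 ⟨hC, ENNReal.one_ne_top⟩
  have hItop : I ≠ ∞ := by
    have := hb 1 one_ne_zero ENNReal.one_ne_top
    rw [one_mul] at this
    exact (lt_of_le_of_lt this (lt_top_iff_ne_top.2 hC)).ne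
  have h3 := hb (I / (C + 1) / 2) (by
      refine ENNReal.div_ne_zero.2 ⟨ENNReal.div_ne_zero.2 ⟨hI0, hC'⟩, by norm_num⟩) (by
      refine (ENNReal.div_lt_top (ENNReal.div_lt_top hItop (by simp)).ne (by norm_num)).ne)
  have h4 : I / (C + 1) / 2 * C ≤ I / 2 := by
    calc I / (C + 1) / 2 * C ≤ I / (C + 1) / 2 * (C + 1) := by gcongr; exact le_self_add
      _ = I / 2 := by
        rw [div_eq_mul_inv, div_eq_mul_inv, mul_right_comm, mul_assoc I, ENNReal.inv_mul_cancel (by simp) hC',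
          mul_one, div_eq_mul_inv]
  have h5 : I / 2 < I := ENNReal.half_lt_self hI0 hItop
  exact absurd (h3.trans h4) (not_le.2 h5)

end Sys

end Crest.Agent.R40.T1Host
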