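import Crest.Agent.R40.T1R2P1b
import Crest.Agent.R40.T1Host1

/-!
# R40 / T1 / Host part 2: Gaussian arithmetic
-/

set_option autoImplicit false

namespace Crest.Agent.R40.T1Host

open Crest.Agent.R40.T1 Crest.Agent.R40.T1R2

theorem not_P_dvd_one : ¬ P ∣ 1 := by
  intro h
  obtain ⟨d, hd⟩ := h
  have h1 := congrArg phi hd
  rw [phi_mul, phi_P, zero_mul] at h1
  exact absurd h1 (by decide)

theorem not_P_dvd_Pb_pow (n : ℕ) : ¬ P ∣ Pb ^ n := by
  have := not_P_dvd_Pb_pow_mul not_P_dvd_one n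
  rwa [mul_one] at this

/-- every Gaussian integer is congruent to a rational integer modulo `P^n` -/
theorem exists_int_rep (n : ℕ) (t : GaussianInt) :
    ∃ (c : ℤ) (s : GaussianInt), t = (c : GaussianInt) + P ^ n * s := by
  induction n with
  | zero => exact ⟨0, t, by simp⟩
  | succ n ih =>
    obtain ⟨c, s, rfl⟩ := ih
    obtain ⟨k, d, hd⟩ := exists_int_P_dvd (b := s) (not_P_dvd_Pb_pow n)
    refine ⟨c + k * 5 ^ n, d, ?_⟩
    have hs : s = (k : GaussianInt) * Pb ^ n + P * d := by rw [← hd]; ring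
    have h5 : P ^ n * Pb ^ n = 5 ^ n := by
      rw [← mul_pow, Emb.P_mul_Pb]
    rw [hs]
    push_cast
    rw [← h5]
    ring

theorem star_P : star P = Pb := rfl

theorem star_Pb : star Pb = P := rfl

theorem isCoprime_pow (n : ℕ) : IsCoprime (P ^ n) (Pb ^ n) := by
  have : IsCoprime P Pb := ⟨Pb - 1, -1, by decide⟩
  exact this.pow

/-- the rotations used in Host's argument -/
theorem exists_gauss (n r : ℕ) : ∃ z t : GaussianInt, ¬ P ∣ star z ∧
    z * Pb ^ n = (r : GaussianInt) * star z + P ^ n * star z * 0 + P ^ n * t := by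
  rcases Nat.eq_zero_or_pos n with rfl | hn
  · refine ⟨1, 1 - (r : GaussianInt), ?_, ?_⟩
    · rw [star_one]; exact not_P_dvd_one
    · simp
  obtain ⟨a, b, hab⟩ := isCoprime_pow n
  have hab' : star a * Pb ^ n + star b * P ^ n = 1 := by
    have h := congrArg star hab
    simp only [star_add, star_mul', star_pow, star_P, star_Pb, star_one] at h
    exact h
  refine ⟨(r : GaussianInt) * b * Pb ^ n + a * P ^ n * P ^ n, ?_⟩
  have hstar : star ((r : GaussianInt) * b * Pb ^ n + a * P ^ n * P ^ n)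
      = (r : GaussianInt) * star b * P ^ n + star a * Pb ^ n * Pb ^ n := by
    simp only [star_add, star_mul', star_pow, star_P, star_Pb, star_natCast]
  rw [hstar]
  refine ⟨a * P ^ n * Pb ^ n - (r : GaussianInt) * a * Pb ^ n - (r : GaussianInt) * (r : GaussianInt) * star b + (r : GaussianInt) * star b * Pb ^ n, ?_, ?_⟩
  · intro hd
    have h1 : P ∣ Pb ^ n := by
      have h2 : Pb ^ n = (((r : GaussianInt) * star b * P ^ n + star a * Pb ^ n * Pb ^ n)
          + P ^ n * (star b * Pb ^ n - (r : GaussianInt) * star b)) := by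
        linear_combination (-(Pb ^ n)) * hab'
      rw [h2]
      exact dvd_add hd (Dvd.dvd.mul_right (dvd_pow_self P hn.ne') _)
    exact not_P_dvd_Pb_pow n h1
  · linear_combination ((r : GaussianInt) * Pb ^ n) * hab - ((r : GaussianInt) * Pb ^ n) * hab'

theorem exists_unit {E : Type*} [Field E] (S : Emb E) (n r : ℕ) :
    ∃ y ρ : E, ‖S.σ y‖ = 1 ∧ (∃ m : GaussianInt, ¬ (P ∣ m) ∧ S.InLat m ρ) ∧
      y = ρ + (r : E) * (S.ι P)⁻¹ ^ n := by
  obtain ⟨z, t, hz, ht⟩ := exists_gauss n r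
  have hz0 : star z ≠ 0 := by
    intro h; apply hz; rw [h]; exact dvd_zero _
  have h1 : S.ι (star z) ≠ 0 := S.ι_ne_zero hz0
  have h2 : S.ι P ≠ 0 := S.ι_ne_zero Emb.P_ne_zero
  have hn : ∀ w : GaussianInt, ‖S.σ (S.ι (star w))‖ = ‖S.σ (S.ι w)‖ := by
    intro w
    rw [S.compat, S.compat, GaussianInt.toComplex_star, Complex.norm_conj]
  refine ⟨S.ι z * S.ι Pb ^ n / (S.ι (star z) * S.ι P ^ n), S.ι t / S.ι (star z), ?_,
    ⟨star z, hz, t, ?_⟩, ?_⟩
  · have h3 : ‖S.σ (S.ι Pb)‖ = ‖S.σ (S.ι P)‖ := by rw [← star_P, hn]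
    simp only [map_div₀, map_mul, map_pow, norm_div, norm_mul, norm_pow]
    rw [hn, h3]
    refine div_self ?_
    have h4 : ‖S.σ (S.ι z)‖ ≠ 0 := by
      rw [← hn]; exact norm_ne_zero_iff.2 ((map_ne_zero S.σ).2 h1)
    have h5 : ‖S.σ (S.ι P)‖ ≠ 0 := norm_ne_zero_iff.2 ((map_ne_zero S.σ).2 h2)
    exact mul_ne_zero h4 (pow_ne_zero _ h5)
  · rw [mul_div_cancel₀ _ h1]
  · have h6 := congrArg S.ι ht
    simp only [map_add, map_mul, map_pow, map_natCast, mul_zero, add_zero] at h6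
    rw [h6, inv_pow]
    have h7 : S.ι P ^ n ≠ 0 := pow_ne_zero _ h2
    field_simp
    ring

theorem label_coeff {E : Type*} [Field E] (S : Emb E) (n j : ℕ) (hj : j < n) :
    ∃ (c : ℤ) (ρ : E), (∃ m : GaussianInt, ¬ (P ∣ m) ∧ S.InLat m ρ) ∧
      S.u0 ^ j * S.θ = ρ + (c : E) * (S.ι P)⁻¹ ^ n := by
  obtain ⟨c, s, hs⟩ := exists_int_rep n (Pb ^ j * P ^ (n - j - 1))
  have h2 : S.ι P ≠ 0 := S.ι_ne_zero Emb.P_ne_zero
  refine ⟨c, S.ι s, ⟨1, not_P_dvd_one, s, by simp⟩, ?_⟩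
  have h6 := congrArg S.ι hs
  simp only [map_add, map_mul, map_pow, map_intCast] at h6
  obtain ⟨k, rfl⟩ : ∃ k, n = j + 1 + k := ⟨n - j - 1, by omega⟩
  have hk : j + 1 + k - j - 1 = k := by omega
  rw [hk] at h6
  rw [Emb.u0, Emb.θ]
  have h7 : (c : E) = S.ι Pb ^ j * S.ι P ^ k - S.ι P ^ (j + 1 + k) * S.ι s := by rw [h6]; ring
  rw [h7, inv_pow, div_pow]
  have h8 : ∀ i : ℕ, S.ι P ^ i ≠ 0 := fun i => pow_ne_zero _ h2
  have h9 := h8 j
  have h10 := h8 k
  have h11 : S.ι P ^ (j + 1 + k) = S.ι P ^ j * S.ι P * S.ι P ^ k := by rw [pow_add, pow_succ]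
  rw [h11]
  field_simp
  ring

end Crest.Agent.R40.T1Host
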