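import Crest.Agent.R40.T1Host2

/-!
# R40 / T1 / Host part 3: roots and Parseval
-/

set_option autoImplicit false

open MeasureTheory Filter Topology Set
open scoped ENNReal

namespace Crest.Agent.R40.T1Host

/-- the `k`-th `N`-th root of `w` -/
noncomputable def zeta (N : ℕ) (w : ℂ) (k : ℕ) : ℂ :=
  Complex.exp (Complex.arg w / N * Complex.I) * Complex.exp (2 * Real.pi * Complex.I / N) ^ k

theorem measurable_zeta (N k : ℕ) : Measurable (fun w => zeta N w k) := by
  unfold zeta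
  refine Measurable.mul ?_ measurable_const
  refine Complex.measurable_exp.comp ?_
  refine Measurable.mul ?_ measurable_const
  exact (Complex.measurable_ofReal.comp Complex.measurable_arg).div_const _

theorem norm_eta (N : ℕ) : ‖Complex.exp (2 * Real.pi * Complex.I / N)‖ = 1 := by
  have : (2 * Real.pi * Complex.I / N : ℂ) = ((2 * Real.pi / N : ℝ) : ℂ) * Complex.I := by
    push_cast; ring
  rw [this, Complex.norm_exp_ofReal_mul_I]

theorem norm_zeta (N : ℕ) (w : ℂ) (k : ℕ) : ‖zeta N w k‖ = 1 := by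
  unfold zeta
  rw [norm_mul, norm_pow, norm_eta, one_pow, mul_one]
  have : (Complex.arg w / N * Complex.I : ℂ) = ((Complex.arg w / N : ℝ) : ℂ) * Complex.I := by
    push_cast; ring
  rw [this, Complex.norm_exp_ofReal_mul_I]

theorem exists_zeta {N : ℕ} (hN : N ≠ 0) {z : ℂ} (hz : ‖z‖ = 1) :
    ∃ k < N, z = zeta N (z ^ N) k := by
  have hN' : (N : ℂ) ≠ 0 := Nat.cast_ne_zero.2 hN
  haveI : NeZero N := ⟨hN⟩
  set r := Complex.exp (Complex.arg (z ^ N) / N * Complex.I) with hr
  have hr0 : r ≠ 0 := Complex.exp_ne_zero _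
  have hrN : r ^ N = z ^ N := by
    rw [hr, ← Complex.exp_nat_mul]
    have h1 : (N : ℂ) * (Complex.arg (z ^ N) / N * Complex.I) = Complex.arg (z ^ N) * Complex.I := by
      field_simp
    rw [h1]
    have h2 := Complex.norm_mul_exp_arg_mul_I (z ^ N)
    rw [norm_pow, hz, one_pow] at h2
    simpa using h2
  have h3 : (z / r) ^ N = 1 := by
    rw [div_pow, hrN, div_self]
    rw [← hrN]; exact pow_ne_zero _ hr0
  obtain ⟨k, hk, hk'⟩ := (Complex.isPrimitiveRoot_exp N hN).eq_pow_of_pow_eq_one h3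
  refine ⟨k, hk, ?_⟩
  rw [zeta, hk', ← hr]
  field_simp

theorem sum_root {N : ℕ} (hN : N ≠ 0) {r s : ℕ} (hr : r < N) (hs : s < N) (hrs : r ≠ s) :
    ∑ k ∈ Finset.range N, (Complex.exp (2 * Real.pi * Complex.I / N) ^ r *
      (starRingEnd ℂ) (Complex.exp (2 * Real.pi * Complex.I / N) ^ s)) ^ k = 0 := by
  set η := Complex.exp (2 * Real.pi * Complex.I / N) with hη
  have hp : IsPrimitiveRoot η N := Complex.isPrimitiveRoot_exp N hN
  have hcc : ∀ j : ℕ, (starRingEnd ℂ) (η ^ j) * η ^ j = 1 := by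
    intro j
    rw [mul_comm, Complex.mul_conj, Complex.normSq_eq_norm_sq, norm_pow, hη, norm_eta]
    simp
  set x := η ^ r * (starRingEnd ℂ) (η ^ s) with hx
  have hx1 : x ≠ 1 := by
    intro h
    apply hrs
    have : η ^ r = η ^ s := by
      calc η ^ r = η ^ r * ((starRingEnd ℂ) (η ^ s) * η ^ s) := by rw [hcc, mul_one]
        _ = x * η ^ s := by rw [hx]; ring
        _ = η ^ s := by rw [h, one_mul]
    exact hp.pow_inj hr hs this
  have hxN : x ^ N = 1 := by
    have h1 : (starRingEnd ℂ) (η ^ s) ^ N = 1 := by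
      rw [← map_pow, ← pow_mul, mul_comm, pow_mul, hp.pow_eq_one, one_pow, map_one]
    rw [hx, mul_pow, h1, mul_one, ← pow_mul, mul_comm, pow_mul, hp.pow_eq_one, one_pow]
  have h := geom_sum_mul x N
  rw [hxN, sub_self] at h
  exact (mul_eq_zero.1 h).resolve_right (sub_ne_zero.2 hx1)

/-- Parseval -/
theorem parseval {N : ℕ} (hN : N ≠ 0) (w : ℂ) (a : ℕ → ℂ) (ha : ∀ r, ‖a r‖ = 1) :
    ∑ k ∈ Finset.range N, ‖∑ r ∈ Finset.range N, a r * zeta N w k ^ r‖ ^ 2 = (N : ℝ) ^ 2 := by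
  set η := Complex.exp (2 * Real.pi * Complex.I / N) with hη
  set ρ := Complex.exp (Complex.arg w / N * Complex.I) with hρ
  have hb : ∀ r : ℕ, ‖a r * ρ ^ r‖ = 1 := by
    intro r
    have h0 := norm_zeta N w 0
    rw [zeta, pow_zero, mul_one] at h0
    rw [norm_mul, ha, norm_pow, hρ, h0, one_pow, mul_one]
  have key : ∀ k, ((‖∑ r ∈ Finset.range N, a r * zeta N w k ^ r‖ ^ 2 : ℝ) : ℂ)
      = ∑ r ∈ Finset.range N, ∑ s ∈ Finset.range N, (a r * ρ ^ r) * (starRingEnd ℂ) (a s * ρ ^ s) *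
        (η ^ r * (starRingEnd ℂ) (η ^ s)) ^ k := by
    intro k
    rw [← Complex.normSq_eq_norm_sq, ← Complex.mul_conj, map_sum, Finset.sum_mul_sum]
    refine Finset.sum_congr rfl fun r _ => Finset.sum_congr rfl fun s _ => ?_
    simp only [zeta, ← hη, ← hρ, map_mul, map_pow]
    ring
  have h : ((∑ k ∈ Finset.range N, ‖∑ r ∈ Finset.range N, a r * zeta N w k ^ r‖ ^ 2 : ℝ) : ℂ)
      = ((N : ℝ) ^ 2 : ℝ) := by
    rw [Complex.ofReal_sum, Finset.sum_congr rfl fun k _ => key k, Finset.sum_comm]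
    have h1 : ∀ r ∈ Finset.range N, ∑ k ∈ Finset.range N, ∑ s ∈ Finset.range N,
        (a r * ρ ^ r) * (starRingEnd ℂ) (a s * ρ ^ s) * (η ^ r * (starRingEnd ℂ) (η ^ s)) ^ k
        = (N : ℂ) := by
      intro r hr
      rw [Finset.sum_comm, Finset.sum_eq_single r]
      · have h2 : η ^ r * (starRingEnd ℂ) (η ^ r) = 1 := by
          rw [Complex.mul_conj, Complex.normSq_eq_norm_sq, norm_pow, hη, norm_eta]; simp
        have h3 : (a r * ρ ^ r) * (starRingEnd ℂ) (a r * ρ ^ r) = 1 := by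
          rw [Complex.mul_conj, Complex.normSq_eq_norm_sq, hb]; simp
        rw [h2, h3]; simp
      · intro s hs hsr
        rw [← Finset.mul_sum, sum_root hN (Finset.mem_range.1 hr) (Finset.mem_range.1 hs) hsr.symm,
          mul_zero]
      · intro h; exact absurd hr h
    rw [Finset.sum_congr rfl h1, Finset.sum_const, Finset.card_range]
    push_cast
    rw [nsmul_eq_mul]
    ring
  exact_mod_cast h

end Crest.Agent.R40.T1Host
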