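import Crest.Agent.R40.T1Host3

/-!
# R40 / T1 / Host part 4: assembly
-/

set_option autoImplicit false

open MeasureTheory Filter Topology Set
open scoped ENNReal

namespace Crest.Agent.R40.T1Host

open Crest.Agent.R40.T1 Crest.Agent.R40.T1R2

open Classical in
/-- label of a point of the circle: which fifth root of its fifth power it is -/
noncomputable def lab (z : ℂ) : Fin 5 :=
  if z = zeta 5 (z ^ 5) 0 then 0 else if z = zeta 5 (z ^ 5) 1 then 1 else
  if z = zeta 5 (z ^ 5) 2 then 2 else if z = zeta 5 (z ^ 5) 3 then 3 else 4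

theorem measurable_lab : Measurable lab := by
  have h : ∀ k, MeasurableSet {z : ℂ | z = zeta 5 (z ^ 5) k} := fun k =>
    measurableSet_eq_fun measurable_id ((measurable_zeta 5 k).comp (measurable_id.pow_const 5))
  unfold lab
  exact Measurable.ite (h 0) measurable_const (Measurable.ite (h 1) measurable_const
    (Measurable.ite (h 2) measurable_const (Measurable.ite (h 3) measurable_const measurable_const)))

theorem lab_spec {z : ℂ} (hz : ‖z‖ = 1) : z = zeta 5 (z ^ 5) (lab z : ℕ) := by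
  obtain ⟨k, hk, hk'⟩ := exists_zeta (N := 5) (by norm_num) hz
  unfold lab
  split_ifs with h0 h1 h2 h3
  · exact h0
  · exact h1
  · exact h2
  · exact h3
  · interval_cases k
    · exact absurd hk' h0
    · exact absurd hk' h1
    · exact absurd hk' h2
    · exact absurd hk' h3
    · exact hk'

theorem measurable_zpow_const (c : ℤ) : Measurable (fun z : ℂ => z ^ c) := by
  cases c with
  | ofNat m =>
    have h : Measurable (fun z : ℂ => z ^ m) := measurable_id.pow_const m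
    simpa using h
  | negSucc m =>
    have h : Measurable (fun z : ℂ => (z ^ (m + 1))⁻¹) := (measurable_id.pow_const (m + 1)).inv
    simpa [zpow_negSucc] using h

variable {E : Type*} [Field E] (S : Emb E)

/-- the set `R` -/
def InR (a : E) : Prop := ∃ m : GaussianInt, ¬ (P ∣ m) ∧ S.InLat m a

theorem measurable_eval_R {a : E} (ha : InR S a) :
    Measurable[S.sigmaR] (fun χ : AddChar E Circle => ((χ a : Circle) : ℂ)) := by
  refine Measurable.mono (comap_measurable _) ?_ le_rfl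
  exact le_iSup₂_of_le a ha le_rfl

theorem sigmaR_le : S.sigmaR ≤ (instMeasurableSpaceDual E) := by
  refine iSup₂_le fun a _ => ?_
  exact (measurable_eval a).comap_le

theorem u0_ne_zero : S.u0 ≠ 0 := div_ne_zero (S.ι_ne_zero Emb.Pb_ne_zero) (S.ι_ne_zero Emb.P_ne_zero)

theorem InR.shift {a : E} (ha : InR S a) : InR S (S.u0⁻¹ * a) := by
  obtain ⟨m, hm, b, hb⟩ := ha
  refine ⟨Pb ^ 1 * m, not_P_dvd_Pb_pow_mul hm 1, P * b, ?_⟩
  have h1 : S.ι P ≠ 0 := S.ι_ne_zero Emb.P_ne_zero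
  have h2 : S.ι Pb ≠ 0 := S.ι_ne_zero Emb.Pb_ne_zero
  rw [map_mul S.ι P b, ← hb, pow_one, map_mul, Emb.u0, inv_div]
  field_simp

theorem InR_gauss (b : GaussianInt) : InR S (S.ι b) := ⟨1, not_P_dvd_one, b, by simp⟩

theorem InR_theta : InR S (S.u0⁻¹ * S.θ) := by
  refine ⟨Pb ^ 1 * 1, not_P_dvd_Pb_pow_mul not_P_dvd_one 1, 1, ?_⟩
  have h1 : S.ι P ≠ 0 := S.ι_ne_zero Emb.P_ne_zero
  have h2 : S.ι Pb ≠ 0 := S.ι_ne_zero Emb.Pb_ne_zero
  rw [pow_one, mul_one, Emb.u0, Emb.θ, map_one, inv_div]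
  field_simp

/-- the shift -/
noncomputable def TT (χ : AddChar E Circle) : AddChar E Circle := χ.mulShift S.u0

theorem TT_apply (χ : AddChar E Circle) (a : E) : TT S χ a = χ (S.u0 * a) := rfl

theorem TT_iterate (χ : AddChar E Circle) (j : ℕ) (a : E) : (TT S)^[j] χ a = χ (S.u0 ^ j * a) := by
  induction j generalizing χ a with
  | zero => simp
  | succ j ih => rw [Function.iterate_succ_apply, ih, TT_apply, pow_succ']; congr 1; ring

theorem sigmaR_le_comap : S.sigmaR ≤ S.sigmaR.comap (TT S) := by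
  refine iSup₂_le fun a ha => ?_
  have h1 : (fun χ : AddChar E Circle => ((χ a : Circle) : ℂ))
      = (fun χ : AddChar E Circle => ((χ (S.u0⁻¹ * a) : Circle) : ℂ)) ∘ TT S := by
    funext χ
    simp only [Function.comp, TT_apply]
    rw [mul_inv_cancel_left₀ (u0_ne_zero S)]
  rw [h1, ← MeasurableSpace.comap_comp]
  refine MeasurableSpace.comap_mono ?_
  exact le_iSup₂_of_le (S.u0⁻¹ * a) (InR.shift S ha) le_rfl

theorem measurable_label :
    Measurable[S.sigmaR.comap (TT S)] (fun χ : AddChar E Circle => lab ((χ S.θ : Circle) : ℂ)) := by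
  have h1 : (fun χ : AddChar E Circle => lab ((χ S.θ : Circle) : ℂ))
      = (fun χ : AddChar E Circle => lab ((χ (S.u0⁻¹ * S.θ) : Circle) : ℂ)) ∘ TT S := by
    funext χ
    simp only [Function.comp, TT_apply]
    rw [mul_inv_cancel_left₀ (u0_ne_zero S)]
  rw [h1]
  exact (measurable_lab.comp (measurable_eval_R S (InR_theta S))).comp (comap_measurable _)

theorem norm_u0 : ‖S.σ S.u0‖ = 1 := by
  have hn : ∀ w : GaussianInt, ‖S.σ (S.ι (star w))‖ = ‖S.σ (S.ι w)‖ := by
    intro w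
    rw [S.compat, S.compat, GaussianInt.toComplex_star, Complex.norm_conj]
  rw [Emb.u0, map_div₀, norm_div, ← star_P, hn]
  exact div_self (norm_ne_zero_iff.2 ((map_ne_zero S.σ).2 (S.ι_ne_zero Emb.P_ne_zero)))

variable {ν : Measure (AddChar E Circle)}

theorem measurePreserving_TT (hν : S.Invariant ν) : MeasurePreserving (TT S) ν ν :=
  ⟨measurable_mulShift S.u0, hν S.u0 (norm_u0 S)⟩

/-- the system -/
noncomputable def sys [IsFiniteMeasure ν] (hν : S.Invariant ν) : Sys (AddChar E Circle) ν 5 where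
  T := TT S
  hT := measurePreserving_TT S hν
  L := fun χ => lab ((χ S.θ : Circle) : ℂ)
  q := (exists_q ν S.sigmaR (sigmaR_le S) (fun χ => lab ((χ S.θ : Circle) : ℂ))).choose
  B := S.sigmaR
  hB := sigmaR_le S
  hBT := sigmaR_le_comap S
  hL := measurable_label S
  hq := (exists_q ν S.sigmaR (sigmaR_le S) (fun χ => lab ((χ S.θ : Circle) : ℂ))).choose_spec.1
  hqint := (exists_q ν S.sigmaR (sigmaR_le S) (fun χ => lab ((χ S.θ : Circle) : ℂ))).choose_spec.2

theorem eval_add (χ : AddChar E Circle) (a b : E) :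
    ((χ (a + b) : Circle) : ℂ) = ((χ a : Circle) : ℂ) * ((χ b : Circle) : ℂ) := by
  rw [AddChar.map_add_eq_mul]; simp

theorem eval_nsmul (χ : AddChar E Circle) (k : ℕ) (a : E) :
    ((χ ((k : E) * a) : Circle) : ℂ) = ((χ a : Circle) : ℂ) ^ k := by
  rw [← nsmul_eq_mul, AddChar.map_nsmul_eq_pow]; simp

theorem eval_zsmul (χ : AddChar E Circle) (k : ℤ) (a : E) :
    ((χ ((k : E) * a) : Circle) : ℂ) = ((χ a : Circle) : ℂ) ^ k := by
  rw [← zsmul_eq_mul, AddChar.map_zsmul_eq_zpow]; simp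

theorem norm_eval (χ : AddChar E Circle) (a : E) : ‖((χ a : Circle) : ℂ)‖ = 1 := Circle.norm_coe _

theorem addr_eq [IsFiniteMeasure ν] (hν : S.Invariant ν) (n : ℕ) (χ : AddChar E Circle) (j : Fin n) :
    (sys S hν).addr n χ j = lab ((χ (S.u0 ^ (j : ℕ) * S.θ) : Circle) : ℂ) := by
  rw [Sys.addr_apply]
  show lab (((TT S)^[j] χ S.θ : Circle) : ℂ) = _
  rw [TT_iterate]

theorem enorm_sq_sum {N : ℕ} (f : ℕ → ℂ) (c : ℝ)
    (h : ∑ k ∈ Finset.range N, ‖f k‖ ^ 2 = c) :
    ∑ k ∈ Finset.range N, ‖f k‖ₑ ^ 2 = ENNReal.ofReal c := by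
  rw [← h, ENNReal.ofReal_sum_of_nonneg (fun _ _ => by positivity)]
  refine Finset.sum_congr rfl fun k _ => ?_
  rw [ENNReal.ofReal_pow (norm_nonneg _), ofReal_norm]

/-- Host's estimate at level `n` -/
theorem level [IsFiniteMeasure ν] (hν : S.Invariant ν) (n : ℕ) :
    ∃ h : AddChar E Circle → ℂ, (∫⁻ χ, (sys S hν).W n χ * ‖h χ‖ₑ ^ 2 ∂ν ≤ ν univ) ∧
      ‖∫ χ, ((χ 1 : Circle) : ℂ) ∂ν‖ₑ ≤ ∫⁻ χ, ‖h χ‖ₑ ∂ν := by
  classical
  set N : ℕ := 5 ^ n with hN
  have hN0 : N ≠ 0 := pow_ne_zero _ (by norm_num)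
  have hNC : (N : ℂ) ≠ 0 := Nat.cast_ne_zero.2 hN0
  choose y ρ hy hρ hyρ using exists_unit S n
  choose! c ρ' hρ' hc using fun j (hj : j < n) => label_coeff S n j hj
  set ω : E := (S.ι P)⁻¹ ^ n with hω
  have hNω : (N : E) * ω = S.ι (Pb ^ n) := by
    have h1 : S.ι P ≠ 0 := S.ι_ne_zero Emb.P_ne_zero
    have h5 : ((5 : ℕ) : E) = S.ι P * S.ι Pb := by
      rw [← map_mul, Emb.P_mul_Pb]
      push_cast
      rw [map_ofNat]
    rw [hN, hω, Nat.cast_pow, h5, mul_pow, map_pow, inv_pow]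
    have h2 : S.ι P ^ n ≠ 0 := pow_ne_zero _ h1
    field_simp
  set base : AddChar E Circle → ℂ := fun χ => ((χ ((N : E) * ω) : Circle) : ℂ) with hbase
  have hbase_m : Measurable[S.sigmaR] base := by
    refine measurable_eval_R S ?_
    rw [hNω]; exact InR_gauss S _
  set h : AddChar E Circle → ℂ := fun χ => (N : ℂ)⁻¹ * ∑ r ∈ Finset.range N, ((χ (y r) : Circle) : ℂ) with hh
  set ext : ℕ → AddChar E Circle → ℂ := fun k χ =>
    (N : ℂ)⁻¹ * ∑ r ∈ Finset.range N, ((χ (ρ r) : Circle) : ℂ) * zeta N (base χ) k ^ r with hext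
  set wd : ℕ → AddChar E Circle → (Fin n → Fin 5) := fun k χ j =>
    lab (((χ (ρ' j) : Circle) : ℂ) * zeta N (base χ) k ^ (c j)) with hwd
  have hzm : ∀ k, Measurable[S.sigmaR] (fun χ => zeta N (base χ) k) := fun k =>
    (measurable_zeta N k).comp hbase_m
  have hext_m : ∀ k, Measurable[S.sigmaR] (ext k) := by
    intro k
    refine Measurable.const_mul ?_ _
    refine Finset.measurable_fun_sum _ fun r _ => ?_
    exact (measurable_eval_R S (hρ r)).mul ((hzm k).pow_const r)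
  have hwd_m : ∀ k, Measurable[S.sigmaR] (wd k) := by
    intro k
    refine @measurable_pi_lambda _ _ _ S.sigmaR _ _ fun j => ?_
    refine measurable_lab.comp ?_
    exact (measurable_eval_R S (hρ' j j.2)).mul ((measurable_zpow_const (c j)).comp (hzm k))
  set g : (Fin n → Fin 5) → AddChar E Circle → ℝ≥0∞ := fun w χ =>
    ∑ k ∈ Finset.range N, if wd k χ = w then ‖ext k χ‖ₑ ^ 2 else 0 with hg
  have hg_m : ∀ w, Measurable[S.sigmaR] (g w) := by
    intro w
    refine Finset.measurable_fun_sum _ fun k _ => ?_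
    refine Measurable.ite ?_ ?_ (@measurable_const _ _ _ S.sigmaR _)
    · exact hwd_m k (measurableSet_singleton w)
    · have h1 := (measurable_enorm.comp (hext_m k))
      exact (measurable_id.pow_const 2).comp h1
  have hsum : ∀ χ, ∑ w, g w χ = 1 := by
    intro χ
    rw [hg, Finset.sum_comm]
    have h1 : ∀ k, ∑ w : Fin n → Fin 5, (if wd k χ = w then ‖ext k χ‖ₑ ^ 2 else 0)
        = ‖ext k χ‖ₑ ^ 2 := by
      intro k
      rw [Finset.sum_ite_eq]; simp
    rw [Finset.sum_congr rfl fun k _ => h1 k]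
    rw [enorm_sq_sum (fun k => ext k χ) 1, ENNReal.ofReal_one]
    have hp := parseval hN0 (base χ) (fun r => ((χ (ρ r) : Circle) : ℂ)) (fun r => norm_eval χ _)
    have h2 : ∀ k, ‖ext k χ‖ ^ 2 = ((N : ℝ) ^ 2)⁻¹ *
        ‖∑ r ∈ Finset.range N, ((χ (ρ r) : Circle) : ℂ) * zeta N (base χ) k ^ r‖ ^ 2 := by
      intro k
      rw [hext, norm_mul, mul_pow, norm_inv, inv_pow, Complex.norm_natCast]
    rw [Finset.sum_congr rfl fun k _ => h2 k, ← Finset.mul_sum, hp]
    have : (N : ℝ) ≠ 0 := Nat.cast_ne_zero.2 hN0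
    field_simp
  have hge : ∀ χ, ‖h χ‖ₑ ^ 2 ≤ g ((sys S hν).addr n χ) χ := by
    intro χ
    obtain ⟨k, hk, hk'⟩ := exists_zeta (N := N) hN0 (norm_eval χ ω)
    rw [← eval_nsmul χ N ω] at hk'
    have hb : base χ = ((χ ((N : E) * ω) : Circle) : ℂ) := rfl
    rw [← hb] at hk'
    have e1 : ext k χ = h χ := by
      rw [hext, hh]
      simp only []
      congr 1
      refine Finset.sum_congr rfl fun r _ => ?_
      rw [hyρ r, eval_add, eval_nsmul, ← hk']
    have e2 : wd k χ = (sys S hν).addr n χ := by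
      funext j
      rw [addr_eq, hwd]
      simp only []
      rw [hc j j.2, eval_add, eval_zsmul, ← hk']
    rw [hg]
    simp only []
    refine le_trans ?_ (Finset.single_le_sum (f := fun k => if wd k χ = (sys S hν).addr n χ then
      ‖ext k χ‖ₑ ^ 2 else 0) (fun _ _ => bot_le) (Finset.mem_range.2 hk))
    rw [if_pos e2, e1]
  refine ⟨h, ?_, ?_⟩
  · calc ∫⁻ χ, (sys S hν).W n χ * ‖h χ‖ₑ ^ 2 ∂ν
        ≤ ∫⁻ χ, (sys S hν).W n χ * g ((sys S hν).addr n χ) χ ∂ν :=
          lintegral_mono fun χ => mul_le_mul_right (hge χ) _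
      _ ≤ ∫⁻ χ, ∑ w, g w χ ∂ν := (sys S hν).key n g hg_m
      _ = ν univ := by
          rw [lintegral_congr hsum, lintegral_one]
  · have hint : ∀ a : E, Integrable (fun χ : AddChar E Circle => ((χ a : Circle) : ℂ)) ν := by
      intro a
      refine Integrable.of_bound (measurable_eval a).aestronglyMeasurable 1 ?_
      exact Filter.Eventually.of_forall fun χ => (norm_eval χ a).le
    have hy1 : ∀ r, ∫ χ, ((χ (y r) : Circle) : ℂ) ∂ν = ∫ χ, ((χ 1 : Circle) : ℂ) ∂ν := by
      intro r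
      have h1 : ∫ χ, ((χ 1 : Circle) : ℂ) ∂(ν.map (fun χ => χ.mulShift (y r)))
          = ∫ χ, ((χ 1 : Circle) : ℂ) ∂ν := by rw [hν (y r) (hy r)]
      rw [integral_map (measurable_mulShift (y r)).aemeasurable
        (measurable_eval 1).aestronglyMeasurable] at h1
      rw [← h1]
      refine integral_congr_ae (Filter.Eventually.of_forall fun χ => ?_)
      simp
    have h2 : ∫ χ, h χ ∂ν = ∫ χ, ((χ 1 : Circle) : ℂ) ∂ν := by
      rw [hh, integral_const_mul, integral_finsetSum _ fun r _ => hint (y r),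
        Finset.sum_congr rfl fun r _ => hy1 r, Finset.sum_const, Finset.card_range, nsmul_eq_mul,
        inv_mul_cancel_left₀ hNC]
    rw [← h2]
    exact enorm_integral_le_lintegral_enorm _

/-- Host's theorem at the point `1` -/
theorem host_one [IsFiniteMeasure ν] (hν : S.Invariant ν) :
    ∃ (D : Set (AddChar E Circle)) (h : AddChar E Circle → ℂ), MeasurableSet D ∧
      ((fun χ : AddChar E Circle => χ.mulShift S.u0) ⁻¹' D =ᵐ[ν] D) ∧
      @Measurable _ _ S.sigmaR _ h ∧
      (∀ᵐ χ ∂ν, χ ∈ D → ((χ S.θ : Circle) : ℂ) = h χ) ∧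
      (ν D = 0 → ∫ χ, ((χ 1 : Circle) : ℂ) ∂ν = 0) := by
  classical
  set s := sys S hν with hs
  refine ⟨s.DD, fun χ => ∑ j : Fin 5, ((s.q j χ).toReal : ℂ) * zeta 5 ((χ (S.ι Pb) : Circle) : ℂ) j,
    s.measurableSet_DD, s.DD_inv, ?_, ?_, ?_⟩
  · refine Finset.measurable_fun_sum _ fun j _ => ?_
    refine Measurable.mul ?_ ?_
    · exact Complex.measurable_ofReal.comp (s.hq j).ennreal_toReal
    · exact (measurable_zeta 5 j).comp (measurable_eval_R S (InR_gauss S _))
  · filter_upwards [s.q_DD] with χ hq hD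
    have hq' := hq hD
    have hL : s.L χ = lab ((χ S.θ : Circle) : ℂ) := rfl
    have h1 : ∑ j : Fin 5, ((s.q j χ).toReal : ℂ) * zeta 5 ((χ (S.ι Pb) : Circle) : ℂ) j
        = zeta 5 ((χ (S.ι Pb) : Circle) : ℂ) (s.L χ : Fin 5) := by
      rw [Finset.sum_eq_single (s.L χ)]
      · rw [hq', if_pos rfl]; simp
      · intro j _ hj
        rw [hq', if_neg hj]; simp
      · intro h; exact absurd (Finset.mem_univ _) h
    rw [h1, hL]
    have h2 : (S.ι Pb : E) = ((5 : ℕ) : E) * S.θ := by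
      have h3 : S.ι P ≠ 0 := S.ι_ne_zero Emb.P_ne_zero
      have h5 : ((5 : ℕ) : E) = S.ι P * S.ι Pb := by
        rw [← map_mul, Emb.P_mul_Pb]
        push_cast
        rw [map_ofNat]
      rw [h5, Emb.θ]
      field_simp
    rw [h2, eval_nsmul]
    exact lab_spec (norm_eval χ _)
  · intro hD
    choose h hW hI using level S hν
    have := s.limit hD (measure_ne_top ν univ) (fun n χ => ‖h n χ‖ₑ) hW hI
    simpa using this

/-- E-theorem at the point `1`, from (R2) -/
theorem e_theorem_one [IsFiniteMeasure ν] (hν : S.Invariant ν) (hR2 : S.TargetR2 ν)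
    (hns : ∀ᵐ χ ∂ν, ¬ S.IsStructured χ) : ∫ χ, ((χ 1 : Circle) : ℂ) ∂ν = 0 := by
  obtain ⟨D, h, hD, hinv, hh, hae, hfin⟩ := host_one S hν
  apply hfin
  have h1 : ∀ᵐ χ ∂ν, χ ∈ D → χ.mulShift S.u0 ∈ D := by
    filter_upwards [hinv] with χ hχ hD
    have : ((fun χ : AddChar E Circle => χ.mulShift S.u0) ⁻¹' D) χ := by
      rw [hχ]; exact hD
    exact this
  have h2 := hR2 D hD h1 h hh hae
  have h3 : ∀ᵐ χ ∂ν, χ ∉ D := by
    filter_upwards [h2, hns] with χ a b c using b (a c)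
  have h4 := ae_iff.1 h3
  simpa using h4

theorem invariant_map (hν : S.Invariant ν) (x : E) :
    S.Invariant (ν.map (fun χ : AddChar E Circle => χ.mulShift x)) := by
  intro u hu
  rw [Measure.map_map (measurable_mulShift u) (measurable_mulShift x)]
  have h1 : (fun χ : AddChar E Circle => χ.mulShift u) ∘ (fun χ : AddChar E Circle => χ.mulShift x)
      = (fun χ : AddChar E Circle => χ.mulShift x) ∘ (fun χ : AddChar E Circle => χ.mulShift u) := by
    funext χ
    ext a
    simp only [Function.comp, AddChar.mulShift_apply]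
    congr 2
    ring
  rw [h1, ← Measure.map_map (measurable_mulShift x) (measurable_mulShift u), hν u hu]

/-- E-theorem for all `x ≠ 0`: `Q` is any measurable set containing the structured characters with
`χ.mulShift x ∈ Q → χ ∈ Q`, null for `ν`. -/
theorem e_theorem [IsFiniteMeasure ν] (hν : S.Invariant ν) {Q : Set (AddChar E Circle)}
    (hQ : MeasurableSet Q)
    (hstr : ∀ χ, S.IsStructured χ → χ ∈ Q) (x : E)
    (hR2 : S.TargetR2 (ν.map (fun χ : AddChar E Circle => χ.mulShift x)))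
    (hQx : ∀ χ : AddChar E Circle, χ.mulShift x ∈ Q → χ ∈ Q) (hnull : ν Q = 0) :
    ∫ χ, ((χ x : Circle) : ℂ) ∂ν = 0 := by
  have h0 : (ν.map (fun χ : AddChar E Circle => χ.mulShift x)) Q = 0 := by
    rw [Measure.map_apply (measurable_mulShift x) hQ]
    exact measure_mono_null (fun χ hχ => hQx χ hχ) hnull
  have h3 : ∀ᵐ χ ∂(ν.map (fun χ : AddChar E Circle => χ.mulShift x)), ¬ S.IsStructured χ := by
    have h2 : ∀ᵐ χ ∂(ν.map (fun χ : AddChar E Circle => χ.mulShift x)), χ ∉ Q := by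
      rw [ae_iff]; simpa using h0
    filter_upwards [h2] with χ hχ hs using hχ (hstr _ hs)
  have h4 := e_theorem_one S (invariant_map S hν x) hR2 h3
  rw [integral_map (measurable_mulShift x).aemeasurable
        (measurable_eval 1).aestronglyMeasurable] at h4
  rw [← h4]
  refine integral_congr_ae (Filter.Eventually.of_forall fun χ => ?_)
  simp

end Crest.Agent.R40.T1Host
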