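import Crest.Agent.R40.T1Defs

/-!
# R40 / T1 / M3 (Host), part A: the five sheets of `θ : Dual R → Dual R`, `θ φ (a) = φ (c a)`,
where `R / cR ≅ ℤ/5`.
-/

set_option autoImplicit false

open MeasureTheory

namespace Crest.Agent.R40.T1H

open Crest.Agent.R40.T1 (Dual instMeasurableSpaceDual measurable_eval measurable_dual_iff rot
  rot_apply measurable_rot)

/-- the five fifth roots of `z` -/
noncomputable def root (z : Circle) (i : Fin 5) : Circle :=
  Circle.exp ((Complex.arg (z : ℂ) + 2 * Real.pi * ((i : ℕ) : ℝ)) / 5)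

theorem root_pow (z : Circle) (i : Fin 5) : root z i ^ 5 = z := by
  apply Circle.ext
  rw [Circle.coe_pow, root, Circle.coe_exp, ← Complex.exp_nat_mul]
  have h1 : ((5 : ℕ) : ℂ) * (((((Complex.arg (z : ℂ) + 2 * Real.pi * ((i : ℕ) : ℝ)) / 5 : ℝ)) : ℂ)
      * Complex.I) = Complex.arg (z : ℂ) * Complex.I + ((i : ℕ) : ℂ) * (2 * Real.pi * Complex.I) := by
    push_cast; ring
  rw [h1, Complex.exp_add, Complex.exp_nat_mul_two_pi_mul_I, mul_one]
  rw [← Circle.coe_exp, Circle.exp_arg]

theorem root_injective (z : Circle) : Function.Injective (root z) := by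
  intro i j h
  rw [root, root, Circle.exp_eq_exp] at h
  obtain ⟨m, hm⟩ := h
  have hpi := Real.pi_pos
  have h2 : ((i : ℕ) : ℝ) = ((j : ℕ) : ℝ) + 5 * m := by
    have : Real.pi * ((i : ℕ) : ℝ) = Real.pi * (((j : ℕ) : ℝ) + 5 * m) := by linarith
    exact mul_left_cancel₀ hpi.ne' this
  have h3 : ((i : ℕ) : ℤ) = ((j : ℕ) : ℤ) + 5 * m := by exact_mod_cast h2
  have := i.isLt; have := j.isLt
  ext; omega

theorem exists_root {z w : Circle} (h : w ^ 5 = z) : ∃ i, root z i = w := by
  have h1 : Circle.exp (5 * Complex.arg (w : ℂ)) = Circle.exp (Complex.arg (z : ℂ)) := by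
    rw [Circle.exp_arg, ← h]
    apply Circle.ext
    have hw : (w : ℂ) = Complex.exp (Complex.arg (w : ℂ) * Complex.I) := by
      rw [← Circle.coe_exp, Circle.exp_arg]
    rw [Circle.coe_pow, Circle.coe_exp, hw, ← Complex.exp_nat_mul, ← hw]
    congr 1; push_cast; ring
  rw [Circle.exp_eq_exp] at h1
  obtain ⟨m, hm⟩ := h1
  refine ⟨⟨(m % 5).toNat, by omega⟩, ?_⟩
  rw [root]
  conv_rhs => rw [← Circle.exp_arg w]
  rw [Circle.exp_eq_exp]
  refine ⟨-(m / 5), ?_⟩
  have h2 : (((m % 5).toNat : ℕ) : ℝ) = ((m % 5 : ℤ) : ℝ) := by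
    have : (((m % 5).toNat : ℕ) : ℤ) = m % 5 := Int.toNat_of_nonneg (by omega)
    exact_mod_cast this
  have h3 : ((m % 5 : ℤ) : ℝ) = m - 5 * ((m / 5 : ℤ) : ℝ) := by
    have : m % 5 = m - 5 * (m / 5) := by omega
    rw [this]; push_cast; ring
  simp only [h2, h3]
  push_cast
  linarith

theorem sum_root_pow (z : Circle) {r : ℕ} (hr : 0 < r) (hr5 : r < 5) :
    ∑ i : Fin 5, ((root z i : Circle) : ℂ) ^ r = 0 := by
  have h1 : ∀ i : Fin 5, ((root z i : Circle) : ℂ) ^ r =
      ((root z 0 : Circle) : ℂ) ^ r * (Complex.exp (2 * Real.pi * Complex.I / 5) ^ r) ^ (i : ℕ) := by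
    intro i
    rw [root, root, Circle.coe_exp, Circle.coe_exp, ← Complex.exp_nat_mul, ← Complex.exp_nat_mul,
      ← Complex.exp_nat_mul, ← Complex.exp_nat_mul, ← Complex.exp_add]
    congr 1
    push_cast
    simp
    ring
  rw [Finset.sum_congr rfl fun i _ => h1 i, ← Finset.mul_sum]
  have hprim : IsPrimitiveRoot (Complex.exp (2 * Real.pi * Complex.I / 5)) 5 := by
    simpa using Complex.isPrimitiveRoot_exp 5 (by norm_num)
  set ω := Complex.exp (2 * Real.pi * Complex.I / 5) with hω
  have hne : ω ^ r ≠ 1 := hprim.pow_ne_one_of_pos_of_lt hr.ne' hr5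
  have hsum : ∑ i : Fin 5, (ω ^ r) ^ (i : ℕ) = 0 := by
    rw [Fin.sum_univ_eq_sum_range (fun i => (ω ^ r) ^ i) 5]
    have := geom_sum_eq hne 5
    rw [this, ← pow_mul, mul_comm r 5, pow_mul, hprim.pow_eq_one, one_pow, sub_self, zero_div]
  rw [hsum, mul_zero]

/-- `c` is a nonzerodivisor of `R` and `ρ : R → ℤ/5` has kernel `cR`. -/
structure Dat (R : Type*) [CommRing R] where
  c : R
  ρ : R →+* ZMod 5
  ker : ∀ y, ρ y = 0 ↔ c ∣ y
  reg : ∀ a b : R, c * a = c * b → a = b

namespace Dat

variable {R : Type*} [CommRing R] (D : Dat R)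

theorem exists_kap (y : R) : ∃ k, y = ((D.ρ y).val : R) + D.c * k := by
  have : D.c ∣ y - ((D.ρ y).val : R) := by
    rw [← D.ker]; simp
  obtain ⟨k, hk⟩ := this
  exact ⟨k, by rw [← hk]; ring⟩

noncomputable def kap (y : R) : R := (D.exists_kap y).choose

theorem kap_spec (y : R) : ((D.ρ y).val : R) + D.c * D.kap y = y :=
  (D.exists_kap y).choose_spec.symm

theorem rho_five : D.ρ 5 = 0 := by
  have : D.ρ 5 = ((5 : ℕ) : ZMod 5) := by
    rw [← map_natCast D.ρ 5]; norm_num
  rw [this]; exact ZMod.natCast_self 5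

theorem c_mul_kap_five : D.c * D.kap 5 = 5 := by
  have := D.kap_spec 5
  rw [D.rho_five] at this
  simpa using this

theorem kap_add (y y' : R) : D.kap (y + y') =
    D.kap y + D.kap y' + (((D.ρ y).val + (D.ρ y').val) / 5 : ℕ) • D.kap 5 := by
  apply D.reg
  have h1 := D.kap_spec (y + y')
  have h2 := D.kap_spec y
  have h3 := D.kap_spec y'
  have h5 := D.c_mul_kap_five
  set a := (D.ρ y).val
  set b := (D.ρ y').val
  have h4 : (D.ρ (y + y')).val = (a + b) % 5 := by rw [map_add, ZMod.val_add]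
  have h6 : (((a + b : ℕ)) : R) = (((a + b) % 5 : ℕ) : R) + 5 * (((a + b) / 5 : ℕ) : R) := by
    have := Nat.mod_add_div (a + b) 5
    nth_rewrite 1 [← this]
    push_cast; ring
  rw [h4] at h1
  rw [nsmul_eq_mul, mul_add, mul_add]
  push_cast at h6
  linear_combination h1 - h2 - h3 + h6 - (((a + b) / 5 : ℕ) : R) * h5

theorem kap_zero : D.kap 0 = 0 := by
  apply D.reg
  have := D.kap_spec 0
  simpa using this

theorem kap_c_mul (a : R) : D.kap (D.c * a) = a := by
  apply D.reg
  have := D.kap_spec (D.c * a)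
  have h : D.ρ (D.c * a) = 0 := (D.ker _).2 ⟨a, rfl⟩
  rw [h] at this
  simpa using this

/-- the map `θ` -/
noncomputable def θ (φ : Dual R) : Dual R := rot D.c φ

@[simp] theorem θ_apply (φ : Dual R) (a : R) : D.θ φ a = φ (D.c * a) := rfl

theorem measurable_θ : Measurable D.θ := measurable_rot D.c

/-- the sheets -/
noncomputable def sh (i : Fin 5) (φ : Dual R) : Dual R where
  toFun y := (root (φ (D.kap 5)) i) ^ (D.ρ y).val * φ (D.kap y)
  map_zero_eq_one' := by simp [kap_zero]
  map_add_eq_mul' y y' := by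
    rw [D.kap_add, AddChar.map_add_eq_mul, AddChar.map_add_eq_mul, AddChar.map_nsmul_eq_pow]
    rw [map_add, ZMod.val_add]
    set a := (D.ρ y).val
    set b := (D.ρ y').val
    set z := φ (D.kap 5)
    have h : root z i ^ ((a + b) % 5) * z ^ ((a + b) / 5) = root z i ^ a * root z i ^ b := by
      have hz : z ^ ((a + b) / 5) = root z i ^ (5 * ((a + b) / 5)) := by
        rw [pow_mul, root_pow]
      rw [hz, ← pow_add, ← pow_add, Nat.mod_add_div]
    calc root z i ^ ((a + b) % 5) * (φ (D.kap y) * φ (D.kap y') * z ^ ((a + b) / 5))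
        = (root z i ^ ((a + b) % 5) * z ^ ((a + b) / 5)) * (φ (D.kap y) * φ (D.kap y')) := by
          rw [mul_comm (φ (D.kap y) * φ (D.kap y')) (z ^ ((a + b) / 5)), mul_assoc]
      _ = _ := by rw [h]; rw [mul_mul_mul_comm]

theorem sh_apply (i : Fin 5) (φ : Dual R) (y : R) :
    D.sh i φ y = (root (φ (D.kap 5)) i) ^ (D.ρ y).val * φ (D.kap y) := rfl

theorem measurable_root (i : Fin 5) (a : R) :
    Measurable (fun φ : Dual R => ((root (φ a) i : Circle) : ℂ)) := by
  simp only [root, Circle.coe_exp]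
  have h := Complex.measurable_arg.comp (measurable_eval a)
  have h2 : Measurable (fun φ : Dual R => (Complex.arg ((φ a : Circle) : ℂ) +
    2 * Real.pi * ((i : ℕ) : ℝ)) / 5) := (h.add_const _).div_const _
  exact Complex.measurable_exp.comp ((Complex.measurable_ofReal.comp h2).mul_const _)

theorem measurable_sh (i : Fin 5) : Measurable (D.sh i) := by
  rw [measurable_dual_iff]
  intro a
  simp only [sh_apply, Circle.coe_mul, Circle.coe_pow]
  exact ((measurable_root i _).pow_const _).mul (measurable_eval _)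

theorem θ_sh (i : Fin 5) (φ : Dual R) : D.θ (D.sh i φ) = φ := by
  ext a
  rw [θ_apply, sh_apply, kap_c_mul]
  have h : D.ρ (D.c * a) = 0 := (D.ker _).2 ⟨a, rfl⟩
  rw [h]; simp

theorem root_eq_iff (φ : Dual R) : ∃ i, root (D.θ φ (D.kap 5)) i = φ 1 := by
  apply exists_root
  rw [θ_apply, c_mul_kap_five]
  have : (5 : R) = (5 : ℕ) • (1 : R) := by simp
  rw [this, AddChar.map_nsmul_eq_pow]

/-- the label -/
noncomputable def lab (φ : Dual R) : Fin 5 := (D.root_eq_iff φ).choose

theorem lab_spec (φ : Dual R) : root (D.θ φ (D.kap 5)) (D.lab φ) = φ 1 :=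
  (D.root_eq_iff φ).choose_spec

theorem lab_eq_iff (φ : Dual R) (i : Fin 5) : D.lab φ = i ↔ root (D.θ φ (D.kap 5)) i = φ 1 := by
  constructor
  · rintro rfl; exact D.lab_spec φ
  · intro h
    apply root_injective (D.θ φ (D.kap 5))
    rw [h, D.lab_spec]

theorem measurableSet_lab (i : Fin 5) : MeasurableSet {φ | D.lab φ = i} := by
  have : {φ | D.lab φ = i} = {φ : Dual R | ((root (φ (D.c * D.kap 5)) i : Circle) : ℂ) = φ 1} := by
    ext φ
    simp only [Set.mem_ofPred_eq, lab_eq_iff, θ_apply]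
    exact ⟨fun h => by rw [h], fun h => Circle.ext h⟩
  rw [this]
  exact measurableSet_eq_fun (measurable_root i _) (measurable_eval 1)

theorem measurable_lab : Measurable D.lab := by
  apply measurable_to_countable'
  intro i
  exact D.measurableSet_lab i

theorem sh_lab (φ : Dual R) : D.sh (D.lab φ) (D.θ φ) = φ := by
  ext y
  rw [sh_apply, lab_spec, θ_apply]
  have h1 := D.kap_spec y
  conv_rhs => rw [← h1]
  rw [AddChar.map_add_eq_mul]
  congr 1
  have : (((D.ρ y).val : ℕ) : R) = ((D.ρ y).val : ℕ) • (1 : R) := by simp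
  rw [this, AddChar.map_nsmul_eq_pow]

theorem kap_one : D.kap 1 = 0 := by
  apply D.reg
  have := D.kap_spec 1
  have h1 : (D.ρ 1).val = 1 := by rw [map_one]; rfl
  rw [h1] at this
  have h2 : (1 : R) + D.c * D.kap 1 = 1 + 0 := by simpa using this
  rw [mul_zero]
  exact add_left_cancel h2

theorem lab_sh (i : Fin 5) (φ : Dual R) : D.lab (D.sh i φ) = i := by
  rw [lab_eq_iff, θ_sh, sh_apply, kap_one]
  have h1 : (D.ρ 1).val = 1 := by rw [map_one]; rfl
  rw [h1]; simp

/-- the sum over the fibre of `θ` -/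
noncomputable def B {V : Type*} [AddCommMonoid V] (f : Dual R → V) (φ : Dual R) : V :=
  ∑ i : Fin 5, f (D.sh i φ)

open scoped Classical in
theorem B_eval (y : R) : D.B (fun φ => ((φ y : Circle) : ℂ)) =
    fun φ => if D.c ∣ y then 5 * ((φ (D.kap y) : Circle) : ℂ) else 0 := by
  funext φ
  simp only [B, sh_apply, Circle.coe_mul, Circle.coe_pow]
  rw [← Finset.sum_mul]
  by_cases h : D.c ∣ y
  · have h0 : D.ρ y = 0 := (D.ker y).2 h
    rw [if_pos h, h0]
    simp
  · rw [if_neg h, sum_root_pow _ _ (ZMod.val_lt _), zero_mul]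
    rw [← D.ker] at h
    have : (D.ρ y).val ≠ 0 := by
      rwa [Ne, ZMod.val_eq_zero]
    omega

theorem B_zero {V : Type*} [AddCommMonoid V] : D.B (fun _ => (0 : V)) = fun _ => 0 := by
  funext φ; simp [B]

theorem iter_B_zero {V : Type*} [AddCommMonoid V] (n : ℕ) :
    (D.B^[n]) (fun _ => (0 : V)) = fun _ => 0 := by
  induction n with
  | zero => rfl
  | succ n ih => rw [Function.iterate_succ_apply, B_zero, ih]

theorem iter_B_eval_of_not_dvd (n : ℕ) (y : R) (h : ¬ D.c ^ n ∣ y) :
    (D.B^[n]) (fun φ => ((φ y : Circle) : ℂ)) = fun _ => 0 := by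
  induction n generalizing y with
  | zero => simp at h
  | succ n ih =>
    rw [Function.iterate_succ_apply, B_eval]
    by_cases hc : D.c ∣ y
    · simp only [if_pos hc]
      have h1 : ¬ D.c ^ n ∣ D.kap y := by
        intro h2
        apply h
        have h0 : D.ρ y = 0 := (D.ker y).2 hc
        have h3 := D.kap_spec y
        rw [h0] at h3
        rw [← h3]
        simp only [ZMod.val_zero, Nat.cast_zero, zero_add]
        rw [pow_succ']
        exact mul_dvd_mul_left _ h2
      have key : ∀ (m : ℕ) (g : Dual R → ℂ), (D.B^[m]) (fun φ => (5 : ℂ) * g φ) =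
          fun φ => 5 * (D.B^[m]) g φ := by
        intro m
        induction m with
        | zero => intro g; rfl
        | succ m ihm =>
          intro g
          rw [Function.iterate_succ_apply, Function.iterate_succ_apply]
          have : D.B (fun φ => (5 : ℂ) * g φ) = fun φ => 5 * D.B g φ := by
            funext φ; simp only [B]; rw [Finset.mul_sum]
          rw [this, ihm]
      rw [key, ih _ h1]
      simp
    · simp only [if_neg hc]
      exact D.iter_B_zero n

end Dat

end Crest.Agent.R40.T1H
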