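import Crest.Agent.R40.T1HostA

/-!
# R40 / T1 / M3 (Host), part B: Radon–Nikodym densities of the sheets, the transfer operator and
the Host inequality.
-/

set_option autoImplicit false

open MeasureTheory Filter Topology
open scoped ENNReal NNReal

namespace Crest.Agent.R40.T1H

open Crest.Agent.R40.T1 (Dual instMeasurableSpaceDual measurable_eval measurable_dual_iff rot
  rot_apply measurable_rot)

namespace Dat

variable {R : Type*} [CommRing R] (D : Dat R)

/-! ### the points of the `n`-th fibre -/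

/-- `pt n w φ` is the `w`-th point of the fibre of `θ^n` over `φ`. -/
noncomputable def pt : (n : ℕ) → (Fin n → Fin 5) → Dual R → Dual R
  | 0, _, φ => φ
  | n + 1, w, φ => pt n (Fin.tail w) (D.sh (w 0) φ)

theorem measurable_pt (n : ℕ) (w : Fin n → Fin 5) : Measurable (D.pt n w) := by
  induction n with
  | zero => exact measurable_id
  | succ n ih => exact (ih (Fin.tail w)).comp (D.measurable_sh _)

theorem iter_θ_pt (n : ℕ) (w : Fin n → Fin 5) (φ : Dual R) : (D.θ^[n]) (D.pt n w φ) = φ := by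
  induction n generalizing φ with
  | zero => rfl
  | succ n ih =>
    rw [Function.iterate_succ_apply']
    show D.θ ((D.θ^[n]) (D.pt n (Fin.tail w) (D.sh (w 0) φ))) = φ
    rw [ih, θ_sh]

theorem iter_B {V : Type*} [AddCommMonoid V] (n : ℕ) (f : Dual R → V) (φ : Dual R) :
    (D.B^[n]) f φ = ∑ w : Fin n → Fin 5, f (D.pt n w φ) := by
  induction n generalizing φ with
  | zero => simp [pt]
  | succ n ih =>
    rw [Function.iterate_succ_apply']
    simp only [B, ih]
    rw [← Fintype.sum_prod_type']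
    refine Fintype.sum_equiv (Fin.consEquiv (fun _ => Fin 5)) _ _ ?_
    rintro ⟨i, w⟩
    simp [pt, Fin.consEquiv]

theorem iter_B_smul {V : Type*} [AddCommMonoid V] [Module ℝ V] (n : ℕ) (h : Dual R → ℝ)
    (f : Dual R → V) (φ : Dual R) :
    (D.B^[n]) (fun φ => h ((D.θ^[n]) φ) • f φ) φ = h φ • (D.B^[n]) f φ := by
  rw [iter_B, iter_B, Finset.smul_sum]
  refine Finset.sum_congr rfl fun w _ => ?_
  rw [iter_θ_pt]

/-! ### densities -/

/-- the `i`-th piece of `μ`, pushed down by `θ` -/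
noncomputable def pc (μ : Measure (Dual R)) (i : Fin 5) : Measure (Dual R) :=
  (μ.restrict {φ | D.lab φ = i}).map D.θ

theorem pc_apply (μ : Measure (Dual R)) (i : Fin 5) {s : Set (Dual R)} (hs : MeasurableSet s) :
    D.pc μ i s = μ (D.θ ⁻¹' s ∩ {φ | D.lab φ = i}) := by
  rw [pc, Measure.map_apply D.measurable_θ hs, Measure.restrict_apply (D.measurable_θ hs)]

theorem pc_le (μ : Measure (Dual R)) (hμ : μ.map D.θ = μ) (i : Fin 5) : D.pc μ i ≤ μ := by
  refine Measure.le_iff.2 fun s hs => ?_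
  rw [pc_apply _ _ _ hs]
  conv_rhs => rw [← hμ, Measure.map_apply D.measurable_θ hs]
  exact measure_mono Set.inter_subset_left

theorem sum_pc_apply (μ : Measure (Dual R)) (hμ : μ.map D.θ = μ) {s : Set (Dual R)}
    (hs : MeasurableSet s) : ∑ i, D.pc μ i s = μ s := by
  simp only [pc_apply _ _ _ hs]
  conv_rhs => rw [← hμ, Measure.map_apply D.measurable_θ hs]
  have h := sum_measure_preimage_singleton (μ := μ.restrict (D.θ ⁻¹' s)) (Finset.univ : Finset (Fin 5))
    (f := D.lab) (fun i _ => D.measurableSet_lab i)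
  rw [Finset.coe_univ, Set.preimage_univ, Measure.restrict_apply MeasurableSet.univ,
    Set.univ_inter] at h
  rw [← h]
  refine Finset.sum_congr rfl fun i _ => ?_
  have h2 := Measure.restrict_apply (μ := μ) (s := D.θ ⁻¹' s) (D.measurableSet_lab i)
  rw [Set.inter_comm] at h2
  exact h2.symm

theorem exists_density (μ : Measure (Dual R)) [IsFiniteMeasure μ] (hμ : μ.map D.θ = μ)
    (i : Fin 5) : ∃ g : Dual R → ℝ≥0, Measurable g ∧ (∀ φ, g φ ≤ 1) ∧
      μ.withDensity (fun φ => (g φ : ℝ≥0∞)) = D.pc μ i := by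
  have hle := D.pc_le μ hμ i
  have : IsFiniteMeasure (D.pc μ i) := isFiniteMeasure_of_le μ hle
  have h1 := Measure.withDensity_rnDeriv_eq (D.pc μ i) μ (Measure.absolutelyContinuous_of_le hle)
  have h2 : (D.pc μ i).rnDeriv μ ≤ᵐ[μ] 1 := Measure.rnDeriv_le_one_of_le hle
  refine ⟨fun φ => min 1 (((D.pc μ i).rnDeriv μ φ).toNNReal), ?_, fun φ => min_le_left _ _, ?_⟩
  · exact measurable_const.min (Measure.measurable_rnDeriv _ _).ennreal_toNNReal
  · conv_rhs => rw [← h1]
    apply withDensity_congr_ae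
    filter_upwards [h2] with φ hφ
    have hne : (D.pc μ i).rnDeriv μ φ ≠ ∞ := ne_top_of_le_ne_top ENNReal.one_ne_top hφ
    have : ((D.pc μ i).rnDeriv μ φ).toNNReal ≤ 1 := by
      rw [← ENNReal.coe_le_coe, ENNReal.coe_toNNReal hne]; exact hφ
    rw [min_eq_right this, ENNReal.coe_toNNReal hne]

/-- densities of the five sheets -/
structure Dens (μ : Measure (Dual R)) where
  g : Fin 5 → Dual R → ℝ≥0
  meas : ∀ i, Measurable (g i)
  le_one : ∀ i φ, g i φ ≤ 1
  dens : ∀ i, μ.withDensity (fun φ => (g i φ : ℝ≥0∞)) = D.pc μ i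

theorem exists_dens (μ : Measure (Dual R)) [IsFiniteMeasure μ] (hμ : μ.map D.θ = μ) :
    Nonempty (D.Dens μ) := by
  choose g h1 h2 h3 using D.exists_density μ hμ
  exact ⟨⟨g, h1, h2, h3⟩⟩

namespace Dens

variable {D} {μ : Measure (Dual R)} (Q : D.Dens μ)

theorem sum_eq_one [IsFiniteMeasure μ] (hμ : μ.map D.θ = μ) : ∀ᵐ φ ∂μ, ∑ i, Q.g i φ = 1 := by
  have h : (fun φ => ∑ i, (Q.g i φ : ℝ≥0∞)) =ᵐ[μ] fun _ => 1 := by
    refine ae_eq_of_forall_setLIntegral_eq_of_sigmaFinite ?_ measurable_const ?_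
    · exact Finset.measurable_sum _ fun i _ => (Q.meas i).coe_nnreal_ennreal
    · intro s hs _
      rw [lintegral_finsetSum _ (fun i _ => (Q.meas i).coe_nnreal_ennreal), setLIntegral_one,
        ← D.sum_pc_apply μ hμ hs]
      refine Finset.sum_congr rfl fun i _ => ?_
      rw [← Q.dens i, withDensity_apply _ hs]
  filter_upwards [h] with φ hφ
  have : ((∑ i, Q.g i φ : ℝ≥0) : ℝ≥0∞) = (1 : ℝ≥0) := by
    rw [ENNReal.ofNNReal_finsetSum, hφ]; rfl
  exact_mod_cast this

/-- the own mass -/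
noncomputable def w (φ : Dual R) : ℝ := (Q.g (D.lab φ) (D.θ φ) : ℝ)

theorem w_nonneg (φ : Dual R) : 0 ≤ Q.w φ := NNReal.coe_nonneg _

theorem w_le_one (φ : Dual R) : Q.w φ ≤ 1 := by
  have := Q.le_one (D.lab φ) (D.θ φ)
  exact_mod_cast this

theorem w_sh (i : Fin 5) (φ : Dual R) : Q.w (D.sh i φ) = Q.g i φ := by
  rw [w, lab_sh, θ_sh]

theorem measurable_w : Measurable Q.w := by
  have : Q.w = fun φ => ∑ i, if D.lab φ = i then (Q.g i (D.θ φ) : ℝ) else 0 := by
    funext φ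
    simp [w]
  rw [this]
  refine Finset.measurable_sum _ fun i _ => ?_
  refine Measurable.ite (D.measurableSet_lab i) ?_ measurable_const
  exact ((Q.meas i).comp D.measurable_θ).coe_nnreal_real

/-- bounded strongly measurable functions -/
def BM {V : Type*} [NormedAddCommGroup V] (f : Dual R → V) : Prop :=
  StronglyMeasurable f ∧ ∃ C, ∀ φ, ‖f φ‖ ≤ C

theorem BM.integrable {V : Type*} [NormedAddCommGroup V] [IsFiniteMeasure μ] {f : Dual R → V}
    (h : BM f) : Integrable f μ := by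
  obtain ⟨h1, C, hC⟩ := h
  exact Integrable.of_bound h1.aestronglyMeasurable C (Eventually.of_forall hC)

theorem BM.smul {V : Type*} [NormedAddCommGroup V] [NormedSpace ℝ V] {h : Dual R → ℝ}
    {f : Dual R → V} (hh : BM h) (hf : BM f) : BM (fun φ => h φ • f φ) := by
  obtain ⟨h1, C, hC⟩ := hh
  obtain ⟨h2, C', hC'⟩ := hf
  refine ⟨h1.smul h2, C * C', fun φ => ?_⟩
  rw [norm_smul]
  exact mul_le_mul (hC φ) (hC' φ) (norm_nonneg _) ((norm_nonneg _).trans (hC φ))

theorem BM.comp {V : Type*} [NormedAddCommGroup V] {f : Dual R → V} (hf : BM f)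
    {T : Dual R → Dual R} (hT : Measurable T) : BM (fun φ => f (T φ)) := by
  obtain ⟨h2, C', hC'⟩ := hf
  exact ⟨h2.comp_measurable hT, C', fun φ => hC' _⟩

theorem BM.iterB {V : Type*} [NormedAddCommGroup V] {f : Dual R → V} (hf : BM f) (n : ℕ) :
    BM ((D.B^[n]) f) := by
  obtain ⟨h2, C', hC'⟩ := hf
  have : (D.B^[n]) f = fun φ => ∑ w : Fin n → Fin 5, f (D.pt n w φ) := by
    funext φ; exact D.iter_B n f φ
  rw [this]
  refine ⟨?_, ∑ _w : Fin n → Fin 5, C', fun φ => ?_⟩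
  · have := Finset.stronglyMeasurable_sum (f := fun (w : Fin n → Fin 5) φ => f (D.pt n w φ))
      Finset.univ (fun w _ => h2.comp_measurable (D.measurable_pt n w))
    convert this using 1
    funext φ; simp
  · exact (norm_sum_le _ _).trans (Finset.sum_le_sum fun w _ => hC' _)

theorem BM_w : BM Q.w :=
  ⟨Q.measurable_w.stronglyMeasurable, 1, fun φ => by
    rw [Real.norm_of_nonneg (Q.w_nonneg φ)]; exact Q.w_le_one φ⟩

theorem BM.B {V : Type*} [NormedAddCommGroup V] {f : Dual R → V} (hf : BM f) :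
    BM (D.B f) := hf.iterB (D := D) 1

/-- the transfer operator preserves the integral -/
theorem integral_B {V : Type*} [NormedAddCommGroup V] [NormedSpace ℝ V] [CompleteSpace V]
    [IsFiniteMeasure μ] {f : Dual R → V} (hf : BM f) :
    ∫ φ, f φ ∂μ = ∫ φ, D.B (fun φ => Q.w φ • f φ) φ ∂μ := by
  have h1 : ∫ φ, f φ ∂μ = ∑ i : Fin 5, ∫ φ in {φ | D.lab φ = i}, f φ ∂μ := by
    rw [← integral_iUnion_fintype (fun i => D.measurableSet_lab i) ?_
      (fun i => (BM.integrable hf).integrableOn)]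
    · have : (⋃ i, {φ | D.lab φ = i}) = Set.univ := by
        ext φ; simp
      rw [this, Measure.restrict_univ]
    · intro i j hij
      rw [Function.onFun, Set.disjoint_left]
      rintro φ rfl h
      exact hij h
  rw [h1]
  have h2 : ∀ φ, D.B (fun φ => Q.w φ • f φ) φ = ∑ i : Fin 5, Q.g i φ • f (D.sh i φ) := by
    intro φ
    simp only [Dat.B, w_sh]
    rfl
  simp only [h2]
  have hint : ∀ i : Fin 5, Integrable (fun φ => Q.g i φ • f (D.sh i φ)) μ := by
    intro i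
    have hg : BM (fun φ => (Q.g i φ : ℝ)) := by
      refine ⟨(Q.meas i).coe_nnreal_real.stronglyMeasurable, 1, fun φ => ?_⟩
      rw [Real.norm_of_nonneg (NNReal.coe_nonneg _)]
      exact_mod_cast Q.le_one i φ
    exact (hg.smul (hf.comp (D.measurable_sh i))).integrable
  rw [integral_finsetSum _ (fun i _ => hint i)]
  refine Finset.sum_congr rfl fun i _ => ?_
  rw [← integral_withDensity_eq_integral_smul (Q.meas i), Q.dens i, pc,
    integral_map (f := fun φ => f (D.sh i φ)) D.measurable_θ.aemeasurable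
      (hf.1.comp_measurable (D.measurable_sh i)).aestronglyMeasurable]
  refine setIntegral_congr_fun (D.measurableSet_lab i) ?_
  rintro φ rfl
  show f φ = f (D.sh (D.lab φ) (D.θ φ))
  rw [sh_lab]

/-- product of own masses -/
noncomputable def W (n : ℕ) (φ : Dual R) : ℝ := ∏ j ∈ Finset.range n, Q.w ((D.θ^[j]) φ)

theorem W_nonneg (n : ℕ) (φ : Dual R) : 0 ≤ Q.W n φ :=
  Finset.prod_nonneg fun _ _ => Q.w_nonneg _

theorem W_le_one (n : ℕ) (φ : Dual R) : Q.W n φ ≤ 1 :=
  Finset.prod_le_one (fun _ _ => Q.w_nonneg _) fun _ _ => Q.w_le_one _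

theorem W_succ (n : ℕ) (φ : Dual R) : Q.W (n + 1) φ = Q.w ((D.θ^[n]) φ) * Q.W n φ := by
  rw [W, Finset.prod_range_succ, mul_comm]; rfl

theorem W_succ' (n : ℕ) (φ : Dual R) : Q.W (n + 1) φ = Q.w φ * Q.W n (D.θ φ) := by
  rw [W, Finset.prod_range_succ', mul_comm]; rfl

theorem measurable_iter_θ (n : ℕ) : Measurable (D.θ^[n]) := D.measurable_θ.iterate n

theorem measurable_W (n : ℕ) : Measurable (Q.W n) :=
  Finset.measurable_prod _ fun j _ => Q.measurable_w.comp (measurable_iter_θ j)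

theorem BM_W (n : ℕ) : BM (Q.W n) :=
  ⟨(Q.measurable_W n).stronglyMeasurable, 1, fun φ => by
    rw [Real.norm_of_nonneg (Q.W_nonneg n φ)]; exact Q.W_le_one n φ⟩

theorem integral_iterB {V : Type*} [NormedAddCommGroup V] [NormedSpace ℝ V] [CompleteSpace V]
    [IsFiniteMeasure μ] {f : Dual R → V} (hf : BM f) (n : ℕ) :
    ∫ φ, f φ ∂μ = ∫ φ, (D.B^[n]) (fun φ => Q.W n φ • f φ) φ ∂μ := by
  induction n with
  | zero => simp [W]
  | succ n ih =>
    rw [ih, Q.integral_B (((Q.BM_W n).smul hf).iterB n)]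
    congr 1
    funext φ
    rw [Function.iterate_succ_apply']
    congr 1
    funext φ
    rw [← D.iter_B_smul n Q.w]
    have : (fun φ => Q.w ((D.θ^[n]) φ) • Q.W n φ • f φ) = fun φ => Q.W (n + 1) φ • f φ := by
      funext φ
      rw [W_succ, mul_smul]
    rw [this]

theorem antitone_W (φ : Dual R) : Antitone fun n => Q.W n φ := by
  refine antitone_nat_of_succ_le fun n => ?_
  rw [W_succ]
  exact mul_le_of_le_one_left (Q.W_nonneg n φ) (Q.w_le_one _)

/-- the limit -/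
noncomputable def Winf (φ : Dual R) : ℝ := ⨅ n, Q.W n φ

theorem tendsto_W (φ : Dual R) : Tendsto (fun n => Q.W n φ) atTop (𝓝 (Q.Winf φ)) :=
  tendsto_atTop_ciInf (Q.antitone_W φ) ⟨0, by rintro _ ⟨n, rfl⟩; exact Q.W_nonneg n φ⟩

theorem measurable_Winf : Measurable Q.Winf :=
  measurable_of_tendsto_metrizable (fun n => Q.measurable_W n)
    (tendsto_pi_nhds.2 fun φ => Q.tendsto_W φ)

theorem Winf_nonneg (φ : Dual R) : 0 ≤ Q.Winf φ :=
  ge_of_tendsto' (Q.tendsto_W φ) fun n => Q.W_nonneg n φ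

theorem Winf_le_one (φ : Dual R) : Q.Winf φ ≤ 1 :=
  le_of_tendsto' (Q.tendsto_W φ) fun n => Q.W_le_one n φ

theorem Winf_eq (φ : Dual R) : Q.Winf φ = Q.w φ * Q.Winf (D.θ φ) := by
  have h1 := (Q.tendsto_W φ).comp (tendsto_add_atTop_nat 1)
  have h2 := (Q.tendsto_W (D.θ φ)).const_mul (Q.w φ)
  refine tendsto_nhds_unique h1 ?_
  refine h2.congr fun n => ?_
  simp only [Function.comp]
  rw [W_succ']

theorem BM_Winf : BM Q.Winf :=
  ⟨Q.measurable_Winf.stronglyMeasurable, 1, fun φ => by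
    rw [Real.norm_of_nonneg (Q.Winf_nonneg φ)]; exact Q.Winf_le_one φ⟩

theorem Winf_θ [IsFiniteMeasure μ] (hμ : μ.map D.θ = μ) : ∀ᵐ φ ∂μ, Q.Winf (D.θ φ) = Q.Winf φ := by
  have h1 : ∀ φ, 0 ≤ Q.Winf (D.θ φ) - Q.Winf φ := by
    intro φ
    rw [Q.Winf_eq φ, sub_nonneg]
    exact mul_le_of_le_one_left (Q.Winf_nonneg _) (Q.w_le_one _)
  have i1 : Integrable (fun φ => Q.Winf (D.θ φ)) μ := (Q.BM_Winf.comp D.measurable_θ).integrable
  have i2 : Integrable (fun φ => Q.Winf φ) μ := Q.BM_Winf.integrable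
  have h2 : ∫ φ, (Q.Winf (D.θ φ) - Q.Winf φ) ∂μ = 0 := by
    rw [integral_sub i1 i2, ← integral_map (f := Q.Winf) D.measurable_θ.aemeasurable
      Q.measurable_Winf.aestronglyMeasurable, hμ, sub_self]
  have h3 := (integral_eq_zero_iff_of_nonneg h1 (i1.sub i2)).1 h2
  filter_upwards [h3] with φ hφ
  exact sub_eq_zero.1 hφ

theorem w_eq_one [IsFiniteMeasure μ] (hμ : μ.map D.θ = μ) :
    ∀ᵐ φ ∂μ, 0 < Q.Winf φ → Q.w φ = 1 := by
  filter_upwards [Q.Winf_θ hμ] with φ hφ hpos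
  have := Q.Winf_eq φ
  rw [hφ] at this
  have h2 : Q.w φ * Q.Winf φ = 1 * Q.Winf φ := by rw [one_mul]; exact this.symm
  exact mul_right_cancel₀ hpos.ne' h2

/-- Host's inequality -/
theorem host_ineq [IsFiniteMeasure μ] (n : ℕ) {ι : Type*} [Fintype ι] [Nonempty ι] (v : ι → R)
    (hv : ∀ k, μ.map (rot (v k)) = μ) (x : R)
    (hx : ∀ k l, k ≠ l → ¬ D.c ^ n ∣ (v k - v l) * x) {t : ℝ} (ht : 0 < t) :
    ‖∫ φ, ((φ x : Circle) : ℂ) ∂μ‖ ≤ t / 2 * ∫ φ, Q.W n φ ∂μ +
      (5 : ℝ) ^ n / Fintype.card ι * μ.real Set.univ / (2 * t) := by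
  classical
  set N : ℝ := (Fintype.card ι : ℝ) with hN
  have hNpos : 0 < N := by
    rw [hN]; exact_mod_cast Fintype.card_pos
  set G : Dual R → ℂ := fun φ => (1 / N : ℝ) • ∑ k, ((φ (v k * x) : Circle) : ℂ) with hG
  have hGBM : BM G := by
    refine ⟨?_, 1, fun φ => ?_⟩
    · apply Measurable.stronglyMeasurable
      have : Measurable (fun φ : Dual R => ∑ k, ((φ (v k * x) : Circle) : ℂ)) :=
        Finset.measurable_sum _ fun k _ => measurable_eval (v k * x)
      exact this.const_smul (1 / N : ℝ)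
    · rw [hG]
      simp only [norm_smul]
      have : ‖∑ k, ((φ (v k * x) : Circle) : ℂ)‖ ≤ N := by
        refine (norm_sum_le _ _).trans ?_
        rw [Finset.sum_congr rfl fun k _ => Circle.norm_coe _]
        simp [hN]
      rw [Real.norm_of_nonneg (by positivity)]
      calc 1 / N * ‖∑ k, ((φ (v k * x) : Circle) : ℂ)‖ ≤ 1 / N * N := by gcongr
        _ = 1 := by field_simp
  have hev : ∀ y : R, BM (fun φ : Dual R => ((φ y : Circle) : ℂ)) := fun y =>
    ⟨(measurable_eval y).stronglyMeasurable, 1, fun φ => (Circle.norm_coe _).le⟩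
  have h1 : ∫ φ, ((φ x : Circle) : ℂ) ∂μ = ∫ φ, G φ ∂μ := by
    rw [hG, integral_smul, integral_finsetSum _ (fun k _ => (hev _).integrable)]
    have : ∀ k, ∫ φ, ((φ (v k * x) : Circle) : ℂ) ∂μ = ∫ φ, ((φ x : Circle) : ℂ) ∂μ := by
      intro k
      conv_rhs => rw [← hv k]
      rw [integral_map (measurable_rot _).aemeasurable (measurable_eval x).aestronglyMeasurable]
      rfl
    rw [Finset.sum_congr rfl fun k _ => this k, Finset.sum_const, Finset.card_univ,
      ← Nat.cast_smul_eq_nsmul ℝ, smul_smul, ← hN]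
    rw [one_div, inv_mul_cancel₀ hNpos.ne', one_smul]
  -- the square of `G`
  have hsq : ∀ φ, (D.B^[n]) (fun φ => ‖G φ‖ ^ 2) φ = (5 : ℝ) ^ n / N := by
    intro φ
    have e1 : ∀ φ, ((‖G φ‖ ^ 2 : ℝ) : ℂ) =
        ∑ k, ∑ l, ((1 / N ^ 2 : ℝ) : ℂ) * ((φ ((v k - v l) * x) : Circle) : ℂ) := by
      intro φ
      have : ((‖G φ‖ ^ 2 : ℝ) : ℂ) = G φ * (starRingEnd ℂ) (G φ) := by
        rw [Complex.mul_conj, Complex.normSq_eq_norm_sq]
      rw [this, hG]
      simp only [Complex.real_smul, map_mul, map_sum, Complex.conj_ofReal]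
      rw [mul_mul_mul_comm, Finset.sum_mul_sum, Finset.mul_sum]
      refine Finset.sum_congr rfl fun k _ => ?_
      rw [Finset.mul_sum]
      refine Finset.sum_congr rfl fun l _ => ?_
      congr 1
      · push_cast; ring
      · rw [sub_mul, sub_eq_add_neg, AddChar.map_add_eq_mul, AddChar.map_neg_eq_inv,
          Circle.coe_mul, Circle.coe_inv_eq_conj]
    have e2 : (((D.B^[n]) (fun φ => ‖G φ‖ ^ 2) φ : ℝ) : ℂ) =
        ∑ k, ∑ l, ((1 / N ^ 2 : ℝ) : ℂ) *
          (D.B^[n]) (fun φ => ((φ ((v k - v l) * x) : Circle) : ℂ)) φ := by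
      rw [D.iter_B, Complex.ofReal_sum]
      simp only [e1]
      rw [Finset.sum_comm]
      refine Finset.sum_congr rfl fun k _ => ?_
      rw [Finset.sum_comm]
      refine Finset.sum_congr rfl fun l _ => ?_
      rw [D.iter_B, Finset.mul_sum]
    have e3 : ∀ k l, ((1 / N ^ 2 : ℝ) : ℂ) *
          (D.B^[n]) (fun φ => ((φ ((v k - v l) * x) : Circle) : ℂ)) φ =
          if l = k then ((1 / N ^ 2 : ℝ) : ℂ) * (5 : ℂ) ^ n else 0 := by
      intro k l
      by_cases hkl : l = k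
      · subst hkl
        rw [if_pos rfl, D.iter_B]
        simp
      · rw [if_neg hkl, D.iter_B_eval_of_not_dvd n _ (hx k l (Ne.symm hkl)), mul_zero]
    have e4 : (((D.B^[n]) (fun φ => ‖G φ‖ ^ 2) φ : ℝ) : ℂ) = (((5 : ℝ) ^ n / N : ℝ) : ℂ) := by
      rw [e2]
      simp only [e3]
      simp only [Finset.sum_ite_eq', Finset.mem_univ, if_true, Finset.sum_const, Finset.card_univ]
      rw [nsmul_eq_mul]
      have hNc : ((Fintype.card ι : ℕ) : ℂ) = (N : ℂ) := by rw [hN]; simp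
      rw [hNc]
      have : (N : ℂ) ≠ 0 := by exact_mod_cast hNpos.ne'
      push_cast
      field_simp
    exact_mod_cast e4
  rw [h1, Q.integral_iterB hGBM n]
  refine (norm_integral_le_integral_norm _).trans ?_
  have hW2 : ∫ φ, Q.W n φ ∂μ = ∫ φ, (D.B^[n]) (fun φ => Q.W n φ • Q.W n φ) φ ∂μ :=
    Q.integral_iterB (Q.BM_W n) n
  have hpt : ∀ φ, ‖(D.B^[n]) (fun φ => Q.W n φ • G φ) φ‖ ≤
      t / 2 * (D.B^[n]) (fun φ => Q.W n φ • Q.W n φ) φ + (5 : ℝ) ^ n / N / (2 * t) := by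
    intro φ
    rw [← hsq φ, D.iter_B, D.iter_B, D.iter_B, Finset.mul_sum, Finset.sum_div,
      ← Finset.sum_add_distrib]
    refine (norm_sum_le _ _).trans (Finset.sum_le_sum fun w _ => ?_)
    set a := Q.W n (D.pt n w φ)
    set b := G (D.pt n w φ)
    have ha : 0 ≤ a := Q.W_nonneg _ _
    rw [norm_smul, Real.norm_of_nonneg ha, smul_eq_mul]
    have : 0 ≤ (t * a - ‖b‖) ^ 2 / (2 * t) := by positivity
    have h2 : (t * a - ‖b‖) ^ 2 / (2 * t) = t / 2 * (a * a) + ‖b‖ ^ 2 / (2 * t) - a * ‖b‖ := by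
      field_simp; ring
    linarith
  have hi1 : Integrable (fun φ => (D.B^[n]) (fun φ => Q.W n φ • Q.W n φ) φ) μ :=
    (((Q.BM_W n).smul (Q.BM_W n)).iterB n).integrable
  have hi2 : Integrable (fun φ => t / 2 * (D.B^[n]) (fun φ => Q.W n φ • Q.W n φ) φ +
      (5 : ℝ) ^ n / N / (2 * t)) μ := (hi1.const_mul _).add (integrable_const _)
  have hi3 : Integrable (fun φ => ‖(D.B^[n]) (fun φ => Q.W n φ • G φ) φ‖) μ :=
    ((((Q.BM_W n).smul hGBM).iterB n).integrable).norm
  refine (integral_mono hi3 hi2 hpt).trans ?_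
  rw [integral_add (hi1.const_mul _) (integrable_const _), integral_const_mul, ← hW2,
    integral_const, smul_eq_mul]
  apply le_of_eq
  ring

theorem tendsto_integral_W [IsFiniteMeasure μ] :
    Tendsto (fun n => ∫ φ, Q.W n φ ∂μ) atTop (𝓝 (∫ φ, Q.Winf φ ∂μ)) := by
  refine tendsto_integral_of_dominated_convergence (fun _ => 1)
    (fun n => (Q.measurable_W n).aestronglyMeasurable) (integrable_const _) ?_ ?_
  · intro n
    exact Eventually.of_forall fun φ => by
      rw [Real.norm_of_nonneg (Q.W_nonneg n φ)]; exact Q.W_le_one n φ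
  · exact Eventually.of_forall fun φ => Q.tendsto_W φ

/-- if `Winf = 0` a.e. then the Fourier coefficients at `x` vanish -/
theorem fourier_eq_zero [IsFiniteMeasure μ] (x : R) (C : ℝ)
    (hx : ∃ᶠ n in atTop, ∃ (N : ℕ) (v : Fin N → R), 0 < N ∧ (5 : ℝ) ^ n / N ≤ C ∧
      (∀ k, μ.map (rot (v k)) = μ) ∧ ∀ k l, k ≠ l → ¬ D.c ^ n ∣ (v k - v l) * x)
    (h0 : ∫ φ, Q.Winf φ ∂μ = 0) : ∫ φ, ((φ x : Circle) : ℂ) ∂μ = 0 := by
  have hlim := Q.tendsto_integral_W
  rw [h0] at hlim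
  have key : ∀ t : ℝ, 0 < t → ‖∫ φ, ((φ x : Circle) : ℂ) ∂μ‖ ≤
      C * μ.real Set.univ / (2 * t) := by
    intro t ht
    have hlim2 : Tendsto (fun n => t / 2 * ∫ φ, Q.W n φ ∂μ + C * μ.real Set.univ / (2 * t)) atTop
        (𝓝 (t / 2 * 0 + C * μ.real Set.univ / (2 * t))) :=
      (hlim.const_mul _).add_const _
    rw [mul_zero, zero_add] at hlim2
    refine ge_of_tendsto_of_frequently hlim2 ?_
    refine hx.mono ?_
    rintro n ⟨N, v, hN, hC, hv, hne⟩
    have : Nonempty (Fin N) := ⟨⟨0, hN⟩⟩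
    have := Q.host_ineq n v hv x hne ht
    rw [Fintype.card_fin] at this
    refine this.trans ?_
    gcongr
  have hC : 0 ≤ C := by
    obtain ⟨n, N, v, hN, hC, -⟩ := hx.exists
    exact le_trans (by positivity) hC
  by_contra hne
  have hpos : 0 < ‖∫ φ, ((φ x : Circle) : ℂ) ∂μ‖ := norm_pos_iff.2 hne
  set a := ‖∫ φ, ((φ x : Circle) : ℂ) ∂μ‖ with ha
  set M := C * μ.real Set.univ with hM
  have hM0 : 0 ≤ M := by positivity
  have := key ((M + 1) / a) (by positivity)
  rw [le_div_iff₀ (by positivity)] at this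
  have h3 : a * (2 * ((M + 1) / a)) = 2 * (M + 1) := by field_simp
  rw [h3] at this
  linarith

end Dens

end Dat

end Crest.Agent.R40.T1H
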