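import Crest.Agent.R40.T1HostB
import Crest.Agent.R40.T1R2P3b

/-!
# R40 / T1 / M3 (Host), part C: arithmetic of `R = ℤ[i]_(π)` and the final statement.
-/

set_option autoImplicit false

open MeasureTheory Filter Topology
open scoped ENNReal NNReal

namespace Crest.Agent.R40.T1H

open Crest.Agent.R40.T1 (Dual instMeasurableSpaceDual measurable_eval measurable_dual_iff rot
  rot_apply measurable_rot)
open Crest.Agent.R40.T1R2
open Crest.Agent.R40.T1R2P3 (red red_apply P_dvd_iff prime_P not_P_dvd_one ι_ne_zero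
  ne_zero_of_not_dvd)

section

variable {E : Type*} [Field E] (S : Emb E)

theorem ι_injective : Function.Injective S.ι := by
  rw [injective_iff_map_eq_zero]
  intro a ha
  by_contra h
  exact ι_ne_zero S h ha

/-- the local ring `R` -/
def Rr : Subring E where
  carrier := {a | ∃ m : GaussianInt, ¬ (P ∣ m) ∧ S.InLat m a}
  one_mem' := ⟨1, not_P_dvd_one, 1, by simp⟩
  zero_mem' := ⟨1, not_P_dvd_one, 0, by simp⟩
  mul_mem' := by
    rintro a b ⟨m, hm, x, hx⟩ ⟨n, hn, y, hy⟩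
    refine ⟨m * n, prime_P hm hn, x * y, ?_⟩
    rw [map_mul, map_mul, ← hx, ← hy]
    ring
  add_mem' := by
    rintro a b ⟨m, hm, x, hx⟩ ⟨n, hn, y, hy⟩
    refine ⟨m * n, prime_P hm hn, n * x + m * y, ?_⟩
    rw [map_mul, map_add, map_mul, map_mul, ← hx, ← hy]
    ring
  neg_mem' := by
    rintro a ⟨m, hm, x, hx⟩
    refine ⟨m, hm, -x, ?_⟩
    rw [map_neg, ← hx]
    ring

theorem mem_Rr {a : E} : a ∈ Rr S ↔ ∃ m : GaussianInt, ¬ (P ∣ m) ∧ S.InLat m a := Iff.rfl

theorem red_ne_zero {m : GaussianInt} (hm : ¬ P ∣ m) : red m ≠ 0 := by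
  rwa [Ne, ← P_dvd_iff]

theorem div_mem (b m : GaussianInt) (hm : ¬ P ∣ m) : S.ι b / S.ι m ∈ Rr S :=
  ⟨m, hm, b, by
    have := ι_ne_zero S (ne_zero_of_not_dvd hm)
    field_simp⟩

local instance fact5 : Fact (Nat.Prime 5) := ⟨by norm_num⟩

theorem exists_frac (a : Rr S) : ∃ p : GaussianInt × GaussianInt, ¬ P ∣ p.1 ∧
    S.ι p.1 * (a : E) = S.ι p.2 := by
  obtain ⟨m, hm, b, hb⟩ := a.2
  exact ⟨(m, b), hm, hb⟩

/-- the residue map -/
noncomputable def rhoFun (a : Rr S) : ZMod 5 :=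
  red (exists_frac S a).choose.2 * (red (exists_frac S a).choose.1)⁻¹

theorem rhoFun_eq (a : Rr S) {m b : GaussianInt} (hm : ¬ P ∣ m) (h : S.ι m * (a : E) = S.ι b) :
    rhoFun S a = red b * (red m)⁻¹ := by
  have h1 : ¬ P ∣ (exists_frac S a).choose.1 := (exists_frac S a).choose_spec.1
  have h2 : S.ι (exists_frac S a).choose.1 * (a : E) = S.ι (exists_frac S a).choose.2 :=
    (exists_frac S a).choose_spec.2
  rw [rhoFun]
  set m0 := (exists_frac S a).choose.1
  set b0 := (exists_frac S a).choose.2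
  have h3 : m * b0 = m0 * b := by
    apply ι_injective S
    rw [map_mul, map_mul, ← h, ← h2]; ring
  have h4 := congrArg red h3
  rw [map_mul, map_mul] at h4
  have h5 := red_ne_zero h1
  have h6 := red_ne_zero hm
  field_simp
  rw [mul_comm, h4, mul_comm]

noncomputable def rho : Rr S →+* ZMod 5 where
  toFun := rhoFun S
  map_one' := by
    rw [rhoFun_eq S 1 not_P_dvd_one (b := 1) (by simp)]; simp
  map_zero' := by
    rw [rhoFun_eq S 0 not_P_dvd_one (b := 0) (by simp)]; simp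
  map_mul' a b := by
    obtain ⟨m, hm, x, hx⟩ := a.2
    obtain ⟨n, hn, y, hy⟩ := b.2
    rw [rhoFun_eq S a hm hx, rhoFun_eq S b hn hy,
      rhoFun_eq S (a * b) (prime_P hm hn) (b := x * y) (by
        rw [map_mul, map_mul, ← hx, ← hy]; push_cast; ring)]
    rw [map_mul, map_mul, mul_inv]; ring
  map_add' a b := by
    obtain ⟨m, hm, x, hx⟩ := a.2
    obtain ⟨n, hn, y, hy⟩ := b.2
    rw [rhoFun_eq S a hm hx, rhoFun_eq S b hn hy,
      rhoFun_eq S (a + b) (prime_P hm hn) (b := n * x + m * y) (by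
        rw [map_mul, map_add, map_mul, map_mul, ← hx, ← hy]; push_cast; ring)]
    have h5 := red_ne_zero hm
    have h6 := red_ne_zero hn
    rw [map_mul, map_add, map_mul, map_mul]
    field_simp

theorem rho_eq (a : Rr S) {m b : GaussianInt} (hm : ¬ P ∣ m) (h : S.ι m * (a : E) = S.ι b) :
    rho S a = red b * (red m)⁻¹ := rhoFun_eq S a hm h

theorem not_dvd_Pb : ¬ P ∣ Pb := by
  rw [P_dvd_iff]; decide

theorem not_dvd_Pb_pow (n : ℕ) : ¬ P ∣ Pb ^ n := by
  rw [P_dvd_iff, map_pow]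
  exact pow_ne_zero _ (red_ne_zero not_dvd_Pb)

theorem P_ne : P ≠ 0 := by decide

/-- `c = π / conj π` -/
noncomputable def cc : Rr S := ⟨S.ι P / S.ι Pb, div_mem S P Pb not_dvd_Pb⟩

theorem cc_coe : ((cc S : Rr S) : E) = S.ι P / S.ι Pb := rfl

theorem cc_dvd_iff (a : Rr S) : rho S a = 0 ↔ cc S ∣ a := by
  constructor
  · intro h
    obtain ⟨m, hm, x, hx⟩ := a.2
    rw [rho_eq S a hm hx] at h
    have h1 : red x = 0 := by
      rcases mul_eq_zero.1 h with h | h
      · exact h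
      · exact absurd (inv_eq_zero.1 h) (red_ne_zero hm)
    obtain ⟨y, rfl⟩ := (P_dvd_iff x).2 h1
    refine ⟨⟨S.ι (Pb * y) / S.ι m, div_mem S _ _ hm⟩, ?_⟩
    apply Subtype.ext
    rw [Subring.coe_mul, cc_coe]
    have h2 := ι_ne_zero S (ne_zero_of_not_dvd hm)
    have h3 := ι_ne_zero S (ne_zero_of_not_dvd not_dvd_Pb)
    show (a : E) = S.ι P / S.ι Pb * (S.ι (Pb * y) / S.ι m)
    rw [map_mul] at hx ⊢
    field_simp
    rw [mul_comm]; exact hx
  · rintro ⟨b, rfl⟩
    rw [map_mul, rho_eq S (cc S) not_dvd_Pb (b := P)]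
    · have : red P = 0 := (P_dvd_iff P).1 dvd_rfl
      rw [this]; simp
    · rw [cc_coe]
      have h3 := ι_ne_zero S (ne_zero_of_not_dvd not_dvd_Pb)
      field_simp

theorem cc_ne : cc S ≠ 0 := by
  intro h
  have := congrArg (fun a : Rr S => (a : E)) h
  rw [cc_coe] at this
  have h2 := ι_ne_zero S P_ne
  have h3 := ι_ne_zero S (ne_zero_of_not_dvd not_dvd_Pb)
  exact div_ne_zero h2 h3 this

/-- the data of part A -/
noncomputable def DD : Dat (Rr S) where
  c := cc S
  ρ := rho S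
  ker := cc_dvd_iff S
  reg _ _ h := mul_left_cancel₀ (cc_ne S) h

theorem prime_cc : Prime (cc S) := by
  refine ⟨cc_ne S, ?_, ?_⟩
  · intro h
    have h1 : rho S (cc S) = 0 := (cc_dvd_iff S _).2 dvd_rfl
    have h2 := h.map (rho S)
    rw [h1] at h2
    exact not_isUnit_zero h2
  · intro a b h
    rw [← cc_dvd_iff, map_mul] at h
    rcases mul_eq_zero.1 h with h | h
    · exact Or.inl ((cc_dvd_iff S _).1 h)
    · exact Or.inr ((cc_dvd_iff S _).1 h)

theorem five_eq : ∃ u : Rr S, (5 : Rr S) = cc S * u ∧ ¬ cc S ∣ u := by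
  refine ⟨⟨S.ι (Pb ^ 2) / S.ι 1, div_mem S _ _ not_P_dvd_one⟩, ?_, ?_⟩
  · apply Subtype.ext
    rw [Subring.coe_mul, cc_coe]
    show (5 : E) = S.ι P / S.ι Pb * (S.ι (Pb ^ 2) / S.ι 1)
    have h3 := ι_ne_zero S (ne_zero_of_not_dvd not_dvd_Pb)
    have h5 : (5 : E) = S.ι (P * Pb) := by
      have : P * Pb = 5 := by decide
      rw [this]; exact (map_ofNat S.ι 5).symm
    rw [h5, map_mul, map_pow, map_one]
    field_simp
  · rw [← cc_dvd_iff, rho_eq S _ not_P_dvd_one (b := Pb ^ 2) (by simp)]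
    rw [map_one, inv_one, mul_one, map_pow]
    exact pow_ne_zero _ (red_ne_zero not_dvd_Pb)

theorem five_pow_dvd (n : ℕ) (j : ℤ) (h : cc S ^ n ∣ (j : Rr S)) : (5 : ℤ) ^ n ∣ j := by
  induction n generalizing j with
  | zero => simp
  | succ n ih =>
    have h1 : cc S ∣ (j : Rr S) := (dvd_pow_self _ n.succ_ne_zero).trans h
    rw [← cc_dvd_iff, map_intCast, ZMod.intCast_zmod_eq_zero_iff_dvd] at h1
    obtain ⟨j', rfl⟩ := h1
    obtain ⟨u, hu, hnu⟩ := five_eq S
    have h2 : cc S * cc S ^ n ∣ cc S * (u * (j' : Rr S)) := by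
      rw [← pow_succ']
      convert h using 1
      push_cast
      rw [hu]; ring
    have h3 : cc S ^ n ∣ u * (j' : Rr S) := (mul_dvd_mul_iff_left (cc_ne S)).1 h2
    have h4 := (prime_cc S).pow_dvd_of_dvd_mul_left n hnu h3
    rw [pow_succ']
    exact mul_dvd_mul_left _ (ih j' h4)

theorem exists_unit {n : ℕ} (hn : n ≠ 0) (r : ℤ) :
    ∃ v : Rr S, ‖S.σ (v : E)‖ = 1 ∧ cc S ^ n ∣ v - (r : Rr S) := by
  have hcop : IsCoprime (P ^ n) (Pb ^ n) := by
    apply IsCoprime.pow
    exact ⟨Pb - 1, -1, by decide⟩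
  obtain ⟨α, β, h⟩ := hcop
  set z : GaussianInt := (r : GaussianInt) * β * Pb ^ n + α * P ^ n with hz
  have hsP : star P = Pb := by decide
  have hsPb : star Pb = P := by decide
  have h1 : z - r = P ^ n * (α * (1 - r)) := by
    rw [hz]; linear_combination (r : GaussianInt) * h
  have h2 : z - 1 = Pb ^ n * (β * (r - 1)) := by
    rw [hz]; linear_combination h
  have h3 : star z - 1 = P ^ n * (star β * (r - 1)) := by
    have := congrArg star h2
    rw [star_sub, star_mul, star_mul, star_pow, hsPb, star_one, star_sub, star_one,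
      star_intCast] at this
    rw [this]; ring
  have h4 : ¬ P ∣ star z := by
    intro h5
    have h6 : P ∣ star z - 1 := by
      rw [h3]; exact (dvd_pow_self P hn).mul_right _
    have h7 : P ∣ (1 : GaussianInt) := by
      have := dvd_sub h5 h6
      simpa using this
    exact not_P_dvd_one h7
  have h5 : star z ≠ 0 := ne_zero_of_not_dvd h4
  have h6 : z ≠ 0 := fun h => h5 (by rw [h, star_zero])
  have h7 : z - r * star z = P ^ n * (α * (1 - r) - r * (star β * (r - 1))) := by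
    linear_combination h1 - (r : GaussianInt) * h3
  refine ⟨⟨S.ι z / S.ι (star z), div_mem S _ _ h4⟩, ?_, ?_⟩
  · show ‖S.σ (S.ι z / S.ι (star z))‖ = 1
    rw [map_div₀, norm_div, S.compat, S.compat, GaussianInt.toComplex_star, Complex.norm_conj]
    apply div_self
    rw [norm_ne_zero_iff]
    intro h
    exact h6 (GaussianInt.toComplex_eq_zero.1 h)
  · refine ⟨⟨S.ι (Pb ^ n * (α * (1 - r) - r * (star β * (r - 1)))) / S.ι (star z),
      div_mem S _ _ h4⟩, ?_⟩
    apply Subtype.ext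
    rw [Subring.coe_mul, Subring.coe_pow, cc_coe]
    show S.ι z / S.ι (star z) - ((r : Rr S) : E) = _ * (S.ι _ / S.ι (star z))
    have h8 := ι_ne_zero S h5
    have h9 := ι_ne_zero S (ne_zero_of_not_dvd not_dvd_Pb)
    have h10 := congrArg S.ι h7
    rw [map_sub, map_mul, map_mul, map_pow, map_intCast] at h10
    rw [map_mul, map_pow, div_pow]
    have h11 : ((r : Rr S) : E) = (r : E) := by push_cast; rfl
    rw [h11]
    field_simp
    linear_combination h10

/-- elements of `R` are `c^t x'` -/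
theorem exists_val (x : Rr S) (hx : x ≠ 0) : ∃ (t : ℕ) (x' : Rr S), x = cc S ^ t * x' ∧
    ¬ cc S ∣ x' := by
  obtain ⟨m, hm, b, hb⟩ := x.2
  have hb0 : b ≠ 0 := by
    rintro rfl
    rw [map_zero] at hb
    rcases mul_eq_zero.1 hb with h | h
    · exact ι_ne_zero S (ne_zero_of_not_dvd hm) h
    · exact hx (Subtype.ext h)
  have hPirr : Irreducible P := by
    have : Prime P := by
      refine ⟨P_ne, ?_, ?_⟩
      · intro h
        have := (P_dvd_iff 1).1 h.dvd
        rw [map_one] at this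
        exact one_ne_zero this
      · intro a b h
        by_contra hh
        push Not at hh
        exact prime_P hh.1 hh.2 h
    exact this.irreducible
  obtain ⟨t, b', hnb, rfl⟩ := WfDvdMonoid.max_power_factor hb0 hPirr
  refine ⟨t, ⟨S.ι (Pb ^ t * b') / S.ι m, div_mem S _ _ hm⟩, ?_, ?_⟩
  · apply Subtype.ext
    rw [Subring.coe_mul, Subring.coe_pow, cc_coe]
    show (x : E) = (S.ι P / S.ι Pb) ^ t * (S.ι (Pb ^ t * b') / S.ι m)
    have h8 := ι_ne_zero S (ne_zero_of_not_dvd hm)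
    have h9 := ι_ne_zero S (ne_zero_of_not_dvd not_dvd_Pb)
    rw [map_mul, map_pow] at hb ⊢
    rw [div_pow]
    field_simp
    rw [mul_comm]; exact hb
  · rw [← cc_dvd_iff, rho_eq S _ hm (b := Pb ^ t * b')]
    · rw [map_mul, map_pow]
      exact mul_ne_zero (mul_ne_zero (pow_ne_zero _ (red_ne_zero not_dvd_Pb)) (red_ne_zero hnb))
        (inv_ne_zero (red_ne_zero hm))
    · show S.ι m * (S.ι (Pb ^ t * b') / S.ι m) = _
      have h8 := ι_ne_zero S (ne_zero_of_not_dvd hm)
      field_simp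

/-- separated families of units -/
theorem exists_family (x : Rr S) (hx : x ≠ 0) : ∃ C : ℝ, ∃ᶠ n in atTop, ∃ (N : ℕ)
    (v : Fin N → Rr S), 0 < N ∧ (5 : ℝ) ^ n / N ≤ C ∧ (∀ k, ‖S.σ (v k : E)‖ = 1) ∧
      ∀ k l, k ≠ l → ¬ cc S ^ n ∣ (v k - v l) * x := by
  obtain ⟨t, x', rfl, hx'⟩ := exists_val S x hx
  refine ⟨(5 : ℝ) ^ (t + 1), ?_⟩
  apply Eventually.frequently
  filter_upwards [eventually_ge_atTop (t + 1)] with n hn
  obtain ⟨s, rfl⟩ := Nat.exists_eq_add_of_le hn
  have hv : ∀ k : Fin (5 ^ s), ∃ v : Rr S, ‖S.σ (v : E)‖ = 1 ∧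
      cc S ^ (t + 1 + s) ∣ v - ((1 + 5 * ((k : ℕ) : ℤ) : ℤ) : Rr S) :=
    fun k => exists_unit S (by omega) _
  choose v hv1 hv2 using hv
  refine ⟨5 ^ s, v, by positivity, ?_, hv1, ?_⟩
  · apply le_of_eq
    push_cast
    rw [pow_add]
    field_simp
  · intro k l hkl hdvd
    apply hkl
    have h1 : cc S ^ (t + 1 + s) ∣ ((5 * (((k : ℕ) : ℤ) - ((l : ℕ) : ℤ)) : ℤ) : Rr S) * (cc S ^ t * x') := by
      have h2 := ((hv2 k).sub (hv2 l)).mul_right (cc S ^ t * x')
      have h3 := dvd_sub hdvd h2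
      convert h3 using 1
      push_cast; ring
    have h2 : cc S ^ (t + 1 + s) ∣ ((5 * (((k : ℕ) : ℤ) - ((l : ℕ) : ℤ)) : ℤ) : Rr S) * cc S ^ t := by
      apply (prime_cc S).pow_dvd_of_dvd_mul_right _ hx'
      rw [mul_assoc]; exact h1
    have h3 : cc S ^ (1 + s) ∣ ((5 * (((k : ℕ) : ℤ) - ((l : ℕ) : ℤ)) : ℤ) : Rr S) := by
      have h4 : cc S ^ (1 + s) * cc S ^ t ∣
          ((5 * (((k : ℕ) : ℤ) - ((l : ℕ) : ℤ)) : ℤ) : Rr S) * cc S ^ t := by
        rw [← pow_add]
        convert h2 using 2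
        omega
      exact (mul_dvd_mul_iff_right (pow_ne_zero _ (cc_ne S))).1 h4
    have h4 := five_pow_dvd S (1 + s) _ h3
    have h5 : (5 : ℤ) ^ s ∣ (((k : ℕ) : ℤ) - ((l : ℕ) : ℤ)) := by
      rw [pow_add, pow_one] at h4
      exact (mul_dvd_mul_iff_left (by norm_num)).1 h4
    have h6 : |(((k : ℕ) : ℤ) - ((l : ℕ) : ℤ))| < 5 ^ s := by
      have hk : ((k : ℕ) : ℤ) < 5 ^ s := by exact_mod_cast k.isLt
      have hl : ((l : ℕ) : ℤ) < 5 ^ s := by exact_mod_cast l.isLt
      rw [abs_lt]; constructor <;> omega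
    have h7 := Int.eq_zero_of_abs_lt_dvd h5 h6
    ext; omega

/-! ### restriction to `R` -/

/-- restriction of characters -/
noncomputable def res (χ : Dual E) : Dual (Rr S) :=
  χ.compAddMonoidHom ((Rr S).subtype : Rr S →+ E)

@[simp] theorem res_apply (χ : Dual E) (a : Rr S) : res S χ a = χ (a : E) := rfl

theorem measurable_res : Measurable (res S) :=
  measurable_dual_iff.2 fun a => measurable_eval (a : E)

theorem measurable_res' : @Measurable _ _ S.sigmaR _ (res S) := by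
  rw [measurable_comap_iff]
  refine @measurable_pi_lambda _ _ _ S.sigmaR _ _ fun a => ?_
  have h1 : MeasurableSpace.comap (fun χ : AddChar E Circle => ((χ (a : E) : Circle) : ℂ))
      inferInstance ≤ S.sigmaR :=
    le_iSup_of_le (a : E) (le_iSup_of_le a.2 le_rfl)
  exact measurable_iff_comap_le.2 h1

theorem rot_res (v : Rr S) (χ : Dual E) : rot v (res S χ) = res S (χ.mulShift (v : E)) := by
  ext a
  rfl

theorem map_rot {ν : Measure (Dual E)} (hν : S.Invariant ν) (v : Rr S)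
    (hv : ‖S.σ (v : E)‖ = 1) : (ν.map (res S)).map (rot v) = ν.map (res S) := by
  rw [Measure.map_map (measurable_rot v) (measurable_res S)]
  have : (rot v) ∘ (res S) = (res S) ∘ (fun χ : Dual E => χ.mulShift (v : E)) := by
    funext χ; exact rot_res S v χ
  rw [this, ← Measure.map_map (measurable_res S) (measurable_mulShift _), hν _ hv]

theorem norm_σ_cc : ‖S.σ ((cc S : Rr S) : E)‖ = 1 := by
  rw [cc_coe, map_div₀, norm_div, S.compat, S.compat]
  have hsP : star P = Pb := by decide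
  rw [← hsP, GaussianInt.toComplex_star, Complex.norm_conj]
  apply div_self
  rw [norm_ne_zero_iff]
  intro h
  exact P_ne (GaussianInt.toComplex_eq_zero.1 h)

theorem u0_mul_cc : S.u0 * ((cc S : Rr S) : E) = 1 := by
  rw [cc_coe, Emb.u0]
  have h2 := ι_ne_zero S P_ne
  have h3 := ι_ne_zero S (ne_zero_of_not_dvd not_dvd_Pb)
  field_simp

theorem norm_σ_u0 : ‖S.σ S.u0‖ = 1 := by
  have h := congrArg (fun a => ‖S.σ a‖) (u0_mul_cc S)
  simp only [map_mul, norm_mul, norm_σ_cc, mul_one, map_one, norm_one] at h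
  exact h

/-- `b = 1 / conj π` -/
noncomputable def bb : Rr S := ⟨S.ι 1 / S.ι Pb, div_mem S _ _ not_dvd_Pb⟩

theorem u0_mul_bb : S.u0 * ((bb S : Rr S) : E) = S.θ := by
  show S.ι Pb / S.ι P * (S.ι 1 / S.ι Pb) = (S.ι P)⁻¹
  have h2 := ι_ne_zero S P_ne
  have h3 := ι_ne_zero S (ne_zero_of_not_dvd not_dvd_Pb)
  rw [map_one]
  field_simp

theorem θ_res (χ : Dual E) : (DD S).θ (res S (χ.mulShift S.u0)) = res S χ := by
  ext a
  rw [Dat.θ_apply, res_apply, res_apply, AddChar.mulShift_apply]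
  show ((χ (S.u0 * (((cc S : Rr S) : E) * (a : E))) : Circle) : ℂ) = _
  rw [← mul_assoc, u0_mul_cc, one_mul]

/-- **Host's theorem** for `E` -/
theorem host (ν : Measure (Dual E)) [IsFiniteMeasure ν] (hν : S.Invariant ν) (x : E) (hx : x ≠ 0)
    (hx' : ∃ g : GaussianInt, g ≠ 0 ∧ S.InLat g x) (hne : ∫ χ, ((χ x : Circle) : ℂ) ∂ν ≠ 0) :
    ∃ D : Set (Dual E), MeasurableSet D ∧ ν D ≠ 0 ∧
      (∀ᵐ χ ∂ν, χ ∈ D → χ.mulShift S.u0 ∈ D) ∧
      ∃ h : Dual E → ℂ, @Measurable _ _ S.sigmaR _ h ∧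
        ∀ᵐ χ ∂ν, χ ∈ D → ((χ S.θ : Circle) : ℂ) = h χ := by
  set μ := ν.map (res S) with hμdef
  have hfin : IsFiniteMeasure μ := by
    rw [hμdef]; exact Measure.isFiniteMeasure_map ν (res S)
  have hμθ : μ.map (DD S).θ = μ := map_rot S hν (cc S) (norm_σ_cc S)
  obtain ⟨Q⟩ := (DD S).exists_dens μ hμθ
  set T : Dual E → Dual E := fun χ => χ.mulShift S.u0 with hT
  have hTmeas : Measurable T := measurable_mulShift _
  have hTν : ν.map T = ν := hν _ (norm_σ_u0 S)
  have hmp : MeasurePreserving T ν ν := ⟨hTmeas, hTν⟩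
  have hrp : MeasurePreserving (res S) ν μ := ⟨measurable_res S, rfl⟩
  -- a.e. statements on `Dual E`
  have ae1 : ∀ᵐ χ ∂ν, Q.Winf ((DD S).θ (res S (T χ))) = Q.Winf (res S (T χ)) :=
    (hrp.comp hmp).quasiMeasurePreserving.ae (Q.Winf_θ hμθ)
  have ae2 : ∀ᵐ χ ∂ν, 0 < Q.Winf (res S (T χ)) → Q.w (res S (T χ)) = 1 :=
    (hrp.comp hmp).quasiMeasurePreserving.ae (Q.w_eq_one hμθ)
  have ae3 : ∀ᵐ χ ∂ν, ∑ i, Q.g i (res S χ) = 1 :=
    hrp.quasiMeasurePreserving.ae (Q.sum_eq_one hμθ)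
  have ae4 : ∀ᵐ χ ∂ν, 0 < Q.Winf (res S χ) → 0 < Q.Winf (res S (T χ)) := by
    filter_upwards [ae1] with χ h1 h2
    rw [← h1]
    rw [hT]
    simp only
    rw [θ_res]
    exact h2
  refine ⟨{χ | 0 < Q.Winf (res S χ)}, ?_, ?_, ?_, ?_⟩
  · exact measurableSet_lt measurable_const (Q.measurable_Winf.comp (measurable_res S))
  · -- positivity
    intro h0
    have hW0 : ∫ φ, Q.Winf φ ∂μ = 0 := by
      rw [integral_eq_zero_iff_of_nonneg Q.Winf_nonneg Q.BM_Winf.integrable]
      have h1 : ∀ᵐ χ ∂ν, ¬ 0 < Q.Winf (res S χ) := by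
        rw [ae_iff]; simpa using h0
      refine (ae_map_iff (μ := ν) (measurable_res S).aemeasurable
        (p := fun φ => Q.Winf φ = 0) ?_).2 ?_
      · exact measurableSet_eq_fun Q.measurable_Winf measurable_const
      · filter_upwards [h1] with χ hχ
        exact le_antisymm (not_lt.1 hχ) (Q.Winf_nonneg _)
    -- move `x` into `R`
    obtain ⟨g, hg, b, hb⟩ := hx'
    obtain ⟨s, g', hng, rfl⟩ := WfDvdMonoid.max_power_factor hg (show Irreducible P from by
      have : Prime P := by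
        refine ⟨P_ne, ?_, ?_⟩
        · intro h
          have := (P_dvd_iff 1).1 h.dvd
          rw [map_one] at this
          exact one_ne_zero this
        · intro a b h
          by_contra hh
          push Not at hh
          exact prime_P hh.1 hh.2 h
      exact this.irreducible)
    have hm : ¬ P ∣ Pb ^ s * g' := prime_P (not_dvd_Pb_pow s) hng
    set y : Rr S := ⟨S.ι b / S.ι (Pb ^ s * g'), div_mem S _ _ hm⟩ with hy
    have h8 := ι_ne_zero S P_ne
    have h9 := ι_ne_zero S (ne_zero_of_not_dvd not_dvd_Pb)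
    have h10 := ι_ne_zero S (ne_zero_of_not_dvd hng)
    have hyx : (y : E) = ((cc S : Rr S) : E) ^ s * x := by
      show S.ι b / S.ι (Pb ^ s * g') = _
      rw [cc_coe, ← hb, map_mul, map_mul, map_pow, map_pow, div_pow]
      field_simp
    have hyne : y ≠ 0 := by
      intro h
      have h2 := congrArg (fun a : Rr S => (a : E)) h
      rw [hyx] at h2
      have h3 : ((cc S : Rr S) : E) ^ s ≠ 0 := by
        apply pow_ne_zero
        rw [cc_coe]; exact div_ne_zero h8 h9
      exact (mul_ne_zero h3 hx) h2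
    obtain ⟨C, hC⟩ := exists_family S y hyne
    have hzero : ∫ φ, ((φ y : Circle) : ℂ) ∂μ = 0 := by
      refine Q.fourier_eq_zero y C (hC.mono ?_) hW0
      rintro n ⟨N, v, hN, h1, h2, h3⟩
      exact ⟨N, v, hN, h1, fun k => map_rot S hν (v k) (h2 k), h3⟩
    apply hne
    have e1 : ∫ φ, ((φ y : Circle) : ℂ) ∂μ = ∫ χ, ((χ (y : E) : Circle) : ℂ) ∂ν := by
      rw [hμdef, integral_map (measurable_res S).aemeasurable
        (measurable_eval y).aestronglyMeasurable]
      rfl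
    have e2 : ∫ χ, ((χ (y : E) : Circle) : ℂ) ∂ν = ∫ χ, ((χ x : Circle) : ℂ) ∂ν := by
      have hu : ‖S.σ (((cc S : Rr S) : E) ^ s)‖ = 1 := by
        rw [map_pow, norm_pow, norm_σ_cc, one_pow]
      conv_rhs => rw [← hν _ hu]
      rw [integral_map (measurable_mulShift _).aemeasurable
        (measurable_eval x).aestronglyMeasurable]
      simp only [AddChar.mulShift_apply, hyx]
    rw [← e2, ← e1, hzero]
  · exact ae4
  · refine ⟨fun χ => ∑ i, ((Q.g i (res S χ) : ℝ) : ℂ) * (((DD S).sh i (res S χ) (bb S) : Circle) : ℂ),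
      ?_, ?_⟩
    · have hG : Measurable (fun φ : Dual (Rr S) => ∑ i, ((Q.g i φ : ℝ) : ℂ) *
          (((DD S).sh i φ (bb S) : Circle) : ℂ)) := by
        refine Finset.measurable_sum _ fun i _ => ?_
        exact (Complex.measurable_ofReal.comp (Q.meas i).coe_nnreal_real).mul
          ((measurable_eval (bb S)).comp ((DD S).measurable_sh i))
      exact hG.comp (measurable_res' S)
    · filter_upwards [ae2, ae3, ae4] with χ h2 h3 h4 hχ
      have h5 := h2 (h4 hχ)
      set φ := res S (T χ) with hφ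
      have hθ : (DD S).θ φ = res S χ := θ_res S χ
      have h6 : Q.g ((DD S).lab φ) (res S χ) = 1 := by
        rw [Dat.Dens.w, hθ] at h5
        exact_mod_cast h5
      have h7 : ∀ i, i ≠ (DD S).lab φ → Q.g i (res S χ) = 0 := by
        intro i hi
        rw [← Finset.add_sum_erase _ _ (Finset.mem_univ ((DD S).lab φ)), h6] at h3
        have h8 : ∑ j ∈ Finset.univ.erase ((DD S).lab φ), Q.g j (res S χ) = 0 := by
          have : (1 : ℝ≥0) + ∑ j ∈ Finset.univ.erase ((DD S).lab φ), Q.g j (res S χ) = 1 + 0 := by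
            rw [add_zero]; exact h3
          exact add_left_cancel this
        exact (Finset.sum_eq_zero_iff.1 h8) i (Finset.mem_erase.2 ⟨hi, Finset.mem_univ _⟩)
      rw [Finset.sum_eq_single ((DD S).lab φ)]
      · rw [h6, ← hθ, Dat.sh_lab]
        rw [hφ, res_apply, hT]
        simp only [AddChar.mulShift_apply]
        rw [u0_mul_bb]
        simp
      · intro i _ hi
        rw [h7 i hi]; simp
      · intro h; exact absurd (Finset.mem_univ _) h

end

end Crest.Agent.R40.T1H
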