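import Crest.Agent.R40.T1R2P1d
import Crest.Agent.R40.T1R2P2
import Crest.Agent.R40.T1R2P3b

/-!
# R40 / T1 / R2 : the structured part (M4)
-/

set_option autoImplicit false

namespace Crest.Agent.R40.T1R2

open MeasureTheory Filter

theorem Emb.targetR2 {E : Type*} [Field E] (S : Emb E) (ν : Measure (AddChar E Circle))
    [IsFiniteMeasure ν] (hinv : S.Invariant ν) : S.TargetR2 ν :=
  S.targetR2_of (S.targetP1 ν hinv) (T1R2P2.targetP2 S hinv) (T1R2P3.targetP3 S ν)

end Crest.Agent.R40.T1R2
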