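import Mathlib

/-!
# R40 / T1 / R2 / P1a : the maximal inequality for visits, and the Borel–Cantelli name lemma
-/

set_option autoImplicit false

namespace Crest.Agent.R40.T1R2

open MeasureTheory Filter
open scoped Topology

section Maximal

variable {X : Type*}

/-- `max_{0 ≤ n ≤ N} S_n f` for the Birkhoff sums `S_n f` -/
noncomputable def maxSum (T : X → X) (f : X → ℝ) : ℕ → X → ℝ
  | 0 => fun _ => 0
  | N + 1 => fun x => max 0 (f x + maxSum T f N (T x))

theorem maxSum_nonneg (T : X → X) (f : X → ℝ) (N : ℕ) (x : X) : 0 ≤ maxSum T f N x := by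
  cases N with
  | zero => exact le_rfl
  | succ N => exact le_max_left _ _

theorem maxSum_mono_succ (T : X → X) (f : X → ℝ) (N : ℕ) (x : X) :
    maxSum T f N x ≤ maxSum T f (N + 1) x := by
  induction N generalizing x with
  | zero => exact maxSum_nonneg T f 1 x
  | succ N ih =>
    show max 0 (f x + maxSum T f N (T x)) ≤ max 0 (f x + maxSum T f (N + 1) (T x))
    exact max_le_max le_rfl (by linarith [ih (T x)])

theorem maxSum_mono (T : X → X) (f : X → ℝ) (x : X) : Monotone fun N => maxSum T f N x :=
  monotone_nat_of_le_succ fun N => maxSum_mono_succ T f N x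

theorem birkhoffSum_le_maxSum (T : X → X) (f : X → ℝ) (N : ℕ) (x : X) :
    birkhoffSum T f N x ≤ maxSum T f N x := by
  induction N generalizing x with
  | zero => simp [birkhoffSum_zero, maxSum]
  | succ N ih =>
    rw [birkhoffSum_succ']
    exact le_trans (by linarith [ih (T x)]) (le_max_right _ _)

theorem measurable_maxSum [MeasurableSpace X] {T : X → X} (hT : Measurable T) {f : X → ℝ} (hf : Measurable f) (N : ℕ) :
    Measurable (maxSum T f N) := by
  induction N with
  | zero => exact measurable_const
  | succ N ih => exact measurable_const.max (hf.add (ih.comp hT))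

theorem maxSum_le {T : X → X} {f : X → ℝ} {C : ℝ} (hf : ∀ x, |f x| ≤ C) (N : ℕ) (x : X) :
    maxSum T f N x ≤ N * C := by
  have hC : 0 ≤ C := le_trans (abs_nonneg _) (hf x)
  induction N generalizing x with
  | zero => simp [maxSum]
  | succ N ih =>
    show max 0 (f x + maxSum T f N (T x)) ≤ _
    apply max_le
    · positivity
    · push_cast
      have := ih (T x)
      have := (abs_le.1 (hf x)).2
      linarith

/-- Garsia's proof of the maximal ergodic theorem for bounded functions -/
theorem garsia [MeasurableSpace X] {ν : Measure X} [IsFiniteMeasure ν] {T : X → X} (hT : MeasurePreserving T ν ν)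
    {f : X → ℝ} (hf : Measurable f) {C : ℝ} (hC : ∀ x, |f x| ≤ C) (N : ℕ) :
    0 ≤ ∫ x in {x | 0 < maxSum T f N x}, f x ∂ν := by
  have hfi : Integrable f ν :=
    Integrable.of_bound hf.aestronglyMeasurable C (Eventually.of_forall fun x => hC x)
  cases N with
  | zero => simp [maxSum]
  | succ N =>
    set M := maxSum T f (N + 1) with hM
    have hMm : Measurable M := measurable_maxSum hT.measurable hf (N + 1)
    have hMi : Integrable M ν := by
      refine Integrable.of_bound hMm.aestronglyMeasurable ((N + 1 : ℕ) * C)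
        (Eventually.of_forall fun x => ?_)
      rw [Real.norm_eq_abs, abs_of_nonneg (maxSum_nonneg T f (N + 1) x)]
      exact maxSum_le hC (N + 1) x
    set A := {x | 0 < M x} with hA
    have hAm : MeasurableSet A := measurableSet_lt measurable_const hMm
    have hMTi : Integrable (fun x => M (T x)) ν := hT.integrable_comp_of_integrable hMi
    have h1 : ∫ x in A, (M x - M (T x)) ∂ν ≤ ∫ x in A, f x ∂ν := by
      apply setIntegral_mono_on (hMi.sub hMTi).integrableOn hfi.integrableOn hAm
      intro x hx
      have hx' : 0 < max 0 (f x + maxSum T f N (T x)) := hx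
      have hpos : 0 < f x + maxSum T f N (T x) := by
        rcases lt_max_iff.1 hx' with h | h
        · exact absurd h (lt_irrefl _)
        · exact h
      have hMx : M x = f x + maxSum T f N (T x) := max_eq_right hpos.le
      have hle : maxSum T f N (T x) ≤ M (T x) := maxSum_mono_succ T f N (T x)
      show M x - M (T x) ≤ f x
      linarith
    have h2 : ∫ x in A, (M x - M (T x)) ∂ν = ∫ x in A, M x ∂ν - ∫ x in A, M (T x) ∂ν :=
      integral_sub hMi.integrableOn hMTi.integrableOn
    have h3 : ∫ x in A, M x ∂ν = ∫ x, M x ∂ν := by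
      apply setIntegral_eq_integral_of_forall_compl_eq_zero
      intro x hx
      have : ¬ 0 < M x := hx
      exact le_antisymm (not_lt.1 this) (maxSum_nonneg T f (N + 1) x)
    have h4 : ∫ x in A, M (T x) ∂ν ≤ ∫ x, M (T x) ∂ν :=
      setIntegral_le_integral hMTi (Eventually.of_forall fun x => maxSum_nonneg T f (N + 1) (T x))
    have h5 : ∫ x, M (T x) ∂ν = ∫ x, M x ∂ν := by
      have := integral_map (μ := ν) hT.measurable.aemeasurable (f := M)
        (by rw [hT.map_eq]; exact hMm.aestronglyMeasurable)
      rw [hT.map_eq] at this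
      exact this.symm
    linarith

/-- maximal inequality for the frequency of visits to a set -/
theorem maximal_visits [MeasurableSpace X] {ν : Measure X} [IsFiniteMeasure ν] {T : X → X}
    (hT : MeasurePreserving T ν ν) {B : Set X} (hB : MeasurableSet B) {l : ℝ} (hl : 0 < l) :
    ν.real {x | ∃ n : ℕ, l * n < birkhoffSum T (B.indicator fun _ => (1 : ℝ)) n x} ≤
      l⁻¹ * ν.real B := by
  classical
  set f : X → ℝ := fun x => B.indicator (fun _ => (1 : ℝ)) x - l with hf
  have hfm : Measurable f := (measurable_const.indicator hB).sub measurable_const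
  have hfC : ∀ x, |f x| ≤ 1 + l := by
    intro x
    by_cases hx : x ∈ B
    · simp only [hf, Set.indicator_of_mem hx]
      rw [abs_le]; constructor <;> linarith
    · simp only [hf, Set.indicator_of_notMem hx]
      rw [abs_le]; constructor <;> linarith
  have hsum : ∀ n x, birkhoffSum T f n x =
      birkhoffSum T (B.indicator fun _ => (1 : ℝ)) n x - l * n := by
    intro n x
    simp only [birkhoffSum, hf, Finset.sum_sub_distrib, Finset.sum_const, Finset.card_range,
      nsmul_eq_mul]
    ring
  have hbd : ∀ N, ν.real {x | 0 < maxSum T f N x} ≤ l⁻¹ * ν.real B := by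
    intro N
    have h := garsia hT hfm hfC N
    set A := {x | 0 < maxSum T f N x} with hA
    have hAm : MeasurableSet A :=
      measurableSet_lt measurable_const (measurable_maxSum hT.measurable hfm N)
    have e1 : ∫ x in A, f x ∂ν = ν.real (B ∩ A) - l * ν.real A := by
      have : ∫ x in A, f x ∂ν = ∫ x in A, B.indicator (fun _ => (1 : ℝ)) x ∂ν - ∫ _ in A, l ∂ν := by
        apply integral_sub
        · exact ((integrable_const (1 : ℝ)).indicator hB)
        · exact integrable_const l
      rw [this, integral_indicator hB]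
      simp only [integral_const, smul_eq_mul, mul_one]
      rw [measureReal_restrict_apply_univ, measureReal_restrict_apply_univ,
        measureReal_restrict_apply hB]
      ring
    rw [e1] at h
    have h2 : ν.real (B ∩ A) ≤ ν.real B := measureReal_mono Set.inter_subset_left
    rw [inv_mul_eq_div, le_div_iff₀ hl]
    linarith
  have hmono : Monotone fun N => {x | 0 < maxSum T f N x} := by
    intro a b hab x hx
    exact lt_of_lt_of_le hx (maxSum_mono T f x hab)
  have hU : ν.real (⋃ N, {x | 0 < maxSum T f N x}) ≤ l⁻¹ * ν.real B := by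
    have ht := tendsto_measure_iUnion_atTop (μ := ν) hmono
    have ht' : Tendsto (fun N => ν.real {x | 0 < maxSum T f N x}) atTop
        (𝓝 (ν.real (⋃ N, {x | 0 < maxSum T f N x}))) :=
      (ENNReal.tendsto_toReal (measure_ne_top _ _)).comp ht
    exact le_of_tendsto' ht' hbd
  refine le_trans (measureReal_mono ?_) hU
  rintro x ⟨n, hn⟩
  refine Set.mem_iUnion.2 ⟨n, ?_⟩
  have := birkhoffSum_le_maxSum T f n x
  rw [hsum] at this
  have h0 : 0 < maxSum T f n x := by linarith
  exact h0

end Maximal

section Names

variable {X : Type*} [MeasurableSpace X]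

/-- Borel–Cantelli: if `nm n : X → Nm n` are finite valued measurable names with weights `W n`
of total mass `≤ 1`, then a.e. `x` has a class of measure `≥ r^n W(name)` for all large `n`. -/
theorem names_borel_cantelli {ν : Measure X} [IsFiniteMeasure ν] {Nm : ℕ → Type*}
    [∀ n, Fintype (Nm n)] (nm : ∀ n, X → Nm n)
    (W : ∀ n, Nm n → ℝ) (hW : ∀ n a, 0 ≤ W n a) (hW1 : ∀ n, ∑ a, W n a ≤ 1)
    {r : ℝ} (hr0 : 0 ≤ r) (hr1 : r < 1) :
    ∀ᵐ x ∂ν, ∀ᶠ n in atTop, r ^ n * W n (nm n x) ≤ ν.real (nm n ⁻¹' {nm n x}) := by
  classical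
  set Bad : ℕ → Set X := fun n => {x | ν.real (nm n ⁻¹' {nm n x}) < r ^ n * W n (nm n x)} with hBad
  have hle : ∀ n, ν (Bad n) ≤ ENNReal.ofReal (r ^ n) := by
    intro n
    have hsub : Bad n ⊆ ⋃ a ∈ (Finset.univ.filter fun a => ν.real (nm n ⁻¹' {a}) < r ^ n * W n a),
        nm n ⁻¹' {a} := by
      intro x hx
      simp only [Finset.mem_filter, Finset.mem_univ, true_and, Set.mem_iUnion]
      exact ⟨nm n x, hx, rfl⟩
    have h1 : ν.real (Bad n) ≤ r ^ n := by
      calc ν.real (Bad n) ≤ ν.real (⋃ a ∈ (Finset.univ.filter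
              fun a => ν.real (nm n ⁻¹' {a}) < r ^ n * W n a), nm n ⁻¹' {a}) :=
            measureReal_mono hsub (measure_ne_top _ _)
        _ ≤ ∑ a ∈ (Finset.univ.filter fun a => ν.real (nm n ⁻¹' {a}) < r ^ n * W n a),
              ν.real (nm n ⁻¹' {a}) := measureReal_biUnion_finset_le _ _
        _ ≤ ∑ a ∈ (Finset.univ.filter fun a => ν.real (nm n ⁻¹' {a}) < r ^ n * W n a),
              r ^ n * W n a := by
            apply Finset.sum_le_sum
            intro a ha
            exact (Finset.mem_filter.1 ha).2.le
        _ ≤ ∑ a, r ^ n * W n a := by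
            apply Finset.sum_le_sum_of_subset_of_nonneg (Finset.filter_subset _ _)
            intro a _ _
            exact mul_nonneg (pow_nonneg hr0 n) (hW n a)
        _ = r ^ n * ∑ a, W n a := by rw [Finset.mul_sum]
        _ ≤ r ^ n * 1 := mul_le_mul_of_nonneg_left (hW1 n) (pow_nonneg hr0 n)
        _ = r ^ n := mul_one _
    rw [← ENNReal.ofReal_toReal (measure_ne_top ν (Bad n))]
    exact ENNReal.ofReal_le_ofReal h1
  have hsum : ∑' n, ν (Bad n) ≠ ⊤ := by
    have h2 : Summable fun n : ℕ => r ^ n := summable_geometric_of_lt_one hr0 hr1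
    have h3 : ∑' n, ENNReal.ofReal (r ^ n) ≠ ⊤ := h2.tsum_ofReal_ne_top
    exact ne_top_of_le_ne_top h3 (ENNReal.tsum_le_tsum hle)
  have := ae_eventually_notMem hsum
  filter_upwards [this] with x hx
  filter_upwards [hx] with n hn
  exact not_lt.1 hn

end Names

end Crest.Agent.R40.T1R2
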