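import Crest.Agent.R40.T1R2Defs

/-!
# R40 / T1 / R2 / P1b : the algebraic step of the name argument
-/

set_option autoImplicit false

namespace Crest.Agent.R40.T1R2

open MeasureTheory Filter
open scoped FourierTransform

/-- the ring homomorphism `ℤ[i] → 𝔽₅`, `i ↦ 3`, with kernel `π ℤ[i]` (as a function) -/
def phi (z : GaussianInt) : ZMod 5 := (z.re : ZMod 5) + 3 * (z.im : ZMod 5)

theorem phi_mul (a b : GaussianInt) : phi (a * b) = phi a * phi b := by
  have h : (10 : ZMod 5) = 0 := by decide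
  simp only [phi, Zsqrtd.re_mul, Zsqrtd.im_mul]
  push_cast
  linear_combination (-(a.im : ZMod 5) * (b.im : ZMod 5)) * h

theorem phi_sub_intCast_mul (b c : GaussianInt) (k : ℤ) :
    phi (b - (k : GaussianInt) * c) = phi b - (k : ZMod 5) * phi c := by
  have : phi (b - (k : GaussianInt) * c) = phi b - phi ((k : GaussianInt) * c) := by
    simp only [phi, Zsqrtd.re_sub, Zsqrtd.im_sub]
    push_cast
    ring
  rw [this, phi_mul]
  congr 1
  simp [phi]

theorem phi_eq_zero {z : GaussianInt} (h : phi z = 0) : P ∣ z := by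
  have h' : (((z.re + 3 * z.im : ℤ)) : ZMod 5) = 0 := by
    rw [← h, phi]; push_cast; ring
  rw [ZMod.intCast_zmod_eq_zero_iff_dvd] at h'
  obtain ⟨k, hk⟩ := h'
  refine ⟨⟨2 * k - z.im, z.im - k⟩, ?_⟩
  have hk' : z.re = 5 * k - 3 * z.im := by
    push_cast at hk
    linarith
  rw [Zsqrtd.ext_iff]
  simp only [P, Zsqrtd.re_mul, Zsqrtd.im_mul]
  constructor
  · rw [hk']; ring
  · ring

theorem phi_P : phi P = 0 := by decide

theorem phi_Pb_ne : phi Pb ≠ 0 := by decide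

instance fact5 : Fact (Nat.Prime 5) := ⟨by norm_num⟩

theorem phi_ne_zero {z : GaussianInt} (h : ¬ P ∣ z) : phi z ≠ 0 := fun h' => h (phi_eq_zero h')

theorem phi_pow (a : GaussianInt) (n : ℕ) : phi (a ^ n) = phi a ^ n := by
  induction n with
  | zero => simp [phi]
  | succ n ih => rw [pow_succ, phi_mul, ih, pow_succ]

theorem not_P_dvd_Pb_pow_mul {m : GaussianInt} (hm : ¬ P ∣ m) (j : ℕ) : ¬ P ∣ Pb ^ j * m := by
  rintro ⟨d, hd⟩
  have h1 := congrArg phi hd
  rw [phi_mul, phi_mul, phi_P, zero_mul, phi_pow] at h1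
  rcases mul_eq_zero.1 h1 with h | h
  · exact pow_ne_zero j phi_Pb_ne h
  · exact phi_ne_zero hm h

theorem exists_int_P_dvd {b c : GaussianInt} (hc : ¬ P ∣ c) :
    ∃ k : ℤ, P ∣ b - (k : GaussianInt) * c := by
  refine ⟨((phi b / phi c).val : ℤ), ?_⟩
  apply phi_eq_zero
  rw [phi_sub_intCast_mul]
  have hc' := phi_ne_zero hc
  have hk : (((phi b / phi c).val : ℤ) : ZMod 5) = phi b / phi c := by
    rw [Int.cast_natCast]
    exact ZMod.natCast_zmod_val _
  rw [hk, div_mul_cancel₀ _ hc', sub_self]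

/-- a fifth root of unity at distance `< 1` of `1` is `1` -/
theorem eq_one_of_pow_five {z : ℂ} (h1 : ‖z‖ = 1) (h5 : z ^ 5 = 1) (h : ‖z - 1‖ < 1) : z = 1 := by
  by_contra hne
  have hsub : z - 1 ≠ 0 := sub_ne_zero.2 hne
  have hf : z ^ 4 + z ^ 3 + z ^ 2 + z + 1 = 0 := by
    have : (z - 1) * (z ^ 4 + z ^ 3 + z ^ 2 + z + 1) = 0 := by
      linear_combination h5
    exact (mul_eq_zero.1 this).resolve_left hsub
  have hn : z.re ^ 2 + z.im ^ 2 = 1 := by
    have := Complex.sq_norm z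
    rw [h1, Complex.normSq_apply] at this
    linarith
  have hn' : (z.re - 1) ^ 2 + z.im ^ 2 < 1 := by
    have h2 : ‖z - 1‖ ^ 2 < 1 := by
      have := norm_nonneg (z - 1)
      nlinarith
    rw [Complex.sq_norm, Complex.normSq_apply] at h2
    simp only [Complex.sub_re, Complex.one_re, Complex.sub_im, Complex.one_im, sub_zero] at h2
    nlinarith
  have hx : 1 / 2 < z.re := by nlinarith
  have hc : z * (starRingEnd ℂ) z = 1 := by
    rw [Complex.mul_conj, Complex.normSq_apply]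
    have : z.re * z.re + z.im * z.im = 1 := by nlinarith
    rw [this]; simp
  have hg : z ^ 2 + z + 1 + (starRingEnd ℂ) z + (starRingEnd ℂ) z ^ 2 = 0 := by
    have h3 : (z ^ 4 + z ^ 3 + z ^ 2 + z + 1) * (starRingEnd ℂ) z ^ 2 = 0 := by rw [hf, zero_mul]
    set w := (starRingEnd ℂ) z with hw
    linear_combination h3 - (z ^ 2 * (z * w + 1) + z * (z * w + 1) + (z * w + 1) + w) * hc
  have hre := congrArg Complex.re hg
  simp only [Complex.add_re, Complex.one_re, Complex.conj_re, Complex.zero_re, pow_two,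
    Complex.mul_re, Complex.conj_im] at hre
  nlinarith

namespace Emb

variable {E : Type*} [Field E] (S : Emb E)

theorem ι_injective : Function.Injective S.ι := by
  intro a b h
  have h2 := congrArg S.σ h
  rw [S.compat, S.compat] at h2
  exact GaussianInt.toComplex_injective h2

theorem ι_ne_zero {g : GaussianInt} (hg : g ≠ 0) : S.ι g ≠ 0 := by
  intro h
  exact hg (S.ι_injective (by rw [h, map_zero]))

theorem P_ne_zero : P ≠ 0 := by decide
theorem Pb_ne_zero : Pb ≠ 0 := by decide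
theorem P_mul_Pb : P * Pb = 5 := by decide

theorem InLat.add {g : GaussianInt} {a b : E} (ha : S.InLat g a) (hb : S.InLat g b) :
    S.InLat g (a + b) := by
  obtain ⟨x, hx⟩ := ha
  obtain ⟨y, hy⟩ := hb
  exact ⟨x + y, by rw [mul_add, hx, hy, map_add]⟩

/-- a sequence of times: `t_j = u₀^j θ` -/
def t (j : ℕ) : E := S.u0 ^ j * S.θ

theorem ι_mul_t (m : GaussianInt) (j : ℕ) :
    S.ι (P ^ (j + 1) * m) * S.t j = S.ι (Pb ^ j * m) := by
  have hP : S.ι P ≠ 0 := S.ι_ne_zero P_ne_zero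
  simp only [t, u0, θ, map_mul, map_pow, div_pow]
  field_simp
  ring

/-- the algebraic step: if `χ, χ'` are related on `π^{-j} m⁻¹ ℤ[i]` and close at `t_j = u₀^j θ`
then they are related on `π^{-(j+1)} m⁻¹ ℤ[i]`, with the same `s`. -/
theorem Rel.step {m : GaussianInt} (hm : ¬ P ∣ m) {j : ℕ} {χ χ' : AddChar E Circle} {s : ℂ}
    (h : S.Rel (P ^ j * m) χ χ' s)
    (hclose : ‖((χ' (S.t j) : Circle) : ℂ) - ((χ (S.t j) : Circle) : ℂ)‖ +
      ‖1 - ((S.eps s (S.t j) : Circle) : ℂ)‖ < 1) :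
    S.Rel (P ^ (j + 1) * m) χ χ' s := by
  have hP : S.ι P ≠ 0 := S.ι_ne_zero P_ne_zero
  set ψ : AddChar E Circle := χ' * χ⁻¹ * (S.eps s)⁻¹ with hψ
  have hψa : ∀ a, ψ a = χ' a * (χ a)⁻¹ * (S.eps s a)⁻¹ := by
    intro a
    rw [hψ, AddChar.mul_apply, AddChar.mul_apply, AddChar.inv_apply', AddChar.inv_apply']
  have htriv : ∀ a, S.InLat (P ^ j * m) a → ψ a = 1 := by
    intro a ha
    rw [hψa, h a ha]
    rw [mul_comm (χ a) (S.eps s a), mul_assoc (S.eps s a), mul_inv_cancel, mul_one, mul_inv_cancel]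
  -- `5 t_j` is in the lattice
  have h5t : S.InLat (P ^ j * m) ((5 : ℕ) • S.t j) := by
    refine ⟨Pb ^ (j + 1) * m, ?_⟩
    have h1 := S.ι_mul_t m j
    have h5 : ((5 : ℕ) : E) = S.ι P * S.ι Pb := by
      rw [← map_mul, P_mul_Pb, map_ofNat]; rfl
    rw [nsmul_eq_mul, h5]
    have : S.ι (P ^ j * m) * (S.ι P * S.ι Pb * S.t j) = S.ι Pb * (S.ι (P ^ (j + 1) * m) * S.t j) := by
      simp only [map_mul, map_pow]; ring
    rw [this, h1]
    simp only [map_mul, map_pow]; ring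
  have hψ5 : ψ (S.t j) ^ 5 = 1 := by
    rw [← AddChar.map_nsmul_eq_pow]
    exact htriv _ h5t
  have hψt : ψ (S.t j) = 1 := by
    have h5c : ((ψ (S.t j) : Circle) : ℂ) ^ 5 = 1 := by
      rw [← Circle.coe_pow, hψ5, Circle.coe_one]
    have hn : ‖((ψ (S.t j) : Circle) : ℂ)‖ = 1 := Circle.norm_coe _
    have hd : ‖((ψ (S.t j) : Circle) : ℂ) - 1‖ < 1 := by
      rw [hψa]
      set x : ℂ := ((χ (S.t j) : Circle) : ℂ) with hx
      set y : ℂ := ((χ' (S.t j) : Circle) : ℂ) with hy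
      set z : ℂ := ((S.eps s (S.t j) : Circle) : ℂ) with hz
      have hxn : ‖x‖ = 1 := Circle.norm_coe _
      have hzn : ‖z‖ = 1 := Circle.norm_coe _
      have hx0 : x ≠ 0 := by intro h0; rw [h0] at hxn; simp at hxn
      have hz0 : z ≠ 0 := by intro h0; rw [h0] at hzn; simp at hzn
      have e1 : (((χ' (S.t j) * (χ (S.t j))⁻¹ * (S.eps s (S.t j))⁻¹ : Circle)) : ℂ) = y * x⁻¹ * z⁻¹ := by
        simp [hx, hy, hz]
      rw [e1]
      have e2 : y * x⁻¹ * z⁻¹ - 1 = (y - x) * (x⁻¹ * z⁻¹) + (1 - z) * z⁻¹ := by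
        field_simp
        ring
      rw [e2]
      calc ‖(y - x) * (x⁻¹ * z⁻¹) + (1 - z) * z⁻¹‖ ≤ ‖(y - x) * (x⁻¹ * z⁻¹)‖ + ‖(1 - z) * z⁻¹‖ :=
            norm_add_le _ _
        _ = ‖y - x‖ + ‖1 - z‖ := by
            rw [norm_mul, norm_mul, norm_mul, norm_inv, norm_inv, hxn, hzn]; simp
        _ < 1 := hclose
    have := eq_one_of_pow_five hn h5c hd
    exact Circle.coe_injective (by rw [this, Circle.coe_one])
  -- conclusion
  intro a ha
  obtain ⟨b, hb⟩ := ha
  obtain ⟨k, hk⟩ := exists_int_P_dvd (b := b) (not_P_dvd_Pb_pow_mul hm j)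
  obtain ⟨d, hd⟩ := hk
  have hlat : S.InLat (P ^ j * m) (a - k • S.t j) := by
    refine ⟨d, ?_⟩
    have h1 := S.ι_mul_t m j
    have h2 : S.ι P * (S.ι (P ^ j * m) * (a - k • S.t j)) = S.ι P * S.ι d := by
      rw [← map_mul S.ι P d, ← hd, map_sub, map_mul S.ι (k : GaussianInt), ← h1, ← hb]
      simp only [map_mul, map_pow, zsmul_eq_mul, map_intCast]
      ring
    exact mul_left_cancel₀ hP h2
  have h3 : ψ a = 1 := by
    have : a = (a - k • S.t j) + k • S.t j := by abel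
    rw [this, AddChar.map_add_eq_mul, htriv _ hlat, AddChar.map_zsmul_eq_zpow, hψt]
    simp
  rw [hψa] at h3
  have h4 : χ' a * (χ a)⁻¹ = S.eps s a := mul_inv_eq_one.1 h3
  rw [← h4, mul_comm (χ' a), mul_inv_cancel_left]

end Emb

end Crest.Agent.R40.T1R2
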