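import Crest.Agent.R40.T1R2P1a
import Crest.Agent.R40.T1R2P1b

/-!
# R40 / T1 / R2 / P1c : names, classes, and the proof of `TargetP1`
-/

set_option autoImplicit false

namespace Crest.Agent.R40.T1R2

open MeasureTheory Filter
open scoped FourierTransform Topology

section Cells

/-- cell of a real number of `[-1,1]` -/
noncomputable def cell1 (k : ℕ) (x : ℝ) : Fin (2 * k + 1) :=
  ⟨min ⌊(k : ℝ) * (x + 1)⌋₊ (2 * k), by omega⟩

theorem measurable_cell1 (k : ℕ) : Measurable (cell1 k) := by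
  apply measurable_to_countable'
  intro i
  have : cell1 k ⁻¹' {i} = (fun x : ℝ => min ⌊(k : ℝ) * (x + 1)⌋₊ (2 * k)) ⁻¹' {(i : ℕ)} := by
    ext x
    simp [cell1, Fin.ext_iff]
  rw [this]
  have h1 : Measurable (fun x : ℝ => (k : ℝ) * (x + 1)) := by fun_prop
  have hm : Measurable (fun x : ℝ => min ⌊(k : ℝ) * (x + 1)⌋₊ (2 * k)) :=
    h1.nat_floor.min measurable_const
  exact hm (measurableSet_singleton _)

theorem cell1_close {k : ℕ} {x y : ℝ} (hx : |x| ≤ 1) (hy : |y| ≤ 1)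
    (h : cell1 k x = cell1 k y) : |(k : ℝ) * (x - y)| ≤ 1 := by
  have key : ∀ z : ℝ, |z| ≤ 1 → min ⌊(k : ℝ) * (z + 1)⌋₊ (2 * k) = ⌊(k : ℝ) * (z + 1)⌋₊ := by
    intro z hz
    apply min_eq_left
    apply Nat.floor_le_of_le
    push_cast
    have := (abs_le.1 hz).2
    have hk : (0 : ℝ) ≤ k := Nat.cast_nonneg k
    nlinarith
  have h' : ⌊(k : ℝ) * (x + 1)⌋₊ = ⌊(k : ℝ) * (y + 1)⌋₊ := by
    have := congrArg Fin.val h
    simp only [cell1] at this
    rw [key x hx, key y hy] at this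
    exact this
  have hk : (0 : ℝ) ≤ k := Nat.cast_nonneg k
  have hx0 : 0 ≤ (k : ℝ) * (x + 1) := mul_nonneg hk (by linarith [(abs_le.1 hx).1])
  have hy0 : 0 ≤ (k : ℝ) * (y + 1) := mul_nonneg hk (by linarith [(abs_le.1 hy).1])
  have a1 := Nat.floor_le hx0
  have a2 := Nat.lt_floor_add_one ((k : ℝ) * (x + 1))
  have a3 := Nat.floor_le hy0
  have a4 := Nat.lt_floor_add_one ((k : ℝ) * (y + 1))
  rw [h'] at a1 a2
  rw [abs_le]
  constructor <;> linarith

/-- cells of the square -/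
abbrev Cell (k : ℕ) := Fin (2 * k + 1) × Fin (2 * k + 1)

noncomputable def cell (k : ℕ) (z : ℂ) : Cell k := (cell1 k z.re, cell1 k z.im)

theorem measurable_cell (k : ℕ) : Measurable (cell k) :=
  ((measurable_cell1 k).comp Complex.measurable_re).prodMk
    ((measurable_cell1 k).comp Complex.measurable_im)

theorem cell_close {k : ℕ} {z w : ℂ} (hz : ‖z‖ = 1) (hw : ‖w‖ = 1) (h : cell k z = cell k w) :
    (k : ℝ) ^ 2 * ‖z - w‖ ^ 2 ≤ 2 := by
  have h1 := congrArg Prod.fst h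
  have h2 := congrArg Prod.snd h
  simp only [cell] at h1 h2
  have b1 := cell1_close (by rw [← hz]; exact Complex.abs_re_le_norm z)
    (by rw [← hw]; exact Complex.abs_re_le_norm w) h1
  have b2 := cell1_close (by rw [← hz]; exact Complex.abs_im_le_norm z)
    (by rw [← hw]; exact Complex.abs_im_le_norm w) h2
  rw [Complex.sq_norm, Complex.normSq_apply, Complex.sub_re, Complex.sub_im]
  have c1 : ((k : ℝ) * (z.re - w.re)) ^ 2 ≤ 1 := by
    rw [← sq_abs]; nlinarith [abs_nonneg ((k : ℝ) * (z.re - w.re))]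
  have c2 : ((k : ℝ) * (z.im - w.im)) ^ 2 ≤ 1 := by
    rw [← sq_abs]; nlinarith [abs_nonneg ((k : ℝ) * (z.im - w.im))]
  nlinarith

end Cells

section Angles

theorem norm_fourierChar_sub_one_le (x : ℝ) : ‖((𝐞 x : Circle) : ℂ) - 1‖ ≤ 2 * Real.pi * |x| := by
  have h : ((𝐞 x : Circle) : ℂ) = Complex.exp (Complex.I * ((2 * Real.pi * x : ℝ) : ℂ)) := by
    rw [Real.fourierChar_apply]
    congr 1
    push_cast
    ring
  rw [h]
  refine le_trans Real.norm_exp_I_mul_ofReal_sub_one_le ?_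
  rw [Real.norm_eq_abs, abs_mul, abs_mul, abs_of_pos Real.pi_pos]
  norm_num

/-- a unit number close to another one is obtained by multiplication by `e(α)`, `α` small -/
theorem exists_angle {z w : Circle} {δ : ℝ} (h : ‖(z : ℂ) - (w : ℂ)‖ ≤ δ) :
    ∃ α : ℝ, |α| ≤ δ ∧ z = w * 𝐞 α := by
  set v : Circle := w⁻¹ * z with hv
  have hvn : ‖(v : ℂ)‖ = 1 := Circle.norm_coe _
  have hd : ‖(v : ℂ) - 1‖ ≤ δ := by
    have e : (v : ℂ) - 1 = (w : ℂ)⁻¹ * ((z : ℂ) - (w : ℂ)) := by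
      rw [hv]
      have hw0 : (w : ℂ) ≠ 0 := Circle.coe_ne_zero w
      push_cast
      field_simp
    rw [e, norm_mul, norm_inv, Circle.norm_coe, inv_one, one_mul]
    exact h
  refine ⟨Complex.arg v / (2 * Real.pi), ?_, ?_⟩
  · have h1 : |Complex.arg v| ≤ Real.pi / 2 * ‖(v : ℂ) - 1‖ := by
      have := Complex.angle_le_mul_norm_sub hvn (norm_one : ‖(1 : ℂ)‖ = 1)
      rwa [Complex.angle_one_right (Circle.coe_ne_zero v)] at this
    rw [abs_div, abs_of_pos (by positivity : (0 : ℝ) < 2 * Real.pi), div_le_iff₀ (by positivity)]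
    have hδ : 0 ≤ δ := le_trans (norm_nonneg _) hd
    have hp := Real.pi_pos
    nlinarith [mul_le_mul_of_nonneg_left hd hp.le]
  · have hz : z = w * v := by rw [hv, mul_inv_cancel_left]
    rw [hz]
    congr 1
    apply Circle.coe_injective
    rw [Real.fourierChar_apply]
    have : (2 * Real.pi * (Complex.arg v / (2 * Real.pi)) : ℝ) = Complex.arg v := by
      field_simp
    rw [this]
    conv_lhs => rw [← Complex.norm_mul_exp_arg_mul_I (v : ℂ)]
    rw [hvn]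
    simp

end Angles

namespace Emb

variable {E : Type*} [Field E] (S : Emb E)

theorem sq_norm_toComplex (z : GaussianInt) : ‖GaussianInt.toComplex z‖ ^ 2 = (z.norm : ℝ) := by
  rw [Complex.sq_norm, GaussianInt.intCast_real_norm]

theorem norm_P_pos : 0 < ‖GaussianInt.toComplex P‖ :=
  norm_pos_iff.2 (by rw [Ne, GaussianInt.toComplex_eq_zero]; exact P_ne_zero)

theorem norm_P_eq_norm_Pb : ‖GaussianInt.toComplex Pb‖ = ‖GaussianInt.toComplex P‖ := by
  have h : ‖GaussianInt.toComplex Pb‖ ^ 2 = ‖GaussianInt.toComplex P‖ ^ 2 := by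
    rw [sq_norm_toComplex, sq_norm_toComplex]
    congr 1
  exact (sq_eq_sq₀ (norm_nonneg _) (norm_nonneg _)).1 h

theorem one_le_norm_toComplex {m : GaussianInt} (hm : m ≠ 0) : 1 ≤ ‖GaussianInt.toComplex m‖ := by
  have h : (1 : ℝ) ≤ ‖GaussianInt.toComplex m‖ ^ 2 := by
    rw [sq_norm_toComplex]
    have := GaussianInt.norm_pos.2 hm
    exact_mod_cast this
  nlinarith [norm_nonneg (GaussianInt.toComplex m)]

theorem norm_σ_u0 : ‖S.σ S.u0‖ = 1 := by
  rw [u0, map_div₀, S.compat, S.compat, norm_div, norm_P_eq_norm_Pb, div_self norm_P_pos.ne']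

theorem norm_σ_t_le (j : ℕ) : ‖S.σ (S.t j)‖ ≤ 1 := by
  rw [t, map_mul, map_pow, norm_mul, norm_pow, S.norm_σ_u0, one_pow, one_mul, θ, map_inv₀,
    norm_inv, S.compat]
  exact inv_le_one_of_one_le₀ (one_le_norm_toComplex P_ne_zero)

theorem σ_I : S.σ S.I = Complex.I := by
  rw [I, S.compat]
  simp [GaussianInt.toComplex_def]

/-- the points `u₀^j / m` and `u₀^j i / m` -/
def pt1 (m : GaussianInt) (j : ℕ) : E := S.u0 ^ j * (S.ι m)⁻¹
def pt2 (m : GaussianInt) (j : ℕ) : E := S.u0 ^ j * (S.I * (S.ι m)⁻¹)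

theorem inLat_pt1 {m : GaussianInt} (hm : m ≠ 0) (j : ℕ) : S.InLat (P ^ j * m) (S.pt1 m j) := by
  refine ⟨Pb ^ j, ?_⟩
  have hP : S.ι P ≠ 0 := S.ι_ne_zero P_ne_zero
  have hm' : S.ι m ≠ 0 := S.ι_ne_zero hm
  simp only [pt1, u0, map_mul, map_pow, div_pow]
  field_simp

theorem inLat_pt2 {m : GaussianInt} (hm : m ≠ 0) (j : ℕ) : S.InLat (P ^ j * m) (S.pt2 m j) := by
  refine ⟨Pb ^ j * ⟨0, 1⟩, ?_⟩
  have hP : S.ι P ≠ 0 := S.ι_ne_zero P_ne_zero
  have hm' : S.ι m ≠ 0 := S.ι_ne_zero hm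
  simp only [pt2, u0, I, map_mul, map_pow, div_pow]
  field_simp

theorem norm_σ_pt1_le {m : GaussianInt} (hm : m ≠ 0) (j : ℕ) : ‖S.σ (S.pt1 m j)‖ ≤ 1 := by
  rw [pt1, map_mul, map_pow, norm_mul, norm_pow, S.norm_σ_u0, one_pow, one_mul, map_inv₀,
    norm_inv, S.compat]
  exact inv_le_one_of_one_le₀ (one_le_norm_toComplex hm)

theorem norm_σ_pt2_le {m : GaussianInt} (hm : m ≠ 0) (j : ℕ) : ‖S.σ (S.pt2 m j)‖ ≤ 1 := by
  rw [pt2, map_mul, map_pow, norm_mul, norm_pow, S.norm_σ_u0, one_pow, one_mul, map_mul, norm_mul,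
    S.σ_I, Complex.norm_I, one_mul, map_inv₀, norm_inv, S.compat]
  exact inv_le_one_of_one_le₀ (one_le_norm_toComplex hm)

theorem norm_eps_sub_one_le {s : ℂ} {a : E} (ha : ‖S.σ a‖ ≤ 1) :
    ‖((S.eps s a : Circle) : ℂ) - 1‖ ≤ 2 * Real.pi * ‖s‖ := by
  rw [S.eps_apply]
  refine le_trans (norm_fourierChar_sub_one_le _) ?_
  have h1 : |(s * S.σ a).re| ≤ ‖s‖ := by
    refine le_trans (Complex.abs_re_le_norm _) ?_
    rw [norm_mul]
    nlinarith [norm_nonneg s]
  have hp := Real.pi_pos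
  nlinarith

theorem Rel.norm_sub_le {g : GaussianInt} {χ χ' : AddChar E Circle} {s : ℂ}
    (h : S.Rel g χ χ' s) {a : E} (ha : S.InLat g a) (ha' : ‖S.σ a‖ ≤ 1) :
    ‖((χ' a : Circle) : ℂ) - ((χ a : Circle) : ℂ)‖ ≤ 2 * Real.pi * ‖s‖ := by
  rw [h a ha]
  have : (((χ a * S.eps s a : Circle)) : ℂ) - ((χ a : Circle) : ℂ) =
      ((χ a : Circle) : ℂ) * (((S.eps s a : Circle) : ℂ) - 1) := by
    push_cast; ring
  rw [this, norm_mul, Circle.norm_coe, one_mul]
  exact S.norm_eps_sub_one_le ha'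

/-- the initial step -/
theorem rel_init {m : GaussianInt} (hm : m ≠ 0) {ρ : ℝ} (hρ : 0 < ρ) :
    ∃ k : ℕ, ∀ χ χ' : AddChar E Circle,
      cell k ((χ (S.ι m)⁻¹ : Circle) : ℂ) = cell k ((χ' (S.ι m)⁻¹ : Circle) : ℂ) →
      cell k ((χ (S.I * (S.ι m)⁻¹) : Circle) : ℂ) = cell k ((χ' (S.I * (S.ι m)⁻¹) : Circle) : ℂ) →
      ∃ s : ℂ, ‖s‖ ≤ ρ ∧ S.Rel m χ χ' s := by
  set M := ‖GaussianInt.toComplex m‖ with hM
  have hM1 : 1 ≤ M := one_le_norm_toComplex hm
  obtain ⟨k, hk⟩ := exists_nat_gt (4 * M / ρ)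
  have hkpos : (0 : ℝ) < k := lt_trans (by positivity) hk
  refine ⟨k, fun χ χ' h1 h2 => ?_⟩
  have hkρ : 4 * M < k * ρ := by rwa [div_lt_iff₀ hρ] at hk
  have hclose : ∀ z w : ℂ, ‖z‖ = 1 → ‖w‖ = 1 → cell k z = cell k w → ‖w - z‖ ≤ ρ / (2 * M) := by
    intro z w hz hw hzw
    have hc := cell_close hz hw hzw
    rw [norm_sub_rev, le_div_iff₀ (by positivity)]
    have h3 : (k : ℝ) * ‖z - w‖ ≤ 2 := by
      nlinarith [mul_nonneg hkpos.le (norm_nonneg (z - w))]
    have h4 : ‖z - w‖ * (4 * M) ≤ ‖z - w‖ * (k * ρ) :=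
      mul_le_mul_of_nonneg_left hkρ.le (norm_nonneg _)
    have h5 : ‖z - w‖ * (k * ρ) ≤ 2 * ρ := by
      calc ‖z - w‖ * (k * ρ) = (k * ‖z - w‖) * ρ := by ring
        _ ≤ 2 * ρ := mul_le_mul_of_nonneg_right h3 hρ.le
    linarith
  obtain ⟨α, hα, hα'⟩ := exists_angle (hclose _ _ (Circle.norm_coe _) (Circle.norm_coe _) h1)
  obtain ⟨β, hβ, hβ'⟩ := exists_angle (hclose _ _ (Circle.norm_coe _) (Circle.norm_coe _) h2)
  have hm' : S.ι m ≠ 0 := S.ι_ne_zero hm
  have hmc : GaussianInt.toComplex m ≠ 0 := by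
    rw [Ne, GaussianInt.toComplex_eq_zero]; exact hm
  refine ⟨GaussianInt.toComplex m * ((α : ℂ) - (β : ℂ) * Complex.I), ?_, ?_⟩
  · rw [norm_mul, ← hM]
    have h3 : ‖(α : ℂ) - (β : ℂ) * Complex.I‖ ≤ |α| + |β| := by
      refine le_trans (norm_sub_le _ _) ?_
      rw [norm_mul, Complex.norm_I, mul_one, Complex.norm_real, Complex.norm_real,
        Real.norm_eq_abs, Real.norm_eq_abs]
    have h4 : |α| + |β| ≤ ρ / M := by
      have : ρ / M = ρ / (2 * M) + ρ / (2 * M) := by field_simp; ring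
      rw [this]; linarith
    calc M * ‖(α : ℂ) - (β : ℂ) * Complex.I‖ ≤ M * (ρ / M) :=
          mul_le_mul_of_nonneg_left (h3.trans h4) (by linarith)
      _ = ρ := by field_simp
  · rintro a ⟨b, hb⟩
    set s : ℂ := GaussianInt.toComplex m * ((α : ℂ) - (β : ℂ) * Complex.I) with hs
    have ha : a = b.re • (S.ι m)⁻¹ + b.im • (S.I * (S.ι m)⁻¹) := by
      have hb' : S.ι b = (b.re : E) + (b.im : E) * S.I := by
        have : b = (b.re : GaussianInt) + (b.im : GaussianInt) * ⟨0, 1⟩ := by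
          rw [Zsqrtd.ext_iff]; simp
        conv_lhs => rw [this]
        rw [map_add, map_mul, map_intCast, map_intCast, I]
      have : a = S.ι b * (S.ι m)⁻¹ := by
        rw [← hb]; field_simp
      rw [this, hb', zsmul_eq_mul, zsmul_eq_mul]; ring
    have e1 : S.eps s (S.ι m)⁻¹ = 𝐞 α := by
      rw [S.eps_apply, map_inv₀, S.compat, hs]
      congr 1
      rw [mul_comm, ← mul_assoc, inv_mul_cancel₀ hmc, one_mul]
      simp
    have e2 : S.eps s (S.I * (S.ι m)⁻¹) = 𝐞 β := by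
      rw [S.eps_apply, map_mul, map_inv₀, S.compat, S.σ_I, hs]
      congr 1
      have : GaussianInt.toComplex m * ((α : ℂ) - (β : ℂ) * Complex.I) *
          (Complex.I * (GaussianInt.toComplex m)⁻¹) = (α : ℂ) * Complex.I + β := by
        field_simp
        ring_nf
        rw [Complex.I_sq]; ring
      rw [this]
      simp
    rw [ha]
    simp only [AddChar.map_add_eq_mul, AddChar.map_zsmul_eq_zpow, e1, e2, hα', hβ', mul_zpow]
    exact mul_mul_mul_comm _ _ _ _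

/-- the shift -/
noncomputable def T : AddChar E Circle → AddChar E Circle := fun χ => χ.mulShift S.u0

theorem T_iterate_apply (j : ℕ) (χ : AddChar E Circle) (a : E) :
    (S.T^[j] χ) a = χ (S.u0 ^ j * a) := by
  induction j generalizing χ with
  | zero => simp
  | succ j ih =>
    rw [Function.iterate_succ_apply, ih]
    simp only [T, AddChar.mulShift_apply]
    congr 1
    rw [pow_succ]; ring

theorem measurable_T : Measurable S.T := measurable_mulShift S.u0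

theorem measurePreserving_T {ν : Measure (AddChar E Circle)} (h : S.Invariant ν) :
    MeasurePreserving S.T ν ν :=
  ⟨S.measurable_T, h S.u0 S.norm_σ_u0⟩

end Emb

end Crest.Agent.R40.T1R2
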