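import Crest.Agent.R40.T1R2P3b

/-!
# R40 / T1 / M4 (R2), part P3c: structured characters have the limit property
-/

set_option autoImplicit false

open MeasureTheory Filter Topology Set
open scoped ENNReal ComplexConjugate FourierTransform

namespace Crest.Agent.R40.T1R2P3

open Crest.Agent.R40.T1R2
open Crest.Agent.R40.T1 (Dual instMeasurableSpaceDual measurable_eval measurable_dual_iff rot)

section

variable {E : Type*} [Field E] (S : Emb E)

/-- `y_n = n! π^{-2 n!}` -/
noncomputable def ySeq (n : ℕ) : E := (n.factorial : E) * S.θ ^ (2 * n.factorial)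

include S in
theorem charZero_of_emb : CharZero E := by
  refine ⟨fun m n h => ?_⟩
  have h1 := congrArg S.σ h
  rw [map_natCast, map_natCast] at h1
  exact_mod_cast h1

theorem norm_σ_θ : ‖S.σ S.θ‖ ^ 2 = 1 / 5 := by
  have h1 : S.σ S.θ = (GaussianInt.toComplex P)⁻¹ := by
    rw [Emb.θ, map_inv₀, S.compat]
  rw [h1, norm_inv, inv_pow, ← Complex.normSq_eq_norm_sq]
  have : GaussianInt.toComplex P = 2 + Complex.I := by
    rw [GaussianInt.toComplex_def]; simp [P]
  rw [this, Complex.normSq_apply]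
  norm_num

theorem ySeq_ne_zero (n : ℕ) : ySeq S n ≠ 0 := by
  have := charZero_of_emb S
  unfold ySeq
  refine mul_ne_zero (by exact_mod_cast n.factorial_ne_zero) (pow_ne_zero _ ?_)
  rw [Emb.θ]
  refine inv_ne_zero (ι_ne_zero S ?_)
  intro h
  rw [Zsqrtd.ext_iff] at h
  simp [P] at h

theorem norm_σ_ySeq (n : ℕ) : ‖S.σ (ySeq S n)‖ = (n.factorial : ℝ) * (1 / 5) ^ n.factorial := by
  unfold ySeq
  rw [map_mul, map_pow, norm_mul, norm_pow, pow_mul, norm_σ_θ, map_natCast, Complex.norm_natCast]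

theorem tendsto_σ_ySeq : Tendsto (fun n => S.σ (ySeq S n)) atTop (𝓝 0) := by
  rw [tendsto_zero_iff_norm_tendsto_zero]
  simp_rw [norm_σ_ySeq]
  have h1 : Tendsto (fun m : ℕ => (m : ℝ) * (1 / 5 : ℝ) ^ m) atTop (𝓝 0) :=
    tendsto_self_mul_const_pow_of_lt_one (by norm_num) (by norm_num)
  have h2 : Tendsto (fun n : ℕ => n.factorial) atTop atTop := by
    refine tendsto_atTop_mono (fun n => Nat.self_le_factorial n) tendsto_id
  exact h1.comp h2

/-- structured characters satisfy the limit property -/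
theorem tendsto_of_isStructured {χ : AddChar E Circle} (hχ : S.IsStructured χ) {a : E}
    (ha : ∃ c : ℕ, 0 < c ∧ ∃ b : GaussianInt, (c : E) * a = S.ι b) :
    Tendsto (fun n => ((χ (ySeq S n * a) : Circle) : ℂ)) atTop (𝓝 1) := by
  have := charZero_of_emb S
  obtain ⟨η, N, hN, hstr⟩ := hχ
  obtain ⟨c, hc, b, hb⟩ := ha
  have hlim : Tendsto (fun n => ((S.eps η (ySeq S n * a) : Circle) : ℂ)) atTop (𝓝 1) := by
    simp_rw [Emb.eps_apply]
    have h1 : Tendsto (fun n => (η * S.σ (ySeq S n * a)).re) atTop (𝓝 0) := by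
      have h2 : Tendsto (fun n => η * (S.σ (ySeq S n) * S.σ a)) atTop (𝓝 (η * (0 * S.σ a))) :=
        ((tendsto_σ_ySeq S).mul_const _).const_mul _
      rw [zero_mul, mul_zero] at h2
      have h3 := (Complex.continuous_re.tendsto _).comp h2
      simpa [Function.comp_def, map_mul] using h3
    have h4 : Tendsto (fun n => 𝐞 (η * S.σ (ySeq S n * a)).re) atTop (𝓝 (𝐞 0)) :=
      (Real.continuous_fourierChar.tendsto 0).comp h1
    have h5 : Tendsto (fun n => ((𝐞 (η * S.σ (ySeq S n * a)).re : Circle) : ℂ)) atTop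
        (𝓝 ((𝐞 (0 : ℝ) : Circle) : ℂ)) :=
      (continuous_subtype_val.tendsto (𝐞 (0 : ℝ))).comp h4
    rw [AddChar.map_zero_eq_one, Circle.coe_one] at h5
    exact h5
  refine hlim.congr' ?_
  filter_upwards [eventually_ge_atTop (N * c)] with n hn
  congr 1
  -- `n!` is divisible by `N * c`
  obtain ⟨t, ht⟩ : N * c ∣ n.factorial := Nat.dvd_factorial (Nat.mul_pos hN hc) hn
  have hy : ySeq S n * a = (N : E) * ((t : E) * S.θ ^ (2 * n.factorial) * S.ι b) := by
    unfold ySeq
    rw [← hb]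
    have : (n.factorial : E) = (N : E) * c * t := by rw [ht]; push_cast; ring
    rw [this]
    ring
  rw [hy]
  symm
  apply hstr (2 * n.factorial)
  refine ⟨(t : GaussianInt) * b, ?_⟩
  have hP : S.ι P ≠ 0 := ι_ne_zero S (by
    intro h
    rw [Zsqrtd.ext_iff] at h
    simp [P] at h)
  have hθ : S.ι P ^ (2 * n.factorial) * S.θ ^ (2 * n.factorial) = 1 := by
    rw [← mul_pow, Emb.θ, mul_inv_cancel₀ hP, one_pow]
  rw [mul_one, map_pow, map_mul, map_natCast]
  calc S.ι P ^ (2 * n.factorial) * ((t : E) * S.θ ^ (2 * n.factorial) * S.ι b)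
      = (S.ι P ^ (2 * n.factorial) * S.θ ^ (2 * n.factorial)) * ((t : E) * S.ι b) := by ring
    _ = (t : E) * S.ι b := by rw [hθ, one_mul]

end

/-! ### The concrete field `T1.E` -/

/-- the Gaussian integers inside `ℚ(i)` -/
noncomputable def ιE : GaussianInt →+* T1.E where
  toFun z := ⟨GaussianInt.toComplex z, by
    rw [GaussianInt.toComplex_def]
    exact ⟨⟨z.re, by simp⟩, ⟨z.im, by simp⟩⟩⟩
  map_one' := by ext; simp
  map_mul' a b := by ext; simp
  map_zero' := by ext; simp
  map_add' a b := by ext; simp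

/-- the canonical embedding data of `ℚ(i)` -/
noncomputable def embE : Emb T1.E where
  σ := T1.E.subtype
  ι := ιE
  compat _ := rfl

theorem embE_denom (a : T1.E) :
    ∃ c : ℕ, 0 < c ∧ ∃ b : GaussianInt, (c : T1.E) * a = embE.ι b := by
  obtain ⟨⟨p, hp⟩, q, hq⟩ := a.2
  refine ⟨p.den * q.den, Nat.mul_pos p.pos q.pos, ⟨p.num * q.den, q.num * p.den⟩, ?_⟩
  apply Subtype.ext
  show ((p.den * q.den : ℕ) : ℂ) * (a : ℂ) =
    GaussianInt.toComplex ⟨p.num * q.den, q.num * p.den⟩
  rw [GaussianInt.toComplex_def]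
  have hp' : ((p.den : ℝ)) * (p : ℝ) = p.num := by
    have := Rat.den_mul_eq_num p
    exact_mod_cast this
  have hq' : ((q.den : ℝ)) * (q : ℝ) = q.num := by
    have := Rat.den_mul_eq_num q
    exact_mod_cast this
  apply Complex.ext
  · simp [← hp]
    linear_combination (q.den : ℝ) * hp'
  · simp [← hq]
    linear_combination (p.den : ℝ) * hq'

/-- helper511's limit set -/
def LimSet (y : ℕ → T1.E) : Set (Dual T1.E) :=
  {χ | ∀ a : T1.E, Tendsto (fun n => ((χ (y n * a) : Circle) : ℂ)) atTop (𝓝 1)}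

theorem structured_mem_limSet {χ : Dual T1.E} (h : embE.IsStructured χ) :
    χ ∈ LimSet (ySeq embE) :=
  fun a => tendsto_of_isStructured embE h (embE_denom a)

theorem ySeq_E_tendsto : Tendsto (fun n => ((ySeq embE n : T1.E) : ℂ)) atTop (𝓝 0) :=
  tendsto_σ_ySeq embE

theorem ySeq_E_ne_zero (n : ℕ) : ySeq embE n ≠ 0 := ySeq_ne_zero embE n

theorem invariant_iff_rotInv (ν : Measure (Dual T1.E)) :
    embE.Invariant ν ↔ T1.RotInv ν := Iff.rfl

end Crest.Agent.R40.T1R2P3
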