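import Crest.Agent.R40.T3Sep
import Crest.Agent.R40.T3Sol2

/-!
# R40 / T3 : Case III, item (b)

If `J x = {a,b,c,d}` and the accumulating pairs at `x` are exactly `ab, bc, cd, da`, then both
`Sol a ∩ Sol c` and `Sol b ∩ Sol d` are nonempty.
-/

set_option autoImplicit false

open Set Metric Topology Filter
open scoped Real

namespace Crest.Agent.R40.T3.C4b

open T3.Sep

/-! ## Regularity of solid sets -/

section
variable {U : Fin 5 → Set ℂ}

lemma isClosed_pre (k : Fin 5) (x : ℂ) : IsClosed {t : ℝ | x + uv t ∈ F U k} := by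
  have := continuous_uv'
  exact (isClosed_F k).preimage (by fun_prop : Continuous fun t : ℝ => x + uv t)

lemma mem_of_mem_Sol {k : Fin 5} {x : ℂ} {t : ℝ} (h : t ∈ Sol U k x) : x + uv t ∈ F U k :=
  interior_subset (s := {t : ℝ | x + uv t ∈ F U k}) h

lemma closure_Sol_subset (k : Fin 5) (x : ℂ) : closure (Sol U k x) ⊆ {t : ℝ | x + uv t ∈ F U k} :=
  closure_minimal interior_subset (isClosed_pre k x)

/-- solid sets are regular open -/
lemma subset_Sol_of_subset_closure {k : Fin 5} {x : ℂ} {O : Set ℝ} (hO : IsOpen O)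
    (h : O ⊆ closure (Sol U k x)) : O ⊆ Sol U k x :=
  interior_maximal (h.trans (closure_Sol_subset k x)) hO

/-- the alternating situation of Case III (b) -/
structure Alt (U : Fin 5 → Set ℂ) (x : ℂ) (a b c d e : Fin 5) : Prop where
  cov : Cov U
  nodup : [a, b, c, d, e].Nodup
  hJ : J U x = {a, b, c, d}
  hbd : ¬ Acc U x b d
  gen : ∀ t ∈ GenC U x, t ∈ Sol U e x ∨ t ∈ Sol U a x ∩ Sol U c x

namespace Alt
variable {x : ℂ} {a b c d e : Fin 5} (H : Alt U x a b c d e)
include H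

lemma five (k : Fin 5) : k = a ∨ k = b ∨ k = c ∨ k = d ∨ k = e := by
  have h1 := H.nodup
  revert h1
  clear H
  revert a b c d e k
  decide

lemma subset_bd {S : Finset (Fin 5)} (ha : a ∉ S) (hc : c ∉ S) (he : e ∉ S) : S ⊆ {b, d} := by
  intro k hk
  rcases H.five k with rfl | rfl | rfl | rfl | rfl
  · exact absurd hk ha
  · simp
  · exact absurd hk hc
  · simp
  · exact absurd hk he

lemma ne_ab : a ≠ b := by
  have := H.nodup
  simp only [List.nodup_cons, List.mem_cons, not_or] at this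
  tauto
lemma ne_ad : a ≠ d := by
  have := H.nodup
  simp only [List.nodup_cons, List.mem_cons, not_or] at this
  tauto
lemma ne_bd : b ≠ d := by
  have := H.nodup
  simp only [List.nodup_cons, List.mem_cons, not_or] at this
  tauto
lemma ne_be : b ≠ e := by
  have := H.nodup
  simp only [List.nodup_cons, List.mem_cons, not_or] at this
  tauto
lemma ne_de : d ≠ e := by
  have := H.nodup
  simp only [List.nodup_cons, List.mem_cons, not_or] at this
  tauto
lemma ne_ac : a ≠ c := by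
  have := H.nodup
  simp only [List.nodup_cons, List.mem_cons, not_or] at this
  tauto
lemma ne_ae : a ≠ e := by
  have := H.nodup
  simp only [List.nodup_cons, List.mem_cons, not_or] at this
  tauto
lemma ne_ce : c ≠ e := by
  have := H.nodup
  simp only [List.nodup_cons, List.mem_cons, not_or] at this
  tauto

lemma e_not_mem : e ∉ J U x := by
  rw [H.hJ]
  have := H.nodup
  simp only [List.nodup_cons, List.mem_cons, not_or] at this
  simp only [Finset.mem_insert, Finset.mem_singleton, not_or]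
  tauto

/-- near `x` there is no colour `e` and no `bd`-point -/
lemma near_x : ∀ᶠ z in 𝓝 x, e ∉ J U z ∧ J U z ≠ {b, d} := by
  have h1 : ∀ᶠ z in 𝓝 x, J U z ≠ {b, d} := not_frequently.1 H.hbd
  filter_upwards [h1, J_usc (U := U) x] with z hz hz'
  exact ⟨fun hc => H.e_not_mem (hz' hc), hz⟩

lemma dense_union : Dense (Sol U e x ∪ (Sol U a x ∩ Sol U c x)) :=
  (dense_GenC (U := U) (x := x)).mono H.gen

omit H in
lemma isOpen_A : IsOpen (Sol U a x ∩ Sol U c x) := (isOpen_Sol).inter (isOpen_Sol)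

lemma disj : Disjoint (Sol U e x) (Sol U a x ∩ Sol U c x) := by
  rw [Set.disjoint_iff]
  intro t ht
  obtain ⟨s, hs, hsg⟩ := (dense_GenC (U := U) (x := x)).inter_open_nonempty _
    ((isOpen_Sol).inter isOpen_A) ⟨t, ht⟩
  have h1 := H.cov.genC_card hsg
  have h2 : ({a, c, e} : Finset (Fin 5)) ⊆ J U (x + uv s) := by
    intro k hk
    simp only [Finset.mem_insert, Finset.mem_singleton] at hk
    rcases hk with rfl | rfl | rfl
    · exact mem_J.2 (mem_of_mem_Sol hs.2.1)
    · exact mem_J.2 (mem_of_mem_Sol hs.2.2)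
    · exact mem_J.2 (mem_of_mem_Sol hs.1)
  have h3 := Finset.card_le_card h2
  rw [Finset.card_insert_of_notMem, Finset.card_pair H.ne_ce] at h3
  · omega
  · simp [H.ne_ac, H.ne_ae]

lemma A_of_disjoint {O : Set ℝ} (hO : IsOpen O) (hd : Disjoint O (Sol U e x)) :
    O ⊆ Sol U a x ∩ Sol U c x := by
  have h1 : O ⊆ closure (Sol U a x ∩ Sol U c x) := by
    intro t ht
    rw [_root_.mem_closure_iff]
    intro V hV htV
    obtain ⟨s, hs, hs'⟩ := H.dense_union.inter_open_nonempty _ (hO.inter hV) ⟨t, ht, htV⟩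
    rcases hs' with hs' | hs'
    · exact absurd hs' (Set.disjoint_left.1 hd hs.1)
    · exact ⟨s, hs.2, hs'⟩
  intro t ht
  refine ⟨subset_Sol_of_subset_closure hO (h1.trans (closure_mono inter_subset_left)) ht,
    subset_Sol_of_subset_closure hO (h1.trans (closure_mono inter_subset_right)) ht⟩

lemma E_of_disjoint {O : Set ℝ} (hO : IsOpen O) (hd : Disjoint O (Sol U a x ∩ Sol U c x)) :
    O ⊆ Sol U e x := by
  refine subset_Sol_of_subset_closure hO ?_
  intro t ht
  rw [_root_.mem_closure_iff]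
  intro V hV htV
  obtain ⟨s, hs, hs'⟩ := H.dense_union.inter_open_nonempty _ (hO.inter hV) ⟨t, ht, htV⟩
  rcases hs' with hs' | hs'
  · exact ⟨s, hs.2, hs'⟩
  · exact absurd hs' (Set.disjoint_left.1 hd hs.1)

lemma A_shift {t : ℝ} (ht : t ∈ Sol U a x ∩ Sol U c x) : t + π / 3 ∈ Sol U e x := by
  have hO : IsOpen ((fun s : ℝ => s - π / 3) ⁻¹' (Sol U a x ∩ Sol U c x)) :=
    isOpen_A.preimage (by fun_prop)
  refine H.E_of_disjoint hO ?_ (by simpa using ht)
  rw [Set.disjoint_left]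
  intro s hs hs'
  have h1 := (H.cov.P3 hs.1).1
  rw [sub_add_cancel] at h1
  exact h1 (mem_of_mem_Sol hs'.1)

lemma E_shift {t : ℝ} (ht : t ∈ Sol U e x) : t + π / 3 ∈ Sol U a x ∩ Sol U c x := by
  have hO : IsOpen ((fun s : ℝ => s - π / 3) ⁻¹' (Sol U e x)) :=
    (isOpen_Sol).preimage (by fun_prop)
  refine H.A_of_disjoint hO ?_ (by simpa using ht)
  rw [Set.disjoint_left]
  intro s hs hs'
  have h1 := (H.cov.P3 (k := e) (x := x) (a := s - π / 3) hs).1
  rw [sub_add_cancel] at h1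
  exact h1 (mem_of_mem_Sol hs')

lemma E_shift2 {t : ℝ} (ht : t ∈ Sol U e x) : t + 2 * π / 3 ∈ Sol U e x := by
  have := H.A_shift (H.E_shift ht)
  rwa [show t + π / 3 + π / 3 = t + 2 * π / 3 by ring] at this

lemma A_shift2 {t : ℝ} (ht : t ∈ Sol U a x ∩ Sol U c x) :
    t + 2 * π / 3 ∈ Sol U a x ∩ Sol U c x := by
  have := H.E_shift (H.A_shift ht)
  rwa [show t + π / 3 + π / 3 = t + 2 * π / 3 by ring] at this

lemma E_shift3 {t : ℝ} (ht : t ∈ Sol U e x) : t + π ∈ Sol U a x ∩ Sol U c x := by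
  have := H.A_shift2 (H.E_shift ht)
  rwa [show t + π / 3 + 2 * π / 3 = t + π by ring] at this

lemma A_nonempty : (Sol U a x ∩ Sol U c x).Nonempty := by
  obtain ⟨t, ht⟩ := (dense_GenC (U := U) (x := x)).nonempty
  rcases H.gen t ht with h1 | h1
  · exact ⟨_, H.E_shift h1⟩
  · exact ⟨_, h1⟩

/-- circle points have one of the colours `a`, `e` -/
lemma circle_ne {s : ℝ} : J U (x + uv s) ≠ {b, d} := by
  intro hs
  have h1 : s ∈ closure (Sol U e x ∪ (Sol U a x ∩ Sol U c x)) := H.dense_union s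
  rw [closure_union] at h1
  rcases h1 with h1 | h1
  · have h2 : e ∈ J U (x + uv s) := mem_J.2 (closure_Sol_subset e x h1)
    rw [hs] at h2
    simp only [Finset.mem_insert, Finset.mem_singleton] at h2
    rcases h2 with h2 | h2
    · exact H.ne_be h2.symm
    · exact H.ne_de h2.symm
  · have h2 : a ∈ J U (x + uv s) :=
      mem_J.2 (closure_Sol_subset a x (closure_mono inter_subset_left h1))
    rw [hs] at h2
    simp only [Finset.mem_insert, Finset.mem_singleton] at h2
    rcases h2 with h2 | h2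
    · exact H.ne_ab h2
    · exact H.ne_ad h2

/-- the wedge at a generic angle -/
lemma wedge {v : ℝ} (hv : v ∈ Sol U e x ∪ (Sol U a x ∩ Sol U c x)) :
    ∀ᶠ r in 𝓝 (0 : ℝ), r ≠ 0 → J U (x + uv (v + r) - uv (v - r)) ⊆ {b, d} := by
  have hc := continuous_uv'
  have h1 : ∀ᶠ r in 𝓝 (0 : ℝ), e ∉ J U (x + uv (v + r) - uv (v - r)) := by
    have hcc : Continuous (fun r : ℝ => x + uv (v + r) - uv (v - r)) := by fun_prop
    have h0 : Tendsto (fun r : ℝ => x + uv (v + r) - uv (v - r)) (𝓝 0) (𝓝 x) := by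
      have := hcc.tendsto 0
      simpa using this
    exact (h0.eventually H.near_x).mono fun r hr => hr.1
  have h2 : ∀ᶠ r in 𝓝 (0 : ℝ), r ≠ 0 → Real.sin ((v + r) - (v - r)) ≠ 0 := by
    have h3 : ∀ᶠ r in 𝓝 (0 : ℝ), |r| < 1 := by
      have : Continuous (fun r : ℝ => |r|) := continuous_abs
      exact this.continuousAt.eventually_lt continuousAt_const (by simp)
    filter_upwards [h3] with r hr hr0
    rw [show (v + r) - (v - r) = 2 * r by ring]
    have hpi := Real.pi_gt_three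
    rw [abs_lt] at hr
    intro hsin
    rw [Real.sin_eq_zero_iff_of_lt_of_lt (by linarith [hr.1]) (by linarith [hr.2])] at hsin
    exact hr0 (by linarith)
  rcases hv with hv | hv
  · have h4 : ∀ᶠ r in 𝓝 (0 : ℝ), v - r ∈ Sol U e x := by
      have hcc : Continuous (fun r : ℝ => v - r) := by fun_prop
      apply hcc.continuousAt.eventually_mem
      rw [sub_zero]
      exact (isOpen_Sol).mem_nhds hv
    filter_upwards [h1, h2, h4] with r hr1 hr2 hr4 hr0
    have h5 := H.E_shift3 hr4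
    refine H.subset_bd (fun hk => ?_) (fun hk => ?_) hr1
    · exact (H.cov.P5 (hr2 hr0) (mem_J.1 hk)).2 h5.1
    · exact (H.cov.P5 (hr2 hr0) (mem_J.1 hk)).2 h5.2
  · have h4 : ∀ᶠ r in 𝓝 (0 : ℝ), v + r ∈ Sol U a x ∩ Sol U c x := by
      have hcc : Continuous (fun r : ℝ => v + r) := by fun_prop
      apply hcc.continuousAt.eventually_mem
      rw [add_zero]
      exact isOpen_A.mem_nhds hv
    filter_upwards [h1, h2, h4] with r hr1 hr2 hr4 hr0
    refine H.subset_bd (fun hk => ?_) (fun hk => ?_) hr1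
    · exact (H.cov.P5 (hr2 hr0) (mem_J.1 hk)).1 hr4.1
    · exact (H.cov.P5 (hr2 hr0) (mem_J.1 hk)).1 hr4.2

/-- no `bd`-point near the unit circle -/
lemma no_pair (s : ℝ) : ∀ᶠ q in 𝓝 (x + uv s), J U q ≠ {b, d} := by
  obtain ⟨v, hv, hvs⟩ : ∃ v ∈ Sol U e x ∪ (Sol U a x ∩ Sol U c x), Real.sin (v - s) ≠ 0 := by
    obtain ⟨v, hv⟩ := H.A_nonempty
    by_cases h0 : Real.sin (v - s) = 0
    · refine ⟨v + π / 3, Or.inl (H.A_shift hv), ?_⟩
      rw [show v + π / 3 - s = (v - s) + π / 3 by ring, Real.sin_add, h0, zero_mul, zero_add]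
      have h1 : Real.cos (v - s) ≠ 0 := by
        intro h2
        have := Real.sin_sq_add_cos_sq (v - s)
        rw [h0, h2] at this
        norm_num at this
      exact mul_ne_zero h1 (by rw [Real.sin_pi_div_three]; positivity)
    · exact ⟨v, Or.inr hv, h0⟩
  obtain ⟨ρ, hρ, hw⟩ := Metric.eventually_nhds_iff.1 (H.wedge hv)
  filter_upwards [exists_cross (x := x) hvs hρ] with q hq hJq
  obtain ⟨r, hr, hd, hr0⟩ := hq
  have hqx : dist q x ≠ 1 := by
    intro hqx
    have hn : ‖q - x‖ = 1 := by rw [← dist_eq_norm]; exact hqx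
    have h1 : q = x + uv (Complex.arg (q - x)) := by
      have h2 := Complex.norm_mul_exp_arg_mul_I (q - x)
      rw [hn] at h2
      simp only [Complex.ofReal_one, one_mul] at h2
      rw [uv, h2]
      ring
    rw [h1] at hJq
    exact H.circle_ne hJq
  have h3 := hw (y := r) (by rw [Real.dist_eq, sub_zero]; exact hr) (hr0 hqx)
  obtain ⟨k, hk, hkb, hkd⟩ := H.cov.exists_other hJq hd
  have := h3 hk
  simp only [Finset.mem_insert, Finset.mem_singleton] at this
  tauto

/-- a transition angle `A | E` -/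
lemma exists_transition : ∃ t δ : ℝ, 0 < δ ∧ Ioo (t - δ) t ⊆ Sol U a x ∩ Sol U c x ∧
    ∃ᶠ q in 𝓝[>] t, q ∈ Sol U e x := by
  obtain ⟨t₁, ht₁⟩ := H.A_nonempty
  set A := Sol U a x ∩ Sol U c x with hAdef
  have hAo : IsOpen A := isOpen_A
  set S := Aᶜ ∩ Ici t₁ with hS
  have hSc : IsClosed S := hAo.isClosed_compl.inter isClosed_Ici
  have hSne : S.Nonempty := by
    refine ⟨t₁ + π / 3, ?_, ?_⟩
    · intro hc
      exact Set.disjoint_left.1 H.disj (H.A_shift ht₁) hc
    · have := Real.pi_pos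
      change t₁ ≤ t₁ + π / 3
      linarith [this, div_pos this (by norm_num : (0:ℝ) < 3)]
  have hSb : BddBelow S := ⟨t₁, fun s hs => hs.2⟩
  set t := sInf S with ht
  have htS : t ∈ S := hSc.csInf_mem hSne hSb
  have htt : t₁ < t := by
    rcases (lt_or_eq_of_le (show t₁ ≤ t from htS.2)) with h1 | h1
    · exact h1
    · exact absurd (h1 ▸ ht₁) htS.1
  have hsub : Ioo (t - (t - t₁)) t ⊆ A := by
    intro s hs
    by_contra hcon
    have : t ≤ s := csInf_le hSb ⟨hcon, by have := hs.1; change t₁ ≤ s; linarith⟩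
    exact absurd hs.2 (not_lt.2 this)
  refine ⟨t, t - t₁, by linarith, hsub, ?_⟩
  by_contra hcon
  rw [not_frequently] at hcon
  obtain ⟨u, hu, hu'⟩ := (mem_nhdsGT_iff_exists_Ioo_subset).1 hcon
  have hu0 : t < u := hu
  have h1 : Ioo t u ⊆ A := by
    refine H.A_of_disjoint isOpen_Ioo ?_
    rw [Set.disjoint_left]
    intro s hs hs'
    exact hu' hs hs'
  have h2 : Ioo t₁ u ⊆ closure A := by
    intro s hs
    rcases lt_trichotomy s t with h3 | h3 | h3
    · exact subset_closure (hsub ⟨by linarith [hs.1], h3⟩)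
    · rw [h3]
      have h4 : t ∈ closure (Ioo t u) := by
        rw [closure_Ioo hu0.ne]
        exact left_mem_Icc.2 hu0.le
      exact closure_mono h1 h4
    · exact subset_closure (h1 ⟨h3, hs.2⟩)
  have h3 : Ioo t₁ u ⊆ A := fun s hs =>
    ⟨subset_Sol_of_subset_closure isOpen_Ioo (h2.trans (closure_mono inter_subset_left)) hs,
      subset_Sol_of_subset_closure isOpen_Ioo (h2.trans (closure_mono inter_subset_right)) hs⟩
  exact htS.1 (h3 ⟨htt, hu0⟩)

lemma mixed_sub {p q : ℝ} (hs : Real.sin (p - (q + 2 * π / 3)) ≠ 0)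
    (hp : (p ∈ Sol U a x ∩ Sol U c x ∧ q ∈ Sol U e x) ∨
      (p ∈ Sol U e x ∧ q ∈ Sol U a x ∩ Sol U c x)) :
    J U (x + uv p + uv (q + 2 * π / 3)) ⊆ {b, d} := by
  rcases hp with ⟨hp, hq⟩ | ⟨hp, hq⟩
  · refine H.subset_bd (fun hk => ?_) (fun hk => ?_) (fun hk => ?_)
    · exact (H.cov.R hs (mem_J.1 hk)).1 hp.1
    · exact (H.cov.R hs (mem_J.1 hk)).1 hp.2
    · exact (H.cov.R hs (mem_J.1 hk)).2 (H.E_shift2 hq)
  · refine H.subset_bd (fun hk => ?_) (fun hk => ?_) (fun hk => ?_)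
    · exact (H.cov.R hs (mem_J.1 hk)).2 (H.A_shift2 hq).1
    · exact (H.cov.R hs (mem_J.1 hk)).2 (H.A_shift2 hq).2
    · exact (H.cov.R hs (mem_J.1 hk)).1 hp

lemma sep_at {t δ : ℝ} (hδ : 0 < δ) (hA : Ioo (t - δ) t ⊆ Sol U a x ∩ Sol U c x)
    (hE : ∃ᶠ q in 𝓝[>] t, q ∈ Sol U e x) :
    ∃ k k' : Fin 5, ((k = b ∧ k' = d) ∨ (k = d ∧ k' = b)) ∧
      (∀ᶠ z in 𝓝 x, z ∈ F U k → dist z (x + uv (t + π / 3)) ≤ 1) ∧
      (∀ᶠ z in 𝓝 x, z ∈ F U k' → 1 ≤ dist z (x + uv (t + π / 3))) := by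
  have hN : ∀ᶠ pq in 𝓝 ((t, t) : ℝ × ℝ), J U (x + uv pq.1 + uv (pq.2 + 2 * π / 3)) ≠ {b, d} := by
    have h1 := (continuous_mixed x).tendsto (t, t)
    simp only [mixed_diag] at h1
    exact h1.eventually (H.no_pair (t + π / 3))
  obtain ⟨η, hη, hN'⟩ := Metric.eventually_nhds_iff.1 hN
  have hN2 : ∀ p q : ℝ, |p - t| < η → |q - t| < η →
      J U (x + uv p + uv (q + 2 * π / 3)) ≠ {b, d} := by
    intro p q hp hq
    refine hN' (y := (p, q)) ?_
    rw [Prod.dist_eq]
    exact max_lt hp hq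
  set δ' := min δ (min η (1 / 2)) with hδ'
  have hδ0 : 0 < δ' := lt_min hδ (lt_min hη (by norm_num))
  have hδ1 : δ' ≤ δ := min_le_left _ _
  have hδ2 : δ' ≤ η := (min_le_right _ _).trans (min_le_left _ _)
  have hδ3 : δ' ≤ 1 / 2 := (min_le_right _ _).trans (min_le_right _ _)
  have hpi := Real.pi_gt_three
  have hpi4 := Real.pi_le_four
  have hE' : ∃ᶠ q in 𝓝[>] t, q ∈ Sol U e x ∧ q ∈ Ioo t (t + δ') :=
    hE.and_eventually (Ioo_mem_nhdsGT (by linarith))
  -- inside
  have hin : ∃ᶠ q in 𝓝[>] t, ∃ k, (k = b ∨ k = d) ∧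
      ∀ p ∈ Ioo (t - δ') t, x + uv p + uv (q + 2 * π / 3) ∈ U k := by
    refine hE'.mono ?_
    rintro q ⟨hqE, hq1, hq2⟩
    have hpre : IsPreconnected ((fun p : ℝ => x + uv p + uv (q + 2 * π / 3)) '' Ioo (t - δ') t) := by
      refine isPreconnected_Ioo.image _ ?_
      have := continuous_uv'
      fun_prop
    have hsub : ∀ z ∈ (fun p : ℝ => x + uv p + uv (q + 2 * π / 3)) '' Ioo (t - δ') t,
        J U z ⊆ {b, d} ∧ J U z ≠ {b, d} := by
      rintro _ ⟨p, hp, rfl⟩
      constructor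
      · refine H.mixed_sub ?_ (Or.inl ⟨hA ⟨by linarith [hp.1], hp.2⟩, hqE⟩)
        have h1 : Real.sin (p - (q + 2 * π / 3)) < 0 :=
          Real.sin_neg_of_neg_of_neg_pi_lt (by linarith [hp.2]) (by linarith [hp.1])
        exact h1.ne
      · refine hN2 p q ?_ ?_
        · rw [abs_lt]; constructor <;> linarith [hp.1, hp.2]
        · rw [abs_lt]; constructor <;> linarith
    rcases H.cov.mono_two hpre (fun z hz => (hsub z hz).1) (fun z hz => (hsub z hz).2) with h1 | h1
    · exact ⟨b, Or.inl rfl, fun p hp => h1 ⟨p, hp, rfl⟩⟩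
    · exact ⟨d, Or.inr rfl, fun p hp => h1 ⟨p, hp, rfl⟩⟩
  -- outside
  have hout : ∃ᶠ p in 𝓝[>] t, ∃ k, (k = b ∨ k = d) ∧
      ∀ q ∈ Ioo (t - δ') t, x + uv p + uv (q + 2 * π / 3) ∈ U k := by
    refine hE'.mono ?_
    rintro p ⟨hpE, hp1, hp2⟩
    have hpre : IsPreconnected ((fun q : ℝ => x + uv p + uv (q + 2 * π / 3)) '' Ioo (t - δ') t) := by
      refine isPreconnected_Ioo.image _ ?_
      have := continuous_uv'
      fun_prop
    have hsub : ∀ z ∈ (fun q : ℝ => x + uv p + uv (q + 2 * π / 3)) '' Ioo (t - δ') t,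
        J U z ⊆ {b, d} ∧ J U z ≠ {b, d} := by
      rintro _ ⟨q, hq, rfl⟩
      constructor
      · refine H.mixed_sub ?_ (Or.inr ⟨hpE, hA ⟨by linarith [hq.1], hq.2⟩⟩)
        have h1 : Real.sin (p - (q + 2 * π / 3)) < 0 :=
          Real.sin_neg_of_neg_of_neg_pi_lt (by linarith [hq.1]) (by linarith [hq.2])
        exact h1.ne
      · refine hN2 p q ?_ ?_
        · rw [abs_lt]; constructor <;> linarith
        · rw [abs_lt]; constructor <;> linarith [hq.1, hq.2]
    rcases H.cov.mono_two hpre (fun z hz => (hsub z hz).1) (fun z hz => (hsub z hz).2) with h1 | h1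
    · exact ⟨b, Or.inl rfl, fun q hq => h1 ⟨q, hq, rfl⟩⟩
    · exact ⟨d, Or.inr rfl, fun q hq => h1 ⟨q, hq, rfl⟩⟩
  obtain ⟨k, hk⟩ := frequently_exists_fin hin
  obtain ⟨k', hk'⟩ := frequently_exists_fin hout
  have hkbd : k = b ∨ k = d := hk.exists.choose_spec.1
  have hkbd' : k' = b ∨ k' = d := hk'.exists.choose_spec.1
  have hs1 := sep_minus H.cov (x := x) (k := k) (t := t) hδ0 nhdsWithin_le_nhds
    (hk.mono fun q hq => hq.2)
  have hs2 := sep_plus H.cov (x := x) (k := k') (t := t) hδ0 nhdsWithin_le_nhds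
    (hk'.mono fun q hq => hq.2)
  refine ⟨k, k', ?_, hs1, hs2⟩
  have hbJ : b ∈ J U x := by rw [H.hJ]; simp
  have hdJ : d ∈ J U x := by rw [H.hJ]; simp
  rcases hkbd with rfl | rfl <;> rcases hkbd' with rfl | rfl
  · exact (sep_ne H.cov hbJ hs1 hs2).elim
  · exact Or.inl ⟨rfl, rfl⟩
  · exact Or.inr ⟨rfl, rfl⟩
  · exact (sep_ne H.cov hdJ hs1 hs2).elim

omit H in
lemma dist_sq_wedge (x : ℂ) (v r θ : ℝ) :
    dist (x + uv (v + r) - uv (v - r)) (x + uv θ) ^ 2
      = 1 + 4 * Real.sin r * (Real.sin r - Real.sin (θ - v)) := by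
  rw [dist_eq_norm, Complex.sq_norm, Complex.normSq_apply]
  simp only [Complex.add_re, Complex.add_im, Complex.sub_re, Complex.sub_im, uv_re, uv_im]
  rw [Real.cos_add, Real.cos_sub, Real.sin_add, Real.sin_sub, Real.sin_sub]
  have h1 := Real.sin_sq_add_cos_sq v
  have h2 := Real.sin_sq_add_cos_sq θ
  linear_combination (4 * Real.sin r ^ 2) * h1 + h2

omit H in
lemma wedge_inside (x : ℂ) {v θ : ℝ} (hs : 0 < Real.sin (θ - v)) :
    ∀ᶠ r in 𝓝[>] (0 : ℝ), dist (x + uv (v + r) - uv (v - r)) (x + uv θ) < 1 := by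
  have h1 : ∀ᶠ r in 𝓝[>] (0 : ℝ), Real.sin r < Real.sin (θ - v) := by
    refine Filter.Eventually.filter_mono nhdsWithin_le_nhds ?_
    exact Real.continuous_sin.continuousAt.eventually_lt continuousAt_const (by simpa using hs)
  have h2 : ∀ᶠ r in 𝓝[>] (0 : ℝ), r ∈ Ioo (0 : ℝ) 1 := Ioo_mem_nhdsGT one_pos
  filter_upwards [h1, h2] with r hr1 hr2
  have hpi := Real.pi_gt_three
  have hsr : 0 < Real.sin r := Real.sin_pos_of_pos_of_lt_pi hr2.1 (by linarith [hr2.2])
  have h3 := dist_sq_wedge x v r θ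
  have h4 : dist (x + uv (v + r) - uv (v - r)) (x + uv θ) ^ 2 < 1 ^ 2 := by
    rw [h3]
    nlinarith
  exact lt_of_pow_lt_pow_left₀ 2 zero_le_one h4

omit H in
lemma wedge_outside (x : ℂ) {v θ : ℝ} (hs : Real.sin (θ - v) < 0) :
    ∀ᶠ r in 𝓝[>] (0 : ℝ), 1 < dist (x + uv (v + r) - uv (v - r)) (x + uv θ) := by
  have h2 : ∀ᶠ r in 𝓝[>] (0 : ℝ), r ∈ Ioo (0 : ℝ) 1 := Ioo_mem_nhdsGT one_pos
  filter_upwards [h2] with r hr2
  have hpi := Real.pi_gt_three
  have hsr : 0 < Real.sin r := Real.sin_pos_of_pos_of_lt_pi hr2.1 (by linarith [hr2.2])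
  have h3 := dist_sq_wedge x v r θ
  have h4 : 1 ^ 2 < dist (x + uv (v + r) - uv (v - r)) (x + uv θ) ^ 2 := by
    rw [h3]
    nlinarith
  exact lt_of_pow_lt_pow_left₀ 2 dist_nonneg h4

theorem false : False := by
  obtain ⟨t, δ, hδ, hA, hE⟩ := H.exists_transition
  obtain ⟨k, k', hkk, hk, hk'⟩ := H.sep_at hδ hA hE
  have hA2 : Ioo (t + 2 * π / 3 - δ) (t + 2 * π / 3) ⊆ Sol U a x ∩ Sol U c x := by
    intro s hs
    have h1 := H.A_shift2 (hA (show s - 2 * π / 3 ∈ Ioo (t - δ) t from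
      ⟨by linarith [hs.1], by linarith [hs.2]⟩))
    rwa [sub_add_cancel] at h1
  have hE2 : ∃ᶠ q in 𝓝[>] (t + 2 * π / 3), q ∈ Sol U e x := by
    rw [frequently_nhdsWithin_iff] at hE ⊢
    have hmap : Tendsto (fun s : ℝ => s + 2 * π / 3) (𝓝 t) (𝓝 (t + 2 * π / 3)) := by
      have : Continuous (fun s : ℝ => s + 2 * π / 3) := by fun_prop
      exact this.tendsto t
    refine hmap.frequently (hE.mono ?_)
    rintro q ⟨hq1, hq2⟩
    refine ⟨H.E_shift2 hq1, ?_⟩
    change t + 2 * π / 3 < q + 2 * π / 3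
    have : t < q := hq2
    linarith
  obtain ⟨l, l', hll, hl, hl'⟩ := H.sep_at hδ hA2 hE2
  have hpi := Real.pi_pos
  -- the two directions
  obtain ⟨v₁, hv₁, hv₁'⟩ := H.dense_union.inter_open_nonempty
    (Ioo t (t + π / 3)) isOpen_Ioo (nonempty_Ioo.2 (by linarith))
  obtain ⟨v₂, hv₂, hv₂'⟩ := H.dense_union.inter_open_nonempty
    (Ioo (t - 2 * π / 3) t) isOpen_Ioo (nonempty_Ioo.2 (by linarith))
  have key : ∀ v : ℝ, v ∈ Sol U e x ∪ (Sol U a x ∩ Sol U c x) →
      ∀ᶠ r in 𝓝[>] (0 : ℝ), (∃ m ∈ J U (x + uv (v + r) - uv (v - r)), m = b ∨ m = d) ∧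
        (x + uv (v + r) - uv (v - r) ∈ F U k →
          dist (x + uv (v + r) - uv (v - r)) (x + uv (t + π / 3)) ≤ 1) ∧
        (x + uv (v + r) - uv (v - r) ∈ F U k' →
          1 ≤ dist (x + uv (v + r) - uv (v - r)) (x + uv (t + π / 3))) ∧
        (x + uv (v + r) - uv (v - r) ∈ F U l →
          dist (x + uv (v + r) - uv (v - r)) (x + uv (t + 2 * π / 3 + π / 3)) ≤ 1) ∧
        (x + uv (v + r) - uv (v - r) ∈ F U l' →
          1 ≤ dist (x + uv (v + r) - uv (v - r)) (x + uv (t + 2 * π / 3 + π / 3))) := by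
    intro v hv
    have h0 : Tendsto (fun r : ℝ => x + uv (v + r) - uv (v - r)) (𝓝[>] 0) (𝓝 x) := by
      have := continuous_uv'
      have hcc : Continuous (fun r : ℝ => x + uv (v + r) - uv (v - r)) := by fun_prop
      have h1 := hcc.tendsto 0
      simp only [add_zero, sub_zero, add_sub_cancel_right] at h1
      exact h1.mono_left nhdsWithin_le_nhds
    have hw : ∀ᶠ r in 𝓝[>] (0 : ℝ), r ≠ 0 → J U (x + uv (v + r) - uv (v - r)) ⊆ {b, d} :=
      (H.wedge hv).filter_mono nhdsWithin_le_nhds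
    filter_upwards [hw, self_mem_nhdsWithin, h0.eventually hk, h0.eventually hk',
      h0.eventually hl, h0.eventually hl'] with r hr1 hr2 hr3 hr4 hr5 hr6
    refine ⟨?_, hr3, hr4, hr5, hr6⟩
    obtain ⟨m, hm⟩ := H.cov.J_nonempty (x + uv (v + r) - uv (v - r))
    have h2 := hr1 (ne_of_gt hr2) hm
    simp only [Finset.mem_insert, Finset.mem_singleton] at h2
    exact ⟨m, hm, h2⟩
  have hbd := H.ne_bd
  -- first direction: both centres inside
  have e1 : k = l := by
    have i1 := wedge_inside x (v := v₁) (θ := t + π / 3)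
      (Real.sin_pos_of_pos_of_lt_pi (by linarith [hv₁.2]) (by linarith [hv₁.1]))
    have i2 := wedge_inside x (v := v₁) (θ := t + 2 * π / 3 + π / 3)
      (Real.sin_pos_of_pos_of_lt_pi (by linarith [hv₁.2]) (by linarith [hv₁.1]))
    obtain ⟨r, ⟨⟨m, hm, hmbd⟩, h1, h2, h3, h4⟩, h5, h6⟩ := ((key v₁ hv₁').and (i1.and i2)).exists
    have n1 : m ≠ k' := by
      rintro rfl
      exact absurd (h2 (mem_J.1 hm)) (not_le.2 h5)
    have n2 : m ≠ l' := by
      rintro rfl
      exact absurd (h4 (mem_J.1 hm)) (not_le.2 h6)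
    rcases hkk with ⟨rfl, rfl⟩ | ⟨rfl, rfl⟩ <;> rcases hll with ⟨rfl, rfl⟩ | ⟨rfl, rfl⟩ <;>
      rcases hmbd with rfl | rfl <;> simp_all
  have e2 : k ≠ l := by
    have i1 := wedge_inside x (v := v₂) (θ := t + π / 3)
      (Real.sin_pos_of_pos_of_lt_pi (by linarith [hv₂.2]) (by linarith [hv₂.1]))
    have i2 := wedge_outside x (v := v₂) (θ := t + 2 * π / 3 + π / 3) (by
      have h1 : 0 < Real.sin (t + 2 * π / 3 + π / 3 - v₂ - π) :=
        Real.sin_pos_of_pos_of_lt_pi (by linarith [hv₂.2]) (by linarith [hv₂.1])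
      rw [Real.sin_sub_pi] at h1
      linarith)
    obtain ⟨r, ⟨⟨m, hm, hmbd⟩, h1, h2, h3, h4⟩, h5, h6⟩ := ((key v₂ hv₂').and (i1.and i2)).exists
    have n1 : m ≠ k' := by
      rintro rfl
      exact absurd (h2 (mem_J.1 hm)) (not_le.2 h5)
    have n2 : m ≠ l := by
      rintro rfl
      exact absurd (h3 (mem_J.1 hm)) (not_le.2 h6)
    rcases hkk with ⟨rfl, rfl⟩ | ⟨rfl, rfl⟩ <;> rcases hll with ⟨rfl, rfl⟩ | ⟨rfl, rfl⟩ <;>
      rcases hmbd with rfl | rfl <;> simp_all
  exact e2 e1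

end Alt

/-- one half of III (b) -/
theorem half (h : Cov U) {x : ℂ} {a b c d e : Fin 5} (hn : [a, b, c, d, e].Nodup)
    (hJ : J U x = {a, b, c, d}) (hab : Acc U x a b) (hbc : Acc U x b c) (hcd : Acc U x c d)
    (hda : Acc U x d a) (hbd : ¬ Acc U x b d) : (Sol U b x ∩ Sol U d x).Nonempty := by
  by_contra hcon
  have H : Alt U x a b c d e := by
    refine ⟨h, hn, hJ, hbd, ?_⟩
    intro t ht
    have five : ∀ k : Fin 5, k = a ∨ k = b ∨ k = c ∨ k = d ∨ k = e := by
      revert hn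
      clear hcon hda hcd hbc hab hJ hbd
      revert a b c d e
      decide
    by_cases heS : e ∈ J U (x + uv t)
    · exact Or.inl ((mem_Sol_iff ht).2 heS)
    right
    have hdist : dist (x + uv t) x = 1 := by
      rw [dist_eq_norm, add_sub_cancel_left, norm_uv]
    have hcard := h.genC_card ht
    have hne := h.J_nonempty (x + uv t)
    have hpos := Finset.card_pos.2 hne
    have hsing : ∀ k, k ≠ e → J U (x + uv t) ≠ {k} := by
      intro k hk hS
      have h1 := h.single_not_mem hS.subset hdist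
      apply h1
      rw [hJ]
      rcases five k with rfl | rfl | rfl | rfl | rfl <;> simp_all
    have hpair : ∀ i j, Acc U x i j → J U (x + uv t) ≠ {i, j} := by
      intro i j hij hS
      exact h.not_acc hS.subset hdist hij
    have hac' : J U (x + uv t) = {a, c} := by
      rcases (show (J U (x + uv t)).card = 1 ∨ (J U (x + uv t)).card = 2 by omega) with h1 | h1
      · obtain ⟨k, hk⟩ := Finset.card_eq_one.1 h1
        by_cases hke : k = e
        · exfalso; apply heS; rw [hk, hke]; simp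
        · exact absurd hk (hsing k hke)
      · obtain ⟨i, j, hij, hS⟩ := Finset.card_eq_two.1 h1
        have hbd' : J U (x + uv t) ≠ {b, d} := by
          intro hS'
          apply hcon
          refine ⟨t, (mem_Sol_iff ht).2 ?_, (mem_Sol_iff ht).2 ?_⟩ <;> rw [hS'] <;> simp
        have q1 := hpair a b hab
        have q2 := hpair b c hbc
        have q3 := hpair c d hcd
        have q4 := hpair d a hda
        have hi : i ≠ e := by rintro rfl; apply heS; rw [hS]; simp
        have hj : j ≠ e := by rintro rfl; apply heS; rw [hS]; simp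
        rw [hS] at q1 q2 q3 q4 hbd' ⊢
        rcases five i with h2 | h2 | h2 | h2 | h2 <;> rcases five j with h3 | h3 | h3 | h3 | h3 <;>
          subst h2 <;> subst h3 <;>
          first
          | exact absurd rfl hij
          | exact absurd rfl hi
          | exact absurd rfl hj
          | rfl
          | exact Finset.pair_comm _ _
          | exact absurd rfl q1
          | exact absurd rfl q2
          | exact absurd rfl q3
          | exact absurd rfl q4
          | exact absurd rfl hbd'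
          | exact absurd (Finset.pair_comm _ _) q1
          | exact absurd (Finset.pair_comm _ _) q2
          | exact absurd (Finset.pair_comm _ _) q3
          | exact absurd (Finset.pair_comm _ _) q4
          | exact absurd (Finset.pair_comm _ _) hbd'
    exact ⟨(mem_Sol_iff ht).2 (by rw [hac']; simp), (mem_Sol_iff ht).2 (by rw [hac']; simp)⟩
  exact H.false

/-- **III (b)** -/
theorem III_b (h : Cov U) {x : ℂ} {a b c d e : Fin 5} (hn : [a, b, c, d, e].Nodup)
    (hJ : J U x = {a, b, c, d}) (hab : Acc U x a b) (hbc : Acc U x b c) (hcd : Acc U x c d)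
    (hda : Acc U x d a) (hac : ¬ Acc U x a c) (hbd : ¬ Acc U x b d) :
    (Sol U a x ∩ Sol U c x).Nonempty ∧ (Sol U b x ∩ Sol U d x).Nonempty := by
  refine ⟨?_, half h hn hJ hab hbc hcd hda hbd⟩
  have hn' : [b, c, d, a, e].Nodup := by
    simp only [List.nodup_cons, List.mem_cons, List.not_mem_nil, or_false, not_or] at hn ⊢
    tauto
  have hJ' : J U x = {b, c, d, a} := by
    rw [hJ]
    ext k
    simp only [Finset.mem_insert, Finset.mem_singleton]
    tauto
  have hac' : ¬ Acc U x c a := by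
    intro h1
    apply hac
    unfold Acc at h1 ⊢
    rwa [Finset.pair_comm] at h1
  have := half h hn' hJ' hbc hcd hda hab hac'
  rwa [inter_comm] at this

end

end Crest.Agent.R40.T3.C4b
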