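import Crest.Agent.R40.T3Tot

/-!
# R40 / T3 : palette calculus about a root
-/

set_option autoImplicit false

open Set Metric Topology Filter

namespace Crest.Agent.R40.T3

section
variable {U : Fin 5 → Set ℂ}

/-- `θ₀` is generic for the rotated point `p` about the root `y`. -/
def Gen (U : Fin 5 → Set ℂ) (y p : ℂ) (θ₀ : ℝ) : Prop :=
  ∀ᶠ θ in 𝓝 θ₀, J U (rot y p θ) = J U (rot y p θ₀)

/-- Simultaneous generic angles exist in every nonempty open set, for finitely many
(root, point) pairs. -/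
lemma exists_gen (P : Finset (ℂ × ℂ)) {O : Set ℝ} (hO : IsOpen O) (hO' : O.Nonempty) :
    ∃ θ₀ ∈ O, ∀ k ∈ P, Gen U k.1 k.2 θ₀ := by
  obtain ⟨θ₀, h0, hev⟩ := exists_local_const (U := U) P (fun k θ => rot k.1 k.2 θ)
    (fun k _ => continuous_rot k.1 k.2) hO'
  refine ⟨θ₀, h0, fun k hk => ?_⟩
  rw [hO.nhdsWithin_eq h0] at hev
  filter_upwards [hev] with θ hθ using hθ k hk

lemma Gen.exists_Ioo {y p : ℂ} {θ₀ : ℝ} (hg : Gen U y p θ₀) :
    ∃ δ > 0, ∀ θ ∈ Ioo (θ₀ - δ) (θ₀ + δ), J U (rot y p θ) = J U (rot y p θ₀) := by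
  obtain ⟨δ, hδ, h⟩ := Metric.eventually_nhds_iff.1 hg
  refine ⟨δ, hδ, fun θ hθ => h ?_⟩
  rw [Real.dist_eq, abs_lt]
  constructor <;> linarith [hθ.1, hθ.2]

/-- exact pairs accumulate at `y` -/
def Acc (U : Fin 5 → Set ℂ) (y : ℂ) (a b : Fin 5) : Prop :=
  ∃ᶠ z in 𝓝 y, J U z = {a, b}

namespace Cov
variable (h : Cov U)
include h

lemma eventually_pair {a b : Fin 5} {x : ℂ} (hx : J U x ⊆ {a, b}) :
    ∀ᶠ w in 𝓝 x, w ∈ F U a ∨ w ∈ F U b := by
  filter_upwards [J_usc (U := U) x] with w hw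
  obtain ⟨i, hi⟩ := h.cover w
  have := hx (hw (mem_J.2 hi))
  simp only [Finset.mem_insert, Finset.mem_singleton] at this
  rcases this with rfl | rfl
  · exact Or.inl hi
  · exact Or.inr hi

/-- (L0') a unit neighbour of an exact pair point sees another colour -/
lemma exists_other {a b : Fin 5} {p q : ℂ} (hp : J U p = {a, b}) (hpq : dist q p = 1) :
    ∃ c ∈ J U q, c ≠ a ∧ c ≠ b := by
  by_contra hcon
  push Not at hcon
  have hq : J U q ⊆ {a, b} := by
    intro c hc
    by_cases hca : c = a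
    · simp [hca]
    · simp [hcon c hc hca]
  exact h.pair_lemma (mem_J.1 (by rw [hp]; simp)) (mem_J.1 (by rw [hp]; simp))
    (h.eventually_pair hp.subset) hpq (h.eventually_pair hq)

/-- (F5) -/
lemma not_acc {a b : Fin 5} {x y : ℂ} (hx : J U x ⊆ {a, b}) (hxy : dist x y = 1) :
    ¬ Acc U y a b := by
  intro hacc
  have hev := (h.eventually_pair hx).eventually_nhds
  have ht : Tendsto (fun z : ℂ => z + (x - y)) (𝓝 y) (𝓝 x) := by
    have : Continuous (fun z : ℂ => z + (x - y)) := by fun_prop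
    have := this.tendsto y
    simpa using this
  obtain ⟨z, hz, hz'⟩ := (hacc.and_eventually (ht.eventually hev)).exists
  refine h.pair_lemma (mem_J.1 (by rw [hz]; simp)) (mem_J.1 (by rw [hz]; simp))
    (h.eventually_pair hz.subset) (q := z + (x - y)) ?_ hz'
  rw [dist_eq_norm]
  have : z + (x - y) - z = x - y := by ring
  rw [this, ← dist_eq_norm, hxy]

/-- (P1) generic palettes away from the root have at most two colours -/
lemma card_le_two {y p : ℂ} {θ₀ : ℝ} (hp : p ≠ 0) (hg : Gen U y p θ₀) :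
    (J U (rot y p θ₀)).card ≤ 2 := by
  by_contra hcon
  push Not at hcon
  obtain ⟨T, hT, hT3⟩ := Finset.exists_subset_card_eq (show 3 ≤ (J U (rot y p θ₀)).card by omega)
  obtain ⟨a, b, d, hab, had, hbd, rfl⟩ := Finset.card_eq_three.1 hT3
  obtain ⟨δ, hδ, hJ⟩ := hg.exists_Ioo
  set C : Set ℂ := rot y p '' Ioo (θ₀ - δ) (θ₀ + δ) with hC
  have hCp : IsPreconnected C := isPreconnected_Ioo.image _ (continuous_rot y p).continuousOn
  have hsub : ∀ i ∈ ({a, b, d} : Finset (Fin 5)), C ⊆ F U i := by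
    rintro i hi _ ⟨θ, hθ, rfl⟩
    rw [← mem_J, hJ θ hθ]
    exact hT hi
  -- two distinct points
  set δ' : ℝ := min (δ / 2) 1 with hδ'
  have hδ'0 : 0 < δ' := lt_min (by linarith) one_pos
  have hδ'1 : δ' < δ := lt_of_le_of_lt (min_le_left _ _) (by linarith)
  have h1 : rot y p θ₀ ∈ C := ⟨θ₀, ⟨by linarith, by linarith⟩, rfl⟩
  have h2 : rot y p (θ₀ + δ') ∈ C := ⟨θ₀ + δ', ⟨by linarith, by linarith⟩, rfl⟩
  have h3 := h.no_triple_connected hab had hbd hCp (hsub a (by simp)) (hsub b (by simp))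
    (hsub d (by simp)) h1 h2
  have h4 : dist (rot y p θ₀) (rot y p (θ₀ + δ')) = 0 := by rw [← h3, dist_self]
  rw [dist_rot_rot_angle] at h4
  have h5 : (θ₀ - (θ₀ + δ')) / 2 = -(δ' / 2) := by ring
  rw [h5, Real.sin_neg, abs_neg] at h4
  have h6 : 0 < Real.sin (δ' / 2) :=
    Real.sin_pos_of_pos_of_lt_pi (by linarith) (by
      have : δ' ≤ 1 := min_le_right _ _
      linarith [Real.pi_gt_three])
  have h7 : 0 < ‖p‖ := norm_pos_iff.2 hp
  have : 0 < 2 * |Real.sin (δ' / 2)| * ‖p‖ := by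
    have := abs_pos.2 h6.ne'
    positivity
  linarith

/-- (P2) contact rule: if an arc of the circle about `y` through `p` is coloured `a`, then every
point `q` of colour `a` at distance one from `rot y p θ₀` is collinear with it and the root. -/
lemma arc_contact {y p q : ℂ} {θ₀ : ℝ} {a : Fin 5} (hg : Gen U y p θ₀)
    (ha : a ∈ J U (rot y p θ₀)) (hq : a ∈ J U q) (hd : dist (rot y p θ₀) q = 1) :
    ((rot y p θ₀ - y) * (starRingEnd ℂ) (q - y)).im = 0 := by
  by_contra him
  obtain ⟨δ, hδ, hJ⟩ := hg.exists_Ioo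
  set C : Set ℂ := rot y p '' Ioo (θ₀ - δ) (θ₀ + δ) with hC
  have hCp : IsPreconnected C := isPreconnected_Ioo.image _ (continuous_rot y p).continuousOn
  have hsub : C ⊆ F U a := by
    rintro _ ⟨θ, hθ, rfl⟩
    rw [← mem_J, hJ θ hθ]
    exact ha
  -- the squared distance as a function of the angle
  set v : ℂ := rot y p θ₀ - y with hv
  set w : ℂ := v * (starRingEnd ℂ) (q - y) with hw
  have hrot : ∀ t : ℝ, rot y p (θ₀ + t) = rot y v t := by
    intro t
    rw [hv, rot, rot, rot, add_sub_cancel_left]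
    push_cast
    rw [add_mul, Complex.exp_add]
    ring
  have hf : ∀ t : ℝ, dist (rot y p (θ₀ + t)) q ^ 2 =
      1 + 2 * ((1 - Real.cos t) * w.re + Real.sin t * w.im) := by
    intro t
    have h0 : dist (rot y v 0) q ^ 2 = 1 := by
      rw [← hrot, add_zero, hd, one_pow]
    rw [dist_sq_eq_normSq, normSq_rot_sub] at h0
    rw [hrot, dist_sq_eq_normSq, normSq_rot_sub]
    rw [Real.cos_zero, Real.sin_zero] at h0
    rw [hw]
    linarith
  -- sign change
  have key : ∀ s : ℝ, (s = 1 ∨ s = -1) → 0 < s * w.im → ∀ᶠ t in 𝓝[>] (0 : ℝ),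
      0 < (1 - Real.cos (s * t)) * w.re + Real.sin (s * t) * w.im := by
    intro s hs hsw
    have h1 : ∀ᶠ t in 𝓝[>] (0 : ℝ), t * |w.re| < |w.im| := by
      have : Tendsto (fun t : ℝ => t * |w.re|) (𝓝 0) (𝓝 0) := by
        have hcc : Continuous (fun t : ℝ => t * |w.re|) := by fun_prop
        simpa using hcc.tendsto 0
      exact (this.mono_left nhdsWithin_le_nhds).eventually (eventually_lt_nhds (abs_pos.2 him))
    have h2 : ∀ᶠ t in 𝓝[>] (0 : ℝ), t < 1 := nhdsWithin_le_nhds (eventually_lt_nhds one_pos)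
    filter_upwards [h1, h2, self_mem_nhdsWithin] with t ht1 ht2 ht3
    have ht3 : 0 < t := ht3
    have hc : Real.cos (s * t) = Real.cos t := by
      rcases hs with rfl | rfl <;> simp
    have hs2 : Real.sin (s * t) = s * Real.sin t := by
      rcases hs with rfl | rfl <;> simp
    rw [hc, hs2]
    have hcos : 1 - Real.cos t ≤ t ^ 2 / 2 := by
      have := Real.one_sub_sq_div_two_le_cos (x := t)
      linarith
    have hcos0 : 0 ≤ 1 - Real.cos t := by linarith [Real.cos_le_one t]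
    have hsin : t / 2 < Real.sin t := by
      have := Real.sin_gt_sub_cube ht3
      have h2 : t ^ 2 < 1 := by nlinarith
      have h3 : t * t ^ 2 < t * 1 := mul_lt_mul_of_pos_left h2 ht3
      nlinarith
    have habs : |w.im| = s * w.im := by
      rcases hs with rfl | rfl
      · rw [one_mul] at *; exact abs_of_pos hsw
      · rw [neg_one_mul] at *; exact abs_of_neg (by linarith)
    have h3 : -(t ^ 2 / 2 * |w.re|) ≤ (1 - Real.cos t) * w.re := by
      have : -|w.re| ≤ w.re := neg_abs_le _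
      have h0 : 0 ≤ |w.re| := abs_nonneg _
      nlinarith
    have h4 : t / 2 * |w.im| < s * Real.sin t * w.im := by
      rw [habs]
      have : 0 < s * w.im := hsw
      nlinarith
    have h5 : t ^ 2 / 2 * |w.re| < t / 2 * |w.im| := by
      have : t / 2 * (t * |w.re|) < t / 2 * |w.im| := by
        apply mul_lt_mul_of_pos_left ht1; linarith
      nlinarith
    linarith
  have key2 : ∀ s : ℝ, (s = 1 ∨ s = -1) → s * w.im < 0 → ∀ᶠ t in 𝓝[>] (0 : ℝ),
      (1 - Real.cos (s * t)) * w.re + Real.sin (s * t) * w.im < 0 := by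
    intro s hs hsw
    have h1 : ∀ᶠ t in 𝓝[>] (0 : ℝ), t * |w.re| < |w.im| := by
      have : Tendsto (fun t : ℝ => t * |w.re|) (𝓝 0) (𝓝 0) := by
        have hcc : Continuous (fun t : ℝ => t * |w.re|) := by fun_prop
        simpa using hcc.tendsto 0
      exact (this.mono_left nhdsWithin_le_nhds).eventually (eventually_lt_nhds (abs_pos.2 him))
    have h2 : ∀ᶠ t in 𝓝[>] (0 : ℝ), t < 1 := nhdsWithin_le_nhds (eventually_lt_nhds one_pos)
    filter_upwards [h1, h2, self_mem_nhdsWithin] with t ht1 ht2 ht3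
    have ht3 : 0 < t := ht3
    have hc : Real.cos (s * t) = Real.cos t := by
      rcases hs with rfl | rfl <;> simp
    have hs2 : Real.sin (s * t) = s * Real.sin t := by
      rcases hs with rfl | rfl <;> simp
    rw [hc, hs2]
    have hcos : 1 - Real.cos t ≤ t ^ 2 / 2 := by
      have := Real.one_sub_sq_div_two_le_cos (x := t)
      linarith
    have hcos0 : 0 ≤ 1 - Real.cos t := by linarith [Real.cos_le_one t]
    have hsin : t / 2 < Real.sin t := by
      have := Real.sin_gt_sub_cube ht3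
      have h2 : t ^ 2 < 1 := by nlinarith
      have h3 : t * t ^ 2 < t * 1 := mul_lt_mul_of_pos_left h2 ht3
      nlinarith
    have habs : |w.im| = -(s * w.im) := by
      rcases hs with rfl | rfl
      · rw [one_mul] at *; exact abs_of_neg hsw
      · rw [neg_one_mul] at *; rw [neg_neg]; exact abs_of_pos (by linarith)
    have h3 : (1 - Real.cos t) * w.re ≤ t ^ 2 / 2 * |w.re| := by
      have : w.re ≤ |w.re| := le_abs_self _
      have h0 : 0 ≤ |w.re| := abs_nonneg _
      nlinarith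
    have h4 : s * Real.sin t * w.im < -(t / 2 * |w.im|) := by
      rw [habs]
      nlinarith
    have h5 : t ^ 2 / 2 * |w.re| < t / 2 * |w.im| := by
      have : t / 2 * (t * |w.re|) < t / 2 * |w.im| := by
        apply mul_lt_mul_of_pos_left ht1; linarith
      nlinarith
    linarith
  have hsmall : ∀ᶠ t in 𝓝[>] (0 : ℝ), t < δ := nhdsWithin_le_nhds (eventually_lt_nhds hδ)
  have hpos : ∀ᶠ t in 𝓝[>] (0 : ℝ), 0 < t := self_mem_nhdsWithin
  -- choose `s` with `s * w.im > 0`
  obtain ⟨s, hs, hsw⟩ : ∃ s : ℝ, (s = 1 ∨ s = -1) ∧ 0 < s * w.im := by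
    rcases lt_or_gt_of_ne him with h1 | h1
    · exact ⟨-1, Or.inr rfl, by linarith⟩
    · exact ⟨1, Or.inl rfl, by linarith⟩
  obtain ⟨t, ht1, ht2, ht3, ht4⟩ := ((key s hs hsw).and
    ((key2 (-s) (by rcases hs with rfl | rfl <;> simp) (by linarith)).and
      (hsmall.and hpos))).exists
  have hm1 : rot y p (θ₀ + s * t) ∈ C := by
    refine ⟨_, ⟨?_, ?_⟩, rfl⟩ <;> rcases hs with rfl | rfl <;> linarith
  have hm2 : rot y p (θ₀ + -s * t) ∈ C := by
    refine ⟨_, ⟨?_, ?_⟩, rfl⟩ <;> rcases hs with rfl | rfl <;> linarith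
  have h1 : 1 < dist (rot y p (θ₀ + s * t)) q := by
    have := hf (s * t)
    nlinarith [dist_nonneg (x := rot y p (θ₀ + s * t)) (y := q)]
  have h2 : dist (rot y p (θ₀ + -s * t)) q < 1 := by
    have := hf (-s * t)
    nlinarith [dist_nonneg (x := rot y p (θ₀ + -s * t)) (y := q)]
  exact h.not_cross hCp hsub (mem_J.1 hq) hm2 hm1 h2 h1

/-- (P2') generic palettes of adjacent points not collinear with the root are disjoint. -/
lemma disjoint_palettes {y p p' : ℂ} {θ₀ : ℝ} (hg : Gen U y p θ₀) (hd : ‖p - p'‖ = 1)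
    (him : (p * (starRingEnd ℂ) p').im ≠ 0) :
    Disjoint (J U (rot y p θ₀)) (J U (rot y p' θ₀)) := by
  rw [Finset.disjoint_left]
  intro a ha ha'
  have h1 := h.arc_contact hg ha ha' (by rw [dist_rot_rot, hd])
  apply him
  have h2 : (rot y p θ₀ - y) * (starRingEnd ℂ) (rot y p' θ₀ - y) = p * (starRingEnd ℂ) p' := by
    have e1 : rot y p θ₀ - y = Complex.exp (θ₀ * Complex.I) * p := by rw [rot]; ring
    have e2 : rot y p' θ₀ - y = Complex.exp (θ₀ * Complex.I) * p' := by rw [rot]; ring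
    rw [e1, e2, map_mul]
    have : Complex.exp (θ₀ * Complex.I) * (starRingEnd ℂ) (Complex.exp (θ₀ * Complex.I)) = 1 := by
      rw [Complex.mul_conj, ← Complex.sq_norm, Complex.norm_exp_ofReal_mul_I]; simp
    calc _ = (Complex.exp (θ₀ * Complex.I) * (starRingEnd ℂ) (Complex.exp (θ₀ * Complex.I)))
          * (p * (starRingEnd ℂ) p') := by ring
      _ = _ := by rw [this, one_mul]
  rw [h2] at h1
  exact h1

/-- (P2'') two roots at distance one: the palettes of the two copies are disjoint -/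
lemma disjoint_palettes_roots {y e p : ℂ} {θ₀ : ℝ} (hg : Gen U y p θ₀) (he : ‖e‖ = 1)
    (him : (rot 0 p θ₀ * (starRingEnd ℂ) e).im ≠ 0) :
    Disjoint (J U (rot y p θ₀)) (J U (rot (y + e) p θ₀)) := by
  rw [Finset.disjoint_left]
  intro a ha ha'
  have hsub : rot (y + e) p θ₀ - rot y p θ₀ = e := by simp only [rot]; ring
  have h1 := h.arc_contact hg ha ha' (by
    rw [dist_comm, dist_eq_norm, hsub, he])
  apply him
  have e1 : rot y p θ₀ - y = rot 0 p θ₀ := by simp only [rot]; ring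
  have e2 : rot (y + e) p θ₀ - y = rot 0 p θ₀ + e := by simp only [rot]; ring
  rw [e1, e2, map_add, mul_add, Complex.add_im, Complex.mul_conj, Complex.ofReal_im,
    zero_add] at h1
  exact h1

/-- (P3) a unit neighbour with a one-colour palette has a colour not in the root's palette -/
lemma single_not_mem {y x : ℂ} {k : Fin 5} (hx : J U x ⊆ {k}) (hd : dist x y = 1) :
    k ∉ J U y := by
  intro hk
  exact h.dist_ne_of_mem (mem_J.1 hk) (h.mem_of_J_subset hx) (by rw [dist_comm]; exact hd)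

end Cov
end

end Crest.Agent.R40.T3
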