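import Mathlib

/-!
# R40: zero-dimensional compact sets (helper620)

`ZD K`: for every `ε > 0` the set `K` is a finite disjoint union of compact pieces of diameter
`< ε`. Compact totally disconnected sets have this property, it is stable under finite unions, and
it implies total disconnectedness. Consequence: in a proper metric space a finite union of closed
totally disconnected sets is totally disconnected.
-/

set_option autoImplicit false

open Set Filter Topology Metric

namespace Crest.Agent.R40.Topo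

variable {X : Type*} [MetricSpace X]

/-- for every `ε > 0` the set `K` is a finite disjoint union of compact pieces of diameter
`< ε`. -/
def ZD (K : Set X) : Prop :=
  ∀ ε > 0, ∃ (ι : Type) (_ : Finite ι) (P : ι → Set X), (∀ i, IsCompact (P i)) ∧
    (⋃ i, P i) = K ∧ (∀ i j, i ≠ j → Disjoint (P i) (P j)) ∧
    ∀ i, ∀ a ∈ P i, ∀ b ∈ P i, dist a b < ε

lemma ZD.isCompact {K : Set X} (h : ZD K) : IsCompact K := by
  obtain ⟨ι, hι, P, h1, h2, -⟩ := h 1 one_pos
  rw [← h2]
  exact isCompact_iUnion h1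

lemma ZD.empty : ZD (∅ : Set X) := fun ε _ =>
  ⟨PEmpty, inferInstance, fun i => i.elim, fun i => i.elim, by simp, fun i => i.elim,
    fun i => i.elim⟩

lemma ZD.of_isCompact {K : Set X} (hK : IsCompact K) (ht : IsTotallyDisconnected K) : ZD K := by
  intro ε hε
  have : CompactSpace K := isCompact_iff_compactSpace.1 hK
  have : TotallyDisconnectedSpace K := totallyDisconnectedSpace_subtype_iff.2 ht
  have h1 : ∀ x : K, ∃ V : Set K, IsClopen V ∧ x ∈ V ∧ V ⊆ ball x (ε / 2) := fun x =>
    compact_exists_isClopen_in_isOpen isOpen_ball (mem_ball_self (by positivity))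
  choose V hV hxV hVb using h1
  obtain ⟨t, ht'⟩ := isCompact_univ.elim_finite_subcover V (fun x => (hV x).isOpen)
    (fun x _ => mem_iUnion.2 ⟨x, hxV x⟩)
  -- index the finite family by `Fin n`
  let n := t.card
  let e : t ≃ Fin n := t.equivFin
  let A : Fin n → Set K := fun i => V (e.symm i)
  have hA : ∀ i, IsClopen (A i) := fun i => hV _
  have hcov : ⋃ i, A i = univ := by
    apply eq_univ_of_univ_subset
    intro x hx
    obtain ⟨y, hy, hxy⟩ := mem_iUnion₂.1 (ht' hx)
    refine mem_iUnion.2 ⟨e ⟨y, hy⟩, ?_⟩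
    simpa [A] using hxy
  let B : Fin n → Set K := fun i => A i \ ⋃ j : {j : Fin n // j < i}, A j
  have hB : ∀ i, IsClosed (B i) := by
    intro i
    refine (hA i).isClosed.sdiff ?_
    exact isOpen_iUnion fun j => (hA j).isOpen
  refine ⟨Fin n, inferInstance, fun i => (fun x : K => (x : X)) '' B i, ?_, ?_, ?_, ?_⟩
  · intro i
    exact (hB i).isCompact.image continuous_subtype_val
  · ext x
    constructor
    · intro hx
      obtain ⟨i, y, hy, rfl⟩ := mem_iUnion.1 hx
      exact y.2
    · intro hx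
      have : ∃ i, (⟨x, hx⟩ : K) ∈ A i := by
        have : (⟨x, hx⟩ : K) ∈ ⋃ i, A i := by rw [hcov]; trivial
        exact mem_iUnion.1 this
      classical
      have hne : (Finset.univ.filter (fun i => (⟨x, hx⟩ : K) ∈ A i)).Nonempty := by
        obtain ⟨i, hi⟩ := this
        exact ⟨i, by simp [hi]⟩
      set m := (Finset.univ.filter (fun i => (⟨x, hx⟩ : K) ∈ A i)).min' hne with hm
      refine mem_iUnion.2 ⟨m, ⟨x, hx⟩, ⟨?_, ?_⟩, rfl⟩
      · have := Finset.min'_mem _ hne
        exact (Finset.mem_filter.1 this).2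
      · intro hj
        obtain ⟨⟨j, hj1⟩, hj2⟩ := mem_iUnion.1 hj
        have := Finset.min'_le (Finset.univ.filter (fun i => (⟨x, hx⟩ : K) ∈ A i)) j
          (by simp only [Finset.mem_filter, Finset.mem_univ, true_and]; exact hj2)
        exact absurd hj1 (not_lt.2 this)
  · intro i j hij
    rw [Set.disjoint_left]
    rintro _ ⟨y, hy, rfl⟩ ⟨z, hz, hzy⟩
    have hzy' : z = y := Subtype.ext hzy
    rw [hzy'] at hz
    rcases lt_or_gt_of_ne hij with h | h
    · exact hz.2 (mem_iUnion.2 ⟨⟨i, h⟩, hy.1⟩)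
    · exact hy.2 (mem_iUnion.2 ⟨⟨j, h⟩, hz.1⟩)
  · rintro i _ ⟨a, ha, rfl⟩ _ ⟨b, hb, rfl⟩
    have h1 := hVb _ ha.1
    have h2 := hVb _ hb.1
    rw [mem_ball] at h1 h2
    have := dist_triangle_right a b (e.symm i : K)
    change dist a b < ε
    linarith

/-- different pieces of a finite family of disjoint compact sets have positive distance -/
lemma exists_sep {ι : Type*} [Finite ι] {P : ι → Set X} (hP : ∀ i, IsCompact (P i))
    (hd : ∀ i j, i ≠ j → Disjoint (P i) (P j)) :
    ∃ δ > 0, ∀ i j, i ≠ j → ∀ a ∈ P i, ∀ b ∈ P j, δ ≤ dist a b := by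
  classical
  have h1 : ∀ q : ι × ι, ∃ δ > 0, q.1 ≠ q.2 → ∀ a ∈ P q.1, ∀ b ∈ P q.2, δ ≤ dist a b := by
    rintro ⟨i, j⟩
    by_cases hij : i = j
    · exact ⟨1, one_pos, fun h => absurd hij h⟩
    · obtain ⟨r, hr, h⟩ :=
        Metric.exists_pos_forall_lt_edist (hP i) (hP j).isClosed (hd i j hij)
      refine ⟨r, by exact_mod_cast hr, fun _ a ha b hb => ?_⟩
      have := h a ha b hb
      rw [edist_nndist] at this
      have h3 : r < nndist a b := by exact_mod_cast this
      rw [← coe_nndist]
      exact_mod_cast h3.le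
  choose δ hδ hδ' using h1
  cases nonempty_fintype ι
  by_cases hι : Nonempty ι
  · refine ⟨Finset.univ.inf' (Finset.univ_nonempty) δ, ?_, ?_⟩
    · rw [gt_iff_lt, Finset.lt_inf'_iff]
      exact fun q _ => hδ q
    · intro i j hij a ha b hb
      exact (Finset.inf'_le δ (Finset.mem_univ (i, j))).trans (hδ' (i, j) hij a ha b hb)
  · exact ⟨1, one_pos, fun i => absurd ⟨i⟩ hι⟩

/-- the union of two zero-dimensional compact sets -/
lemma ZD.union {K L : Set X} (hK : ZD K) (hL : ZD L) : ZD (K ∪ L) := by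
  classical
  intro ε hε
  obtain ⟨ι, hι, P, hP1, hP2, hP3, hP4⟩ := hK (ε / 2) (by positivity)
  obtain ⟨δ, hδ, hsep⟩ := exists_sep hP1 hP3
  obtain ⟨κ, hκ, Q, hQ1, hQ2, hQ3, hQ4⟩ := hL (min δ (ε / 4)) (by positivity)
  -- each `Q j` meets at most one `P i`
  have huniq : ∀ i i' j, (P i ∩ Q j).Nonempty → (P i' ∩ Q j).Nonempty → i = i' := by
    rintro i i' j ⟨a, ha, ha'⟩ ⟨b, hb, hb'⟩
    by_contra hne
    have h1 := hsep i i' hne a ha b hb
    have h2 := hQ4 j a ha' b hb'
    exact absurd (h2.trans_le (min_le_left _ _)) (not_lt.2 h1)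
  let R : ι ⊕ κ → Set X := Sum.elim
    (fun i => P i ∪ ⋃ j : {j : κ // (P i ∩ Q j).Nonempty}, Q j)
    (fun j => if ∃ i, (P i ∩ Q j).Nonempty then ∅ else Q j)
  refine ⟨ι ⊕ κ, inferInstance, R, ?_, ?_, ?_, ?_⟩
  · rintro (i | j)
    · exact (hP1 i).union (isCompact_iUnion fun j => hQ1 _)
    · by_cases h : ∃ i, (P i ∩ Q j).Nonempty
      · simp [R, h]
      · simp only [R, Sum.elim_inr, h, if_false]; exact hQ1 j
  · ext x
    constructor
    · intro hx
      obtain ⟨i | j, hi⟩ := mem_iUnion.1 hx
      · rcases hi with hi | hi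
        · left; rw [← hP2]; exact mem_iUnion.2 ⟨i, hi⟩
        · right
          obtain ⟨j, hj⟩ := mem_iUnion.1 hi
          rw [← hQ2]; exact mem_iUnion.2 ⟨j, hj⟩
      · by_cases h : ∃ i, (P i ∩ Q j).Nonempty
        · simp [R, h] at hi
        · simp only [R, Sum.elim_inr, h, if_false] at hi
          right; rw [← hQ2]; exact mem_iUnion.2 ⟨j, hi⟩
    · rintro (hx | hx)
      · rw [← hP2] at hx
        obtain ⟨i, hi⟩ := mem_iUnion.1 hx
        exact mem_iUnion.2 ⟨Sum.inl i, Or.inl hi⟩
      · rw [← hQ2] at hx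
        obtain ⟨j, hj⟩ := mem_iUnion.1 hx
        by_cases h : ∃ i, (P i ∩ Q j).Nonempty
        · obtain ⟨i, hi⟩ := h
          exact mem_iUnion.2 ⟨Sum.inl i, Or.inr (mem_iUnion.2 ⟨⟨j, hi⟩, hj⟩)⟩
        · refine mem_iUnion.2 ⟨Sum.inr j, ?_⟩
          simp only [R, Sum.elim_inr, h, if_false]; exact hj
  · have key : ∀ i j, Disjoint (R (Sum.inl i)) (R (Sum.inr j)) := by
      intro i j
      rw [Set.disjoint_left]
      intro x hx hx'
      by_cases h : ∃ i, (P i ∩ Q j).Nonempty
      · simp [R, h] at hx'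
      · simp only [R, Sum.elim_inr, h, if_false] at hx'
        rcases hx with hx | hx
        · exact h ⟨i, x, hx, hx'⟩
        · obtain ⟨⟨j', hj'⟩, hxj'⟩ := mem_iUnion.1 hx
          by_cases hjj : j' = j
          · subst hjj; exact h ⟨i, hj'⟩
          · exact Set.disjoint_left.1 (hQ3 j' j hjj) hxj' hx'
    have hii : ∀ i i', i ≠ i' → Disjoint (R (Sum.inl i)) (R (Sum.inl i')) := by
      intro i i' hne
      rw [Set.disjoint_left]
      rintro x (hx | hx) (hx' | hx')
      · exact Set.disjoint_left.1 (hP3 i i' hne) hx hx'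
      · obtain ⟨⟨j', hj'⟩, hxj'⟩ := mem_iUnion.1 hx'
        exact hne (huniq i i' j' ⟨x, hx, hxj'⟩ hj')
      · obtain ⟨⟨j', hj'⟩, hxj'⟩ := mem_iUnion.1 hx
        exact hne (huniq i i' j' hj' ⟨x, hx', hxj'⟩)
      · obtain ⟨⟨j, hj⟩, hxj⟩ := mem_iUnion.1 hx
        obtain ⟨⟨j', hj'⟩, hxj'⟩ := mem_iUnion.1 hx'
        by_cases hjj : j = j'
        · subst hjj; exact hne (huniq i i' j hj hj')
        · exact Set.disjoint_left.1 (hQ3 j j' hjj) hxj hxj'
    rintro (i | j) (i' | j') hne
    · exact hii i i' (fun h => hne (by rw [h]))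
    · exact key i j'
    · exact (key i' j).symm
    · have hne' : j ≠ j' := fun h => hne (by rw [h])
      rw [Set.disjoint_left]
      intro x hx hx'
      by_cases h : ∃ i, (P i ∩ Q j).Nonempty
      · simp [R, h] at hx
      · simp only [R, Sum.elim_inr, h, if_false] at hx
        by_cases h' : ∃ i, (P i ∩ Q j').Nonempty
        · simp [R, h'] at hx'
        · simp only [R, Sum.elim_inr, h', if_false] at hx'
          exact Set.disjoint_left.1 (hQ3 j j' hne') hx hx'
  · have hmin : min δ (ε / 4) ≤ ε / 4 := min_le_right _ _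
    rintro (i | j) a ha b hb
    · -- every point of `R (inl i)` is at distance `< ε / 4` from a point of `P i`
      have hnear : ∀ a ∈ R (Sum.inl i), ∃ a' ∈ P i, dist a a' < ε / 4 := by
        rintro a (ha | ha)
        · exact ⟨a, ha, by rw [dist_self]; positivity⟩
        · obtain ⟨⟨j, a', ha', ha''⟩, haj⟩ := mem_iUnion.1 ha
          exact ⟨a', ha', (hQ4 j a haj a' ha'').trans_le hmin⟩
      obtain ⟨a', ha', haa⟩ := hnear a ha
      obtain ⟨b', hb', hbb⟩ := hnear b hb
      have h1 := hP4 i a' ha' b' hb'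
      have h2 := dist_triangle a a' b
      have h3 := dist_triangle a' b' b
      rw [dist_comm b' b] at h3
      linarith
    · by_cases h : ∃ i, (P i ∩ Q j).Nonempty
      · simp [R, h] at ha
      · simp only [R, Sum.elim_inr, h, if_false] at ha hb
        have := hQ4 j a ha b hb
        linarith

/-- finite unions of zero-dimensional compact sets -/
lemma ZD.iUnion {ι : Type*} [Finite ι] {K : ι → Set X} (hK : ∀ i, ZD (K i)) :
    ZD (⋃ i, K i) := by
  classical
  cases nonempty_fintype ι
  have h : ∀ s : Finset ι, ZD (⋃ i ∈ s, K i) := by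
    intro s
    induction s using Finset.induction_on with
    | empty => simpa using ZD.empty
    | insert a s ha ih =>
      rw [Finset.set_biUnion_insert]
      exact (hK a).union ih
  simpa using h Finset.univ

/-- closed subsets of zero-dimensional compact sets -/
lemma ZD.inter_closed {K L : Set X} (hK : ZD K) (hL : IsClosed L) : ZD (K ∩ L) := by
  intro ε hε
  obtain ⟨ι, hι, P, hP1, hP2, hP3, hP4⟩ := hK ε hε
  refine ⟨ι, hι, fun i => P i ∩ L, fun i => (hP1 i).inter_right hL, ?_, ?_, ?_⟩
  · rw [← iUnion_inter, hP2]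
  · intro i j hij
    exact (hP3 i j hij).mono inter_subset_left inter_subset_left
  · intro i a ha b hb
    exact hP4 i a ha.1 b hb.1

lemma ZD.mono {K L : Set X} (hK : ZD K) (hL : IsClosed L) (h : L ⊆ K) : ZD L := by
  have := hK.inter_closed hL
  rwa [inter_eq_right.2 h] at this

/-- closed sets all of whose bounded parts are zero-dimensional are totally disconnected -/
lemma isTotallyDisconnected_of_ZD {T : Set X} (hT : IsClosed T)
    (h : ∀ x r, ZD (T ∩ closedBall x r)) : IsTotallyDisconnected T := by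
  intro Q hQT hQ a ha b hb
  by_contra hab
  set r := dist a b with hr
  have hr0 : 0 < r := dist_pos.2 hab
  obtain ⟨ι, hι, P, hP1, hP2, hP3, hP4⟩ := h a (2 * r) r hr0
  have haK : a ∈ T ∩ closedBall a (2 * r) := ⟨hQT ha, mem_closedBall_self (by positivity)⟩
  rw [← hP2] at haK
  obtain ⟨i, hi⟩ := mem_iUnion.1 haK
  -- `T` splits in the closed sets `P i` and the rest
  let R : Set X := (⋃ j : {j // j ≠ i}, P j) ∪ (T \ ball a (2 * r))
  have hR : IsClosed R := by
    refine IsClosed.union ?_ (hT.sdiff isOpen_ball)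
    exact isClosed_iUnion_of_finite fun j => (hP1 j).isClosed
  have hcov : Q ⊆ P i ∪ R := by
    intro x hx
    by_cases hxb : x ∈ ball a (2 * r)
    · have : x ∈ T ∩ closedBall a (2 * r) := ⟨hQT hx, ball_subset_closedBall hxb⟩
      rw [← hP2] at this
      obtain ⟨j, hj⟩ := mem_iUnion.1 this
      by_cases hji : j = i
      · left; rwa [← hji]
      · right; left; exact mem_iUnion.2 ⟨⟨j, hji⟩, hj⟩
    · right; right; exact ⟨hQT hx, hxb⟩
  have hdisj : Q ∩ (P i ∩ R) = ∅ := by
    ext x
    simp only [mem_inter_iff, mem_empty_iff_false, iff_false]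
    rintro ⟨-, hx1, hx2 | hx2⟩
    · obtain ⟨⟨j, hj⟩, hxj⟩ := mem_iUnion.1 hx2
      exact Set.disjoint_left.1 (hP3 j i hj) hxj hx1
    · apply hx2.2
      have := hP4 i a hi x hx1
      rw [mem_ball, dist_comm]
      linarith
  have hbP : b ∉ P i := fun hbi => by
    have := hP4 i a hi b hbi
    exact absurd this (lt_irrefl _)
  have haR : a ∉ R := by
    rintro (ha' | ha')
    · obtain ⟨⟨j, hj⟩, hxj⟩ := mem_iUnion.1 ha'
      exact Set.disjoint_left.1 (hP3 j i hj) hxj hi
    · exact ha'.2 (mem_ball_self (by positivity))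
  rw [isPreconnected_iff_subset_of_disjoint_closed] at hQ
  rcases hQ (P i) R (hP1 i).isClosed hR hcov hdisj with h | h
  · exact hbP (h hb)
  · exact haR (h ha)

lemma td_mono {T S : Set X} (ht : IsTotallyDisconnected T) (h : S ⊆ T) :
    IsTotallyDisconnected S := fun Q hQ hQ' => ht Q (hQ.trans h) hQ'

/-- **finite sum theorem**: a finite union of closed totally disconnected subsets of a proper
metric space is totally disconnected. -/
theorem isTotallyDisconnected_iUnion [ProperSpace X] {ι : Type*} [Finite ι] {T : ι → Set X}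
    (hc : ∀ i, IsClosed (T i)) (ht : ∀ i, IsTotallyDisconnected (T i)) :
    IsTotallyDisconnected (⋃ i, T i) := by
  refine isTotallyDisconnected_of_ZD (isClosed_iUnion_of_finite hc) fun x r => ?_
  rw [iUnion_inter]
  refine ZD.iUnion fun i => ZD.of_isCompact ?_ ?_
  · exact (isCompact_closedBall x r).inter_left (hc i)
  · exact td_mono (ht i) inter_subset_left

/-- bounded parts of a closed totally disconnected set are zero-dimensional -/
lemma ZD.of_closed [ProperSpace X] {T K : Set X} (hc : IsClosed T) (ht : IsTotallyDisconnected T)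
    (hK : IsCompact K) : ZD (T ∩ K) :=
  ZD.of_isCompact (hK.inter_left hc) (td_mono ht inter_subset_left)

end Crest.Agent.R40.Topo
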