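import Mathlib
import Crest.Agent.R40.TopoA620
import Crest.Agent.R135.Janis

/-!
# R40: totally disconnected sets do not separate the plane (helper620)

`TD`: `U ⊆ ℂ` open preconnected, `T` relatively closed in `U` and `T ∩ U` totally disconnected,
then `U \ T` is preconnected. Proof: splitting lemma `R135.locConst_split` (helper804), no
planar topology.
-/

set_option autoImplicit false

open Set Filter Topology Metric
open Crest.Agent.R135

namespace Crest.Agent.R40.Topo

/-- splitting off finitely many compact pieces -/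
lemma split_finset {ι : Type*} (s : Finset ι) {U T0 : Set E2} {K : ι → Set E2}
    (hU : IsOpen U) (hK : ∀ i ∈ s, IsCompact (K i)) (hKU : ∀ i ∈ s, K i ⊆ U)
    (hT0 : closure T0 ∩ U ⊆ T0) (hd0 : ∀ i ∈ s, Disjoint (K i) T0)
    (hdd : ∀ i ∈ s, ∀ j ∈ s, i ≠ j → Disjoint (K i) (K j)) {c : E2 → ℝ}
    (hc : LocConstOn (U \ ((⋃ i ∈ s, K i) ∪ T0)) c) :
    ∃ (d : ι → E2 → ℝ) (c' : E2 → ℝ), (∀ i ∈ s, LocConstOn (univ \ K i) (d i)) ∧
      LocConstOn (U \ T0) c' ∧
      (∀ y ∈ U \ ((⋃ i ∈ s, K i) ∪ T0), c y = c' y + ∑ i ∈ s, d i y) ∧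
      ∀ i ∈ s, ∃ R : ℝ, ∀ y, R < ‖y‖ → d i y = 0 := by
  classical
  induction s using Finset.induction_on generalizing c with
  | empty =>
    refine ⟨fun _ _ => 0, c, by simp, ?_, by simp, by simp⟩
    simpa using hc
  | insert a s ha ih =>
    have hK2 : IsClosed (⋃ i ∈ s, K i) :=
      (s.isCompact_biUnion fun i hi => hK i (Finset.mem_insert_of_mem hi)).isClosed
    have hset : U \ ((⋃ i ∈ insert a s, K i) ∪ T0) = U \ (K a ∪ ((⋃ i ∈ s, K i) ∪ T0)) := by
      rw [Finset.set_biUnion_insert, union_assoc]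
    rw [hset] at hc
    obtain ⟨c1, c2, h1, h2, h3, h4⟩ := locConst_split (K2 := (⋃ i ∈ s, K i) ∪ T0) hU
      (hK a (Finset.mem_insert_self _ _)) (hKU a (Finset.mem_insert_self _ _))
      (by
        rw [closure_union, hK2.closure_eq]
        rintro x ⟨hx | hx, hxU⟩
        · exact Or.inl hx
        · exact Or.inr (hT0 ⟨hx, hxU⟩))
      (by
        rw [disjoint_union_right]
        refine ⟨?_, hd0 a (Finset.mem_insert_self _ _)⟩
        rw [Set.disjoint_left]
        intro x hx hx'
        obtain ⟨i, hi, hxi⟩ := mem_iUnion₂.1 hx'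
        refine Set.disjoint_left.1 (hdd a (Finset.mem_insert_self _ _) i
          (Finset.mem_insert_of_mem hi) ?_) hx hxi
        rintro rfl
        exact ha hi) hc
    obtain ⟨d, c', g1, g2, g3, g4⟩ := ih (fun i hi => hK i (Finset.mem_insert_of_mem hi))
      (fun i hi => hKU i (Finset.mem_insert_of_mem hi))
      (fun i hi => hd0 i (Finset.mem_insert_of_mem hi))
      (fun i hi j hj => hdd i (Finset.mem_insert_of_mem hi) j (Finset.mem_insert_of_mem hj)) h2
    refine ⟨fun i => if i = a then c1 else d i, c', ?_, g2, ?_, ?_⟩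
    · intro i hi
      by_cases hia : i = a
      · subst hia; simpa using h1
      · simp only [hia, if_false]
        exact g1 i ((Finset.mem_insert.1 hi).resolve_left hia)
    · intro y hy
      rw [hset] at hy
      rw [h3 y hy, g3 y ⟨hy.1, fun h => hy.2 (Or.inr h)⟩, Finset.sum_insert ha]
      simp only [if_true]
      have : ∑ i ∈ s, (if i = a then c1 else d i) y = ∑ i ∈ s, d i y := by
        apply Finset.sum_congr rfl
        intro i hi
        have : i ≠ a := by rintro rfl; exact ha hi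
        simp [this]
      rw [this]; ring
    · intro i hi
      by_cases hia : i = a
      · subst hia; simpa using h4
      · simp only [hia, if_false]
        exact g4 i ((Finset.mem_insert.1 hi).resolve_left hia)

/-- a function locally constant off a compact set inside a small closed ball and vanishing near
infinity vanishes off the ball -/
lemma eq_zero_of_far {K : Set E2} {x : E2} {ε : ℝ} (hε : 0 ≤ ε) (hK : K ⊆ closedBall x ε)
    {d : E2 → ℝ} (hd : LocConstOn (univ \ K) d) (h0 : ∃ R : ℝ, ∀ y, R < ‖y‖ → d y = 0)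
    {y : E2} (hy : ε < dist y x) : d y = 0 := by
  obtain ⟨R, hR⟩ := h0
  obtain ⟨z, hz1, hz2⟩ : ∃ z : E2, R < ‖z‖ ∧ ε < dist z x := by
    obtain ⟨z, hz⟩ := NormedSpace.exists_lt_norm ℝ E2 (max R 0 + ε + ‖x‖)
    refine ⟨z, ?_, ?_⟩
    · have := le_max_left R 0
      have := norm_nonneg x
      linarith
    · have h1 : ‖z‖ ≤ dist z x + ‖x‖ := by
        rw [dist_eq_norm]
        calc ‖z‖ = ‖(z - x) + x‖ := by rw [sub_add_cancel]
          _ ≤ _ := norm_add_le _ _
      have := le_max_right R 0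
      linarith
  rw [hd.eq_of_preconnected (isPreconnected_dist_gt x hε) (x := y) (y := z) ?_ hy hz2]
  · exact hR z hz1
  · intro w hw
    refine ⟨mem_univ _, fun hwK => ?_⟩
    have h1 := hK hwK
    rw [mem_closedBall] at h1
    exact absurd hw (not_lt.2 h1)

/-- local step: near a point of `U`, a function locally constant on `U \ T` is constant off `T` -/
lemma local_const {U T : Set E2} (hU : IsOpen U) (hT : closure T ∩ U ⊆ T)
    (ht : IsTotallyDisconnected (T ∩ U)) {c : E2 → ℝ} (hc : LocConstOn (U \ T) c) {x : E2}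
    (hx : x ∈ U) : ∃ δ > 0, ball x δ ⊆ U ∧
      ∀ y ∈ ball x δ, ∀ z ∈ ball x δ, y ∉ T → z ∉ T → c y = c z := by
  classical
  obtain ⟨r, hr, hrU⟩ := Metric.nhds_basis_closedBall.mem_iff.1 (hU.mem_nhds hx)
  refine ⟨r / 2, by positivity, (ball_subset_closedBall.trans
    (closedBall_subset_closedBall (by linarith))).trans hrU, fun y hy z hz hyT hzT => ?_⟩
  set K : Set E2 := T ∩ closedBall x r with hKdef
  have hKc : IsClosed K := by
    have : K = closure T ∩ closedBall x r := by
      apply Subset.antisymm (inter_subset_inter_left _ subset_closure)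
      rintro w ⟨hw1, hw2⟩
      exact ⟨hT ⟨hw1, hrU hw2⟩, hw2⟩
    rw [this]
    exact isClosed_closure.inter isClosed_closedBall
  have hKcomp : IsCompact K := (isCompact_closedBall x r).of_isClosed_subset hKc inter_subset_right
  have hKtd : IsTotallyDisconnected K :=
    td_mono ht (inter_subset_inter_right _ hrU)
  have hyK : y ∉ K := fun h => hyT h.1
  have hzK : z ∉ K := fun h => hzT h.1
  obtain ⟨ε1, hε1, h1⟩ := Metric.isOpen_iff.1 hKc.isOpen_compl y hyK
  obtain ⟨ε2, hε2, h2⟩ := Metric.isOpen_iff.1 hKc.isOpen_compl z hzK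
  set ε : ℝ := min (min ε1 ε2) (r / 2) with hεdef
  have hε : 0 < ε := by positivity
  have hεε1 : ε ≤ ε1 := (min_le_left _ _).trans (min_le_left _ _)
  have hεε2 : ε ≤ ε2 := (min_le_left _ _).trans (min_le_right _ _)
  have hεr : ε ≤ r / 2 := min_le_right _ _
  obtain ⟨ι, hι, P, hP1, hP2, hP3, hP4⟩ := ZD.of_isCompact hKcomp hKtd ε hε
  cases nonempty_fintype ι
  set s : Finset ι := Finset.univ.filter (fun i => (P i ∩ closedBall x (r / 2)).Nonempty) with hs
  have hs1 : ∀ i ∈ s, P i ⊆ ball x r := by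
    intro i hi w hw
    obtain ⟨p, hp1, hp2⟩ := (Finset.mem_filter.1 hi).2
    have h3 := hP4 i w hw p hp1
    rw [mem_closedBall] at hp2
    rw [mem_ball]
    have := dist_triangle w p x
    linarith
  have hs2 : ∀ i, i ∉ s → ∀ w ∈ P i, w ∉ closedBall x (r / 2) := by
    intro i hi w hw hw'
    exact hi (Finset.mem_filter.2 ⟨Finset.mem_univ _, w, hw, hw'⟩)
  set T0 : Set E2 := ⋃ i : {i // i ∉ s}, P i with hT0
  have hT0c : IsClosed T0 := isClosed_iUnion_of_finite fun i => (hP1 i).isClosed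
  have hKT : K = (⋃ i ∈ s, P i) ∪ T0 := by
    rw [← hP2]
    ext w
    simp only [mem_union, mem_iUnion, hT0]
    constructor
    · rintro ⟨i, hi⟩
      by_cases his : i ∈ s
      · exact Or.inl ⟨i, his, hi⟩
      · exact Or.inr ⟨⟨i, his⟩, hi⟩
    · rintro (⟨i, -, hi⟩ | ⟨i, hi⟩)
      · exact ⟨i, hi⟩
      · exact ⟨i, hi⟩
  have hc' : LocConstOn (ball x r \ ((⋃ i ∈ s, P i) ∪ T0)) c := by
    refine hc.mono' ?_
    rintro w ⟨hw1, hw2⟩
    refine ⟨hrU (ball_subset_closedBall hw1), fun hwT => hw2 ?_⟩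
    rw [← hKT]
    exact ⟨hwT, ball_subset_closedBall hw1⟩
  obtain ⟨d, c', g1, g2, g3, g4⟩ := split_finset s (T0 := T0) isOpen_ball
    (fun i _ => hP1 i) hs1 (by rw [hT0c.closure_eq]; exact inter_subset_left)
    (by
      intro i hi
      rw [Set.disjoint_left]
      intro w hw hw'
      obtain ⟨⟨j, hj⟩, hwj⟩ := mem_iUnion.1 hw'
      exact Set.disjoint_left.1 (hP3 i j (by rintro rfl; exact hj hi)) hw hwj)
    (fun i _ j _ hij => hP3 i j hij) hc'
  -- `c'` is constant on the small ball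
  have hc'const : c' y = c' z := by
    refine g2.eq_of_preconnected (convex_ball x (r / 2)).isPreconnected ?_ hy hz
    intro w hw
    refine ⟨ball_subset_ball (by linarith) hw, fun hw' => ?_⟩
    obtain ⟨⟨j, hj⟩, hwj⟩ := mem_iUnion.1 hw'
    exact hs2 j hj w hwj (ball_subset_closedBall hw)
  -- all `d i` vanish at `y` and `z`
  have hd0 : ∀ w : E2, (ball w ε ⊆ Kᶜ) → ∀ i ∈ s, d i w = 0 := by
    intro w hw i hi
    obtain ⟨p, hp1, hp2⟩ := (Finset.mem_filter.1 hi).2
    have hwp : ε ≤ dist w p := by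
      by_contra hlt
      push Not at hlt
      have hpK : p ∈ K := by rw [← hP2]; exact mem_iUnion.2 ⟨i, hp1⟩
      exact hw (by rw [mem_ball, dist_comm]; exact hlt) hpK
    -- use a slightly smaller radius
    obtain ⟨ε', hε'0, hε', hPε'⟩ : ∃ ε' : ℝ, 0 ≤ ε' ∧ ε' < ε ∧ P i ⊆ closedBall p ε' := by
      obtain ⟨q, hq, hmax⟩ := (hP1 i).exists_isMaxOn ⟨p, hp1⟩
        (f := fun q => dist q p) (by fun_prop)
      exact ⟨dist q p, dist_nonneg, hP4 i q hq p hp1, fun w hw => hmax hw⟩
    exact eq_zero_of_far hε'0 hPε' (g1 i hi) (g4 i hi) (by linarith)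
  have e1 : ball y ε ⊆ Kᶜ := (ball_subset_ball hεε1).trans h1
  have e2 : ball z ε ⊆ Kᶜ := (ball_subset_ball hεε2).trans h2
  have hyr : y ∈ ball x r := ball_subset_ball (by linarith) hy
  have hzr : z ∈ ball x r := ball_subset_ball (by linarith) hz
  rw [g3 y ⟨hyr, by rw [← hKT]; exact hyK⟩, g3 z ⟨hzr, by rw [← hKT]; exact hzK⟩,
    Finset.sum_eq_zero (hd0 y e1), Finset.sum_eq_zero (hd0 z e2), hc'const]

/-- totally disconnected sets contain no ball -/
lemma exists_notMem_of_td {T : Set E2} (ht : IsTotallyDisconnected T) {x : E2} {δ : ℝ}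
    (hδ : 0 < δ) : ∃ y ∈ ball x δ, y ∉ T := by
  by_contra hcon
  push Not at hcon
  have h1 := ht (ball x δ) hcon (convex_ball x δ).isPreconnected
  obtain ⟨e, he⟩ := exists_norm_eq E2 (show (0 : ℝ) ≤ δ / 2 by positivity)
  have h2 : x + e ∈ ball x δ := by
    rw [mem_ball, dist_eq_norm, add_sub_cancel_left, he]; linarith
  have h3 := h1 h2 (mem_ball_self hδ)
  have h4 : e = 0 := by simpa using h3
  rw [h4, norm_zero] at he
  linarith

/-- a locally constant real function on `U \ T` is constant -/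
theorem eq_of_td {U T : Set E2} (hU : IsOpen U) (hUc : IsPreconnected U)
    (hT : closure T ∩ U ⊆ T) (ht : IsTotallyDisconnected (T ∩ U)) {c : E2 → ℝ}
    (hc : LocConstOn (U \ T) c) {x y : E2} (hx : x ∈ U \ T) (hy : y ∈ U \ T) : c x = c y := by
  set A : Set E2 := {z | z ∈ U ∧ ∀ᶠ w in 𝓝 z, w ∉ T → c w = c x} with hA
  set B : Set E2 := {z | z ∈ U ∧ ¬ ∀ᶠ w in 𝓝 z, w ∉ T → c w = c x} with hB
  have hAo : IsOpen A := by
    have h1 : IsOpen {z : E2 | ∀ᶠ w in 𝓝 z, w ∉ T → c w = c x} := isOpen_setOfPred_eventually_nhds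
    exact hU.inter h1
  have hBo : IsOpen B := by
    rw [Metric.isOpen_iff]
    rintro z ⟨hzU, hz⟩
    obtain ⟨δ, hδ, hδU, h⟩ := local_const hU hT ht hc hzU
    refine ⟨δ, hδ, fun z' hz' => ⟨hδU hz', fun hz'' => hz ?_⟩⟩
    -- a point near `z'` off `T`
    have hev := hz''.and (isOpen_ball.mem_nhds hz')
    obtain ⟨ρ, hρ, hρ'⟩ := Metric.eventually_nhds_iff_ball.1 hev
    obtain ⟨w, hw, hwT⟩ := exists_notMem_of_td ht (x := z') hρ
    have hwδ : w ∈ ball z δ := (hρ' w hw).2
    have hwT' : w ∉ T := fun h => hwT ⟨h, hδU hwδ⟩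
    have hwc : c w = c x := (hρ' w hw).1 hwT'
    filter_upwards [isOpen_ball.mem_nhds (mem_ball_self (x := z) hδ)] with v hv hvT
    rw [← hwc]
    exact h v hv w hwδ hvT hwT'
  have hUAB : U ⊆ A ∪ B := fun z hz => by
    by_cases h : ∀ᶠ w in 𝓝 z, w ∉ T → c w = c x
    · exact Or.inl ⟨hz, h⟩
    · exact Or.inr ⟨hz, h⟩
  have hxA : x ∈ A := ⟨hx.1, (hc x hx).mono fun w hw _ => hw⟩
  have hABd : U ∩ (A ∩ B) = ∅ := by
    ext z
    simp only [mem_inter_iff, mem_empty_iff_false, iff_false]
    rintro ⟨-, h1, h2⟩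
    exact h2.2 h1.2
  have hUA : U ⊆ A := by
    rcases hUc.subset_or_subset hAo hBo (by
        rw [Set.disjoint_left]; exact fun z h1 h2 => h2.2 h1.2) hUAB with h | h
    · exact h
    · exact absurd hxA.2 (h hx.1).2
  exact ((hUA hy.1).2.self_of_nhds hy.2).symm

/-- **(TD)** in `EuclideanSpace ℝ (Fin 2)` -/
theorem td_isPreconnected_E2 {U T : Set E2} (hU : IsOpen U) (hUc : IsPreconnected U)
    (hT : closure T ∩ U ⊆ T) (ht : IsTotallyDisconnected (T ∩ U)) :
    IsPreconnected (U \ T) := by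
  classical
  have hUT : IsOpen (U \ T) := by
    have : U \ T = U \ closure T := by
      ext y
      exact ⟨fun h => ⟨h.1, fun h' => h.2 (hT ⟨h', h.1⟩)⟩,
        fun h => ⟨h.1, fun h' => h.2 (subset_closure h')⟩⟩
    rw [this]
    exact hU.sdiff isClosed_closure
  rintro u v hu hv huv ⟨a, ha, hau⟩ ⟨b, hb, hbv⟩
  by_contra hcon
  rw [not_nonempty_iff_eq_empty] at hcon
  have hc : LocConstOn (U \ T) (fun z => if z ∈ u then (1 : ℝ) else 0) := by
    intro z hz
    by_cases hzu : z ∈ u
    · filter_upwards [hu.mem_nhds hzu] with w hw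
      simp [hw, hzu]
    · have hzv : z ∈ v := (huv hz).resolve_left hzu
      filter_upwards [hv.mem_nhds hzv, hUT.mem_nhds hz] with w hw hwU
      have : w ∉ u := fun h => by
        have : w ∈ (U \ T) ∩ (u ∩ v) := ⟨hwU, h, hw⟩
        rw [hcon] at this
        exact this
      simp [this, hzu]
  have := eq_of_td hU hUc hT ht hc ha hb
  have hbu : b ∉ u := fun h => by
    have : b ∈ (U \ T) ∩ (u ∩ v) := ⟨hb, h, hbv⟩
    rw [hcon] at this
    exact this
  simp [hau, hbu] at this

/-- **(TD)**: `U ⊆ ℂ` open and preconnected, `T` relatively closed in `U` with `T ∩ U` totally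
disconnected. Then `U \ T` is preconnected. -/
theorem td_isPreconnected {U T : Set ℂ} (hU : IsOpen U) (hUc : IsPreconnected U)
    (hT : closure T ∩ U ⊆ T) (ht : IsTotallyDisconnected (T ∩ U)) :
    IsPreconnected (U \ T) := by
  let e : E2 ≃ₜ ℂ := (Complex.orthonormalBasisOneI.repr.symm).toHomeomorph
  have h1 : IsPreconnected ((e ⁻¹' U) \ (e ⁻¹' T)) := by
    refine td_isPreconnected_E2 (hU.preimage e.continuous) ?_ ?_ ?_
    · rwa [e.isPreconnected_preimage]
    · rw [← e.preimage_closure, ← preimage_inter]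
      exact preimage_mono hT
    · rw [← preimage_inter]
      have h2 : e ⁻¹' (T ∩ U) = e.symm '' (T ∩ U) := by
        rw [e.image_symm]
      rw [h2]
      exact (e.symm.isEmbedding.isTotallyDisconnected_image).2 ht
  rwa [← preimage_sdiff, e.isPreconnected_preimage] at h1

/-- **(TD)**, closed `T` -/
theorem td_isPreconnected_of_closed {U T : Set ℂ} (hU : IsOpen U) (hUc : IsPreconnected U)
    (hT : IsClosed T) (ht : IsTotallyDisconnected T) : IsPreconnected (U \ T) :=
  td_isPreconnected hU hUc (by rw [hT.closure_eq]; exact inter_subset_left)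
    (td_mono ht inter_subset_left)

/-- functions which are locally constant on `U \ T` are constant -/
theorem td_eq {U T : Set ℂ} (hU : IsOpen U) (hUc : IsPreconnected U)
    (hT : closure T ∩ U ⊆ T) (ht : IsTotallyDisconnected (T ∩ U)) {α : Type*} {f : ℂ → α}
    (hf : ∀ x ∈ U \ T, ∀ᶠ y in 𝓝 x, f y = f x) {x y : ℂ} (hx : x ∈ U \ T) (hy : y ∈ U \ T) :
    f x = f y := by
  have hS := td_isPreconnected hU hUc hT ht
  have hSp : PreconnectedSpace ↥(U \ T) := isPreconnected_iff_preconnectedSpace.1 hS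
  have hf' : IsLocallyConstant (fun z : ↥(U \ T) => f z) := by
    rw [IsLocallyConstant.iff_eventually_eq]
    intro z
    exact (continuous_subtype_val.tendsto z).eventually (hf z z.2)
  exact hf'.apply_eq_of_isPreconnected isPreconnected_univ (x := ⟨x, hx⟩) (y := ⟨y, hy⟩)
    (mem_univ _) (mem_univ _)

/-- cover version: if `N` is covered by two closed sets whose intersection in `N` is totally
disconnected, then one of them contains `N`. -/
theorem td_cover {N H H' : Set ℂ} (hN : IsOpen N) (hNc : IsPreconnected N) (hH : IsClosed H)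
    (hH' : IsClosed H') (hcov : N ⊆ H ∪ H') (ht : IsTotallyDisconnected (H ∩ H' ∩ N)) :
    N ⊆ H ∨ N ⊆ H' := by
  have h1 : IsPreconnected (N \ (H ∩ H')) := td_isPreconnected hN hNc
    (by rw [(hH.inter hH').closure_eq]; exact inter_subset_left) ht
  rw [isPreconnected_iff_subset_of_disjoint_closed] at h1
  have key : ∀ {H H' : Set ℂ}, N \ (H ∩ H') ⊆ H → N ⊆ H := by
    intro H H' h x hx
    by_cases hxx : x ∈ H ∩ H'
    · exact hxx.1
    · exact h ⟨hx, hxx⟩
  rcases h1 H H' hH hH' (sdiff_subset.trans hcov) (by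
    ext x
    simp only [mem_inter_iff, mem_empty_iff_false, iff_false]
    rintro ⟨hx1, hx2⟩
    exact hx1.2 hx2) with h | h
  · exact Or.inl (key h)
  · exact Or.inr (key (H' := H) (by rwa [inter_comm] at h))

/-- a totally disconnected set in the plane has empty interior -/
lemma td_interior {T : Set ℂ} (ht : IsTotallyDisconnected T) : interior T = ∅ := by
  by_contra hne
  obtain ⟨x, hx⟩ := nonempty_iff_ne_empty.2 hne
  obtain ⟨δ, hδ, h⟩ := Metric.isOpen_iff.1 isOpen_interior x hx
  have h1 := ht (ball x δ) (h.trans interior_subset) (convex_ball x δ).isPreconnected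
  have h2 : x + (δ / 2 : ℝ) ∈ ball x δ := by
    rw [mem_ball, dist_eq_norm, add_sub_cancel_left, Complex.norm_real, Real.norm_eq_abs,
      abs_of_pos (by positivity)]
    linarith
  have h3 := h1 h2 (mem_ball_self hδ)
  have h4 : ((δ / 2 : ℝ) : ℂ) = 0 := by simpa using h3
  have h5 : δ / 2 = 0 := by exact_mod_cast h4
  linarith

end Crest.Agent.R40.Topo
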