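import Crest.Agent.R40.T3Graph
import Crest.Agent.R40.T3Pal
import Crest.Agent.R40.TopoB620

/-!
# R40 / T3 : Case III (e)
-/

set_option autoImplicit false

open Set Metric Topology Filter

namespace Crest.Agent.R40.T3

/-- Connectedness of the outer side of the unit circle about `x` near a point of the circle. -/
lemma isPreconnected_ball_out {x y : ℂ} (hxy : dist y x = 1) (r : ℝ) :
    IsPreconnected (ball y r ∩ {z | 1 < dist z x}) := by
  rcases le_or_gt r 0 with hr | hr
  · rw [ball_eq_empty.2 hr, empty_inter]; exact isPreconnected_empty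
  set u : ℂ := y - x with hu
  have hu1 : ‖u‖ = 1 := by rw [hu, ← dist_eq_norm, hxy]
  have hu0 : u ≠ 0 := by rw [← norm_pos_iff, hu1]; exact one_pos
  have hyx : y = x + u := by rw [hu]; ring
  -- squared distance
  have hsq : ∀ ρ t : ℝ, dist (x + ρ * Complex.exp (t * Complex.I) * u) y ^ 2
      = ρ ^ 2 + 1 - 2 * ρ * Real.cos t := by
    intro ρ t
    rw [dist_eq_norm, hyx]
    have h1 : x + ρ * Complex.exp (t * Complex.I) * u - (x + u)
        = (ρ * Complex.exp (t * Complex.I) - 1) * u := by ring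
    rw [h1, norm_mul, hu1, mul_one, Complex.sq_norm, Complex.exp_mul_I, Complex.normSq_apply]
    simp only [← Complex.ofReal_cos, ← Complex.ofReal_sin, Complex.sub_re, Complex.sub_im,
      Complex.mul_re, Complex.mul_im, Complex.add_re, Complex.add_im, Complex.ofReal_re,
      Complex.ofReal_im, Complex.I_re, Complex.I_im, Complex.one_re, Complex.one_im]
    have := Real.sin_sq_add_cos_sq t
    linear_combination (ρ ^ 2) * this
  have hdx : ∀ ρ t : ℝ, 0 ≤ ρ → dist (x + ρ * Complex.exp (t * Complex.I) * u) x = ρ := by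
    intro ρ t hρ
    rw [dist_eq_norm, add_sub_cancel_left, norm_mul, norm_mul, hu1,
      Complex.norm_exp_ofReal_mul_I, mul_one, mul_one, Complex.norm_real, Real.norm_eq_abs,
      abs_of_nonneg hρ]
  have hray : (fun ρ : ℝ => x + ρ * Complex.exp ((0 : ℝ) * Complex.I) * u) '' Ioo 1 (1 + r)
      ⊆ ball y r ∩ {z | 1 < dist z x} := by
    rintro _ ⟨ρ, hρ, rfl⟩
    refine ⟨?_, ?_⟩
    · rw [mem_ball]
      have h1 := hsq ρ 0
      rw [Real.cos_zero] at h1
      have h2 : dist (x + ρ * Complex.exp ((0 : ℝ) * Complex.I) * u) y ^ 2 < r ^ 2 := by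
        rw [h1]; nlinarith [hρ.1, hρ.2]
      exact lt_of_pow_lt_pow_left₀ 2 hr.le h2
    · have := hdx ρ 0 (by linarith [hρ.1])
      show 1 < dist _ _
      rw [this]; exact hρ.1
  have hmid : (1 + r / 2) ∈ Ioo 1 (1 + r) := ⟨by linarith, by linarith⟩
  refine isPreconnected_of_forall
    ((fun ρ : ℝ => x + ρ * Complex.exp ((0 : ℝ) * Complex.I) * u) (1 + r / 2)) ?_
  rintro z ⟨hz1, hz2⟩
  set ρ : ℝ := ‖(z - x) / u‖ with hρ
  set φ : ℝ := Complex.arg ((z - x) / u) with hφ
  have hz : z = x + ρ * Complex.exp (φ * Complex.I) * u := by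
    rw [hρ, hφ, Complex.norm_mul_exp_arg_mul_I]
    field_simp
    ring
  have hρ1 : 1 < ρ := by
    rw [hρ, norm_div, hu1, div_one, ← dist_eq_norm]; exact hz2
  have hρr : ρ < 1 + r := by
    have h1 : dist z x ≤ dist z y + dist y x := dist_triangle _ _ _
    rw [hxy] at h1
    have h2 : ρ = dist z x := by rw [hρ, norm_div, hu1, div_one, ← dist_eq_norm]
    rw [h2]
    have := mem_ball.1 hz1
    linarith
  have hρ0 : 0 < ρ := by linarith
  refine ⟨((fun t : ℝ => x + ρ * Complex.exp (t * Complex.I) * u) '' uIcc 0 φ) ∪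
    ((fun ρ : ℝ => x + ρ * Complex.exp ((0 : ℝ) * Complex.I) * u) '' Ioo 1 (1 + r)), ?_, ?_, ?_, ?_⟩
  · apply union_subset _ hray
    rintro _ ⟨t, ht, rfl⟩
    refine ⟨?_, ?_⟩
    · rw [mem_ball]
      have h1 := hsq ρ t
      have h2 := hsq ρ φ
      rw [← hz] at h2
      have h3 : Real.cos φ ≤ Real.cos t := by
        rw [← Real.cos_abs φ, ← Real.cos_abs t]
        apply Real.cos_le_cos_of_nonneg_of_le_pi (abs_nonneg _) (Complex.abs_arg_le_pi _)
        rcases le_total 0 φ with h0 | h0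
        · rw [uIcc_of_le h0] at ht
          rw [abs_of_nonneg ht.1, abs_of_nonneg h0]; exact ht.2
        · rw [uIcc_of_ge h0] at ht
          rw [abs_of_nonpos ht.2, abs_of_nonpos h0]; linarith [ht.1]
      have h4 : dist z y < r := mem_ball.1 hz1
      have h5 : dist (x + ρ * Complex.exp (t * Complex.I) * u) y ^ 2 < r ^ 2 := by
        have h6 : dist z y ^ 2 < r ^ 2 := by
          apply pow_lt_pow_left₀ h4 dist_nonneg (by norm_num)
        nlinarith
      exact lt_of_pow_lt_pow_left₀ 2 hr.le h5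
    · have := hdx ρ t hρ0.le
      show 1 < dist _ _
      rw [this]; exact hρ1
  · exact Or.inr ⟨_, hmid, rfl⟩
  · exact Or.inl ⟨φ, right_mem_uIcc, hz.symm⟩
  · refine IsPreconnected.union (x + ρ * Complex.exp ((0 : ℝ) * Complex.I) * u)
      ⟨0, left_mem_uIcc, rfl⟩ ⟨ρ, ⟨hρ1, hρr⟩, rfl⟩ ?_ ?_
    · exact isPreconnected_uIcc.image _ (by fun_prop)
    · exact isPreconnected_Ioo.image _ (by fun_prop)

lemma isPreconnected_ball_in (x y : ℂ) (r : ℝ) :
    IsPreconnected (ball y r ∩ {z | dist z x < 1}) := by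
  have : ball y r ∩ {z | dist z x < 1} = ball y r ∩ ball x 1 := rfl
  rw [this]
  exact ((convex_ball y r).inter (convex_ball x 1)).isPreconnected


section
variable {U : Fin 5 → Set ℂ}

/-- the radial path through `z` -/
lemma tendsto_radial (x z : ℂ) : Tendsto (fun t : ℝ => x + (t : ℂ) * (z - x)) (𝓝 1) (𝓝 z) := by
  have hc : Continuous (fun t : ℝ => x + (t : ℂ) * (z - x)) := by fun_prop
  have := hc.tendsto 1
  simpa using this

lemma dist_radial {x z : ℂ} (hz : dist z x = 1) {t : ℝ} (ht : 0 ≤ t) :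
    dist (x + (t : ℂ) * (z - x)) x = t := by
  rw [dist_eq_norm, add_sub_cancel_left, norm_mul, ← dist_eq_norm z x, hz, mul_one,
    Complex.norm_real, Real.norm_eq_abs, abs_of_nonneg ht]

/-- a nonempty open set contains a point off the unit circle about `x` -/
lemma exists_off {O : Set ℂ} (hO : IsOpen O) (hO' : O.Nonempty) (x : ℂ) :
    ∃ z ∈ O, dist z x ≠ 1 := by
  obtain ⟨z, hz⟩ := hO'
  by_cases hzx : dist z x = 1
  · have h1 : ∀ᶠ t : ℝ in 𝓝[<] 1, x + (t : ℂ) * (z - x) ∈ O :=
      nhdsWithin_le_nhds ((tendsto_radial x z).eventually (hO.mem_nhds hz))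
    have h2 : ∀ᶠ t : ℝ in 𝓝[<] 1, t < 1 := self_mem_nhdsWithin
    have h3 : ∀ᶠ t : ℝ in 𝓝[<] 1, 0 < t := nhdsWithin_le_nhds (eventually_gt_nhds one_pos)
    obtain ⟨t, h1, h2, h3⟩ := (h1.and (h2.and h3)).exists
    exact ⟨_, h1, by rw [dist_radial hzx h3.le]; exact h2.ne⟩
  · exact ⟨z, hz, hzx⟩

/-- points of the circle are limits of inner points -/
lemma mem_closure_in {x y z : ℂ} {r : ℝ} (hz : z ∈ ball y r) (hzx : dist z x = 1) {H : Set ℂ}
    (hH : IsClosed H) (hsub : ball y r ∩ {z | dist z x < 1} ⊆ H) : z ∈ H := by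
  rw [← hH.closure_eq, mem_closure_iff_frequently]
  have h1 : ∀ᶠ t : ℝ in 𝓝[<] 1, x + (t : ℂ) * (z - x) ∈ ball y r :=
    nhdsWithin_le_nhds ((tendsto_radial x z).eventually (isOpen_ball.mem_nhds hz))
  have h2 : ∀ᶠ t : ℝ in 𝓝[<] 1, t < 1 := self_mem_nhdsWithin
  have h3 : ∀ᶠ t : ℝ in 𝓝[<] 1, 0 < t := nhdsWithin_le_nhds (eventually_gt_nhds one_pos)
  have h4 : ∀ᶠ t : ℝ in 𝓝[<] 1, x + (t : ℂ) * (z - x) ∈ H := by
    filter_upwards [h1, h2, h3] with t h1 h2 h3
    exact hsub ⟨h1, by rw [mem_ofPred_eq, dist_radial hzx h3.le]; exact h2⟩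
  exact ((tendsto_radial x z).mono_left nhdsWithin_le_nhds).frequently h4.frequently

/-- points of the circle are limits of outer points -/
lemma mem_closure_out {x y z : ℂ} {r : ℝ} (hz : z ∈ ball y r) (hzx : dist z x = 1) {H : Set ℂ}
    (hH : IsClosed H) (hsub : ball y r ∩ {z | 1 < dist z x} ⊆ H) : z ∈ H := by
  rw [← hH.closure_eq, mem_closure_iff_frequently]
  have h1 : ∀ᶠ t : ℝ in 𝓝[>] 1, x + (t : ℂ) * (z - x) ∈ ball y r :=
    nhdsWithin_le_nhds ((tendsto_radial x z).eventually (isOpen_ball.mem_nhds hz))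
  have h2 : ∀ᶠ t : ℝ in 𝓝[>] 1, 1 < t := self_mem_nhdsWithin
  have h4 : ∀ᶠ t : ℝ in 𝓝[>] 1, x + (t : ℂ) * (z - x) ∈ H := by
    filter_upwards [h1, h2] with t h1 h2
    exact hsub ⟨h1, by rw [mem_ofPred_eq, dist_radial hzx (by linarith)]; exact h2⟩
  exact ((tendsto_radial x z).mono_left nhdsWithin_le_nhds).frequently h4.frequently

lemma rot_one (x : ℂ) (t : ℝ) : rot x 1 t = x + Complex.exp (t * Complex.I) := by
  rw [rot, mul_one]

/-- `x + uv t` is within unit distance of `x`. -/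
lemma dist_add_exp (x : ℂ) (t : ℝ) : dist (x + Complex.exp (t * Complex.I)) x = 1 := by
  rw [dist_eq_norm, add_sub_cancel_left, Complex.norm_exp_ofReal_mul_I]

namespace Cov
variable (h : Cov U)
include h

/-- (III-e), core: at a boundary direction of `B = Sol b ∩ Sol d` the exact pairs `bd` accumulate
and `bd` is not a bridge of the graph `E(y)`. -/
theorem III_e_core {x : ℂ} {b d : Fin 5} (hbd : b ≠ d) {s : ℝ}
    (hs : s ∈ closure (interior {t : ℝ | x + Complex.exp (t * Complex.I) ∈ F U b} ∩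
      interior {t : ℝ | x + Complex.exp (t * Complex.I) ∈ F U d}))
    (hs' : s ∉ interior {t : ℝ | x + Complex.exp (t * Complex.I) ∈ F U b} ∩
      interior {t : ℝ | x + Complex.exp (t * Complex.I) ∈ F U d})
    (hN : ∀ᶠ q in 𝓝 (x + Complex.exp (s * Complex.I)), J U q = {b, d} → dist q x = 1) :
    Acc U (x + Complex.exp (s * Complex.I)) b d ∧
    ∀ P : Finset (Fin 5), b ∈ P → d ∉ P → ∃ i ∈ P, ∃ j ∉ P, ¬ (i = b ∧ j = d) ∧
      Acc U (x + Complex.exp (s * Complex.I)) i j := by
  classical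
  set y : ℂ := x + Complex.exp (s * Complex.I) with hy
  have hyx : dist y x = 1 := dist_add_exp x s
  have hcont : Continuous (fun t : ℝ => x + Complex.exp (t * Complex.I)) := by fun_prop
  -- generic points of `B` near `s`
  have hgenB : ∀ O : Set ℂ, IsOpen O → y ∈ O → ∃ t : ℝ, x + Complex.exp (t * Complex.I) ∈ O ∧
      J U (x + Complex.exp (t * Complex.I)) = {b, d} := by
    intro O hO hyO
    have h1 : IsOpen ((fun t : ℝ => x + Complex.exp (t * Complex.I)) ⁻¹' O) := hO.preimage hcont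
    obtain ⟨t, ht1, ht2⟩ := mem_closure_iff.1 hs _ h1 hyO
    obtain ⟨t', ht', hg⟩ := exists_gen (U := U) {(x, 1)}
      ((h1.inter (isOpen_interior.inter isOpen_interior))) ⟨t, ht1, ht2⟩
    have hg := hg (x, 1) (by simp)
    simp only at hg
    refine ⟨t', ht'.1, ?_⟩
    have hb : b ∈ J U (rot x 1 t') := by
      rw [mem_J, rot_one]
      exact interior_subset (s := {t : ℝ | x + Complex.exp (t * Complex.I) ∈ F U b}) ht'.2.1
    have hd : d ∈ J U (rot x 1 t') := by
      rw [mem_J, rot_one]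
      exact interior_subset (s := {t : ℝ | x + Complex.exp (t * Complex.I) ∈ F U d}) ht'.2.2
    have hcard := h.card_le_two one_ne_zero hg
    rw [← rot_one]
    refine (Finset.eq_of_subset_of_card_le ?_ ?_).symm
    · intro i hi
      simp only [Finset.mem_insert, Finset.mem_singleton] at hi
      rcases hi with rfl | rfl <;> assumption
    · rw [Finset.card_pair hbd]; exact hcard
  refine ⟨?_, ?_⟩
  · intro hev
    obtain ⟨O, hOs, hO, hyO⟩ := _root_.mem_nhds_iff.1 hev
    obtain ⟨t, ht, ht'⟩ := hgenB O hO hyO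
    exact hOs ht ht'
  intro P hbP hdP
  by_contra hcon
  push Not at hcon
  -- a good ball
  have hgood : ∀ᶠ z in 𝓝 y, (J U z = {b, d} → dist z x = 1) ∧
      (∀ i j : Fin 5, i ≠ j → J U z = {i, j} → (EG U y).Adj i j) := hN.and (eventually_adj y)
  obtain ⟨r, hr, hball⟩ := Metric.eventually_nhds_iff_ball.1 hgood
  set H : Set ℂ := ⋃ i ∈ P, F U i with hH
  set H' : Set ℂ := ⋃ i ∈ Pᶜ, F U i with hH'
  have hHc : IsClosed H := P.finite_toSet.isClosed_biUnion fun i _ => isClosed_F i
  have hH'c : IsClosed H' := (Pᶜ).finite_toSet.isClosed_biUnion fun i _ => isClosed_F i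
  have hcov : ∀ z, z ∈ H ∪ H' := by
    intro z
    obtain ⟨i, hi⟩ := h.cover z
    by_cases hiP : i ∈ P
    · exact Or.inl (mem_iUnion₂.2 ⟨i, hiP, hi⟩)
    · exact Or.inr (mem_iUnion₂.2 ⟨i, Finset.mem_compl.2 hiP, hi⟩)
  -- pairs across the partition
  have hpair : ∀ z ∈ ball y r, z ∈ H → z ∈ H' → (J U z).card ≤ 2 → J U z = {b, d} := by
    intro z hz hzH hzH' hcard
    obtain ⟨i, hiP, hi⟩ := mem_iUnion₂.1 hzH
    obtain ⟨j, hjP, hj⟩ := mem_iUnion₂.1 hzH'
    rw [Finset.mem_compl] at hjP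
    have hij : i ≠ j := fun hij => hjP (hij ▸ hiP)
    have hJ : J U z = {i, j} := by
      refine (Finset.eq_of_subset_of_card_le ?_ ?_).symm
      · intro k hk
        simp only [Finset.mem_insert, Finset.mem_singleton] at hk
        rcases hk with rfl | rfl
        · exact mem_J.2 hi
        · exact mem_J.2 hj
      · rw [Finset.card_pair hij]; exact hcard
    have hadj := (hball z hz).2 i j hij hJ
    by_cases hbdij : i = b ∧ j = d
    · rw [hJ, hbdij.1, hbdij.2]
    · exact absurd hadj.2 (hcon i hiP j hjP (fun h1 h2 => hbdij ⟨h1, h2⟩))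
  -- off the circle the intersection is contained in `Th`
  have hTh : ∀ N : Set ℂ, N ⊆ ball y r → (∀ z ∈ N, dist z x ≠ 1) →
      IsTotallyDisconnected (H ∩ H' ∩ N) := by
    intro N hN1 hN2
    refine fun t ht htp => h.isTotallyDisconnected_Th t (ht.trans ?_) htp
    rintro z ⟨⟨hz1, hz2⟩, hz3⟩
    by_contra hz4
    have hcard : (J U z).card ≤ 2 := by
      simp only [Th, mem_ofPred_eq, not_le] at hz4
      omega
    exact hN2 z hz3 ((hball z (hN1 hz3)).1 (hpair z (hN1 hz3) hz1 hz2 hcard))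
  have hoin : IsOpen (ball y r ∩ {z | dist z x < 1}) :=
    isOpen_ball.inter (isOpen_lt (by fun_prop) continuous_const)
  have hoout : IsOpen (ball y r ∩ {z | 1 < dist z x}) :=
    isOpen_ball.inter (isOpen_lt continuous_const (by fun_prop))
  have hin := Topo.td_cover hoin (isPreconnected_ball_in x y r) hHc hH'c
    (fun z _ => hcov z) (hTh _ inter_subset_left (fun z hz => ne_of_lt hz.2))
  have hout := Topo.td_cover hoout (isPreconnected_ball_out hyx r) hHc hH'c
    (fun z _ => hcov z) (hTh _ inter_subset_left (fun z hz => ne_of_gt hz.2))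
  -- the two colours really occur on the two sides
  obtain ⟨t₀, ht₀, hJ₀⟩ := hgenB (ball y r) isOpen_ball (mem_ball_self hr)
  have hoff : ∀ e ∈ ({b, d} : Finset (Fin 5)), ∃ z ∈ ball y r, dist z x ≠ 1 ∧ J U z = {e} := by
    intro e he
    have h1 : x + Complex.exp (t₀ * Complex.I) ∈ F U e := by rw [← mem_J, hJ₀]; exact he
    have h2 : ∀ᶠ z in 𝓝 (x + Complex.exp (t₀ * Complex.I)), z ∈ ball y r ∧ J U z ⊆ {b, d} := by
      have := J_usc (U := U) (x + Complex.exp (t₀ * Complex.I))
      rw [hJ₀] at this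
      have h0 : ∀ᶠ z in 𝓝 (x + Complex.exp (t₀ * Complex.I)), z ∈ ball y r :=
        isOpen_ball.mem_nhds ht₀
      exact h0.and this
    obtain ⟨O, hOs, hO, hO'⟩ := _root_.mem_nhds_iff.1 h2
    have h3 : (O ∩ U e).Nonempty := mem_closure_iff.1 h1 O hO hO'
    obtain ⟨z, ⟨hzO, hze⟩, hzx⟩ := exists_off (hO.inter (h.isOpen e)) h3 x
    obtain ⟨hz1, hz2⟩ := hOs hzO
    refine ⟨z, hz1, hzx, ?_⟩
    have hze' : e ∈ J U z := mem_J.2 (subset_F e hze)
    have hne : J U z ≠ {b, d} := fun h' => hzx ((hball z hz1).1 h')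
    have hlt : (J U z).card < 2 := by
      have := Finset.card_lt_card (Finset.ssubset_iff_subset_ne.2 ⟨hz2, hne⟩)
      rwa [Finset.card_pair hbd] at this
    have hc1 : (J U z).card = 1 := by
      have := Finset.card_pos.2 ⟨e, hze'⟩
      omega
    obtain ⟨e', he'⟩ := Finset.card_eq_one.1 hc1
    rw [he', Finset.mem_singleton] at hze'
    rw [he', hze']
  have hside : ∀ K : Set ℂ, ball y r ∩ {z | dist z x < 1} ⊆ K →
      ball y r ∩ {z | 1 < dist z x} ⊆ K → ∀ z ∈ ball y r, dist z x ≠ 1 → z ∈ K := by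
    intro K h1 h2 z hz hzx
    rcases lt_or_gt_of_ne hzx with h3 | h3
    · exact h1 ⟨hz, h3⟩
    · exact h2 ⟨hz, h3⟩
  -- the circle is contained in both
  have hboth : ∀ z ∈ ball y r, dist z x = 1 → z ∈ H ∧ z ∈ H' := by
    rcases hin with hin | hin <;> rcases hout with hout | hout
    · exfalso
      obtain ⟨z, hz1, hz2, hz3⟩ := hoff d (by simp)
      obtain ⟨i, hiP, hi⟩ := mem_iUnion₂.1 (hside H hin hout z hz1 hz2)
      have : i ∈ J U z := mem_J.2 hi
      rw [hz3, Finset.mem_singleton] at this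
      exact hdP (this ▸ hiP)
    · intro z hz hzx
      exact ⟨mem_closure_in hz hzx hHc hin, mem_closure_out hz hzx hH'c hout⟩
    · intro z hz hzx
      exact ⟨mem_closure_out hz hzx hHc hout, mem_closure_in hz hzx hH'c hin⟩
    · exfalso
      obtain ⟨z, hz1, hz2, hz3⟩ := hoff b (by simp)
      obtain ⟨i, hiP, hi⟩ := mem_iUnion₂.1 (hside H' hin hout z hz1 hz2)
      have : i ∈ J U z := mem_J.2 hi
      rw [hz3, Finset.mem_singleton] at this
      rw [this, Finset.mem_compl] at hiP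
      exact hiP hbP
  -- so all directions near `s` are in `F b ∩ F d`
  have hopen : IsOpen ((fun t : ℝ => x + Complex.exp (t * Complex.I)) ⁻¹' ball y r) :=
    isOpen_ball.preimage hcont
  have hs0 : s ∈ (fun t : ℝ => x + Complex.exp (t * Complex.I)) ⁻¹' ball y r :=
    mem_ball_self hr
  have hclose : ∀ e ∈ ({b, d} : Finset (Fin 5)),
      (fun t : ℝ => x + Complex.exp (t * Complex.I)) ⁻¹' ball y r ⊆
        {t : ℝ | x + Complex.exp (t * Complex.I) ∈ F U e} := by
    intro e he t ht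
    have hcl : IsClosed {t : ℝ | x + Complex.exp (t * Complex.I) ∈ F U e} :=
      (isClosed_F e).preimage hcont
    rw [← hcl.closure_eq, _root_.mem_closure_iff]
    intro O hO htO
    obtain ⟨t', ht', hg⟩ := exists_gen (U := U) {(x, 1)} (hO.inter hopen) ⟨t, htO, ht⟩
    have hg := hg (x, 1) (by simp)
    simp only at hg
    have hcard := h.card_le_two one_ne_zero hg
    rw [rot_one] at hcard
    obtain ⟨h1, h2⟩ := hboth _ ht'.2 (dist_add_exp x t')
    have h3 := hpair _ ht'.2 h1 h2 hcard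
    refine ⟨t', ht'.1, ?_⟩
    rw [mem_ofPred_eq, ← mem_J, h3]
    exact he
  exact hs' ⟨interior_maximal (hclose b (by simp)) hopen hs0,
    interior_maximal (hclose d (by simp)) hopen hs0⟩

omit h in
/-- Finite graph lemma: a non-bridge edge `bd` of a triangle-free graph on five vertices, not
lying on a 5-cycle through all vertices, lies on a 4-cycle. -/
lemma exists_quad {r : Fin 5 → Fin 5 → Prop} (hsymm : ∀ i j, r i j → r j i) {b d : Fin 5}
    (hbd : b ≠ d) (hr : r b d)
    (hbr : ∀ P : Finset (Fin 5), b ∈ P → d ∉ P → ∃ i ∈ P, ∃ j ∉ P, ¬ (i = b ∧ j = d) ∧ r i j)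
    (hT : ∀ i j k, i ≠ j → i ≠ k → j ≠ k → r i j → r j k → r k i → False)
    (hP : ∀ q i j, b ≠ d → b ≠ q → b ≠ i → b ≠ j → d ≠ q → d ≠ i → d ≠ j → q ≠ i → q ≠ j →
      i ≠ j → r b q → r q i → r i j → ∀ k, k ≠ b → k ≠ d → r k d → False) :
    ∃ p q, b ≠ p ∧ b ≠ q ∧ d ≠ p ∧ d ≠ q ∧ p ≠ q ∧ r d p ∧ r p q ∧ r q b ∧ ¬ r b p ∧ ¬ r d q := by
  classical
  -- the ball of radius two about `b` avoiding `d`
  obtain ⟨i, hi, j, hj, hij, hrij⟩ := hbr
    (Finset.univ.filter fun k => k = b ∨ (k ≠ d ∧ r b k) ∨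
      (k ≠ d ∧ ∃ q, q ≠ d ∧ q ≠ b ∧ r b q ∧ r q k)) (by simp) (by
        simp only [Finset.mem_filter, Finset.mem_univ, true_and]
        rintro (h1 | h1 | h1)
        · exact hbd h1.symm
        · exact h1.1 rfl
        · exact h1.1 rfl)
  simp only [Finset.mem_filter, Finset.mem_univ, true_and, not_or, not_and, not_exists] at hi hj
  obtain ⟨hjb, hj1, hj2⟩ := hj
  have hib : i ≠ b := by
    rintro rfl
    by_cases hjd : j = d
    · exact hij ⟨rfl, hjd⟩
    · exact hj1 hjd hrij
  have hne : i ≠ j := by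
    rintro rfl
    rcases hi with h1 | h1 | ⟨h1, q, hq1, hq2, hq3, hq4⟩
    · exact hjb h1
    · exact hj1 h1.1 h1.2
    · exact hj2 h1 q hq1 hq2 hq3 hq4
  rcases hi with h1 | ⟨hid, hbi⟩ | ⟨hid, q, hqd, hqb, hbq, hqi⟩
  · exact absurd h1 hib
  · -- `i` is a neighbour of `b`
    by_cases hjd : j = d
    · subst hjd
      exact absurd (hT b i j hib.symm hbd hne hbi hrij (hsymm _ _ hr)) id
    · exact absurd hrij (hj2 hjd i hid hib hbi)
  · have hqi' : q ≠ i := by
      rintro rfl
      by_cases hjd : j = d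
      · subst hjd
        exact hT b q j hqb.symm hbd hqd hbq hrij (hsymm _ _ hr)
      · exact hj2 hjd q hqd hqb hbq hrij
    by_cases hjd : j = d
    · subst hjd
      refine ⟨i, q, hib.symm, hqb.symm, hid.symm, hqd.symm, hqi'.symm, hsymm _ _ hrij,
        hsymm _ _ hqi, hsymm _ _ hbq, ?_, ?_⟩
      · intro hbi
        exact hT b q i hqb.symm hib.symm hqi' hbq hqi (hsymm _ _ hbi)
      · intro hdq
        exact hT j q b hqd.symm hbd.symm hqb hdq (hsymm _ _ hbq) hr
    · exfalso
      have hqj : q ≠ j := by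
        rintro rfl
        exact hj1 hjd hbq
      obtain ⟨k, hk, l, hl, hkl, hrkl⟩ := hbr (Finset.univ.erase d) (by simp [hbd]) (by simp)
      simp only [Finset.mem_erase, Finset.mem_univ, and_true, not_not] at hk hl
      subst hl
      exact hP q i j hbd hqb.symm hib.symm (Ne.symm hjb) hqd.symm hid.symm (Ne.symm hjd)
        hqi' hqj hne hbq hqi hrij k (fun hkb => hkl ⟨hkb, rfl⟩) hk hrkl

/-- (III-e). -/
theorem III_e {x : ℂ} {b d : Fin 5} (hbd : b ≠ d) {s : ℝ}
    (hs : s ∈ closure (interior {t : ℝ | x + Complex.exp (t * Complex.I) ∈ F U b} ∩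
      interior {t : ℝ | x + Complex.exp (t * Complex.I) ∈ F U d}))
    (hs' : s ∉ interior {t : ℝ | x + Complex.exp (t * Complex.I) ∈ F U b} ∩
      interior {t : ℝ | x + Complex.exp (t * Complex.I) ∈ F U d})
    (hN : ∀ᶠ q in 𝓝 (x + Complex.exp (s * Complex.I)), J U q = {b, d} → dist q x = 1)
    (hT : ∀ i j k, i ≠ j → i ≠ k → j ≠ k → Acc U (x + Complex.exp (s * Complex.I)) i j →
      Acc U (x + Complex.exp (s * Complex.I)) j k → Acc U (x + Complex.exp (s * Complex.I)) k i →
      False)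
    (hII : J U (x + Complex.exp (s * Complex.I)) = Finset.univ →
      (∀ i j k l, i ≠ j → i ≠ k → i ≠ l → j ≠ k → j ≠ l → k ≠ l →
        Acc U (x + Complex.exp (s * Complex.I)) i j → Acc U (x + Complex.exp (s * Complex.I)) j k →
        Acc U (x + Complex.exp (s * Complex.I)) k l → Acc U (x + Complex.exp (s * Complex.I)) l i →
        False) ∧
      (∀ i j k l m, i ≠ j → i ≠ k → i ≠ l → i ≠ m → j ≠ k → j ≠ l → j ≠ m → k ≠ l → k ≠ m → l ≠ m →
        Acc U (x + Complex.exp (s * Complex.I)) i j → Acc U (x + Complex.exp (s * Complex.I)) j k →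
        Acc U (x + Complex.exp (s * Complex.I)) k l → Acc U (x + Complex.exp (s * Complex.I)) l m →
        Acc U (x + Complex.exp (s * Complex.I)) m i → False)) :
    ∃ p q, b ≠ p ∧ b ≠ q ∧ d ≠ p ∧ d ≠ q ∧ p ≠ q ∧
      J U (x + Complex.exp (s * Complex.I)) = {b, d, p, q} ∧
      Acc U (x + Complex.exp (s * Complex.I)) b d ∧ Acc U (x + Complex.exp (s * Complex.I)) d p ∧
      Acc U (x + Complex.exp (s * Complex.I)) p q ∧ Acc U (x + Complex.exp (s * Complex.I)) q b ∧
      ¬ Acc U (x + Complex.exp (s * Complex.I)) b p ∧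
      ¬ Acc U (x + Complex.exp (s * Complex.I)) d q := by
  obtain ⟨hacc, hbr⟩ := h.III_e_core hbd hs hs' hN
  set y : ℂ := x + Complex.exp (s * Complex.I) with hy
  have hsymm : ∀ i j, Acc U y i j → Acc U y j i := fun i j hij => by
    have : ({i, j} : Finset (Fin 5)) = {j, i} := Finset.pair_comm i j
    rw [Acc, ← this]; exact hij
  have hmem : ∀ i j, Acc U y i j → i ∈ J U y := fun i j hij => by
    obtain ⟨z, hz1, hz2⟩ := (Filter.Frequently.and_eventually hij (J_usc (U := U) y)).exists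
    rw [hz1] at hz2
    exact hz2 (by simp)
  obtain ⟨p, q, hbp, hbq, hdp, hdq, hpq, h1, h2, h3, h4, h5⟩ := exists_quad (r := Acc U y) hsymm
    hbd hacc hbr hT (by
      intro q i j _ hbq hbi hbj hdq hdi hdj hqi hqj hij h1 h2 h3 k hkb hkd h4
      have hsub : ({b, d, q, i, j} : Finset (Fin 5)) ⊆ J U y := by
        intro k hk
        simp only [Finset.mem_insert, Finset.mem_singleton] at hk
        rcases hk with rfl | rfl | rfl | rfl | rfl
        · exact hmem _ _ h1
        · exact hmem _ _ (hsymm _ _ hacc)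
        · exact hmem _ _ h2
        · exact hmem _ _ h3
        · exact hmem _ _ (hsymm _ _ h3)
      have hc : ({b, d, q, i, j} : Finset (Fin 5)).card = 5 := by
        rw [Finset.card_insert_of_notMem (by simp [hbd, hbq, hbi, hbj]),
          Finset.card_insert_of_notMem (by simp [hdq, hdi, hdj]),
          Finset.card_insert_of_notMem (by simp [hqi, hqj]),
          Finset.card_insert_of_notMem (by simpa using hij), Finset.card_singleton]
      have hfull : ({b, d, q, i, j} : Finset (Fin 5)) = Finset.univ :=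
        Finset.eq_univ_of_card _ (by rw [hc]; rfl)
      have hJ : J U y = Finset.univ := by
        rw [← Finset.univ_subset_iff, ← hfull]; exact hsub
      have hk : k ∈ ({b, d, q, i, j} : Finset (Fin 5)) := by rw [hfull]; simp
      simp only [Finset.mem_insert, Finset.mem_singleton] at hk
      rcases hk with rfl | rfl | rfl | rfl | rfl
      · exact hkb rfl
      · exact hkd rfl
      · exact hT b k d hbq hbd hkd h1 h4 (hsymm _ _ hacc)
      · exact (hII hJ).1 b q k d hbq hbi hbd hqi hdq.symm hkd h1 h2 h4 (hsymm _ _ hacc)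
      · exact (hII hJ).2 b q i k d hbq hbi hbj hbd hqi hqj hdq.symm hij hdi.symm hkd h1 h2 h3 h4
          (hsymm _ _ hacc))
  refine ⟨p, q, hbp, hbq, hdp, hdq, hpq, ?_, hacc, h1, h2, h3, h4, h5⟩
  have hsub : ({b, d, p, q} : Finset (Fin 5)) ⊆ J U y := by
    intro k hk
    simp only [Finset.mem_insert, Finset.mem_singleton] at hk
    rcases hk with rfl | rfl | rfl | rfl
    · exact hmem _ _ hacc
    · exact hmem _ _ h1
    · exact hmem _ _ h2
    · exact hmem _ _ h3
  have hc : ({b, d, p, q} : Finset (Fin 5)).card = 4 := by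
    rw [Finset.card_insert_of_notMem (by simp [hbd, hbp, hbq]),
      Finset.card_insert_of_notMem (by simp [hdp, hdq]),
      Finset.card_insert_of_notMem (by simpa using hpq), Finset.card_singleton]
  refine (Finset.eq_of_subset_of_card_le hsub ?_).symm
  rw [hc]
  by_contra hlt
  push Not at hlt
  have hJ : J U y = Finset.univ := by
    apply Finset.eq_univ_of_card
    have := Finset.card_le_univ (J U y)
    simp only [Fintype.card_fin] at this ⊢
    omega
  exact (hII hJ).1 b d p q hbd hbp hbq hdp hdq hpq hacc h1 h2 h3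

end Cov
end

end Crest.Agent.R40.T3
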