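import Crest.Agent.R40.T3Pal
import Crest.Agent.R040.T2d

/-!
# R40 : final assembly of T3 and transfer to `EuclideanSpace ℝ (Fin 2)`

* `Tri`, `Quad`, `Pent` : cycles of length 3, 4, 5 of a relation on `Fin 5`.
* `T3_false_of` : T3 from the existence of a point with a cycle and from Cases I, II, III.
* `S0054_of` : the frozen statement from T1, T2 (landed) and T3.
-/

set_option autoImplicit false

open Set Metric Topology Filter

namespace Crest.Agent.R40.T3

/-- the relation has a triangle -/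
def Tri (r : Fin 5 → Fin 5 → Prop) : Prop :=
  ∃ a b c, a ≠ b ∧ a ≠ c ∧ b ≠ c ∧ r a b ∧ r b c ∧ r c a

/-- the relation has a cycle of length four -/
def Quad (r : Fin 5 → Fin 5 → Prop) : Prop :=
  ∃ a b c d, a ≠ b ∧ a ≠ c ∧ a ≠ d ∧ b ≠ c ∧ b ≠ d ∧ c ≠ d ∧ r a b ∧ r b c ∧ r c d ∧ r d a

/-- the relation has a cycle of length five -/
def Pent (r : Fin 5 → Fin 5 → Prop) : Prop :=
  ∃ a b c d e, a ≠ b ∧ a ≠ c ∧ a ≠ d ∧ a ≠ e ∧ b ≠ c ∧ b ≠ d ∧ b ≠ e ∧ c ≠ d ∧ c ≠ e ∧ d ≠ e ∧
    r a b ∧ r b c ∧ r c d ∧ r d e ∧ r e a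

section
variable {U : Fin 5 → Set ℂ}

lemma Acc.symm {x : ℂ} {a b : Fin 5} (h : Acc U x a b) : Acc U x b a := by
  refine h.mono ?_
  intro z hz
  rw [hz, Finset.pair_comm]

lemma Acc.mem_J_left {x : ℂ} {a b : Fin 5} (h : Acc U x a b) : a ∈ J U x := by
  rw [mem_J]
  have hcl : IsClosed (F U a) := isClosed_F a
  rw [← hcl.closure_eq, mem_closure_iff_frequently]
  refine h.mono ?_
  intro z hz
  rw [← mem_J, hz]
  simp

lemma Acc.mem_J_right {x : ℂ} {a b : Fin 5} (h : Acc U x a b) : b ∈ J U x :=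
  h.symm.mem_J_left

/-- T3 from the existence of a point with a cycle and Cases I, II, III. -/
theorem T3_false_of
    (hex : ∃ x, Tri (Acc U x) ∨ Quad (Acc U x) ∨ Pent (Acc U x))
    (hI : ∀ x, ¬ Tri (Acc U x))
    (hII : ∀ x, J U x = Finset.univ → ¬ Quad (Acc U x) ∧ ¬ Pent (Acc U x))
    (hIII : ∀ x (a b c d : Fin 5), a ≠ b → a ≠ c → a ≠ d → b ≠ c → b ≠ d → c ≠ d →
      J U x = {a, b, c, d} → Acc U x a b → Acc U x b c → Acc U x c d → Acc U x d a →
      ¬ Acc U x a c → ¬ Acc U x b d → False) : False := by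
  obtain ⟨x, h3 | h4 | h5⟩ := hex
  · exact hI x h3
  · obtain ⟨a, b, c, d, hab, hac, had, hbc, hbd, hcd, h1, h2, h3, h4⟩ := h4
    have hnac : ¬ Acc U x a c := fun h =>
      hI x ⟨a, b, c, hab, hac, hbc, h1, h2, h.symm⟩
    have hnbd : ¬ Acc U x b d := fun h =>
      hI x ⟨b, c, d, hbc, hbd, hcd, h2, h3, h.symm⟩
    by_cases hJ : J U x = Finset.univ
    · exact (hII x hJ).1 ⟨a, b, c, d, hab, hac, had, hbc, hbd, hcd, h1, h2, h3, h4⟩
    · refine hIII x a b c d hab hac had hbc hbd hcd ?_ h1 h2 h3 h4 hnac hnbd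
      have hsub : ({a, b, c, d} : Finset (Fin 5)) ⊆ J U x := by
        intro i hi
        simp only [Finset.mem_insert, Finset.mem_singleton] at hi
        rcases hi with rfl | rfl | rfl | rfl
        · exact h1.mem_J_left
        · exact h2.mem_J_left
        · exact h3.mem_J_left
        · exact h4.mem_J_left
      have hc : ({a, b, c, d} : Finset (Fin 5)).card = 4 := by
        rw [Finset.card_insert_of_notMem (by simp [hab, hac, had]),
          Finset.card_insert_of_notMem (by simp [hbc, hbd]),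
          Finset.card_insert_of_notMem (by simpa using hcd), Finset.card_singleton]
      have hle : (J U x).card ≤ 4 := by
        by_contra hlt
        push Not at hlt
        apply hJ
        apply Finset.eq_univ_of_card
        have := Finset.card_le_univ (J U x)
        simp only [Fintype.card_fin] at this ⊢
        omega
      exact (Finset.eq_of_subset_of_card_le hsub (by rw [hc]; exact hle)).symm
  · obtain ⟨a, b, c, d, e, hab, hac, had, hae, hbc, hbd, hbe, hcd, hce, hde, h1, h2, h3, h4, h5⟩ :=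
      h5
    have hJ : J U x = Finset.univ := by
      apply Finset.eq_univ_of_card
      have hsub : ({a, b, c, d, e} : Finset (Fin 5)) ⊆ J U x := by
        intro i hi
        simp only [Finset.mem_insert, Finset.mem_singleton] at hi
        rcases hi with rfl | rfl | rfl | rfl | rfl
        · exact h1.mem_J_left
        · exact h2.mem_J_left
        · exact h3.mem_J_left
        · exact h4.mem_J_left
        · exact h5.mem_J_left
      have hc : ({a, b, c, d, e} : Finset (Fin 5)).card = 5 := by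
        rw [Finset.card_insert_of_notMem (by simp [hab, hac, had, hae]),
          Finset.card_insert_of_notMem (by simp [hbc, hbd, hbe]),
          Finset.card_insert_of_notMem (by simp [hcd, hce]),
          Finset.card_insert_of_notMem (by simpa using hde), Finset.card_singleton]
      have h1 := Finset.card_le_card hsub
      have h2 := Finset.card_le_univ (J U x)
      simp only [Fintype.card_fin] at h2 ⊢
      omega
    exact (hII x hJ).2 ⟨a, b, c, d, e, hab, hac, had, hae, hbc, hbd, hbe, hcd, hce, hde, h1, h2,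
      h3, h4, h5⟩

end

/-- The frozen statement S0054 from T1 (arbitrary colouring to measurable cover), T2 (landed) and
T3. -/
theorem S0054_of
    (hT1 : ∀ c : ℂ → Fin 5, (∀ x y : ℂ, ‖x - y‖ = 1 → c x ≠ c y) →
      ∃ A : Fin 5 → Set ℂ, (∀ i, MeasurableSet (A i)) ∧
        (∀ i, ∀ᵐ p : ℂ × ℝ, ¬ (p.1 ∈ A i ∧ p.1 + Complex.exp (Complex.I * p.2) ∈ A i)) ∧
        (∀ᵐ z : ℂ, ∃ i, z ∈ A i))
    (hT3 : ∀ U : Fin 5 → Set ℂ, Cov U → (∀ i j, i ≠ j → Disjoint (U i) (U j)) → False)
    (c : EuclideanSpace ℝ (Fin 2) → Fin 5) :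
    ∃ x y : EuclideanSpace ℝ (Fin 2), dist x y = 1 ∧ c x = c y := by
  by_contra hno
  push Not at hno
  obtain ⟨A, hA, hav, hcov⟩ := hT1 (fun z => c (Complex.orthonormalBasisOneI.repr z)) (by
    intro x y hxy
    apply hno
    rw [LinearIsometryEquiv.dist_map, dist_eq_norm, hxy])
  obtain ⟨U, h1, h2, h3, h4, h5⟩ := Crest.Agent.R040.T2.main_prod hA hav hcov
  exact hT3 U ⟨h1, h2, h4, h5⟩ h3

/-- The frozen statement S0054 from the transfer theorem in the form of `T1Glue.exists_U_of` and T3. -/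
theorem S0054_of_U
    (hU : ∀ c : ℂ → Fin 5, (∀ x y : ℂ, ‖x - y‖ = 1 → c x ≠ c y) →
      ∃ U : Fin 5 → Set ℂ, (∀ i, IsOpen (U i)) ∧ (∀ i, interior (closure (U i)) = U i) ∧
        (∀ i j, i ≠ j → Disjoint (U i) (U j)) ∧
        (∀ i, ∀ x ∈ U i, ∀ y ∈ U i, dist x y ≠ 1) ∧ Dense (⋃ i, U i))
    (hT3 : ∀ U : Fin 5 → Set ℂ, Cov U → (∀ i j, i ≠ j → Disjoint (U i) (U j)) → False)
    (c : EuclideanSpace ℝ (Fin 2) → Fin 5) :
    ∃ x y : EuclideanSpace ℝ (Fin 2), dist x y = 1 ∧ c x = c y := by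
  by_contra hno
  push Not at hno
  obtain ⟨U, h1, h2, h3, h4, h5⟩ := hU (fun z => c (Complex.orthonormalBasisOneI.repr z)) (by
    intro x y hxy
    apply hno
    rw [LinearIsometryEquiv.dist_map, dist_eq_norm, hxy])
  exact hT3 U ⟨h1, h2, h4, h5⟩ h3

end Crest.Agent.R40.T3
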