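import Crest.Agent.R40.T3Geo638
import Crest.Agent.R40.T3Sol
import Crest.Agent.R40.T3Main

/-!
# R40 / T3 : Case I (`E(x)` contains a triangle), basic structure (helper638)

Colours `a b c` form a triangle of accumulating exact pairs at `x`; `d e` are the other two.
-/

set_option autoImplicit false

open Set Metric Topology Filter

namespace Crest.Agent.R40.T3CaseI

open Crest.Agent.R40.T3 Crest.Agent.R40.T3Geo

lemma u_eq_uv (t : ℝ) : u t = uv t := rfl

/-- The situation of Case I. -/
structure Ctx (U : Fin 5 → Set ℂ) (x : ℂ) (a b c d e : Fin 5) : Prop where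
  h : Cov U
  col : ∀ i : Fin 5, i = a ∨ i = b ∨ i = c ∨ i = d ∨ i = e
  ab : a ≠ b
  ac : a ≠ c
  ad : a ≠ d
  ae : a ≠ e
  bc : b ≠ c
  bd : b ≠ d
  be : b ≠ e
  cd : c ≠ d
  ce : c ≠ e
  de : d ≠ e
  hab : Acc U x a b
  hbc : Acc U x b c
  hac : Acc U x a c

/-- `t` is the right end of an interval contained in `A`, and `B` accumulates at `t` from the
right. -/
def Swi (A B : Set ℝ) (t : ℝ) : Prop :=
  (∃ r > 0, Ioo (t - r) t ⊆ A) ∧ (∃ᶠ s in 𝓝[>] t, s ∈ B)

section
variable {U : Fin 5 → Set ℂ} {x : ℂ} {a b c d e : Fin 5}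

namespace Ctx

lemma swapDE (X : Ctx U x a b c d e) : Ctx U x a b c e d where
  h := X.h
  col := fun i => by
    rcases X.col i with h | h | h | h | h
    · exact Or.inl h
    · exact Or.inr (Or.inl h)
    · exact Or.inr (Or.inr (Or.inl h))
    · exact Or.inr (Or.inr (Or.inr (Or.inr h)))
    · exact Or.inr (Or.inr (Or.inr (Or.inl h)))
  ab := X.ab
  ac := X.ac
  ad := X.ae
  ae := X.ad
  bc := X.bc
  bd := X.be
  be := X.bd
  cd := X.ce
  ce := X.cd
  de := X.de.symm
  hab := X.hab
  hbc := X.hbc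
  hac := X.hac

/-- cyclic rotation `a → b → c → a` -/
lemma rotABC (X : Ctx U x a b c d e) : Ctx U x b c a d e where
  h := X.h
  col := fun i => by
    rcases X.col i with h | h | h | h | h
    · exact Or.inr (Or.inr (Or.inl h))
    · exact Or.inl h
    · exact Or.inr (Or.inl h)
    · exact Or.inr (Or.inr (Or.inr (Or.inl h)))
    · exact Or.inr (Or.inr (Or.inr (Or.inr h)))
  ab := X.bc
  ac := X.ab.symm
  ad := X.bd
  ae := X.be
  bc := X.ac.symm
  bd := X.cd
  be := X.ce
  cd := X.ad
  ce := X.ae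
  de := X.de
  hab := X.hbc
  hbc := X.hac.symm
  hac := X.hab.symm

lemma swapAB (X : Ctx U x a b c d e) : Ctx U x b a c d e where
  h := X.h
  col := fun i => by
    rcases X.col i with h | h | h | h | h
    · exact Or.inr (Or.inl h)
    · exact Or.inl h
    · exact Or.inr (Or.inr (Or.inl h))
    · exact Or.inr (Or.inr (Or.inr (Or.inl h)))
    · exact Or.inr (Or.inr (Or.inr (Or.inr h)))
  ab := X.ab.symm
  ac := X.bc
  ad := X.bd
  ae := X.be
  bc := X.ac
  bd := X.ad
  be := X.ae
  cd := X.cd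
  ce := X.ce
  de := X.de
  hab := X.hab.symm
  hbc := X.hac
  hac := X.hbc

variable (X : Ctx U x a b c d e)
include X

lemma mem_a : a ∈ J U x := X.hab.mem_J_left
lemma mem_b : b ∈ J U x := X.hab.mem_J_right
lemma mem_c : c ∈ J U x := X.hac.mem_J_right

/-- a generic palette contains `d` or `e` -/
lemma one_of_gen {t : ℝ} (ht : t ∈ GenC U x) : t ∈ Sol U d x ∨ t ∈ Sol U e x := by
  rw [mem_Sol_iff ht, mem_Sol_iff ht]
  by_contra hcon
  push Not at hcon
  obtain ⟨hd, he⟩ := hcon
  have hcard := X.h.genC_card ht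
  obtain ⟨k, hk⟩ := X.h.J_nonempty (x + uv t)
  have hdist : dist (x + uv t) x = 1 := dist_add_uv x t
  have hsub : ∀ i ∈ J U (x + uv t), i = a ∨ i = b ∨ i = c := by
    intro i hi
    rcases X.col i with h | h | h | h | h
    · exact Or.inl h
    · exact Or.inr (Or.inl h)
    · exact Or.inr (Or.inr h)
    · exact absurd (h ▸ hi) hd
    · exact absurd (h ▸ hi) he
  have hmem : ∀ i ∈ J U (x + uv t), i ∈ J U x := by
    intro i hi
    rcases hsub i hi with rfl | rfl | rfl
    · exact X.mem_a
    · exact X.mem_b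
    · exact X.mem_c
  by_cases h1 : J U (x + uv t) ⊆ {k}
  · exact X.h.single_not_mem h1 hdist (hmem k hk)
  · obtain ⟨l, hl, hlk⟩ := Finset.not_subset.1 h1
    rw [Finset.mem_singleton] at hlk
    have hkl : J U (x + uv t) ⊆ {k, l} := by
      intro i hi
      by_contra hn
      simp only [Finset.mem_insert, Finset.mem_singleton, not_or] at hn
      have : ({k, l, i} : Finset (Fin 5)) ⊆ J U (x + uv t) := by
        intro j hj
        simp only [Finset.mem_insert, Finset.mem_singleton] at hj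
        rcases hj with rfl | rfl | rfl
        · exact hk
        · exact hl
        · exact hi
      have h2 := Finset.card_le_card this
      rw [Finset.card_insert_of_notMem (by simp [Ne.symm hlk, Ne.symm hn.1]),
        Finset.card_insert_of_notMem (by simpa using Ne.symm hn.2), Finset.card_singleton] at h2
      omega
    have hacc : Acc U x k l := by
      rcases hsub k hk with rfl | rfl | rfl <;> rcases hsub l hl with rfl | rfl | rfl
      · exact absurd rfl hlk
      · exact X.hab
      · exact X.hac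
      · exact X.hab.symm
      · exact absurd rfl hlk
      · exact X.hbc
      · exact X.hac.symm
      · exact X.hbc.symm
      · exact absurd rfl hlk
    exact X.h.not_acc hkl hdist hacc

/-- `Sol d` and `Sol e` are disjoint -/
lemma disj {t : ℝ} (hd : t ∈ Sol U d x) (he : t ∈ Sol U e x) : False := by
  obtain ⟨s, hs, hs2⟩ := (dense_GenW (U := U) (x := x)).inter_open_nonempty _
    (isOpen_Sol.inter isOpen_Sol) ⟨t, hd, he⟩
  obtain ⟨hsd, hse⟩ := hs
  have h1 : s + Real.pi / 3 ∈ GenC U x := by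
    have := hs2 1
    simpa using this
  rcases X.one_of_gen h1 with h2 | h2
  · exact (X.h.P3 hsd).1 (sol_mem h2)
  · exact (X.h.P3 hse).1 (sol_mem h2)

/-- an open set of angles without `Sol d`-points lies in `Sol e` -/
lemma sol_of_not {t : ℝ} (ht : ∀ᶠ s in 𝓝 t, s ∉ Sol U d x) : t ∈ Sol U e x := by
  apply mem_Sol_of_eventually
  filter_upwards [ht.eventually_nhds] with s hs
  have hcl : IsClosed {r : ℝ | x + uv r ∈ F U e} :=
    (isClosed_F e).preimage (by have := continuous_uv; fun_prop)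
  have : s ∈ closure {r : ℝ | x + uv r ∈ F U e} := by
    rw [mem_closure_iff_nhds]
    intro V hV
    obtain ⟨O, hO1, hO2, hO3⟩ := _root_.mem_nhds_iff.1 (Filter.inter_mem hV hs)
    obtain ⟨r, hr1, hr2⟩ := (dense_GenC (U := U) (x := x)).inter_open_nonempty _ hO2 ⟨s, hO3⟩
    refine ⟨r, (hO1 hr1).1, ?_⟩
    rcases X.one_of_gen hr2 with h1 | h1
    · exact absurd h1 (hO1 hr1).2
    · exact sol_mem h1
  rwa [hcl.closure_eq] at this

/-- the circle is covered by `F d` and `F e` -/
lemma cover_circle (t : ℝ) : x + uv t ∈ F U d ∨ x + uv t ∈ F U e := by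
  by_cases ht : ∀ᶠ s in 𝓝 t, s ∉ Sol U d x
  · exact Or.inr (sol_mem (X.sol_of_not ht))
  · left
    rw [not_eventually] at ht
    have hcl : IsClosed {r : ℝ | x + uv r ∈ F U d} :=
      (isClosed_F d).preimage (by have := continuous_uv; fun_prop)
    have : t ∈ closure {r : ℝ | x + uv r ∈ F U d} := by
      rw [mem_closure_iff_frequently]
      refine ht.mono fun s hs => ?_
      rw [not_not] at hs
      exact sol_mem hs
    rwa [hcl.closure_eq] at this

/-- an exact pair point of colours in `{a,b,c}` is not on the circle -/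
lemma dist_ne {q : ℂ} (hd : d ∉ J U q) (he : e ∉ J U q) : dist x q ≠ 1 := by
  intro hq
  obtain ⟨t, rfl⟩ := exists_uv (x := x) (y := q) (by rw [dist_comm]; exact hq)
  rcases X.cover_circle t with h1 | h1
  · exact hd (mem_J.2 h1)
  · exact he (mem_J.2 h1)

lemma shift {t : ℝ} (ht : t ∈ Sol U d x) : t + Real.pi / 3 ∈ Sol U e x := by
  apply X.sol_of_not
  have h1 : Tendsto (fun s : ℝ => s - Real.pi / 3) (𝓝 (t + Real.pi / 3)) (𝓝 t) := by
    have : Continuous (fun s : ℝ => s - Real.pi / 3) := by fun_prop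
    have := this.tendsto (t + Real.pi / 3)
    simpa using this
  filter_upwards [h1.eventually (isOpen_Sol.mem_nhds ht)] with s hs hs2
  have := (X.h.P3 hs).1
  rw [sub_add_cancel] at this
  exact this (sol_mem hs2)

lemma shift' {t : ℝ} (ht : t ∈ Sol U d x) : t - Real.pi / 3 ∈ Sol U e x := by
  apply X.sol_of_not
  have h1 : Tendsto (fun s : ℝ => s + Real.pi / 3) (𝓝 (t - Real.pi / 3)) (𝓝 t) := by
    have : Continuous (fun s : ℝ => s + Real.pi / 3) := by fun_prop
    have := this.tendsto (t - Real.pi / 3)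
    simpa using this
  filter_upwards [h1.eventually (isOpen_Sol.mem_nhds ht)] with s hs hs2
  have := (X.h.P3 hs).2
  rw [add_sub_cancel_right] at this
  exact this (sol_mem hs2)

lemma shift_pi {t : ℝ} (ht : t ∈ Sol U d x) : t + Real.pi ∈ Sol U e x := by
  have h1 := X.shift (X.swapDE.shift (X.shift ht))
  have : t + Real.pi / 3 + Real.pi / 3 + Real.pi / 3 = t + Real.pi := by ring
  rwa [this] at h1

/-- mixed points have colours in `{a,b,c}` -/
lemma mixed {v w : ℝ} (hv : v ∈ Sol U d x) (hw : w ∈ Sol U e x) (hs : Real.sin (v - w) ≠ 0) :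
    d ∉ J U (x + uv v + uv w) ∧ e ∉ J U (x + uv v + uv w) := by
  constructor
  · intro h1
    exact (X.h.R hs (mem_J.1 h1)).1 hv
  · intro h1
    exact (X.h.R hs (mem_J.1 h1)).2 hw

/-- right ends of components -/
lemma exists_switch {s s' : ℝ} (hs : s ∈ Sol U d x) (hs' : s' ∉ Sol U d x) (hlt : s < s') :
    ∃ t ∈ Ioc s s', Swi (Sol U d x) (Sol U e x) t := by
  have hcomp : IsCompact (Icc s s' ∩ (Sol U d x)ᶜ) :=
    isCompact_Icc.inter_right isOpen_Sol.isClosed_compl
  obtain ⟨t, ht, hmin⟩ := hcomp.exists_isLeast ⟨s', ⟨hlt.le, le_rfl⟩, hs'⟩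
  obtain ⟨⟨ht1, ht2⟩, ht3⟩ := ht
  have hst : s < t := by
    rcases ht1.lt_or_eq with h1 | h1
    · exact h1
    · exact absurd (h1 ▸ hs) ht3
  have hleft : ∀ r ∈ Ioo s t, r ∈ Sol U d x := by
    intro r hr
    by_contra hn
    have := hmin ⟨⟨hr.1.le, hr.2.le.trans ht2⟩, hn⟩
    linarith [hr.2]
  refine ⟨t, ⟨hst, ht2⟩, ⟨t - s, sub_pos.2 hst, ?_⟩, ?_⟩
  · intro r hr
    rw [sub_sub_cancel] at hr
    exact hleft r hr
  · by_contra hcon
    rw [not_frequently] at hcon
    apply ht3
    -- to the right of `t` everything lies in `Sol d`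
    have h1 : ∀ᶠ r in 𝓝[>] t, r ∈ Sol U d x := by
      rw [eventually_nhdsWithin_iff] at hcon ⊢
      filter_upwards [hcon.eventually_nhds] with r hr hr2
      apply X.swapDE.sol_of_not
      have h3 : ∀ᶠ r' in 𝓝 r, r' ∈ Ioi t := isOpen_Ioi.mem_nhds hr2
      filter_upwards [hr, h3] with r' h4 h5 using h4 h5
    have hcl : IsClosed {r : ℝ | x + uv r ∈ F U d} :=
      (isClosed_F d).preimage (by have := continuous_uv; fun_prop)
    have hFt : x + uv t ∈ F U d := by
      have : t ∈ closure {r : ℝ | x + uv r ∈ F U d} := by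
        rw [mem_closure_iff_frequently]
        have h5 : ∃ᶠ r in 𝓝[>] t, x + uv r ∈ F U d :=
          (h1.mono fun r hr => sol_mem hr).frequently
        exact h5.filter_mono nhdsWithin_le_nhds
      rwa [hcl.closure_eq] at this
    apply mem_Sol_of_eventually
    rw [eventually_nhdsWithin_iff] at h1
    have h2 : ∀ᶠ r in 𝓝 t, r ∈ Ioi s := isOpen_Ioi.mem_nhds hst
    filter_upwards [h1, h2] with r hr1 hr2
    rcases lt_trichotomy r t with h3 | h3 | h3
    · exact sol_mem (hleft r ⟨hr2, h3⟩)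
    · rw [h3]; exact hFt
    · exact sol_mem (hr1 h3)

lemma exists_sol : ∃ t, t ∈ Sol U d x := by
  obtain ⟨t, ht⟩ := (dense_GenC (U := U) (x := x)).nonempty
  rcases X.one_of_gen ht with h1 | h1
  · exact ⟨t, h1⟩
  · exact ⟨_, X.swapDE.shift h1⟩

lemma exists_base : ∃ t, Swi (Sol U d x) (Sol U e x) t := by
  obtain ⟨s, hs⟩ := X.exists_sol
  have h1 : s + Real.pi / 3 ∉ Sol U d x := fun h2 => X.disj h2 (X.shift hs)
  obtain ⟨t, -, ht⟩ := X.exists_switch hs h1 (by linarith [Real.pi_pos])
  exact ⟨t, ht⟩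

/-- switches are shifted by 60 degrees -/
lemma swi_shift {t : ℝ} (ht : Swi (Sol U d x) (Sol U e x) t) :
    Swi (Sol U e x) (Sol U d x) (t + Real.pi / 3) := by
  obtain ⟨⟨r, hr, hsub⟩, hfr⟩ := ht
  refine ⟨⟨r, hr, ?_⟩, ?_⟩
  · intro s hs
    have := X.shift (hsub (show s - Real.pi / 3 ∈ Ioo (t - r) t from
      ⟨by linarith [hs.1], by linarith [hs.2]⟩))
    rwa [sub_add_cancel] at this
  · have h1 : Tendsto (fun s : ℝ => s + Real.pi / 3) (𝓝[>] t) (𝓝[>] (t + Real.pi / 3)) := by
      apply tendsto_nhdsWithin_of_tendsto_nhds_of_eventually_within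
      · have : Continuous (fun s : ℝ => s + Real.pi / 3) := by fun_prop
        exact (this.tendsto t).mono_left nhdsWithin_le_nhds
      · filter_upwards [self_mem_nhdsWithin] with s hs
        have : t < s := hs
        show t + Real.pi / 3 < s + Real.pi / 3
        linarith
    exact h1.frequently (hfr.mono fun s hs => X.swapDE.shift hs)

lemma swi_shift' {t : ℝ} (ht : Swi (Sol U d x) (Sol U e x) t) :
    Swi (Sol U e x) (Sol U d x) (t - Real.pi / 3) := by
  obtain ⟨⟨r, hr, hsub⟩, hfr⟩ := ht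
  refine ⟨⟨r, hr, ?_⟩, ?_⟩
  · intro s hs
    have := X.shift' (hsub (show s + Real.pi / 3 ∈ Ioo (t - r) t from
      ⟨by linarith [hs.1], by linarith [hs.2]⟩))
    rwa [add_sub_cancel_right] at this
  · have h1 : Tendsto (fun s : ℝ => s - Real.pi / 3) (𝓝[>] t) (𝓝[>] (t - Real.pi / 3)) := by
      apply tendsto_nhdsWithin_of_tendsto_nhds_of_eventually_within
      · have : Continuous (fun s : ℝ => s - Real.pi / 3) := by fun_prop
        exact (this.tendsto t).mono_left nhdsWithin_le_nhds
      · filter_upwards [self_mem_nhdsWithin] with s hs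
        have : t < s := hs
        show t - Real.pi / 3 < s - Real.pi / 3
        linarith
    exact h1.frequently (hfr.mono fun s hs => X.swapDE.shift' hs)

end Ctx

end

end Crest.Agent.R40.T3CaseI
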