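import Crest.Agent.R40.T3Pal

/-!
# R40 / T3 : circle geometry needed by the colour analysis (helper638)

`u θ = exp (i θ)`.  One-sided crossing lemmas for unit circles, two-circle lemma.
-/

set_option autoImplicit false

open Set Metric Topology Filter

namespace Crest.Agent.R40.T3Geo

/-- the unit vector of angle `θ` -/
noncomputable def u (θ : ℝ) : ℂ := Complex.exp (θ * Complex.I)

lemma u_eq (θ : ℝ) : u θ = ⟨Real.cos θ, Real.sin θ⟩ := by
  rw [u, Complex.exp_mul_I, ← Complex.ofReal_cos, ← Complex.ofReal_sin]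
  apply Complex.ext <;> simp [-Complex.ofReal_cos, -Complex.ofReal_sin]

@[simp] lemma u_re (θ : ℝ) : (u θ).re = Real.cos θ := by rw [u_eq]

@[simp] lemma u_im (θ : ℝ) : (u θ).im = Real.sin θ := by rw [u_eq]

@[simp] lemma norm_u (θ : ℝ) : ‖u θ‖ = 1 := by
  rw [u, Complex.norm_exp_ofReal_mul_I]

lemma u_ne_zero (θ : ℝ) : u θ ≠ 0 := by
  rw [← norm_ne_zero_iff, norm_u]; exact one_ne_zero

lemma u_add (θ φ : ℝ) : u (θ + φ) = u θ * u φ := by
  rw [u, u, u, ← Complex.exp_add]; push_cast; ring_nf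

lemma u_add_pi (θ : ℝ) : u (θ + Real.pi) = - u θ := by
  apply Complex.ext <;> simp [Real.cos_add_pi, Real.sin_add_pi]

lemma continuous_u : Continuous u := by
  unfold u; fun_prop

lemma hasDerivAt_u (θ : ℝ) : HasDerivAt u (Complex.I * u θ) θ := by
  have h1 : HasDerivAt (fun z : ℂ => Complex.exp (z * Complex.I))
      (Complex.exp ((θ : ℂ) * Complex.I) * Complex.I) (θ : ℂ) := by
    have := ((hasDerivAt_id (θ : ℂ)).mul_const Complex.I).cexp
    simpa using this
  have h2 := h1.comp_ofReal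
  rw [mul_comm] at h2
  exact h2

lemma rot_one (y : ℂ) (θ : ℝ) : T3.rot y 1 θ = y + u θ := by
  rw [T3.rot, mul_one, u]

lemma hasDerivAt_comp_add_const_u (θ c : ℝ) :
    HasDerivAt (fun s => u (s + c)) (Complex.I * u (θ + c)) θ :=
  (hasDerivAt_u (θ + c)).comp_add_const θ c

/-! ### sign of the distance along a curve -/

/-- derivative test for the squared distance -/
lemma side_of_pos {γ : ℝ → ℂ} {t : ℝ} {γ' q : ℂ} (hγ : HasDerivAt γ γ' t)
    (h1 : dist (γ t) q = 1) (hpos : 0 < ((starRingEnd ℂ) (γ t - q) * γ').re) :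
    (∀ᶠ s in 𝓝[>] t, 1 < dist (γ s) q) ∧ (∀ᶠ s in 𝓝[<] t, dist (γ s) q < 1) := by
  have hd : HasDerivAt (fun s => ‖γ s - q‖ ^ 2 - 1) (2 * inner ℝ (γ t - q) γ') t := by
    have := (hγ.sub_const q).norm_sq.sub_const 1
    exact this
  have hin : inner ℝ (γ t - q) γ' = ((starRingEnd ℂ) (γ t - q) * γ').re := by
    rw [Complex.inner, mul_comm]
  rw [hin] at hd
  have h0 : ‖γ t - q‖ ^ 2 - 1 = 0 := by
    rw [← dist_eq_norm, h1]; norm_num
  have hder : deriv (fun s => ‖γ s - q‖ ^ 2 - 1) t > 0 := by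
    rw [hd.deriv]; positivity
  have key := eventually_nhdsWithin_sign_eq_of_deriv_pos hder h0
  constructor
  · filter_upwards [nhdsWithin_le_nhds key, self_mem_nhdsWithin] with s hs hs2
    have hs2 : t < s := hs2
    rw [sign_pos (sub_pos.2 hs2), sign_eq_one_iff] at hs
    rw [dist_eq_norm]
    nlinarith [norm_nonneg (γ s - q)]
  · filter_upwards [nhdsWithin_le_nhds key, self_mem_nhdsWithin] with s hs hs2
    have hs2 : s < t := hs2
    rw [sign_neg (sub_neg.2 hs2), sign_eq_neg_one_iff] at hs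
    rw [dist_eq_norm]
    nlinarith [norm_nonneg (γ s - q)]

lemma side_of_neg {γ : ℝ → ℂ} {t : ℝ} {γ' q : ℂ} (hγ : HasDerivAt γ γ' t)
    (h1 : dist (γ t) q = 1) (hneg : ((starRingEnd ℂ) (γ t - q) * γ').re < 0) :
    (∀ᶠ s in 𝓝[>] t, dist (γ s) q < 1) ∧ (∀ᶠ s in 𝓝[<] t, 1 < dist (γ s) q) := by
  have hd : HasDerivAt (fun s => ‖γ s - q‖ ^ 2 - 1) (2 * inner ℝ (γ t - q) γ') t := by
    have := (hγ.sub_const q).norm_sq.sub_const 1
    exact this
  have hin : inner ℝ (γ t - q) γ' = ((starRingEnd ℂ) (γ t - q) * γ').re := by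
    rw [Complex.inner, mul_comm]
  rw [hin] at hd
  have h0 : ‖γ t - q‖ ^ 2 - 1 = 0 := by
    rw [← dist_eq_norm, h1]; norm_num
  have hder : deriv (fun s => ‖γ s - q‖ ^ 2 - 1) t < 0 := by
    rw [hd.deriv]; linarith
  have key := eventually_nhdsWithin_sign_eq_of_deriv_neg hder h0
  constructor
  · filter_upwards [nhdsWithin_le_nhds key, self_mem_nhdsWithin] with s hs hs2
    have hs2 : t < s := hs2
    rw [sign_neg (sub_neg.2 hs2), sign_eq_neg_one_iff] at hs
    rw [dist_eq_norm]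
    nlinarith [norm_nonneg (γ s - q)]
  · filter_upwards [nhdsWithin_le_nhds key, self_mem_nhdsWithin] with s hs hs2
    have hs2 : s < t := hs2
    rw [sign_pos (sub_pos.2 hs2), sign_eq_one_iff] at hs
    rw [dist_eq_norm]
    nlinarith [norm_nonneg (γ s - q)]

/-! ### intermediate values for the distance -/

lemma ivt_dist {γ : ℝ → ℂ} (hγ : Continuous γ) {a b : ℝ} (hab : a < b) {z : ℂ}
    (ha : dist (γ a) z < 1) (hb : 1 < dist (γ b) z) : ∃ s ∈ Ioo a b, dist (γ s) z = 1 := by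
  have := intermediate_value_Ioo hab.le (f := fun s => dist (γ s) z)
    (by fun_prop) (show (1 : ℝ) ∈ Ioo _ _ from ⟨ha, hb⟩)
  obtain ⟨s, hs, h⟩ := this
  exact ⟨s, hs, h⟩

lemma ivt_dist' {γ : ℝ → ℂ} (hγ : Continuous γ) {a b : ℝ} (hab : a < b) {z : ℂ}
    (ha : 1 < dist (γ a) z) (hb : dist (γ b) z < 1) : ∃ s ∈ Ioo a b, dist (γ s) z = 1 := by
  have := intermediate_value_Ioo' hab.le (f := fun s => dist (γ s) z)
    (by fun_prop) (show (1 : ℝ) ∈ Ioo _ _ from ⟨hb, ha⟩)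
  obtain ⟨s, hs, h⟩ := this
  exact ⟨s, hs, h⟩

lemma ev_lt (p : ℂ) {z : ℂ} (h : dist p z < 1) : ∀ᶠ z' in 𝓝 z, dist p z' < 1 :=
  (isOpen_lt (by fun_prop) continuous_const).mem_nhds h

lemma ev_gt (p : ℂ) {z : ℂ} (h : 1 < dist p z) : ∀ᶠ z' in 𝓝 z, 1 < dist p z' :=
  (isOpen_lt continuous_const (by fun_prop)).mem_nhds h

/-- choose a point on the right -/
lemma exists_right {P : ℝ → Prop} {t : ℝ} (h : ∀ᶠ s in 𝓝[>] t, P s) {ε : ℝ} (hε : 0 < ε) :
    ∃ s ∈ Ioo t (t + ε), P s := by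
  have h2 : ∀ᶠ s in 𝓝[>] t, s < t + ε :=
    nhdsWithin_le_nhds (eventually_lt_nhds (by linarith))
  obtain ⟨s, h3, h4, h5⟩ := (h.and (h2.and self_mem_nhdsWithin)).exists
  exact ⟨s, ⟨h5, h4⟩, h3⟩

lemma exists_left {P : ℝ → Prop} {t : ℝ} (h : ∀ᶠ s in 𝓝[<] t, P s) {ε : ℝ} (hε : 0 < ε) :
    ∃ s ∈ Ioo (t - ε) t, P s := by
  have h2 : ∀ᶠ s in 𝓝[<] t, t - ε < s :=
    nhdsWithin_le_nhds (eventually_gt_nhds (by linarith))
  obtain ⟨s, h3, h4, h5⟩ := (h.and (h2.and self_mem_nhdsWithin)).exists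
  exact ⟨s, ⟨h4, h5⟩, h3⟩

/-- derivative positive: `dist (γ t) z < 1` gives a crossing on the right of `t` -/
lemma cross_pos_right {γ : ℝ → ℂ} (hc : Continuous γ) {t : ℝ} {γ' q : ℂ}
    (hγ : HasDerivAt γ γ' t) (h1 : dist (γ t) q = 1)
    (hpos : 0 < ((starRingEnd ℂ) (γ t - q) * γ').re) {ε : ℝ} (hε : 0 < ε) :
    ∀ᶠ z in 𝓝 q, dist (γ t) z < 1 → ∃ s ∈ Ioo t (t + ε), dist (γ s) z = 1 := by
  obtain ⟨s, hs, hs1⟩ := exists_right (side_of_pos hγ h1 hpos).1 hε
  filter_upwards [ev_gt _ hs1] with z hz hz1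
  obtain ⟨r, hr, h⟩ := ivt_dist hc hs.1 hz1 hz
  exact ⟨r, ⟨hr.1, hr.2.trans hs.2⟩, h⟩

lemma cross_pos_left {γ : ℝ → ℂ} (hc : Continuous γ) {t : ℝ} {γ' q : ℂ}
    (hγ : HasDerivAt γ γ' t) (h1 : dist (γ t) q = 1)
    (hpos : 0 < ((starRingEnd ℂ) (γ t - q) * γ').re) {ε : ℝ} (hε : 0 < ε) :
    ∀ᶠ z in 𝓝 q, 1 < dist (γ t) z → ∃ s ∈ Ioo (t - ε) t, dist (γ s) z = 1 := by
  obtain ⟨s, hs, hs1⟩ := exists_left (side_of_pos hγ h1 hpos).2 hε
  filter_upwards [ev_lt _ hs1] with z hz hz1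
  obtain ⟨r, hr, h⟩ := ivt_dist hc hs.2 hz hz1
  exact ⟨r, ⟨hs.1.trans hr.1, hr.2⟩, h⟩

lemma cross_neg_right {γ : ℝ → ℂ} (hc : Continuous γ) {t : ℝ} {γ' q : ℂ}
    (hγ : HasDerivAt γ γ' t) (h1 : dist (γ t) q = 1)
    (hneg : ((starRingEnd ℂ) (γ t - q) * γ').re < 0) {ε : ℝ} (hε : 0 < ε) :
    ∀ᶠ z in 𝓝 q, 1 < dist (γ t) z → ∃ s ∈ Ioo t (t + ε), dist (γ s) z = 1 := by
  obtain ⟨s, hs, hs1⟩ := exists_right (side_of_neg hγ h1 hneg).1 hε
  filter_upwards [ev_lt _ hs1] with z hz hz1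
  obtain ⟨r, hr, h⟩ := ivt_dist' hc hs.1 hz1 hz
  exact ⟨r, ⟨hr.1, hr.2.trans hs.2⟩, h⟩

lemma cross_neg_left {γ : ℝ → ℂ} (hc : Continuous γ) {t : ℝ} {γ' q : ℂ}
    (hγ : HasDerivAt γ γ' t) (h1 : dist (γ t) q = 1)
    (hneg : ((starRingEnd ℂ) (γ t - q) * γ').re < 0) {ε : ℝ} (hε : 0 < ε) :
    ∀ᶠ z in 𝓝 q, dist (γ t) z < 1 → ∃ s ∈ Ioo (t - ε) t, dist (γ s) z = 1 := by
  obtain ⟨s, hs, hs1⟩ := exists_left (side_of_neg hγ h1 hneg).2 hε
  filter_upwards [ev_gt _ hs1] with z hz hz1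
  obtain ⟨r, hr, h⟩ := ivt_dist' hc hs.2 hz hz1
  exact ⟨r, ⟨hs.1.trans hr.1, hr.2⟩, h⟩

/-! ### the concrete curves -/

lemma dist_add_u (x : ℂ) (θ : ℝ) : dist (x + u θ) x = 1 := by
  rw [dist_eq_norm, add_sub_cancel_left, norm_u]

lemma dist_self_add_u (x : ℂ) (θ : ℝ) : dist x (x + u θ) = 1 := by
  rw [dist_comm, dist_add_u]

/-- (Geo1) the circle about `q` near `x + u τ`, not through `x`, meets the line through `x` of
direction `i u β` near `x` off `x`. -/
lemma exists_sector (x : ℂ) {τ β : ℝ} (hs : Real.sin (β - τ) ≠ 0) {ε : ℝ} (hε : 0 < ε) :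
    ∀ᶠ q in 𝓝 (x + u τ), dist x q ≠ 1 →
      ∃ s, s ≠ 0 ∧ |s| < ε ∧ dist (x + u (β + s) - u (β - s)) q = 1 := by
  set γ : ℝ → ℂ := fun s => x + u (β + s) - u (β - s) with hγdef
  have hc : Continuous γ := by
    have := continuous_u
    fun_prop
  have hγ0 : γ 0 = x := by simp [hγdef]
  have hd : HasDerivAt γ (Complex.I * u β + Complex.I * u β) 0 := by
    have h1 : HasDerivAt (fun s : ℝ => u (β + s)) (Complex.I * u (β + 0)) 0 :=
      (hasDerivAt_u (β + 0)).comp_const_add β 0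
    have h2 : HasDerivAt (fun s : ℝ => u (β - s)) (-(Complex.I * u (β - 0))) 0 :=
      (hasDerivAt_u (β - 0)).comp_const_sub β 0
    have := (h1.const_add x).sub h2
    rw [add_zero, sub_zero, sub_neg_eq_add] at this
    exact this
  have h1 : dist (γ 0) (x + u τ) = 1 := by rw [hγ0, dist_self_add_u]
  have hre : ((starRingEnd ℂ) (γ 0 - (x + u τ)) * (Complex.I * u β + Complex.I * u β)).re
      = 2 * Real.sin (β - τ) := by
    rw [hγ0, Real.sin_sub]
    simp
    ring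
  rcases lt_or_gt_of_ne hs with hs | hs
  · have hneg : ((starRingEnd ℂ) (γ 0 - (x + u τ)) *
        (Complex.I * u β + Complex.I * u β)).re < 0 := by rw [hre]; linarith
    filter_upwards [cross_neg_right hc hd h1 hneg hε, cross_neg_left hc hd h1 hneg hε]
      with q hq1 hq2 hq
    rw [hγ0] at hq1 hq2
    rcases lt_or_gt_of_ne hq with h | h
    · obtain ⟨s, hs, hs'⟩ := hq2 h
      exact ⟨s, hs.2.ne, by rw [abs_lt]; constructor <;> linarith [hs.1, hs.2], hs'⟩
    · obtain ⟨s, hs, hs'⟩ := hq1 h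
      exact ⟨s, hs.1.ne', by rw [abs_lt]; constructor <;> linarith [hs.1, hs.2], hs'⟩
  · have hpos : 0 < ((starRingEnd ℂ) (γ 0 - (x + u τ)) *
        (Complex.I * u β + Complex.I * u β)).re := by rw [hre]; linarith
    filter_upwards [cross_pos_right hc hd h1 hpos hε, cross_pos_left hc hd h1 hpos hε]
      with q hq1 hq2 hq
    rw [hγ0] at hq1 hq2
    rcases lt_or_gt_of_ne hq with h | h
    · obtain ⟨s, hs, hs'⟩ := hq1 h
      exact ⟨s, hs.1.ne', by rw [abs_lt]; constructor <;> linarith [hs.1, hs.2], hs'⟩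
    · obtain ⟨s, hs, hs'⟩ := hq2 h
      exact ⟨s, hs.2.ne, by rw [abs_lt]; constructor <;> linarith [hs.1, hs.2], hs'⟩

/-- derivative computation for `β ↦ x + u t - u β` -/
lemma be_data (x : ℂ) (t t₀ : ℝ) :
    Continuous (fun β => x + u t - u β) ∧
    HasDerivAt (fun β => x + u t - u β) (-(Complex.I * u t)) t ∧
    dist (x + u t - u t) (x + u t₀) = 1 ∧
    ((starRingEnd ℂ) (x + u t - u t - (x + u t₀)) * (-(Complex.I * u t))).re
      = - Real.sin (t - t₀) := by
  refine ⟨?_, ?_, ?_, ?_⟩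
  · have := continuous_u
    fun_prop
  · have := (hasDerivAt_u t).const_sub (x + u t)
    exact this
  · rw [add_sub_cancel_right, dist_self_add_u]
  · rw [Real.sin_sub]
    simp
    ring

lemma al_data (x : ℂ) (t t₀ : ℝ) :
    Continuous (fun α => x + u α - u t) ∧
    HasDerivAt (fun α => x + u α - u t) (Complex.I * u t) t ∧
    dist (x + u t - u t) (x + u t₀) = 1 ∧
    ((starRingEnd ℂ) (x + u t - u t - (x + u t₀)) * (Complex.I * u t)).re
      = Real.sin (t - t₀) := by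
  refine ⟨?_, ?_, ?_, ?_⟩
  · have := continuous_u
    fun_prop
  · have := ((hasDerivAt_u t).const_add x).sub_const (u t)
    exact this
  · rw [add_sub_cancel_right, dist_self_add_u]
  · rw [Real.sin_sub]
    simp
    ring

/-- (Geo2) crossing with the circle about `x + u t`: the parameter `β` is on the left of `t`. -/
lemma cross_be_in (x : ℂ) {t t₀ : ℝ} (hs : 0 < Real.sin (t - t₀)) {ε : ℝ} (hε : 0 < ε) :
    ∀ᶠ q in 𝓝 (x + u t₀), dist x q < 1 →
      ∃ β ∈ Ioo (t - ε) t, dist (x + u t - u β) q = 1 := by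
  obtain ⟨h1, h2, h3, h4⟩ := be_data x t t₀
  have := cross_neg_left h1 h2 h3 (by rw [h4]; linarith) hε
  simpa using this

lemma cross_be_out (x : ℂ) {t t₀ : ℝ} (hs : Real.sin (t - t₀) < 0) {ε : ℝ} (hε : 0 < ε) :
    ∀ᶠ q in 𝓝 (x + u t₀), 1 < dist x q →
      ∃ β ∈ Ioo (t - ε) t, dist (x + u t - u β) q = 1 := by
  obtain ⟨h1, h2, h3, h4⟩ := be_data x t t₀
  have := cross_pos_left h1 h2 h3 (by rw [h4]; linarith) hε
  simpa using this

/-- crossing with the circle about `x - u t`: the parameter `α` is on the right of `t`. -/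
lemma cross_al_in (x : ℂ) {t t₀ : ℝ} (hs : 0 < Real.sin (t - t₀)) {ε : ℝ} (hε : 0 < ε) :
    ∀ᶠ q in 𝓝 (x + u t₀), dist x q < 1 →
      ∃ α ∈ Ioo t (t + ε), dist (x + u α - u t) q = 1 := by
  obtain ⟨h1, h2, h3, h4⟩ := al_data x t t₀
  have := cross_pos_right h1 h2 h3 (by rw [h4]; linarith) hε
  simpa using this

lemma cross_al_out (x : ℂ) {t t₀ : ℝ} (hs : Real.sin (t - t₀) < 0) {ε : ℝ} (hε : 0 < ε) :
    ∀ᶠ q in 𝓝 (x + u t₀), 1 < dist x q →
      ∃ α ∈ Ioo t (t + ε), dist (x + u α - u t) q = 1 := by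
  obtain ⟨h1, h2, h3, h4⟩ := al_data x t t₀
  have := cross_neg_right h1 h2 h3 (by rw [h4]; linarith) hε
  simpa using this

/-! ### the chart near `y = x + u (t + π/3)` -/

/-- chart near the unit neighbours: `P v w = x + u v + u (w + 2π/3)`. -/
noncomputable def P (x : ℂ) (v w : ℝ) : ℂ := x + u v + u (w + 2 * Real.pi / 3)

lemma P_diag (x : ℂ) (t : ℝ) : P x t t = x + u (t + Real.pi / 3) := by
  have h3 : Real.cos (2 * Real.pi / 3) = -(1 / 2) := by
    rw [show 2 * Real.pi / 3 = Real.pi - Real.pi / 3 by ring, Real.cos_pi_sub,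
      Real.cos_pi_div_three]
  have h4 : Real.sin (2 * Real.pi / 3) = Real.sqrt 3 / 2 := by
    rw [show 2 * Real.pi / 3 = Real.pi - Real.pi / 3 by ring, Real.sin_pi_sub,
      Real.sin_pi_div_three]
  rw [P, add_assoc]
  congr 1
  rw [u_add t (2 * Real.pi / 3), u_add t (Real.pi / 3)]
  have : u (Real.pi / 3) = 1 + u (2 * Real.pi / 3) := by
    apply Complex.ext
    · simp [h3]; norm_num
    · simp [h4]
  rw [this]; ring

lemma continuous_P (x : ℂ) : Continuous (fun p : ℝ × ℝ => P x p.1 p.2) := by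
  have := continuous_u
  unfold P
  fun_prop

lemma continuous_P_left (x : ℂ) (w : ℝ) : Continuous (fun v => P x v w) := by
  have := continuous_u
  unfold P
  fun_prop

lemma continuous_P_right (x : ℂ) (v : ℝ) : Continuous (fun w => P x v w) := by
  have := continuous_u
  unfold P
  fun_prop

lemma sin_pi_div_three_pos : 0 < Real.sin (Real.pi / 3) := by
  rw [Real.sin_pi_div_three]; positivity

/-- `v ↦ P v t` crosses the unit circle about `x` outwards at `v = t` -/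
lemma exists_v (x : ℂ) (t : ℝ) {ε : ℝ} (hε : 0 < ε) :
    ∃ v ∈ Ioo (t - ε) t, dist (P x v t) x < 1 := by
  have hd : HasDerivAt (fun v => P x v t) (Complex.I * u t) t := by
    have := ((hasDerivAt_u t).const_add x).add_const (u (t + 2 * Real.pi / 3))
    exact this
  have h1 : dist (P x t t) x = 1 := by rw [P_diag, dist_add_u]
  have hpos : 0 < ((starRingEnd ℂ) (P x t t - x) * (Complex.I * u t)).re := by
    have : ((starRingEnd ℂ) (P x t t - x) * (Complex.I * u t)).re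
        = Real.sin ((t + Real.pi / 3) - t) := by
      rw [P_diag, Real.sin_sub]
      simp
      ring
    rw [this, add_sub_cancel_left]
    exact sin_pi_div_three_pos
  exact exists_left (side_of_pos hd h1 hpos).2 hε

/-- `w ↦ P t w` crosses the unit circle about `x` inwards at `w = t` -/
lemma exists_w (x : ℂ) (t : ℝ) {ε : ℝ} (hε : 0 < ε) :
    ∃ w ∈ Ioo (t - ε) t, 1 < dist (P x t w) x := by
  have hd : HasDerivAt (fun w => P x t w) (Complex.I * u (t + 2 * Real.pi / 3)) t := by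
    have := (hasDerivAt_comp_add_const_u t (2 * Real.pi / 3)).const_add (x + u t)
    exact this
  have h1 : dist (P x t t) x = 1 := by rw [P_diag, dist_add_u]
  have hneg : ((starRingEnd ℂ) (P x t t - x) * (Complex.I * u (t + 2 * Real.pi / 3))).re < 0 := by
    have : ((starRingEnd ℂ) (P x t t - x) * (Complex.I * u (t + 2 * Real.pi / 3))).re
        = - Real.sin ((t + 2 * Real.pi / 3) - (t + Real.pi / 3)) := by
      rw [P_diag, Real.sin_sub]
      simp
      ring
    rw [this, show (t + 2 * Real.pi / 3) - (t + Real.pi / 3) = Real.pi / 3 by ring]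
    linarith [sin_pi_div_three_pos]
  exact exists_left (side_of_neg hd h1 hneg).2 hε

/-- (Geo3) leaves on the left of `t` crossed by circles about points outside `D(y)` -/
lemma leaf_out (x : ℂ) (t : ℝ) {ε : ℝ} (hε : 0 < ε) :
    ∃ v₁ ∈ Ioo (t - ε) t, ∀ᶠ z in 𝓝 x, 1 < dist (x + u (t + Real.pi / 3)) z →
      ∀ᶠ w in 𝓝 t, dist (P x v₁ w) z < 1 ∧ 1 < dist (P x t w) z := by
  obtain ⟨v, hv, hv1⟩ := exists_v x t hε
  refine ⟨v, hv, ?_⟩
  filter_upwards [ev_lt _ hv1] with z hz hz1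
  rw [← P_diag] at hz1
  have h1 : Continuous (fun w => dist (P x v w) z) :=
    (continuous_P_right x v).dist continuous_const
  have h2 : Continuous (fun w => dist (P x t w) z) :=
    (continuous_P_right x t).dist continuous_const
  exact Filter.inter_mem ((isOpen_lt h1 continuous_const).mem_nhds hz)
    ((isOpen_lt continuous_const h2).mem_nhds hz1)

lemma leaf_in (x : ℂ) (t : ℝ) {ε : ℝ} (hε : 0 < ε) :
    ∃ w₁ ∈ Ioo (t - ε) t, ∀ᶠ z in 𝓝 x, dist (x + u (t + Real.pi / 3)) z < 1 →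
      ∀ᶠ v in 𝓝 t, 1 < dist (P x v w₁) z ∧ dist (P x v t) z < 1 := by
  obtain ⟨w, hw, hw1⟩ := exists_w x t hε
  refine ⟨w, hw, ?_⟩
  filter_upwards [ev_gt _ hw1] with z hz hz1
  rw [← P_diag] at hz1
  have h1 : Continuous (fun v => dist (P x v w) z) :=
    (continuous_P_left x w).dist continuous_const
  have h2 : Continuous (fun v => dist (P x v t) z) :=
    (continuous_P_left x t).dist continuous_const
  exact Filter.inter_mem ((isOpen_lt continuous_const h1).mem_nhds hz)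
    ((isOpen_lt h2 continuous_const).mem_nhds hz1)

/-! ### two circles -/

lemma normSq_of_dist {a b : ℂ} (h : dist a b = 1) :
    (a.re - b.re) ^ 2 + (a.im - b.im) ^ 2 = 1 := by
  have h1 : dist a b ^ 2 = 1 := by rw [h]; norm_num
  rw [T3.dist_sq_eq_normSq, Complex.normSq_apply] at h1
  simp only [Complex.sub_re, Complex.sub_im] at h1
  linarith

/-- two different unit circles through `x` meet only in `x` and in `y + y' - x`. -/
lemma two_circles_aux {x y y' p : ℂ} (hne : y ≠ y') (hy : dist x y = 1) (hy' : dist x y' = 1)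
    (h1 : dist p y = 1) (h2 : dist p y' = 1) : p = x ∨ p = y + y' - x := by
  have e1 := normSq_of_dist hy
  have e2 := normSq_of_dist hy'
  have e3 := normSq_of_dist h1
  have e4 := normSq_of_dist h2
  have hD : (y.re - y'.re) ≠ 0 ∨ (y.im - y'.im) ≠ 0 := by
    by_contra hcon
    push Not at hcon
    exact hne (Complex.ext (by linarith [hcon.1]) (by linarith [hcon.2]))
  have h5 : (p.re - x.re) * (y.re - y'.re) + (p.im - x.im) * (y.im - y'.im) = 0 := by
    linarith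
  have h6 : (y.re + y'.re - 2 * x.re) * (y.re - y'.re)
      + (y.im + y'.im - 2 * x.im) * (y.im - y'.im) = 0 := by
    linarith
  set X : ℝ := (p.im - x.im) * (y.re + y'.re - 2 * x.re)
    - (p.re - x.re) * (y.im + y'.im - 2 * x.im) with hX
  have h7 : (y.re - y'.re) * X = 0 := by
    rw [hX]
    linear_combination (p.im - x.im) * h6 - (y.im + y'.im - 2 * x.im) * h5
  have h8 : (y.im - y'.im) * X = 0 := by
    rw [hX]
    linear_combination (y.re + y'.re - 2 * x.re) * h5 - (p.re - x.re) * h6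
  have hX0 : X = 0 := by
    rcases hD with hD | hD
    · exact (mul_eq_zero.1 h7).resolve_left hD
    · exact (mul_eq_zero.1 h8).resolve_left hD
  have hprod : (p - x) * (starRingEnd ℂ) (p - (y + y' - x)) = 0 := by
    apply Complex.ext
    · simp
      linarith
    · simp
      linarith
  rcases mul_eq_zero.1 hprod with h | h
  · left; exact sub_eq_zero.1 h
  · right
    rw [map_eq_zero] at h
    exact sub_eq_zero.1 h

/-- (Geo4) two different unit circles through `x` have no other common points near `x`. -/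
lemma two_circles {x y y' : ℂ} (hne : y ≠ y') (hy : dist x y = 1) (hy' : dist x y' = 1) :
    ∀ᶠ p in 𝓝[≠] x, ¬ (dist p y = 1 ∧ dist p y' = 1) := by
  by_cases hx : y + y' - x = x
  · filter_upwards [self_mem_nhdsWithin] with p hp
    rintro ⟨h1, h2⟩
    rcases two_circles_aux hne hy hy' h1 h2 with h | h
    · exact hp h
    · exact hp (by rw [h, hx]; rfl)
  · have h3 : ∀ᶠ p in 𝓝[≠] x, p ≠ y + y' - x :=
      nhdsWithin_le_nhds (isOpen_ne.mem_nhds (Ne.symm hx))
    filter_upwards [self_mem_nhdsWithin, h3] with p hp hp2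
    rintro ⟨h1, h2⟩
    rcases two_circles_aux hne hy hy' h1 h2 with h | h
    · exact hp h
    · exact hp2 h

end Crest.Agent.R40.T3Geo
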