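import Mathlib
import Crest.Agent.R40.T3Pal
import Crest.Agent.R40.TopoB620

/-!
# R40: topological facts for `Cov` (helper620)

* `td_Th` : the set `Th U = {|J| ≥ 3}` does not separate (with `Cov.isTotallyDisconnected_Th`).
* `Cov.subset_U_of_no_pair` : an open preconnected set without points of `|J| = 2` lies in one
  `U k`.
* `Cov.subset_or_of_pairs` : two closed unions of colours.
* `polar_box` : small box at a point of a unit circle, with preconnected inner and outer parts.
-/

set_option autoImplicit false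

open Set Filter Topology Metric

namespace Crest.Agent.R40.Topo

open Crest.Agent.R40.T3

section
variable {U : Fin 5 → Set ℂ}

/-- `Th U` does not separate open preconnected sets -/
theorem isPreconnected_diff_Th (h : Cov U) {N : Set ℂ} (hN : IsOpen N) (hNc : IsPreconnected N) :
    IsPreconnected (N \ Th U) :=
  td_isPreconnected_of_closed hN hNc isClosed_Th h.isTotallyDisconnected_Th

/-- a set whose palette-free part: `N` open preconnected, `f` locally constant off `Th U`. -/
theorem eq_off_Th (h : Cov U) {N : Set ℂ} (hN : IsOpen N) (hNc : IsPreconnected N) {α : Type*}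
    {f : ℂ → α} (hf : ∀ x ∈ N, x ∉ Th U → ∀ᶠ y in 𝓝 x, f y = f x) {x y : ℂ} (hx : x ∈ N)
    (hxT : x ∉ Th U) (hy : y ∈ N) (hyT : y ∉ Th U) : f x = f y :=
  td_eq hN hNc (by rw [isClosed_Th.closure_eq]; exact inter_subset_left)
    (td_mono h.isTotallyDisconnected_Th inter_subset_left)
    (fun z hz => hf z hz.1 hz.2) ⟨hx, hxT⟩ ⟨hy, hyT⟩

/-- `Th U` has empty interior: every nonempty open set contains points with `|J| ≤ 2` -/
lemma exists_notMem_Th (h : Cov U) {N : Set ℂ} (hN : IsOpen N) (hne : N.Nonempty) :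
    ∃ z ∈ N, z ∉ Th U := by
  by_contra hcon
  push Not at hcon
  obtain ⟨x, hx⟩ := hne
  have h1 : x ∈ interior (Th U) := mem_interior.2 ⟨N, hcon, hN, hx⟩
  rw [td_interior h.isTotallyDisconnected_Th] at h1
  exact h1

/-- the open sets `U k` cover the complement of the multi-coloured points -/
lemma mem_U_of_card_eq_one (h : Cov U) {x : ℂ} (hx : (J U x).card = 1) :
    ∃ k, J U x = {k} ∧ x ∈ U k := by
  obtain ⟨k, hk⟩ := Finset.card_eq_one.1 hx
  exact ⟨k, hk, h.mem_of_J_subset (by rw [hk])⟩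

/-- two-set version: if `N` is covered by two closed sets and all points of the intersection in
`N` have at least three colours, one of them contains `N`. -/
theorem cover_Th (h : Cov U) {N H H' : Set ℂ} (hN : IsOpen N) (hNc : IsPreconnected N)
    (hH : IsClosed H) (hH' : IsClosed H') (hcov : N ⊆ H ∪ H')
    (ht : ∀ z ∈ N, z ∈ H → z ∈ H' → 3 ≤ (J U z).card) : N ⊆ H ∨ N ⊆ H' :=
  td_cover hN hNc hH hH' hcov (td_mono h.isTotallyDisconnected_Th
    (fun z hz => ht z hz.2 hz.1.1 hz.1.2))

/-- the closed union of the colours in `P` -/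
def HP (U : Fin 5 → Set ℂ) (P : Finset (Fin 5)) : Set ℂ := ⋃ k ∈ P, F U k

lemma isClosed_HP (P : Finset (Fin 5)) : IsClosed (HP U P) :=
  isClosed_biUnion_finset fun k _ => isClosed_F k

lemma mem_HP {P : Finset (Fin 5)} {x : ℂ} : x ∈ HP U P ↔ ∃ k ∈ P, k ∈ J U x := by
  simp [HP]

/-- colour-partition version: `N` open preconnected, `P` a set of colours such that no point of
`N` has an exact palette `{i, j}` with `i ∈ P`, `j ∉ P`. Then all points of `N` have a colour in
`P`, or all points of `N` have a colour outside `P`. -/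
theorem subset_HP_or (h : Cov U) {N : Set ℂ} (hN : IsOpen N) (hNc : IsPreconnected N)
    (P : Finset (Fin 5)) (hP : ∀ z ∈ N, ∀ i ∈ P, ∀ j, j ∉ P → J U z ≠ {i, j}) :
    N ⊆ HP U P ∨ N ⊆ HP U Pᶜ := by
  refine cover_Th h hN hNc (isClosed_HP P) (isClosed_HP Pᶜ) ?_ ?_
  · intro z _
    obtain ⟨k, hk⟩ := h.J_nonempty z
    by_cases hkP : k ∈ P
    · exact Or.inl (mem_HP.2 ⟨k, hkP, hk⟩)
    · exact Or.inr (mem_HP.2 ⟨k, Finset.mem_compl.2 hkP, hk⟩)
  · intro z hz h1 h2
    obtain ⟨i, hi, hiJ⟩ := mem_HP.1 h1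
    obtain ⟨j, hj, hjJ⟩ := mem_HP.1 h2
    rw [Finset.mem_compl] at hj
    have hij : i ≠ j := by rintro rfl; exact hj hi
    by_contra hcard
    push Not at hcard
    refine hP z hz i hi j hj ?_
    symm
    apply Finset.eq_of_subset_of_card_le
    · intro k hk
      simp only [Finset.mem_insert, Finset.mem_singleton] at hk
      rcases hk with rfl | rfl
      · exact hiJ
      · exact hjJ
    · rw [Finset.card_pair hij]; omega

/-- an open preconnected set without points of `|J| = 2` lies in one `U k` -/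
theorem subset_U_of_no_pair (h : Cov U) {N : Set ℂ} (hN : IsOpen N) (hNc : IsPreconnected N)
    (hne : N.Nonempty) (hcard : ∀ z ∈ N, (J U z).card ≠ 2) : ∃ k, N ⊆ U k := by
  obtain ⟨z, hz, hzT⟩ := exists_notMem_Th h hN hne
  have hz1 : (J U z).card = 1 := by
    have h1 := (Finset.card_pos.2 (h.J_nonempty z))
    have h2 := hcard z hz
    rw [Th, mem_ofPred_eq, not_le] at hzT
    omega
  obtain ⟨k, hk, -⟩ := mem_U_of_card_eq_one h hz1
  refine ⟨k, ?_⟩
  have h1 : N ⊆ F U k := by
    rcases subset_HP_or h hN hNc {k} (fun w hw i hi j hj hJ => hcard w hw (by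
      rw [hJ, Finset.card_pair]; rintro rfl; exact hj hi)) with h1 | h1
    · intro w hw
      obtain ⟨i, hi, hiJ⟩ := mem_HP.1 (h1 hw)
      rw [Finset.mem_singleton] at hi
      rw [← hi]
      exact mem_J.1 hiJ
    · exfalso
      obtain ⟨i, hi, hiJ⟩ := mem_HP.1 (h1 hz)
      rw [hk, Finset.mem_singleton] at hiJ
      rw [hiJ] at hi
      simp at hi
  intro w hw
  refine h.mem_of_eventually ?_
  filter_upwards [hN.mem_nhds hw] with v hv using h1 hv

end

/-! ### the box at a point of a unit circle -/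

/-- **polar box**: small open neighbourhoods of `y ∈ C(x)` whose parts inside and outside the
closed unit disc about `x` are open, preconnected. -/
theorem polar_box {x y : ℂ} (hxy : dist y x = 1) {N : Set ℂ} (hN : N ∈ 𝓝 y) :
    ∃ N' ⊆ N, IsOpen N' ∧ y ∈ N' ∧ IsPreconnected N' ∧
      IsPreconnected (N' ∩ ball x 1) ∧ IsPreconnected (N' \ closedBall x 1) ∧
      IsPreconnected (N' ∩ sphere x 1) := by
  -- logarithmic coordinates
  obtain ⟨s, hs⟩ : ∃ s : ℝ, y = x + Complex.exp (s * Complex.I) := by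
    refine ⟨Complex.arg (y - x), ?_⟩
    have h1 := Complex.norm_mul_exp_arg_mul_I (y - x)
    rw [← dist_eq_norm, hxy] at h1
    rw [Complex.ofReal_one, one_mul] at h1
    rw [h1]; ring
  have hcont : Continuous (fun z : ℂ => x + Complex.exp z) := by fun_prop
  have hy0 : (fun z : ℂ => x + Complex.exp z) (s * Complex.I) = y := hs.symm
  have hpre : (fun z : ℂ => x + Complex.exp z) ⁻¹' N ∈ 𝓝 ((s : ℂ) * Complex.I) :=
    hcont.continuousAt.preimage_mem_nhds (by rw [← hs]; exact hN)
  obtain ⟨δ, hδ, hδN⟩ := Metric.mem_nhds_iff.1 hpre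
  set B : Set ℂ := {z | |z.re| < δ / 2 ∧ |z.im - s| < δ / 2} with hB
  have hBsub : B ⊆ ball ((s : ℂ) * Complex.I) δ := by
    rintro z ⟨h1, h2⟩
    rw [mem_ball, dist_eq_norm]
    have h3 := Complex.norm_le_abs_re_add_abs_im (z - s * Complex.I)
    have h4 : (z - s * Complex.I).re = z.re := by simp
    have h5 : (z - s * Complex.I).im = z.im - s := by simp
    rw [h4, h5] at h3
    linarith
  have hBo : IsOpen B := by
    apply IsOpen.inter
    · exact isOpen_lt (f := fun z : ℂ => |z.re|) (by fun_prop) continuous_const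
    · exact isOpen_lt (f := fun z : ℂ => |z.im - s|) (by fun_prop) continuous_const
  have hBc : Convex ℝ B := by
    have h1 : B = (Complex.re ⁻¹' (Ioo (-(δ / 2)) (δ / 2))) ∩
        (Complex.im ⁻¹' (Ioo (s - δ / 2) (s + δ / 2))) := by
      ext z
      simp only [hB, mem_ofPred_eq, mem_inter_iff, mem_preimage, mem_Ioo, abs_lt]
      constructor
      · rintro ⟨⟨h1, h2⟩, h3, h4⟩
        exact ⟨⟨h1, h2⟩, by linarith, by linarith⟩
      · rintro ⟨⟨h1, h2⟩, h3, h4⟩
        exact ⟨⟨h1, h2⟩, by linarith, by linarith⟩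
    rw [h1]
    exact ((convex_Ioo _ _).linear_preimage Complex.reLm).inter
      ((convex_Ioo _ _).linear_preimage Complex.imLm)
  have hnorm : ∀ z : ℂ, dist (x + Complex.exp z) x = Real.exp z.re := by
    intro z
    rw [dist_eq_norm, add_sub_cancel_left, Complex.norm_exp]
  set N' : Set ℂ := (fun z : ℂ => x + Complex.exp z) '' B with hN'
  have himg : ∀ C : Set ℂ, Convex ℝ C → IsPreconnected ((fun z : ℂ => x + Complex.exp z) '' C) :=
    fun C hC => hC.isPreconnected.image _ hcont.continuousOn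
  refine ⟨N', ?_, ?_, ?_, himg B hBc, ?_, ?_, ?_⟩
  · rintro _ ⟨z, hz, rfl⟩
    exact hδN (hBsub hz)
  · have h1 : N' = (fun w => x + w) '' (Complex.exp '' B) := by
      rw [hN', image_image]
    rw [h1]
    exact (Homeomorph.addLeft x).isOpenMap _ (Complex.isOpenMap_exp _ hBo)
  · exact ⟨s * Complex.I, ⟨by simpa using by positivity, by simpa using by positivity⟩, hy0⟩
  · have h1 : N' ∩ ball x 1 = (fun z : ℂ => x + Complex.exp z) '' (B ∩ {z | z.re < 0}) := by
      ext w
      constructor
      · rintro ⟨⟨z, hz, rfl⟩, hw⟩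
        rw [mem_ball] at hw
        simp only [hnorm, Real.exp_lt_one_iff] at hw
        exact ⟨z, ⟨hz, hw⟩, rfl⟩
      · rintro ⟨z, ⟨hz, hz'⟩, rfl⟩
        refine ⟨⟨z, hz, rfl⟩, ?_⟩
        rw [mem_ball]
        simp only [hnorm, Real.exp_lt_one_iff]
        exact hz'
    rw [h1]
    exact himg _ (hBc.inter (convex_halfSpace_re_lt 0))
  · have h1 : N' \ closedBall x 1 = (fun z : ℂ => x + Complex.exp z) '' (B ∩ {z | 0 < z.re}) := by
      ext w
      constructor
      · rintro ⟨⟨z, hz, rfl⟩, hw⟩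
        rw [mem_closedBall, not_le] at hw
        simp only [hnorm, Real.one_lt_exp_iff] at hw
        exact ⟨z, ⟨hz, hw⟩, rfl⟩
      · rintro ⟨z, ⟨hz, hz'⟩, rfl⟩
        refine ⟨⟨z, hz, rfl⟩, ?_⟩
        rw [mem_closedBall, not_le]
        simp only [hnorm, Real.one_lt_exp_iff]
        exact hz'
    rw [h1]
    exact himg _ (hBc.inter (convex_halfSpace_re_gt 0))
  · have h1 : N' ∩ sphere x 1 = (fun z : ℂ => x + Complex.exp z) '' (B ∩ {z | z.re = 0}) := by
      ext w
      constructor
      · rintro ⟨⟨z, hz, rfl⟩, hw⟩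
        rw [mem_sphere] at hw
        simp only [hnorm, Real.exp_eq_one_iff] at hw
        exact ⟨z, ⟨hz, hw⟩, rfl⟩
      · rintro ⟨z, ⟨hz, hz'⟩, rfl⟩
        refine ⟨⟨z, hz, rfl⟩, ?_⟩
        rw [mem_sphere]
        simp only [hnorm, Real.exp_eq_one_iff]
        exact hz'
    rw [h1]
    refine himg _ (hBc.inter ?_)
    have : {z : ℂ | z.re = 0} = Complex.reLm ⁻¹' {0} := by ext z; simp
    rw [this]
    exact (convex_singleton 0).linear_preimage Complex.reLm

end Crest.Agent.R40.Topo
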