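import Crest.Agent.R40.T3Sol
import Crest.Agent.R40.T3Geo638
import Crest.Agent.R40.TopoC620
import Crest.Agent.R40.T3Main
import Crest.Agent.R40.T3CaseI638

/-!
# R40 / T3 : Case I, Step 2 and Step 3 (helper158)

`Swi A B t` : `t` is the right end of an interval of `A` and points of `B` accumulate at `t` from
the right.  Step 2: if near `y = x + uv (t + π/3)` there are no exact pair points of the three
colours `a b c`, the two-coloured rectangles left and right of `t` are monochromatic, so that all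
exact points of some pair near `x` lie on the unit circle about `y`.  Step 3: six switching
points, three pairs.
-/

set_option autoImplicit false

open Set Metric Topology Filter

namespace Crest.Agent.R40.T3CaseI

open T3 T3Geo

/-- the chart written with `uv` -/
lemma P_eq (x : ℂ) (v w : ℝ) : P x v w = x + uv v + uv (w + 2 * Real.pi / 3) := rfl

section
variable {U : Fin 5 → Set ℂ} {x : ℂ} {k : Fin 5}

/-- separation from the inner rectangles -/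
theorem sepm (h : Cov U) {t δ : ℝ} (hδ : 0 < δ)
    (hk : ∃ᶠ q in 𝓝[>] t, ∀ p ∈ Ioo (t - δ) t, P x p q ∈ U k) :
    ∀ᶠ z in 𝓝 x, z ∈ F U k → dist z (x + uv (t + Real.pi / 3)) ≤ 1 := by
  obtain ⟨v, hv, hv1⟩ := leaf_out x t hδ
  filter_upwards [hv1] with z hz hzF
  by_contra hcon
  push Not at hcon
  have h1 := hz (by rw [dist_comm]; exact hcon)
  obtain ⟨w, hw, hw1⟩ := (hk.and_eventually (nhdsWithin_le_nhds h1)).exists
  have hcont : ContinuousOn (fun r : ℝ => dist (P x r w) z) (Icc v t) :=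
    ((continuous_P_left x w).dist continuous_const).continuousOn
  obtain ⟨r, hr, hr1⟩ := intermediate_value_Ioo hv.2.le hcont ⟨hw1.1, hw1.2⟩
  have h2 := hw r ⟨by linarith [hv.1, hr.1], hr.2⟩
  exact h.dist_ne_of_mem hzF h2 (by rw [dist_comm]; exact hr1)

/-- separation from the outer rectangles -/
theorem sepp (h : Cov U) {t δ : ℝ} (hδ : 0 < δ)
    (hk : ∃ᶠ p in 𝓝[>] t, ∀ q ∈ Ioo (t - δ) t, P x p q ∈ U k) :
    ∀ᶠ z in 𝓝 x, z ∈ F U k → 1 ≤ dist z (x + uv (t + Real.pi / 3)) := by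
  obtain ⟨w, hw, hw1⟩ := leaf_in x t hδ
  filter_upwards [hw1] with z hz hzF
  by_contra hcon
  push Not at hcon
  have h1 := hz (by rw [dist_comm]; exact hcon)
  obtain ⟨v, hv, hv1⟩ := (hk.and_eventually (nhdsWithin_le_nhds h1)).exists
  have hcont : ContinuousOn (fun r : ℝ => dist (P x v r) z) (Icc w t) :=
    ((continuous_P_right x v).dist continuous_const).continuousOn
  obtain ⟨r, hr, hr1⟩ := intermediate_value_Ioo' hw.2.le hcont ⟨hv1.2, hv1.1⟩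
  have h2 := hv r ⟨by linarith [hw.1, hr.1], hr.2⟩
  exact h.dist_ne_of_mem hzF h2 (by rw [dist_comm]; exact hr1)

/-- a colour of `x` is not confined to a circle through `x` -/
theorem sep_ne (h : Cov U) {y : ℂ} (hk : k ∈ J U x)
    (h1 : ∀ᶠ z in 𝓝 x, z ∈ F U k → dist z y ≤ 1)
    (h2 : ∀ᶠ z in 𝓝 x, z ∈ F U k → 1 ≤ dist z y) : False := by
  obtain ⟨r, hr, hr1⟩ := Metric.eventually_nhds_iff_ball.1 (h1.and h2)
  have hx : x ∈ closure (U k) := mem_J.1 hk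
  obtain ⟨p, hp, hpx⟩ := Metric.mem_closure_iff.1 hx r hr
  have hO : IsOpen (U k ∩ ball x r) := (h.isOpen k).inter isOpen_ball
  have hsub : U k ∩ ball x r ⊆ sphere y 1 := by
    rintro q ⟨hq, hq2⟩
    have := hr1 q hq2
    exact le_antisymm (this.1 (subset_F k hq)) (this.2 (subset_F k hq))
  have h3 : U k ∩ ball x r ⊆ interior (sphere y 1) := interior_maximal hsub hO
  rw [interior_sphere y one_ne_zero] at h3
  exact h3 ⟨hp, by rw [mem_ball, dist_comm]; exact hpx⟩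

/-- the rectangles are open -/
lemma isOpen_rect (x : ℂ) {a₁ a₂ b₁ b₂ : ℝ}
    (hs : ∀ v ∈ Ioo a₁ a₂, ∀ w ∈ Ioo b₁ b₂, Real.sin (v - (w + 2 * Real.pi / 3)) ≠ 0) :
    IsOpen ((fun q : ℝ × ℝ => P x q.1 q.2) '' (Ioo a₁ a₂ ×ˢ Ioo b₁ b₂)) := by
  rw [isOpen_iff_mem_nhds]
  rintro _ ⟨⟨v, w⟩, ⟨hv, hw⟩, rfl⟩
  have h1 := map_nhds_chart x (hs v hv w hw)
  have h2 : (fun q : ℝ × ℝ => x + uv q.1 + uv q.2) ''
      (Ioo a₁ a₂ ×ˢ Ioo (b₁ + 2 * Real.pi / 3) (b₂ + 2 * Real.pi / 3)) ∈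
      𝓝 (x + uv v + uv (w + 2 * Real.pi / 3)) := by
    rw [← h1]
    apply Filter.image_mem_map
    refine (isOpen_Ioo.prod isOpen_Ioo).mem_nhds ⟨hv, ?_⟩
    exact ⟨by show b₁ + 2 * Real.pi / 3 < w + 2 * Real.pi / 3; linarith [hw.1],
      by show w + 2 * Real.pi / 3 < b₂ + 2 * Real.pi / 3; linarith [hw.2]⟩
  refine Filter.mem_of_superset h2 ?_
  rintro _ ⟨⟨v', w'⟩, ⟨hv', hw'⟩, rfl⟩
  refine ⟨(v', w' - 2 * Real.pi / 3), ⟨hv', ?_⟩, ?_⟩
  · have h3 : b₁ + 2 * Real.pi / 3 < w' := hw'.1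
    have h4 : w' < b₂ + 2 * Real.pi / 3 := hw'.2
    exact ⟨by show b₁ < w' - 2 * Real.pi / 3; linarith,
      by show w' - 2 * Real.pi / 3 < b₂; linarith⟩
  · show P x v' (w' - 2 * Real.pi / 3) = x + uv v' + uv w'
    rw [P_eq, sub_add_cancel]

lemma isPreconnected_rect (x : ℂ) (a₁ a₂ b₁ b₂ : ℝ) :
    IsPreconnected ((fun q : ℝ × ℝ => P x q.1 q.2) '' (Ioo a₁ a₂ ×ˢ Ioo b₁ b₂)) :=
  (isPreconnected_Ioo.prod isPreconnected_Ioo).image _ (continuous_P x).continuousOn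

/-- a rectangle whose points have colours in `{a, b, c}` and no exact pair is monochromatic -/
theorem rect_mono (h : Cov U) {a b c : Fin 5} {a₁ a₂ b₁ b₂ : ℝ} (ha : a₁ < a₂) (hb : b₁ < b₂)
    (hs : ∀ v ∈ Ioo a₁ a₂, ∀ w ∈ Ioo b₁ b₂, Real.sin (v - (w + 2 * Real.pi / 3)) ≠ 0)
    (hJ : ∀ v ∈ Ioo a₁ a₂, ∀ w ∈ Ioo b₁ b₂, J U (P x v w) ⊆ {a, b, c})
    (hab : ∀ v ∈ Ioo a₁ a₂, ∀ w ∈ Ioo b₁ b₂, J U (P x v w) ≠ {a, b})
    (hbc : ∀ v ∈ Ioo a₁ a₂, ∀ w ∈ Ioo b₁ b₂, J U (P x v w) ≠ {b, c})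
    (hac : ∀ v ∈ Ioo a₁ a₂, ∀ w ∈ Ioo b₁ b₂, J U (P x v w) ≠ {a, c}) :
    ∃ k, ∀ v ∈ Ioo a₁ a₂, ∀ w ∈ Ioo b₁ b₂, P x v w ∈ U k := by
  have hne : ((fun q : ℝ × ℝ => P x q.1 q.2) '' (Ioo a₁ a₂ ×ˢ Ioo b₁ b₂)).Nonempty :=
    ((nonempty_Ioo.2 ha).prod (nonempty_Ioo.2 hb)).image _
  have hcomb : ∀ S : Finset (Fin 5), ∀ a b c : Fin 5, S ⊆ {a, b, c} → S.card = 2 →
      S = {a, b} ∨ S = {b, c} ∨ S = {a, c} := by decide
  obtain ⟨k, hk⟩ := Topo.subset_U_of_no_pair h (isOpen_rect x hs)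
    (isPreconnected_rect x a₁ a₂ b₁ b₂) hne (by
      rintro _ ⟨⟨v, w⟩, ⟨hv, hw⟩, rfl⟩ hcard
      rcases hcomb _ a b c (hJ v hv w hw) hcard with h1 | h1 | h1
      · exact hab v hv w hw h1
      · exact hbc v hv w hw h1
      · exact hac v hv w hw h1)
  exact ⟨k, fun v hv w hw => hk ⟨(v, w), ⟨hv, hw⟩, rfl⟩⟩

lemma frequently_pigeon {l : Filter ℝ} {φ : Fin 5 → ℝ → Prop} (hf : ∃ᶠ q in l, ∃ k, φ k q) :
    ∃ k, ∃ᶠ q in l, φ k q := by
  by_contra hcon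
  push Not at hcon
  have h2 : ∀ᶠ q in l, ∀ k, ¬ φ k q := Filter.eventually_all.2 hcon
  apply hf
  filter_upwards [h2] with q hq
  push Not
  exact hq

/-- angles close to `t` are non-degenerate for the chart -/
lemma sin_ne_of_close {t v w : ℝ} (hv : |v - t| < 1 / 2) (hw : |w - t| < 1 / 2) :
    Real.sin (v - (w + 2 * Real.pi / 3)) ≠ 0 := by
  have hpi := Real.pi_gt_three
  have hpi4 := Real.pi_le_four
  rw [abs_lt] at hv hw
  apply ne_of_lt
  apply Real.sin_neg_of_neg_of_neg_pi_lt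
  · linarith [hv.1, hv.2, hw.1, hw.2]
  · linarith [hv.1, hv.2, hw.1, hw.2]

/-- **Step 2**. -/
theorem step2 (h : Cov U) {a b c : Fin 5} {A B : Set ℝ} {t : ℝ} (hB : IsOpen B)
    (hsw : Swi A B t)
    (hmix : ∀ v w, ((v ∈ A ∧ w ∈ B) ∨ (v ∈ B ∧ w ∈ A)) → |v - t| < 1 / 2 → |w - t| < 1 / 2 →
      J U (P x v w) ⊆ {a, b, c})
    (habc : {a, b, c} ⊆ J U x)
    (hab : ¬ Acc U (x + uv (t + Real.pi / 3)) a b)
    (hbc : ¬ Acc U (x + uv (t + Real.pi / 3)) b c)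
    (hac : ¬ Acc U (x + uv (t + Real.pi / 3)) a c) :
    ∃ k ∈ ({a, b, c} : Finset (Fin 5)), ∃ l ∈ ({a, b, c} : Finset (Fin 5)), k ≠ l ∧
      ∀ᶠ p in 𝓝 x, J U p = {k, l} → dist p (x + uv (t + Real.pi / 3)) = 1 := by
  set y : ℂ := x + uv (t + Real.pi / 3) with hy
  have hno : ∀ᶠ p in 𝓝 y, J U p ≠ {a, b} ∧ J U p ≠ {b, c} ∧ J U p ≠ {a, c} := by
    filter_upwards [Filter.not_frequently.1 hab, Filter.not_frequently.1 hbc,
      Filter.not_frequently.1 hac] with p h1 h2 h3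
    exact ⟨h1, h2, h3⟩
  have hdiag : P x t t = y := by rw [P_diag]; rfl
  have hPt : Tendsto (fun q : ℝ × ℝ => P x q.1 q.2) (𝓝 (t, t)) (𝓝 y) := by
    have := (continuous_P x).tendsto (t, t)
    rw [← hdiag]
    exact this
  obtain ⟨δ₀, hδ₀, hδ₀'⟩ := Metric.eventually_nhds_iff.1 (hPt.eventually hno)
  obtain ⟨⟨r, hr, hrA⟩, hfB⟩ := hsw
  set δ : ℝ := min (min δ₀ r) (1 / 2) with hδ
  have hδpos : 0 < δ := lt_min (lt_min hδ₀ hr) (by norm_num)
  have hδ1 : δ ≤ δ₀ := (min_le_left _ _).trans (min_le_left _ _)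
  have hδ2 : δ ≤ r := (min_le_left _ _).trans (min_le_right _ _)
  have hδ3 : δ ≤ 1 / 2 := min_le_right _ _
  have hno2 : ∀ v w : ℝ, |v - t| < δ → |w - t| < δ →
      J U (P x v w) ≠ {a, b} ∧ J U (P x v w) ≠ {b, c} ∧ J U (P x v w) ≠ {a, c} := by
    intro v w hv hw
    apply hδ₀' (y := (v, w))
    rw [Prod.dist_eq, max_lt_iff]
    exact ⟨by show dist v t < δ₀; rw [Real.dist_eq]; linarith,
      by show dist w t < δ₀; rw [Real.dist_eq]; linarith⟩
  have hAleft : ∀ v ∈ Ioo (t - δ) t, v ∈ A := fun v hv =>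
    hrA ⟨by linarith [hv.1], hv.2⟩
  have hleft : ∀ v ∈ Ioo (t - δ) t, |v - t| < δ := fun v hv => by
    rw [abs_lt]; constructor <;> linarith [hv.1, hv.2]
  -- small intervals of `B` right of `t`
  have hBint : ∀ᶠ q in 𝓝[>] t, q ∈ B → ∃ η > 0, ∀ w ∈ Ioo (q - η) (q + η),
      w ∈ B ∧ |w - t| < δ := by
    have h1 : ∀ᶠ q in 𝓝[>] t, t < q := self_mem_nhdsWithin
    have h2 : ∀ᶠ q in 𝓝[>] t, q < t + δ :=
      nhdsWithin_le_nhds (eventually_lt_nhds (by linarith))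
    filter_upwards [h1, h2] with q hq1 hq2 hqB
    have hO : IsOpen (B ∩ Ioo t (t + δ)) := hB.inter isOpen_Ioo
    obtain ⟨η, hη, hη'⟩ := Metric.isOpen_iff.1 hO q ⟨hqB, hq1, hq2⟩
    refine ⟨η, hη, fun w hw => ?_⟩
    have h3 : w ∈ B ∩ Ioo t (t + δ) := hη' (by
      rw [mem_ball, Real.dist_eq, abs_lt]
      constructor <;> linarith [hw.1, hw.2])
    refine ⟨h3.1, ?_⟩
    rw [abs_lt]
    constructor <;> linarith [h3.2.1, h3.2.2]
  have hmemJ : ∀ {p : ℂ} {k : Fin 5}, p ∈ U k → J U p ⊆ {a, b, c} → k ∈ ({a, b, c} : Finset (Fin 5)) :=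
    fun hp hJ => hJ (mem_J.2 (subset_F _ hp))
  -- inner rectangles
  have hinner : ∃ᶠ q in 𝓝[>] t, ∃ k, k ∈ ({a, b, c} : Finset (Fin 5)) ∧
      ∀ p ∈ Ioo (t - δ) t, P x p q ∈ U k := by
    refine (hfB.and_eventually hBint).mono ?_
    rintro q ⟨hqB, hq⟩
    obtain ⟨η, hη, hη'⟩ := hq hqB
    have hqm : q ∈ Ioo (q - η) (q + η) := ⟨by linarith, by linarith⟩
    obtain ⟨k, hk⟩ := rect_mono (x := x) h (a := a) (b := b) (c := c)
      (a₁ := t - δ) (a₂ := t) (b₁ := q - η) (b₂ := q + η)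
      (by linarith) (by linarith)
      (fun v hv w hw => sin_ne_of_close (t := t) (lt_of_lt_of_le (hleft v hv) hδ3)
        (lt_of_lt_of_le (hη' w hw).2 hδ3))
      (fun v hv w hw => hmix v w (Or.inl ⟨hAleft v hv, (hη' w hw).1⟩)
        (lt_of_lt_of_le (hleft v hv) hδ3) (lt_of_lt_of_le (hη' w hw).2 hδ3))
      (fun v hv w hw => (hno2 v w (hleft v hv) (hη' w hw).2).1)
      (fun v hv w hw => (hno2 v w (hleft v hv) (hη' w hw).2).2.1)
      (fun v hv w hw => (hno2 v w (hleft v hv) (hη' w hw).2).2.2)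
    refine ⟨k, ?_, fun p hp => hk p hp q hqm⟩
    have hp : t - δ / 2 ∈ Ioo (t - δ) t := ⟨by linarith, by linarith⟩
    exact hmemJ (hk _ hp q hqm) (hmix _ _ (Or.inl ⟨hAleft _ hp, hqB⟩)
      (lt_of_lt_of_le (hleft _ hp) hδ3) (lt_of_lt_of_le (hη' q hqm).2 hδ3))
  -- outer rectangles
  have houter : ∃ᶠ p in 𝓝[>] t, ∃ k, k ∈ ({a, b, c} : Finset (Fin 5)) ∧
      ∀ q ∈ Ioo (t - δ) t, P x p q ∈ U k := by
    refine (hfB.and_eventually hBint).mono ?_
    rintro q ⟨hqB, hq⟩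
    obtain ⟨η, hη, hη'⟩ := hq hqB
    have hqm : q ∈ Ioo (q - η) (q + η) := ⟨by linarith, by linarith⟩
    obtain ⟨k, hk⟩ := rect_mono (x := x) h (a := a) (b := b) (c := c)
      (a₁ := q - η) (a₂ := q + η) (b₁ := t - δ) (b₂ := t)
      (by linarith) (by linarith)
      (fun v hv w hw => sin_ne_of_close (t := t)
        (lt_of_lt_of_le (hη' v hv).2 hδ3) (lt_of_lt_of_le (hleft w hw) hδ3))
      (fun v hv w hw => hmix v w (Or.inr ⟨(hη' v hv).1, hAleft w hw⟩)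
        (lt_of_lt_of_le (hη' v hv).2 hδ3) (lt_of_lt_of_le (hleft w hw) hδ3))
      (fun v hv w hw => (hno2 v w (hη' v hv).2 (hleft w hw)).1)
      (fun v hv w hw => (hno2 v w (hη' v hv).2 (hleft w hw)).2.1)
      (fun v hv w hw => (hno2 v w (hη' v hv).2 (hleft w hw)).2.2)
    refine ⟨k, ?_, fun p hp => hk q hqm p hp⟩
    have hp : t - δ / 2 ∈ Ioo (t - δ) t := ⟨by linarith, by linarith⟩
    exact hmemJ (hk q hqm _ hp) (hmix _ _ (Or.inr ⟨hqB, hAleft _ hp⟩)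
      (lt_of_lt_of_le (hη' q hqm).2 hδ3) (lt_of_lt_of_le (hleft _ hp) hδ3))
  obtain ⟨k, hk⟩ := frequently_pigeon hinner
  obtain ⟨l, hl⟩ := frequently_pigeon houter
  obtain ⟨_, hkm, _⟩ := hk.exists
  obtain ⟨_, hlm, _⟩ := hl.exists
  have hk' := sepm (x := x) h hδpos (hk.mono fun q hq => hq.2)
  have hl' := sepp (x := x) h hδpos (hl.mono fun q hq => hq.2)
  refine ⟨k, hkm, l, hlm, ?_, ?_⟩
  · rintro rfl
    exact sep_ne h (habc hkm) hk' hl'
  · filter_upwards [hk', hl'] with p hp1 hp2 hJ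
    refine le_antisymm (hp1 (mem_J.1 ?_)) (hp2 (mem_J.1 ?_))
    · rw [hJ]; simp
    · rw [hJ]; simp

/-- **Step 3** -/
theorem step3 {a b c : Fin 5} (hab : a ≠ b) (hac : a ≠ c) (hbc : b ≠ c)
    (h1 : Acc U x a b) (h2 : Acc U x b c) (h3 : Acc U x a c) (y : Fin 6 → ℂ)
    (hy : Function.Injective y) (hd : ∀ i, dist x (y i) = 1)
    (hkl : ∀ i, ∃ k ∈ ({a, b, c} : Finset (Fin 5)), ∃ l ∈ ({a, b, c} : Finset (Fin 5)), k ≠ l ∧
      ∀ᶠ p in 𝓝 x, J U p = {k, l} → dist p (y i) = 1) : False := by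
  classical
  have habc : ({a, b, c} : Finset (Fin 5)) ⊆ J U x := by
    intro k hk
    simp only [Finset.mem_insert, Finset.mem_singleton] at hk
    rcases hk with rfl | rfl | rfl
    · exact h1.mem_J_left
    · exact h1.mem_J_right
    · exact h2.mem_J_right
  have hcard : 3 ≤ (J U x).card := by
    have := Finset.card_le_card habc
    rwa [Finset.card_eq_three.2 ⟨a, b, c, hab, hac, hbc, rfl⟩] at this
  -- the pair of index `i`
  have hkl' : ∀ i, ∃ S : Finset (Fin 5), (S = {a, b} ∨ S = {b, c} ∨ S = {a, c}) ∧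
      ∀ᶠ p in 𝓝 x, J U p = S → dist p (y i) = 1 := by
    intro i
    obtain ⟨k, hk, l, hl, hne, hev⟩ := hkl i
    refine ⟨{k, l}, ?_, hev⟩
    simp only [Finset.mem_insert, Finset.mem_singleton] at hk hl
    rcases hk with rfl | rfl | rfl <;> rcases hl with rfl | rfl | rfl <;>
      first
      | exact absurd rfl hne
      | exact Or.inl rfl
      | exact Or.inr (Or.inl rfl)
      | exact Or.inr (Or.inr rfl)
      | exact Or.inl (Finset.pair_comm _ _)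
      | exact Or.inr (Or.inl (Finset.pair_comm _ _))
      | exact Or.inr (Or.inr (Finset.pair_comm _ _))
  choose S hS hSev using hkl'
  have hmaps : ∀ i ∈ (Finset.univ : Finset (Fin 6)), S i ∈
      ({{a, b}, {b, c}, {a, c}} : Finset (Finset (Fin 5))) := by
    intro i _
    simp only [Finset.mem_insert, Finset.mem_singleton]
    exact hS i
  have hlt : ({{a, b}, {b, c}, {a, c}} : Finset (Finset (Fin 5))).card <
      (Finset.univ : Finset (Fin 6)).card := by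
    refine lt_of_le_of_lt Finset.card_le_three ?_
    simp
  obtain ⟨i, -, j, -, hij, hSij⟩ := Finset.exists_ne_map_eq_of_card_lt_of_maps_to hlt hmaps
  have hfreq : ∃ᶠ p in 𝓝 x, J U p = S i := by
    rcases hS i with h | h | h
    · rw [h]; exact h1
    · rw [h]; exact h2
    · rw [h]; exact h3
  have hcardS : (S i).card ≤ 2 := by
    rcases hS i with h | h | h <;> (rw [h]; exact Finset.card_le_two)
  have hnex : ∃ᶠ p in 𝓝[≠] x, J U p = S i := by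
    rw [frequently_nhdsWithin_iff]
    refine hfreq.mono fun p hp => ⟨hp, ?_⟩
    rintro rfl
    rw [hp] at hcard
    omega
  have htwo := two_circles (fun h => hij (hy h)) (hd i) (hd j)
  have hevi : ∀ᶠ p in 𝓝[≠] x, J U p = S i → dist p (y i) = 1 :=
    nhdsWithin_le_nhds (hSev i)
  have hevj : ∀ᶠ p in 𝓝[≠] x, J U p = S i → dist p (y j) = 1 := by
    rw [hSij]
    exact nhdsWithin_le_nhds (hSev j)
  obtain ⟨p, hp, h4, h5, h6⟩ := (hnex.and_eventually (htwo.and (hevi.and hevj))).exists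
  exact h4 ⟨h5 hp, h6 hp⟩

lemma uv_inj_six (x : ℂ) (t₀ : ℝ) : Function.Injective
    (fun j : Fin 6 => x + uv (t₀ + (j : ℕ) * (Real.pi / 3))) := by
  intro i j hij
  have h1 : uv (t₀ + (i : ℕ) * (Real.pi / 3)) = uv (t₀ + (j : ℕ) * (Real.pi / 3)) :=
    add_left_cancel hij
  unfold uv at h1
  rw [Complex.exp_eq_exp_iff_exists_int] at h1
  obtain ⟨n, hn⟩ := h1
  have h2 := congrArg Complex.im hn
  simp at h2
  have hpi := Real.pi_pos
  have h3 : ((i : ℕ) : ℝ) = ((j : ℕ) : ℝ) + 6 * n := by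
    have h4 : Real.pi * (((i : ℕ) : ℝ) - ((j : ℕ) : ℝ) - 6 * n) = 0 := by
      linear_combination 3 * h2
    rcases mul_eq_zero.1 h4 with h5 | h5
    · exact absurd h5 hpi.ne'
    · linarith
  have h4 : ((i : ℕ) : ℤ) = ((j : ℕ) : ℤ) + 6 * n := by exact_mod_cast h3
  have hi := i.isLt
  have hj := j.isLt
  apply Fin.ext
  omega

/-- **Case I from the switching structure.** -/
theorem false_of_switch (h : Cov U) {a b c : Fin 5} (hab : a ≠ b) (hac : a ≠ c) (hbc : b ≠ c)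
    (h1 : Acc U x a b) (h2 : Acc U x b c) (h3 : Acc U x a c) {A B : Set ℝ} (hA : IsOpen A)
    (hB : IsOpen B)
    (hmix : ∀ v w, ((v ∈ A ∧ w ∈ B) ∨ (v ∈ B ∧ w ∈ A)) →
      Real.sin (v - (w + 2 * Real.pi / 3)) ≠ 0 → J U (P x v w) ⊆ {a, b, c})
    {t₀ : ℝ} (hsw : ∀ j : ℕ, Swi A B (t₀ + j * (Real.pi / 3)) ∨ Swi B A (t₀ + j * (Real.pi / 3)))
    (hst1 : ∀ t, Swi A B t ∨ Swi B A t →
      ¬ Acc U (x + uv t) a b ∧ ¬ Acc U (x + uv t) b c ∧ ¬ Acc U (x + uv t) a c) : False := by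
  have habc : ({a, b, c} : Finset (Fin 5)) ⊆ J U x := by
    intro k hk
    simp only [Finset.mem_insert, Finset.mem_singleton] at hk
    rcases hk with rfl | rfl | rfl
    · exact h1.mem_J_left
    · exact h1.mem_J_right
    · exact h2.mem_J_right
  refine step3 hab hac hbc h1 h2 h3
    (fun j : Fin 6 => x + uv (t₀ + Real.pi / 3 + (j : ℕ) * (Real.pi / 3)))
    (uv_inj_six x _) (fun i => by rw [dist_comm, dist_add_uv]) ?_
  intro j
  have hang : t₀ + Real.pi / 3 + ((j : ℕ) : ℝ) * (Real.pi / 3)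
      = t₀ + ((j : ℕ) : ℝ) * (Real.pi / 3) + Real.pi / 3 := by ring
  have hnext := hst1 _ (hsw ((j : ℕ) + 1))
  have hang2 : t₀ + (((j : ℕ) + 1 : ℕ) : ℝ) * (Real.pi / 3)
      = t₀ + ((j : ℕ) : ℝ) * (Real.pi / 3) + Real.pi / 3 := by push_cast; ring
  rw [hang2] at hnext
  show ∃ k ∈ ({a, b, c} : Finset (Fin 5)), ∃ l ∈ ({a, b, c} : Finset (Fin 5)), k ≠ l ∧
      ∀ᶠ p in 𝓝 x, J U p = {k, l} →
        dist p (x + uv (t₀ + Real.pi / 3 + ((j : ℕ) : ℝ) * (Real.pi / 3))) = 1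
  rw [hang]
  rcases hsw (j : ℕ) with hs | hs
  · exact step2 h hB hs
      (fun v w hvw hv hw => hmix v w hvw (sin_ne_of_close (t := t₀ + (j : ℕ) * (Real.pi / 3)) hv hw))
      habc hnext.1 hnext.2.1 hnext.2.2
  · exact step2 h hA hs
      (fun v w hvw hv hw => hmix v w hvw.symm
        (sin_ne_of_close (t := t₀ + (j : ℕ) * (Real.pi / 3)) hv hw))
      habc hnext.1 hnext.2.1 hnext.2.2

end

/-! ### Case I from Step 1 -/

section
variable {U : Fin 5 → Set ℂ} {x : ℂ} {a b c d e : Fin 5}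

lemma Ctx.shift_two (X : Ctx U x a b c d e) {t : ℝ} (ht : t ∈ Sol U d x) :
    t + 2 * Real.pi / 3 ∈ Sol U d x := by
  have h1 := X.swapDE.shift (X.shift ht)
  have : t + Real.pi / 3 + Real.pi / 3 = t + 2 * Real.pi / 3 := by ring
  rwa [this] at h1

lemma Ctx.mixed_P (X : Ctx U x a b c d e) {v w : ℝ}
    (hvw : (v ∈ Sol U d x ∧ w ∈ Sol U e x) ∨ (v ∈ Sol U e x ∧ w ∈ Sol U d x))
    (hs : Real.sin (v - (w + 2 * Real.pi / 3)) ≠ 0) : J U (P x v w) ⊆ {a, b, c} := by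
  have key : d ∉ J U (P x v w) ∧ e ∉ J U (P x v w) := by
    rcases hvw with ⟨hv, hw⟩ | ⟨hv, hw⟩
    · exact X.mixed hv (X.swapDE.shift_two hw) hs
    · exact (X.swapDE.mixed hv (X.shift_two hw) hs).symm
  intro i hi
  simp only [Finset.mem_insert, Finset.mem_singleton]
  rcases X.col i with h | h | h | h | h
  · exact Or.inl h
  · exact Or.inr (Or.inl h)
  · exact Or.inr (Or.inr h)
  · exact absurd (h ▸ hi) key.1
  · exact absurd (h ▸ hi) key.2

lemma Ctx.swi_nat (X : Ctx U x a b c d e) {t : ℝ} (ht : Swi (Sol U d x) (Sol U e x) t) (j : ℕ) :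
    Swi (Sol U d x) (Sol U e x) (t + j * (Real.pi / 3)) ∨
      Swi (Sol U e x) (Sol U d x) (t + j * (Real.pi / 3)) := by
  induction j with
  | zero => left; simpa using ht
  | succ j ih =>
    have : t + ((j + 1 : ℕ) : ℝ) * (Real.pi / 3) = t + j * (Real.pi / 3) + Real.pi / 3 := by
      push_cast; ring
    rw [this]
    rcases ih with h | h
    · exact Or.inr (X.swi_shift h)
    · exact Or.inl (X.swapDE.swi_shift h)

theorem Ctx.false_of_step1 (X : Ctx U x a b c d e)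
    (hst : ∀ a b c : Fin 5, Ctx U x a b c d e → ∀ t,
      Swi (Sol U d x) (Sol U e x) t ∨ Swi (Sol U e x) (Sol U d x) t →
      ¬ Acc U (x + uv t) a b) : False := by
  obtain ⟨t₀, ht₀⟩ := X.exists_base
  refine false_of_switch (x := x) X.h X.ab X.ac X.bc X.hab X.hbc X.hac
    (A := Sol U d x) (B := Sol U e x) isOpen_Sol isOpen_Sol
    (fun v w hvw hs => X.mixed_P hvw hs) (t₀ := t₀) (fun j => X.swi_nat ht₀ j) ?_
  intro t ht
  refine ⟨hst _ _ _ X t ht, hst _ _ _ X.rotABC t ht, ?_⟩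
  intro hacc
  exact hst _ _ _ X.rotABC.rotABC t ht hacc.symm

/-- the two remaining colours -/
lemma exists_rest : ∀ a b c : Fin 5, a ≠ b → a ≠ c → b ≠ c → ∃ d e : Fin 5,
    (∀ i : Fin 5, i = a ∨ i = b ∨ i = c ∨ i = d ∨ i = e) ∧ a ≠ d ∧ a ≠ e ∧ b ≠ d ∧ b ≠ e ∧
      c ≠ d ∧ c ≠ e ∧ d ≠ e := by decide

/-- **Case I** from Step 1. -/
theorem caseI_of (h : Cov U)
    (hst : ∀ (x : ℂ) (a b c d e : Fin 5), Ctx U x a b c d e → ∀ t,
      Swi (Sol U d x) (Sol U e x) t ∨ Swi (Sol U e x) (Sol U d x) t →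
      ¬ Acc U (x + uv t) a b) (x : ℂ) : ¬ Tri (Acc U x) := by
  rintro ⟨a, b, c, hab, hac, hbc, h1, h2, h3⟩
  obtain ⟨d, e, hcol, had, hae, hbd, hbe, hcd, hce, hde⟩ := exists_rest a b c hab hac hbc
  have X : Ctx U x a b c d e := ⟨h, hcol, hab, hac, had, hae, hbc, hbd, hbe, hcd, hce, hde,
    h1, h2, h3.symm⟩
  exact X.false_of_step1 (fun a b c X t ht => hst x a b c d e X t ht)

end

end Crest.Agent.R40.T3CaseI
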