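/-
R40 / T3, Case II (abstract finite combinatorics): words of disjoint 2-palettes. (helper739)
-/
import Mathlib

set_option autoImplicit false

open Set

namespace Crest.Agent.R40.T3CaseII

/-- Abstract palette system around a point `x` with all five colours.
`S t` = palette in direction `t`, `G` = generic angles, `E` = graph of accumulating exact pairs. -/
structure Sys (S : ℝ → Finset (Fin 5)) (G : Set ℝ) (E : Fin 5 → Fin 5 → Prop) : Prop where
  ne : G.Nonempty
  shift : ∀ t ∈ G, t + Real.pi / 3 ∈ G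
  card : ∀ t ∈ G, (S t).card = 2
  disj : ∀ t ∈ G, Disjoint (S t) (S (t + Real.pi / 3))
  per : ∀ t, S (t + 2 * Real.pi) = S t
  nonedge : ∀ t ∈ G, ∀ a ∈ S t, ∀ b ∈ S t, a ≠ b → ¬ E a b
  anti : ∀ t ∈ G, ∀ c, Disjoint (S t) (S (t + Real.pi)) → c ∉ S t → c ∉ S (t + Real.pi) →
    ∀ s ∈ G, c ∉ S s
  cover : ∀ a b, (∀ t ∈ G, a ∈ S t ∨ b ∈ S t) → ¬ E a b

/-- palettes allowed by a (Bool-valued) graph -/
def ok (e : Fin 5 → Fin 5 → Bool) (p : Finset (Fin 5)) : Bool :=
  decide (p.card = 2) && decide (∀ a ∈ p, ∀ b ∈ p, a ≠ b → e a b = false)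

/-- property (i): every closed 6-walk of allowed palettes has a disjoint antipodal pair -/
def PropI (e : Fin 5 → Fin 5 → Bool) : Prop :=
  ∀ p0, ok e p0 = true → ∀ p1, ok e p1 = true → Disjoint p0 p1 →
  ∀ p2, ok e p2 = true → Disjoint p1 p2 →
  ∀ p3, ok e p3 = true → Disjoint p2 p3 → Disjoint p0 p3 ∨
  ∀ p4, ok e p4 = true → Disjoint p3 p4 → Disjoint p1 p4 ∨
  ∀ p5, ok e p5 = true → Disjoint p4 p5 → Disjoint p5 p0 → Disjoint p2 p5

/-- property (ii): if a colour `c` never occurs, some edge meets all remaining palettes -/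
def PropII (e : Fin 5 → Fin 5 → Bool) : Prop :=
  ∀ c : Fin 5, ∃ a b, e a b = true ∧ ∀ p, ok e p = true → c ∉ p → ∀ q, ok e q = true → c ∉ q →
    Disjoint p q → a ∈ p ∨ b ∈ p

/-- if the antipodal palettes are disjoint they miss a colour -/
lemma exists_missing : ∀ p q : Finset (Fin 5), p.card = 2 → q.card = 2 → ∃ c, c ∉ p ∧ c ∉ q := by
  intro p q hp hq
  by_contra hcon
  push Not at hcon
  have h1 : (Finset.univ : Finset (Fin 5)) ⊆ p ∪ q := by
    intro c _
    by_cases hc : c ∈ p
    · exact Finset.mem_union_left _ hc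
    · exact Finset.mem_union_right _ (hcon c hc)
  have h2 := Finset.card_le_card h1
  have h3 := Finset.card_union_le p q
  simp at h2
  omega

theorem Sys.false {S : ℝ → Finset (Fin 5)} {G : Set ℝ} {E : Fin 5 → Fin 5 → Prop} (h : Sys S G E)
    (e : Fin 5 → Fin 5 → Bool) (he : ∀ a b, e a b = true → E a b)
    (hI : PropI e) (hII : PropII e) : False := by
  have hok : ∀ t ∈ G, ok e (S t) = true := by
    intro t ht
    simp only [ok, Bool.and_eq_true, decide_eq_true_eq]
    refine ⟨h.card t ht, fun a ha b hb hab => ?_⟩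
    by_contra hne
    exact h.nonedge t ht a ha b hb hab (he a b (by simpa using hne))
  -- a generic angle with disjoint antipodal palettes
  have hex : ∃ t ∈ G, Disjoint (S t) (S (t + Real.pi)) := by
    obtain ⟨t, ht⟩ := h.ne
    by_contra hcon
    push Not at hcon
    set π3 := Real.pi / 3 with hπ3
    have g1 := h.shift t ht
    have g2 := h.shift _ g1
    have g3 := h.shift _ g2
    have g4 := h.shift _ g3
    have g5 := h.shift _ g4
    have d0 := h.disj t ht
    have d1 := h.disj _ g1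
    have d2 := h.disj _ g2
    have d3 := h.disj _ g3
    have d4 := h.disj _ g4
    have d5 := h.disj _ g5
    have e6 : t + Real.pi / 3 + Real.pi / 3 + Real.pi / 3 + Real.pi / 3 + Real.pi / 3 + Real.pi / 3
        = t + 2 * Real.pi := by ring
    rw [e6, h.per] at d5
    have a0 := hcon t ht
    have a1 := hcon _ g1
    have a2 := hcon _ g2
    have e0 : t + Real.pi = t + Real.pi / 3 + Real.pi / 3 + Real.pi / 3 := by ring
    have e1 : t + Real.pi / 3 + Real.pi =
      t + Real.pi / 3 + Real.pi / 3 + Real.pi / 3 + Real.pi / 3 := by ring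
    have e2 : t + Real.pi / 3 + Real.pi / 3 + Real.pi =
      t + Real.pi / 3 + Real.pi / 3 + Real.pi / 3 + Real.pi / 3 + Real.pi / 3 := by ring
    rw [e0] at a0
    rw [e1] at a1
    rw [e2] at a2
    rcases hI _ (hok _ ht) _ (hok _ g1) d0 _ (hok _ g2) d1 _ (hok _ g3) d2 with hh | hh
    · exact a0 hh
    · rcases hh _ (hok _ g4) d3 with hh | hh
      · exact a1 hh
      · exact a2 (hh _ (hok _ g5) d4 d5)
  obtain ⟨t, ht, htd⟩ := hex
  have htπ : t + Real.pi ∈ G := by
    have := h.shift _ (h.shift _ (h.shift _ ht))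
    have e0 : t + Real.pi / 3 + Real.pi / 3 + Real.pi / 3 = t + Real.pi := by ring
    rwa [e0] at this
  obtain ⟨c, hc1, hc2⟩ := exists_missing _ _ (h.card t ht) (h.card _ htπ)
  have hc := h.anti t ht c htd hc1 hc2
  obtain ⟨a, b, hab, hcov⟩ := hII c
  refine h.cover a b (fun s hs => ?_) (he a b hab)
  exact hcov _ (hok s hs) (hc s hs) _ (hok _ (h.shift s hs)) (hc _ (h.shift s hs)) (h.disj s hs)

/-- transport along a permutation of the colours -/
theorem Sys.perm {S : ℝ → Finset (Fin 5)} {G : Set ℝ} {E : Fin 5 → Fin 5 → Prop} (h : Sys S G E)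
    (σ : Fin 5 ≃ Fin 5) :
    Sys (fun t => (S t).map σ.symm.toEmbedding) G (fun a b => E (σ a) (σ b)) where
  ne := h.ne
  shift := h.shift
  card := fun t ht => by rw [Finset.card_map]; exact h.card t ht
  disj := fun t ht => by rw [Finset.disjoint_map]; exact h.disj t ht
  per := fun t => by simp only [h.per]
  nonedge := by
    intro t ht a ha b hb hab
    simp only [Finset.mem_map_equiv, Equiv.symm_symm] at ha hb
    exact h.nonedge t ht _ ha _ hb (fun hh => hab (σ.injective hh))
  anti := by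
    intro t ht c hd hc1 hc2 s hs
    simp only [Finset.mem_map_equiv, Equiv.symm_symm, Finset.disjoint_map] at *
    exact h.anti t ht _ hd hc1 hc2 s hs
  cover := by
    intro a b hab
    refine h.cover _ _ (fun t ht => ?_)
    have := hab t ht
    simpa only [Finset.mem_map_equiv, Equiv.symm_symm] using this

/-- adjacency from a list of edges -/
def edges (l : List (Fin 5 × Fin 5)) (a b : Fin 5) : Bool := l.contains (a, b) || l.contains (b, a)

/-- the pentagon -/
def eC5 := edges [(0, 1), (1, 2), (2, 3), (3, 4), (4, 0)]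
/-- the 4-cycle `0123` (and the fifth vertex arbitrary) -/
def eC4 := edges [(0, 1), (1, 2), (2, 3), (3, 0)]

set_option maxRecDepth 100000 in
set_option maxHeartbeats 4000000 in
lemma propII_C5 : PropII eC5 := by unfold PropII; decide

set_option maxRecDepth 100000 in
set_option maxHeartbeats 4000000 in
lemma propII_C4 : PropII eC4 := by unfold PropII; decide

set_option maxRecDepth 100000 in
set_option maxHeartbeats 4000000 in
set_option synthInstance.maxHeartbeats 400000 in
set_option synthInstance.maxSize 2000 in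
lemma propI_C5 : PropI eC5 := by unfold PropI; decide

set_option maxRecDepth 100000 in
set_option maxHeartbeats 4000000 in
set_option synthInstance.maxHeartbeats 400000 in
set_option synthInstance.maxSize 2000 in
lemma propI_C4 : PropI eC4 := by unfold PropI; decide

/-- a permutation from five distinct colours -/
lemma exists_perm {a b c d e : Fin 5} (hn : [a, b, c, d, e].Nodup) :
    ∃ σ : Fin 5 ≃ Fin 5, σ 0 = a ∧ σ 1 = b ∧ σ 2 = c ∧ σ 3 = d ∧ σ 4 = e := by
  let f : Fin 5 → Fin 5 := ![a, b, c, d, e]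
  have hinj : Function.Injective f := by
    simp only [List.nodup_cons, List.mem_cons, not_or, List.not_mem_nil, not_false_eq_true,
      and_true, List.nodup_nil] at hn
    intro i j hij
    fin_cases i <;> fin_cases j <;> simp_all [f]
  refine ⟨Equiv.ofBijective f (Finite.injective_iff_bijective.1 hinj), rfl, rfl, rfl, rfl, rfl⟩

/-- No 5-cycle. -/
theorem Sys.no_C5 {S : ℝ → Finset (Fin 5)} {G : Set ℝ} {E : Fin 5 → Fin 5 → Prop} (h : Sys S G E)
    (hsymm : ∀ a b, E a b → E b a) {a b c d e : Fin 5} (hn : [a, b, c, d, e].Nodup)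
    (h1 : E a b) (h2 : E b c) (h3 : E c d) (h4 : E d e) (h5 : E e a) : False := by
  obtain ⟨σ, e0, e1, e2, e3, e4⟩ := exists_perm hn
  refine (h.perm σ).false eC5 ?_ propI_C5 propII_C5
  intro i j hij
  show E (σ i) (σ j)
  simp only [eC5, edges, List.contains_cons, List.contains_nil, Bool.or_false, Bool.or_eq_true,
    beq_iff_eq, Prod.mk.injEq] at hij
  rcases hij with hij | hij
  · rcases hij with ⟨rfl, rfl⟩ | ⟨rfl, rfl⟩ | ⟨rfl, rfl⟩ | ⟨rfl, rfl⟩ | ⟨rfl, rfl⟩ <;>
      simp only [e0, e1, e2, e3, e4] <;> assumption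
  · rcases hij with ⟨rfl, rfl⟩ | ⟨rfl, rfl⟩ | ⟨rfl, rfl⟩ | ⟨rfl, rfl⟩ | ⟨rfl, rfl⟩ <;>
      simp only [e0, e1, e2, e3, e4] <;> apply hsymm <;> assumption

/-- No 4-cycle. -/
theorem Sys.no_C4 {S : ℝ → Finset (Fin 5)} {G : Set ℝ} {E : Fin 5 → Fin 5 → Prop} (h : Sys S G E)
    (hsymm : ∀ a b, E a b → E b a) {a b c d : Fin 5} (hn : [a, b, c, d].Nodup)
    (h1 : E a b) (h2 : E b c) (h3 : E c d) (h4 : E d a) : False := by
  obtain ⟨e, he⟩ : ∃ e : Fin 5, e ∉ ({a, b, c, d} : Finset (Fin 5)) := by
    by_contra hcon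
    push Not at hcon
    have h1 : (Finset.univ : Finset (Fin 5)) ⊆ {a, b, c, d} := fun x _ => hcon x
    have h2 := Finset.card_le_card h1
    have h3 : ({a, b, c, d} : Finset (Fin 5)).card ≤ 4 := Finset.card_le_four
    simp at h2
    omega
  have hn' : [a, b, c, d, e].Nodup := by
    simp only [Finset.mem_insert, Finset.mem_singleton, not_or] at he
    simp only [List.nodup_cons, List.mem_cons, not_or, List.not_mem_nil, not_false_eq_true,
      and_true, List.nodup_nil] at hn ⊢
    tauto
  obtain ⟨σ, e0, e1, e2, e3, e4⟩ := exists_perm hn'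
  refine (h.perm σ).false eC4 ?_ propI_C4 propII_C4
  intro i j hij
  show E (σ i) (σ j)
  simp only [eC4, edges, List.contains_cons, List.contains_nil, Bool.or_false, Bool.or_eq_true,
    beq_iff_eq, Prod.mk.injEq] at hij
  rcases hij with hij | hij
  · rcases hij with ⟨rfl, rfl⟩ | ⟨rfl, rfl⟩ | ⟨rfl, rfl⟩ | ⟨rfl, rfl⟩ <;>
      simp only [e0, e1, e2, e3] <;> assumption
  · rcases hij with ⟨rfl, rfl⟩ | ⟨rfl, rfl⟩ | ⟨rfl, rfl⟩ | ⟨rfl, rfl⟩ <;>
      simp only [e0, e1, e2, e3] <;> apply hsymm <;> assumption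

end Crest.Agent.R40.T3CaseII
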