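/-
R40 / T3, Case II: a point with all five colours has no 4-cycle and no 5-cycle of exact pairs.
(helper739; proof of helper158 #6409, simplified by a finite computation)
-/
import Crest.Agent.R40.T3Sol
import Crest.Agent.R40.T3Main
import Crest.Agent.R40.T3CaseIIa

set_option autoImplicit false

open Set Metric Topology Filter

namespace Crest.Agent.R40.T3CaseII

open Crest.Agent.R40.T3

variable {U : Fin 5 → Set ℂ}

/-- the palette system at a point with all five colours, from (D) and (G1) -/
theorem sys_of (h : Cov U) {x : ℂ} (hx : J U x = Finset.univ)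
    (hD : ∀ (c : Fin 5) (v d : ℝ), 0 < d →
      (∀ a b : ℝ, |a - v| < d → |b - v| < d → a ≠ b → x + uv a - uv b ∈ U c) →
      ∀ s : ℝ, x + uv s ∉ F U c)
    (hG1 : ∀ i j : Fin 5, Dense (Sol U i x ∪ Sol U j x) → ¬ Acc U x i j) :
    Sys (fun t => J U (x + uv t)) (GenW U x) (Acc U x) := by
  have hgen : ∀ t ∈ GenW U x, t + Real.pi ∈ GenW U x := by
    intro t ht
    have := genW_shift ht 3
    have e : t + ((3 : ℤ) : ℝ) * (Real.pi / 3) = t + Real.pi := by push_cast; ring
    rwa [e] at this
  have hcard : ∀ t ∈ GenW U x, (J U (x + uv t)).card = 2 := by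
    intro t ht
    have h1 := h.genC_card (genW_subset_genC ht)
    have h2 : 0 < (J U (x + uv t)).card := Finset.card_pos.2 (h.J_nonempty _)
    have h3 : (J U (x + uv t)).card ≠ 1 := by
      intro hc
      obtain ⟨k, hk⟩ := Finset.card_eq_one.1 hc
      have := h.single_not_mem (hk.subset) (dist_add_uv x t)
      exact this (by rw [hx]; simp)
    omega
  refine ⟨dense_GenW.nonempty, ?_, hcard, ?_, ?_, ?_, ?_, ?_⟩
  · intro t ht
    have := genW_shift ht 1
    simpa using this
  · intro t ht
    have := h.word_disjoint ht 0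
    simpa using this
  · intro t
    simp only [uv_add_two_pi]
  · intro t ht a ha b hb hab
    refine h.not_acc ?_ (dist_add_uv x t)
    -- the palette is exactly `{a, b}`
    have h1 : ({a, b} : Finset (Fin 5)) ⊆ J U (x + uv t) := by
      intro i hi
      simp only [Finset.mem_insert, Finset.mem_singleton] at hi
      rcases hi with rfl | rfl
      · exact ha
      · exact hb
    have h2 : J U (x + uv t) = {a, b} := by
      refine (Finset.eq_of_subset_of_card_le h1 ?_).symm
      rw [hcard t ht, Finset.card_pair hab]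
    exact h2.subset
  · -- (P5) and (D)
    intro t ht c hd hc1 hc2 s _
    have hother : ∀ k, k ≠ c → k ∈ J U (x + uv t) ∨ k ∈ J U (x + uv (t + Real.pi)) := by
      intro k hk
      by_contra hcon
      push Not at hcon
      have h1 : J U (x + uv t) ∪ J U (x + uv (t + Real.pi)) ⊆ (Finset.univ.erase c).erase k := by
        intro l hl
        rw [Finset.mem_erase, Finset.mem_erase]
        refine ⟨?_, ?_, Finset.mem_univ _⟩
        · rintro rfl
          rcases Finset.mem_union.1 hl with hl | hl
          · exact hcon.1 hl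
          · exact hcon.2 hl
        · rintro rfl
          rcases Finset.mem_union.1 hl with hl | hl
          · exact hc1 hl
          · exact hc2 hl
      have h2 := Finset.card_le_card h1
      rw [Finset.card_union_of_disjoint hd, hcard t ht, hcard _ (hgen t ht),
        Finset.card_erase_of_mem (Finset.mem_erase.2 ⟨hk, Finset.mem_univ _⟩),
        Finset.card_erase_of_mem (Finset.mem_univ _)] at h2
      simp at h2
    have hev1 : ∀ᶠ a in 𝓝 t, ∀ k ∈ J U (x + uv t), a ∈ Sol U k x := by
      rw [Filter.eventually_all_finset]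
      intro k hk
      exact isOpen_Sol.mem_nhds ((mem_Sol_iff (genW_subset_genC ht)).2 hk)
    have hev2 : ∀ᶠ b in 𝓝 t, ∀ k ∈ J U (x + uv (t + Real.pi)), b + Real.pi ∈ Sol U k x := by
      rw [Filter.eventually_all_finset]
      intro k hk
      have h1 : t + Real.pi ∈ Sol U k x := (mem_Sol_iff (genW_subset_genC (hgen t ht))).2 hk
      have hcont : Continuous (fun b : ℝ => b + Real.pi) := by fun_prop
      exact hcont.continuousAt.eventually (isOpen_Sol.mem_nhds h1)
    obtain ⟨d₁, hd₁, hb₁⟩ := Metric.eventually_nhds_iff.1 (hev1.and hev2)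
    set d := min d₁ 1 with hdd
    have hd0 : 0 < d := lt_min hd₁ one_pos
    have hfin := hD c t d hd0 ?_ s
    · intro hs
      exact hfin (mem_J.1 hs)
    · intro a b ha hb hab
      have ha' : dist a t < d₁ := by
        rw [Real.dist_eq]; exact lt_of_lt_of_le ha (min_le_left _ _)
      have hb' : dist b t < d₁ := by
        rw [Real.dist_eq]; exact lt_of_lt_of_le hb (min_le_left _ _)
      have hsin : Real.sin (a - b) ≠ 0 := by
        have h1 : |a - t| < 1 := lt_of_lt_of_le ha (min_le_right _ _)
        have h2 : |b - t| < 1 := lt_of_lt_of_le hb (min_le_right _ _)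
        rw [abs_lt] at h1 h2
        have hpi := Real.pi_gt_three
        rcases lt_or_gt_of_ne (sub_ne_zero.2 hab) with h3 | h3
        · exact (Real.sin_neg_of_neg_of_neg_pi_lt h3 (by linarith [h1.1, h2.2])).ne
        · exact (Real.sin_pos_of_pos_of_lt_pi h3 (by linarith [h1.2, h2.1])).ne'
      apply h.mem_of_J_subset
      intro k hk
      rw [Finset.mem_singleton]
      by_contra hkc
      obtain ⟨hk1, hk2⟩ := h.P5 hsin (mem_J.1 hk)
      rcases hother k hkc with h3 | h3
      · exact hk1 ((hb₁ ha').1 k h3)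
      · exact hk2 ((hb₁ hb').2 k h3)
  · -- (G1)
    intro a b hab
    apply hG1
    refine (dense_GenW (U := U) (x := x)).mono ?_
    intro t ht
    rcases hab t ht with h1 | h1
    · exact Or.inl ((mem_Sol_iff (genW_subset_genC ht)).2 h1)
    · exact Or.inr ((mem_Sol_iff (genW_subset_genC ht)).2 h1)

/-- Case II from (D) and (G1). -/
theorem caseII_of (h : Cov U) {x : ℂ} (hx : J U x = Finset.univ)
    (hD : ∀ (c : Fin 5) (v d : ℝ), 0 < d →
      (∀ a b : ℝ, |a - v| < d → |b - v| < d → a ≠ b → x + uv a - uv b ∈ U c) →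
      ∀ s : ℝ, x + uv s ∉ F U c)
    (hG1 : ∀ i j : Fin 5, Dense (Sol U i x ∪ Sol U j x) → ¬ Acc U x i j) :
    ¬ Quad (Acc U x) ∧ ¬ Pent (Acc U x) := by
  have hs := sys_of h hx hD hG1
  constructor
  · rintro ⟨a, b, c, d, hab, hac, had, hbc, hbd, hcd, h1, h2, h3, h4⟩
    exact hs.no_C4 (fun _ _ h => h.symm) (by simp [*]) h1 h2 h3 h4
  · rintro ⟨a, b, c, d, e, hab, hac, had, hae, hbc, hbd, hbe, hcd, hce, hde, h1, h2, h3, h4, h5⟩
    exact hs.no_C5 (fun _ _ h => h.symm) (by simp [*]) h1 h2 h3 h4 h5

end Crest.Agent.R40.T3CaseII
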