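/-
R40 / T3, Case II: final form. (helper739)
-/
import Crest.Agent.R40.T3Sol2
import Crest.Agent.R40.T3CaseIIb

set_option autoImplicit false

open Set Metric Topology Filter

namespace Crest.Agent.R40.T3

/-- **Case II**: at a point with all five colours, the graph of accumulating exact pairs has no cycle of
length four and no cycle of length five. -/
theorem caseII {U : Fin 5 → Set ℂ} (h : Cov U) (x : ℂ) (hx : J U x = Finset.univ) :
    ¬ Quad (Acc U x) ∧ ¬ Pent (Acc U x) := by
  refine T3CaseII.caseII_of h hx ?_ ?_
  · intro c v d hd hW s
    exact h.D hd hW s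
  · intro i j hd
    refine h.G1' hd ?_
    intro hij
    rw [hx] at hij
    have h1 := Finset.card_le_two (a := i) (b := j)
    rw [← hij] at h1
    simp at h1

end Crest.Agent.R40.T3
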