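import Crest.Agent.R40.T3Ray467
import Crest.Agent.R40.T3Sol2
import Crest.Agent.R40.T3Geo638
import Crest.Agent.R40.T3Main

/-!
# R40 / T3 : Case III, items (f), (g)
-/

set_option autoImplicit false

open Set Metric Topology Filter

namespace Crest.Agent.R40.T3

/-- `x` has exactly the four colours `a, b, c, d` and the exact pairs accumulating at `x` are the
edges of the 4-cycle `a b c d`. -/
structure C4 (U : Fin 5 → Set ℂ) (x : ℂ) (a b c d : Fin 5) : Prop where
  hab : a ≠ b
  hac : a ≠ c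
  had : a ≠ d
  hbc : b ≠ c
  hbd : b ≠ d
  hcd : c ≠ d
  hJ : J U x = {a, b, c, d}
  eab : Acc U x a b
  ebc : Acc U x b c
  ecd : Acc U x c d
  eda : Acc U x d a
  nac : ¬ Acc U x a c
  nbd : ¬ Acc U x b d

section
variable {U : Fin 5 → Set ℂ} {x : ℂ} {a b c d : Fin 5}

lemma C4.rot (h : C4 U x a b c d) : C4 U x b c d a where
  hab := h.hbc
  hac := h.hbd
  had := h.hab.symm
  hbc := h.hcd
  hbd := h.hac.symm
  hcd := h.had.symm
  hJ := by rw [h.hJ]; ext i; simp only [Finset.mem_insert, Finset.mem_singleton]; tauto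
  eab := h.ebc
  ebc := h.ecd
  ecd := h.eda
  eda := h.eab
  nac := h.nbd
  nbd := fun h' => h.nac h'.symm

lemma C4.card (h : C4 U x a b c d) : (J U x).card = 4 := by
  rw [h.hJ, Finset.card_insert_of_notMem (by simp [h.hab, h.hac, h.had]),
          Finset.card_insert_of_notMem (by simp [h.hbc, h.hbd]),
          Finset.card_insert_of_notMem (by simpa using h.hcd), Finset.card_singleton]

/-- Finite combinatorics of a palette contained in `{a,b,c,d}`. -/
lemma pal_cases {S : Finset (Fin 5)} (hS : S.card ≤ 2) (hne : S.Nonempty) :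
    (∃ k, S = {k}) ∨ ∃ k l, k ≠ l ∧ S = {k, l} := by
  have h1 : 0 < S.card := hne.card_pos
  rcases (show S.card = 1 ∨ S.card = 2 by omega) with h2 | h2
  · exact Or.inl (Finset.card_eq_one.1 h2)
  · obtain ⟨k, l, hkl, hs⟩ := Finset.card_eq_two.1 h2
    exact Or.inr ⟨k, l, hkl, hs⟩

/-- Types of generic angles: either a fifth colour occurs, or the angle is in one of the two solid
two-coloured sets. -/
theorem Cov.types (h : Cov U) (hC : C4 U x a b c d) {t : ℝ} (ht : t ∈ GenC U x)
    (hA : t ∉ Sol U a x ∩ Sol U c x) (hB : t ∉ Sol U b x ∩ Sol U d x) :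
    ∃ e, e ∉ J U x ∧ e ∈ J U (x + uv t) := by
  by_contra hcon
  push Not at hcon
  have hsub : J U (x + uv t) ⊆ J U x := by
    intro e he
    by_contra hn
    exact hcon e hn he
  have hd1 : dist (x + uv t) x = 1 := dist_add_uv x t
  rcases pal_cases (h.genC_card ht) (h.J_nonempty _) with ⟨k, hk⟩ | ⟨k, l, hkl, hkl'⟩
  · refine h.single_not_mem (y := x) (x := x + uv t) (k := k) hk.subset hd1 ?_
    exact hsub (by rw [hk]; simp)
  · have hnacc : ¬ Acc U x k l := h.not_acc (x := x + uv t) (y := x) hkl'.subset hd1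
    have hnacc' : ¬ Acc U x l k := fun h' => hnacc h'.symm
    have hk : k ∈ J U x := hsub (by rw [hkl']; simp)
    have hl : l ∈ J U x := hsub (by rw [hkl']; simp)
    rw [hC.hJ] at hk hl
    have hmem : ∀ i, i ∈ ({k, l} : Finset (Fin 5)) → t ∈ Sol U i x := by
      intro i hi
      rw [mem_Sol_iff ht, hkl']
      exact hi
    have hk1 := hmem k (by simp)
    have hl1 := hmem l (by simp)
    simp only [Finset.mem_insert, Finset.mem_singleton] at hk hl
    rcases hk with rfl | rfl | rfl | rfl <;> rcases hl with rfl | rfl | rfl | rfl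
    · exact hkl rfl
    · exact hnacc hC.eab
    · exact hA ⟨hk1, hl1⟩
    · exact hnacc' hC.eda
    · exact hnacc' hC.eab
    · exact hkl rfl
    · exact hnacc hC.ebc
    · exact hB ⟨hk1, hl1⟩
    · exact hA ⟨hl1, hk1⟩
    · exact hnacc' hC.ebc
    · exact hkl rfl
    · exact hnacc hC.ecd
    · exact hnacc hC.eda
    · exact hB ⟨hl1, hk1⟩
    · exact hnacc' hC.ecd
    · exact hkl rfl

/-- A preconnected set without frontier points of an open set `A` is contained in `A` or
disjoint from `A`. -/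
lemma subset_or_of_frontier {A I : Set ℝ} (hA : IsOpen A) (hI : IsPreconnected I)
    (hf : ∀ t ∈ I, t ∉ frontier A) : I ⊆ A ∨ ∀ t ∈ I, t ∉ A := by
  have hcov : I ⊆ A ∪ (closure A)ᶜ := by
    intro t ht
    by_cases h1 : t ∈ closure A
    · left
      by_contra h2
      apply hf t ht
      rw [hA.frontier_eq]
      exact ⟨h1, h2⟩
    · exact Or.inr h1
  have hdis : I ∩ (A ∩ (closure A)ᶜ) = ∅ := by
    ext t
    simp only [mem_inter_iff, mem_compl_iff, mem_empty_iff_false, iff_false]
    rintro ⟨_, h1, h2⟩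
    exact h2 (subset_closure h1)
  rcases isPreconnected_iff_subset_of_disjoint.1 hI _ _ hA isClosed_closure.isOpen_compl hcov hdis
    with h1 | h1
  · exact Or.inl h1
  · exact Or.inr fun t ht h2 => h1 ht (subset_closure h2)

/-- (III-g), first half: every open interval of length greater than `π/3` contains a frontier
angle. -/
theorem Cov.exists_frontier (h : Cov U) (hC : C4 U x a b c d) {l r : ℝ}
    (hlr : l + Real.pi / 3 < r) :
    ∃ t ∈ Ioo l r, t ∈ frontier (Sol U a x ∩ Sol U c x) ∨ t ∈ frontier (Sol U b x ∩ Sol U d x) := by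
  by_contra hcon
  push Not at hcon
  have hpi := Real.pi_pos
  -- a nonempty open set of `t` with `t`, `t + π/3` in the interval
  have hOne : (Ioo l (r - Real.pi / 3)).Nonempty := nonempty_Ioo.2 (by linarith)
  obtain ⟨t, ht, htg⟩ := (dense_GenW (U := U) (x := x)).inter_open_nonempty _ isOpen_Ioo hOne
  have ht1 : t ∈ Ioo l r := ⟨ht.1, by linarith [ht.2]⟩
  have ht2 : t + Real.pi / 3 ∈ Ioo l r := ⟨by linarith [ht.1], by linarith [ht.2]⟩
  rcases subset_or_of_frontier (isOpen_Sol.inter isOpen_Sol) isPreconnected_Ioo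
    (fun t ht => (hcon t ht).1) with hA | hA
  · exact (h.P3 (hA ht1).1).1 (sol_mem (hA ht2).1)
  rcases subset_or_of_frontier (isOpen_Sol.inter isOpen_Sol) isPreconnected_Ioo
    (fun t ht => (hcon t ht).2) with hB | hB
  · exact (h.P3 (hB ht1).1).1 (sol_mem (hB ht2).1)
  have hg1 : t ∈ GenC U x := genW_subset_genC htg
  have hg2 : t + Real.pi / 3 ∈ GenC U x := by simpa using htg 1
  obtain ⟨e, he, he1⟩ := h.types hC hg1 (hA t ht1) (hB t ht1)
  obtain ⟨e', he', he1'⟩ := h.types hC hg2 (hA _ ht2) (hB _ ht2)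
  have hee : e = e' := by
    by_contra hne
    have h5 : ({e, e'} : Finset (Fin 5)) ⊆ (J U x)ᶜ := by
      intro i hi
      simp only [Finset.mem_insert, Finset.mem_singleton] at hi
      rcases hi with rfl | rfl
      · simpa using he
      · simpa using he'
    have h6 := Finset.card_le_card h5
    rw [Finset.card_compl, hC.card, Finset.card_pair hne] at h6
    simp at h6
  subst hee
  exact (h.P3 ((mem_Sol_iff hg1).2 he1)).1 (mem_J.1 he1')

/-- (III-f): a frontier angle `s` of the `bd`-solid set gives a pair `k ∈ {b,d}`, `l ∈ {a,c}` such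
that near `x` all points having both colours lie on the unit circle about `x + uv s`. -/
theorem Cov.III_f (h : Cov U)
    (hb : ∀ x a b c d, C4 U x a b c d → (Sol U a x ∩ Sol U c x).Nonempty)
    (he : ∀ x a b c d, C4 U x a b c d → ∀ s ∈ frontier (Sol U b x ∩ Sol U d x),
      ∃ p q, C4 U (x + uv s) b d p q)
    (hC : C4 U x a b c d) {s : ℝ} (hs : s ∈ frontier (Sol U b x ∩ Sol U d x)) :
    ∃ k l, (k = b ∨ k = d) ∧ (l = a ∨ l = c) ∧
      ∀ᶠ z in 𝓝 x, z ∈ F U k → z ∈ F U l → dist z (x + uv s) = 1 := by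
  obtain ⟨p, q, hy⟩ := he x a b c d hC s hs
  have hxy : x + uv s + uv (s + Real.pi) = x := by rw [uv_add_pi]; ring
  -- the two non-edges `b p` and `d q` at `y`
  have h1 : ∀ᶠ z in 𝓝 x, z ∈ F U b → z ∈ F U p → dist z (x + uv s) = 1 := by
    have := h.III_cd (a := d) (b := b) (c := q) (d := p) (x := x + uv s)
      (by rw [hy.hJ]; intro i hi; simp only [Finset.mem_insert, Finset.mem_singleton] at hi ⊢; tauto)
      hy.nac (hb _ _ _ _ _ hy.rot) (s + Real.pi)
    rwa [hxy] at this
  have h2 : ∀ᶠ z in 𝓝 x, z ∈ F U d → z ∈ F U q → dist z (x + uv s) = 1 := by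
    have := h.III_cd (a := b) (b := d) (c := p) (d := q) (x := x + uv s)
      (by rw [hy.hJ]) hy.nbd (hb _ _ _ _ _ hy) (s + Real.pi)
    rwa [hxy] at this
  -- one of `p, q` is in `{a, c}`
  have hp : p ≠ b ∧ p ≠ d := ⟨hy.hac.symm, hy.hbc.symm⟩
  have hq : q ≠ b ∧ q ≠ d := ⟨hy.had.symm, hy.hbd.symm⟩
  have hfin : (p = a ∨ p = c) ∨ (q = a ∨ q = c) := by
    by_contra hn
    push Not at hn
    obtain ⟨⟨hpa, hpc⟩, hqa, hqc⟩ := hn
    have h5 : ({p, q} : Finset (Fin 5)) ⊆ (J U x)ᶜ := by
      intro i hi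
      simp only [Finset.mem_insert, Finset.mem_singleton] at hi
      rw [Finset.mem_compl, hC.hJ]
      simp only [Finset.mem_insert, Finset.mem_singleton]
      rcases hi with rfl | rfl
      · tauto
      · tauto
    have h6 := Finset.card_le_card h5
    rw [Finset.card_compl, hC.card, Finset.card_pair hy.hcd] at h6
    simp at h6
  rcases hfin with h3 | h3
  · exact ⟨b, p, Or.inl rfl, h3, h1⟩
  · exact ⟨d, q, Or.inr rfl, h3, h2⟩

lemma uv_injOn {s t : ℝ} (h0 : 0 < s) (h1 : s < 2 * Real.pi) (h2 : 0 < t) (h3 : t < 2 * Real.pi)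
    (hst : uv s = uv t) : s = t := by
  have hc : Real.cos s = Real.cos t := by rw [← uv_re, ← uv_re, hst]
  have hs : Real.sin s = Real.sin t := by rw [← uv_im, ← uv_im, hst]
  have h4 : Real.cos (s - t) = 1 := by
    rw [Real.cos_sub, hc, hs]
    have := Real.sin_sq_add_cos_sq t
    linarith
  have h5 := (Real.cos_eq_one_iff_of_lt_of_lt (by linarith) (by linarith)).1 h4
  linarith

/-- (III-g) Case III from (III-b) and (III-e). -/
theorem Cov.caseIII_of (h : Cov U)
    (hb : ∀ x a b c d, C4 U x a b c d → (Sol U a x ∩ Sol U c x).Nonempty)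
    (he : ∀ x a b c d, C4 U x a b c d → ∀ s ∈ frontier (Sol U b x ∩ Sol U d x),
      ∃ p q, C4 U (x + uv s) b d p q)
    (x : ℂ) (a b c d : Fin 5) (hC : C4 U x a b c d) : False := by
  have hpi := Real.pi_pos
  -- five disjoint arcs
  have h1 : ∀ j : Fin 5, ∃ s ∈ Ioo (2 * Real.pi * (j : ℝ) / 5) (2 * Real.pi * ((j : ℝ) + 1) / 5),
      ∃ kl : Fin 5 × Fin 5, kl ∈ ({(b, a), (b, c), (d, a), (d, c)} : Finset (Fin 5 × Fin 5)) ∧
        ∀ᶠ z in 𝓝 x, z ∈ F U kl.1 → z ∈ F U kl.2 → dist z (x + uv s) = 1 := by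
    intro j
    obtain ⟨s, hs, hs'⟩ := h.exists_frontier hC (l := 2 * Real.pi * (j : ℝ) / 5)
      (r := 2 * Real.pi * ((j : ℝ) + 1) / 5) (by linarith)
    refine ⟨s, hs, ?_⟩
    rcases hs' with hs' | hs'
    · have hC' := hC.rot
      rw [inter_comm] at hs'
      obtain ⟨k, l, hk, hl, hz⟩ := h.III_f hb he hC' hs'
      refine ⟨(l, k), ?_, by filter_upwards [hz] with z hz h1 h2 using hz h2 h1⟩
      simp only [Finset.mem_insert, Finset.mem_singleton, Prod.mk.injEq]
      tauto
    · obtain ⟨k, l, hk, hl, hz⟩ := h.III_f hb he hC hs'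
      refine ⟨(k, l), ?_, hz⟩
      simp only [Finset.mem_insert, Finset.mem_singleton, Prod.mk.injEq]
      tauto
  choose s hs kl hkl hz using h1
  -- pigeonhole
  obtain ⟨i, _, j, _, hij, hklij⟩ := Finset.exists_ne_map_eq_of_card_lt_of_maps_to
    (s := (Finset.univ : Finset (Fin 5)))
    (t := ({(b, a), (b, c), (d, a), (d, c)} : Finset (Fin 5 × Fin 5))) (f := kl)
    (lt_of_le_of_lt Finset.card_le_four (by simp)) (fun i _ => hkl i)
  have hI : ∀ i : Fin 5, 0 < s i ∧ s i < 2 * Real.pi := by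
    intro i
    have h2 : (0:ℝ) ≤ (i : ℝ) := by positivity
    have h3 : (i : ℝ) + 1 ≤ 5 := by
      have := i.2
      exact_mod_cast this
    constructor
    · refine lt_of_le_of_lt ?_ (hs i).1
      positivity
    · refine lt_of_lt_of_le (hs i).2 ?_
      rw [div_le_iff₀ (by norm_num)]
      nlinarith
  have hne : x + uv (s i) ≠ x + uv (s j) := by
    intro heq
    have h2 := uv_injOn (hI i).1 (hI i).2 (hI j).1 (hI j).2 (add_left_cancel heq)
    have key : ∀ i j : Fin 5, i < j → s i < s j := by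
      intro i j hlt
      refine lt_of_lt_of_le (hs i).2 (le_trans ?_ (hs j).1.le)
      have : (i : ℝ) + 1 ≤ (j : ℝ) := by
        have : (i : ℕ) + 1 ≤ (j : ℕ) := hlt
        exact_mod_cast this
      gcongr
    rcases lt_or_gt_of_ne hij with h3 | h3
    · exact (key _ _ h3).ne h2
    · exact (key _ _ h3).ne' h2
  have hacc : Acc U x (kl i).1 (kl i).2 := by
    have := hkl i
    simp only [Finset.mem_insert, Finset.mem_singleton] at this
    rcases this with h3 | h3 | h3 | h3 <;> rw [h3]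
    · exact hC.eab.symm
    · exact hC.ebc
    · exact hC.eda
    · exact hC.ecd.symm
  have hcirc := T3Geo.two_circles hne (x := x) (by rw [dist_comm]; exact dist_add_uv x _)
    (by rw [dist_comm]; exact dist_add_uv x _)
  have hzj := hz j
  rw [← hklij] at hzj
  rw [eventually_nhdsWithin_iff] at hcirc
  obtain ⟨z, hz1, hz2, hz3, hz4⟩ :=
    (hacc.and_eventually (hcirc.and ((hz i).and hzj))).exists
  have hzx : z ≠ x := by
    rintro rfl
    have h3 := hC.card
    rw [hz1] at h3
    have h4 := Finset.card_le_two (a := (kl i).1) (b := (kl i).2)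
    omega
  have m1 : z ∈ F U (kl i).1 := mem_J.1 (by rw [hz1]; simp)
  have m2 : z ∈ F U (kl i).2 := mem_J.1 (by rw [hz1]; simp)
  exact hz2 hzx ⟨hz3 m1 m2, hz4 m1 m2⟩

end

end Crest.Agent.R40.T3
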