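import Crest.Agent.R40.T3CaseIIIe467
import Crest.Agent.R40.T3C4b

/-!
# R40 / T3 : Case III, final form
-/

set_option autoImplicit false

open Set Metric Topology Filter

namespace Crest.Agent.R40.T3

lemma exists_fifth : ∀ a b c d : Fin 5, a ≠ b → a ≠ c → a ≠ d → b ≠ c → b ≠ d → c ≠ d →
    ∃ e, a ≠ e ∧ b ≠ e ∧ c ≠ e ∧ d ≠ e := by decide

section
variable {U : Fin 5 → Set ℂ}

/-- (III-b) in terms of `C4`. -/
theorem Cov.III_b' (h : Cov U) :
    ∀ x a b c d, C4 U x a b c d → (Sol U a x ∩ Sol U c x).Nonempty := by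
  intro x a b c d hC
  obtain ⟨e, h1, h2, h3, h4⟩ := exists_fifth a b c d hC.hab hC.hac hC.had hC.hbc hC.hbd hC.hcd
  have hn : [a, b, c, d, e].Nodup := by
    simp only [List.nodup_cons, List.mem_cons, List.not_mem_nil, or_false, not_or,
      List.nodup_nil, not_false_eq_true, and_true]
    exact ⟨⟨hC.hab, hC.hac, hC.had, h1⟩, ⟨hC.hbc, hC.hbd, h2⟩, ⟨hC.hcd, h3⟩, h4⟩
  exact (C4b.III_b h hn hC.hJ hC.eab hC.ebc hC.ecd hC.eda hC.nac hC.nbd).1

/-- Case III, in exactly the form `hIII` of `T3_false_of`. -/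
theorem Cov.caseIII (h : Cov U) (hI : ∀ x, ¬ Tri (Acc U x))
    (hII : ∀ x, J U x = Finset.univ → ¬ Quad (Acc U x) ∧ ¬ Pent (Acc U x)) :
    ∀ x (a b c d : Fin 5), a ≠ b → a ≠ c → a ≠ d → b ≠ c → b ≠ d → c ≠ d →
      J U x = {a, b, c, d} → Acc U x a b → Acc U x b c → Acc U x c d → Acc U x d a →
      ¬ Acc U x a c → ¬ Acc U x b d → False :=
  h.caseIII_of_b h.III_b' hI hII

end

end Crest.Agent.R40.T3
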