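import Crest.Agent.R40.T3CaseIII467
import Crest.Agent.R40.T3C4e

/-!
# R40 / T3 : Case III from (III-b), Case I and Case II
-/

set_option autoImplicit false

open Set Metric Topology Filter

namespace Crest.Agent.R40.T3

section
variable {U : Fin 5 → Set ℂ}

/-- (III-e) in terms of `C4`. -/
theorem Cov.III_e' (h : Cov U)
    (hb : ∀ x a b c d, C4 U x a b c d → (Sol U a x ∩ Sol U c x).Nonempty)
    (hI : ∀ x, ¬ Tri (Acc U x))
    (hII : ∀ x, J U x = Finset.univ → ¬ Quad (Acc U x) ∧ ¬ Pent (Acc U x))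
    (x : ℂ) (a b c d : Fin 5) (hC : C4 U x a b c d) (s : ℝ)
    (hs : s ∈ frontier (Sol U b x ∩ Sol U d x)) :
    ∃ p q, C4 U (x + uv s) b d p q := by
  have hN := h.III_cd hC.hJ.subset hC.nbd (hb x a b c d hC) s
  have hs1 : s ∈ closure (Sol U b x ∩ Sol U d x) := frontier_subset_closure hs
  have hs2 : s ∉ Sol U b x ∩ Sol U d x := by
    rw [(isOpen_Sol.inter isOpen_Sol).frontier_eq] at hs
    exact hs.2
  obtain ⟨p, q, h1, h2, h3, h4, h5, h6, h7, h8, h9, h10, h11, h12⟩ :=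
    h.III_e (x := x) (b := b) (d := d) (s := s) hC.hbd hs1 hs2
    (by
      have hN' : ∀ᶠ q in 𝓝 (x + uv s), J U q = {b, d} → dist q x = 1 := by
        filter_upwards [hN] with q hq hJq
        exact hq (mem_J.1 (by rw [hJq]; simp)) (mem_J.1 (by rw [hJq]; simp))
      exact hN')
    (fun i j k hij hik hjk e1 e2 e3 => hI _ ⟨i, j, k, hij, hik, hjk, e1, e2, e3⟩)
    (fun hJ => ⟨fun i j k l n1 n2 n3 n4 n5 n6 e1 e2 e3 e4 =>
        (hII _ hJ).1 ⟨i, j, k, l, n1, n2, n3, n4, n5, n6, e1, e2, e3, e4⟩,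
      fun i j k l m n1 n2 n3 n4 n5 n6 n7 n8 n9 n10 e1 e2 e3 e4 e5 =>
        (hII _ hJ).2 ⟨i, j, k, l, m, n1, n2, n3, n4, n5, n6, n7, n8, n9, n10, e1, e2, e3, e4, e5⟩⟩)
  exact ⟨p, q, ⟨hC.hbd, h1, h2, h3, h4, h5, h6, h7, h8, h9, h10, h11, h12⟩⟩

/-- Case III in the form needed by `T3_false_of`, from (III-b). -/
theorem Cov.caseIII_of_b (h : Cov U)
    (hb : ∀ x a b c d, C4 U x a b c d → (Sol U a x ∩ Sol U c x).Nonempty)
    (hI : ∀ x, ¬ Tri (Acc U x))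
    (hII : ∀ x, J U x = Finset.univ → ¬ Quad (Acc U x) ∧ ¬ Pent (Acc U x)) :
    ∀ x (a b c d : Fin 5), a ≠ b → a ≠ c → a ≠ d → b ≠ c → b ≠ d → c ≠ d →
      J U x = {a, b, c, d} → Acc U x a b → Acc U x b c → Acc U x c d → Acc U x d a →
      ¬ Acc U x a c → ¬ Acc U x b d → False :=
  fun x a b c d n1 n2 n3 n4 n5 n6 hJ e1 e2 e3 e4 e5 e6 =>
    h.caseIII_of hb (h.III_e' hb hI hII) x a b c d
      ⟨n1, n2, n3, n4, n5, n6, hJ, e1, e2, e3, e4, e5, e6⟩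

end

end Crest.Agent.R40.T3
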