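import Mathlib

/-!
# R40 / T3, block TOP (helper772): the combinatorial part.

`grid_contradiction` : Sperner parity on the square grid `{0..N} × {0..N}` together with
a mod-2 cycle argument in clusters.
-/

namespace Crest.Agent.R40.Top

open Finset

/-- the mod-2 boundary sum over a lower triangle `(a,b),(a+1,b),(a,b+1)`. -/
def bdL (f : ℕ × ℕ → ℕ × ℕ → ZMod 2) (a b : ℕ) : ZMod 2 :=
  f (a, b) (a + 1, b) + f (a, b) (a, b + 1) + f (a + 1, b) (a, b + 1)

/-- the mod-2 boundary sum over an upper triangle `(a+1,b),(a,b+1),(a+1,b+1)`. -/
def bdU (f : ℕ × ℕ → ℕ × ℕ → ZMod 2) (a b : ℕ) : ZMod 2 :=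
  f (a, b + 1) (a + 1, b + 1) + f (a + 1, b) (a + 1, b + 1) + f (a + 1, b) (a, b + 1)

lemma zmod2_add_self (x : ZMod 2) : x + x = 0 := by
  revert x; decide

lemma tele_range (g : ℕ → ZMod 2) (N : ℕ) :
    ∑ b ∈ range N, (g b + g (b + 1)) = g 0 + g N := by
  induction N with
  | zero => simp [zmod2_add_self]
  | succ n ih =>
    rw [sum_range_succ, ih]
    have := zmod2_add_self (g n)
    linear_combination this

/-- telescoping: the sum of the boundary sums of all triangles of the square is the
boundary sum of the square. -/
lemma tele (f : ℕ × ℕ → ℕ × ℕ → ZMod 2) (N : ℕ) :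
    ∑ a ∈ range N, ∑ b ∈ range N, (bdL f a b + bdU f a b)
      = ∑ a ∈ range N, (f (a, 0) (a + 1, 0) + f (a, N) (a + 1, N))
        + ∑ b ∈ range N, (f (0, b) (0, b + 1) + f (N, b) (N, b + 1)) := by
  have h1 : ∀ a b, bdL f a b + bdU f a b
      = (f (a, b) (a + 1, b) + f (a, b + 1) (a + 1, b + 1))
        + (f (a, b) (a, b + 1) + f (a + 1, b) (a + 1, b + 1)) := by
    intro a b
    unfold bdL bdU
    have := zmod2_add_self (f (a + 1, b) (a, b + 1))
    linear_combination this
  have h2 : ∑ a ∈ range N, ∑ b ∈ range N, (bdL f a b + bdU f a b)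
      = ∑ a ∈ range N, ∑ b ∈ range N, (f (a, b) (a + 1, b) + f (a, b + 1) (a + 1, b + 1))
        + ∑ a ∈ range N, ∑ b ∈ range N, (f (a, b) (a, b + 1) + f (a + 1, b) (a + 1, b + 1)) := by
    rw [← sum_add_distrib]
    apply sum_congr rfl
    intro a _
    rw [← sum_add_distrib]
    apply sum_congr rfl
    intro b _
    exact h1 a b
  rw [h2, sum_comm (f := fun a b => f (a, b) (a, b + 1) + f (a + 1, b) (a + 1, b + 1))]
  congr 1
  · apply sum_congr rfl
    intro a _
    exact tele_range (fun b => f (a, b) (a + 1, b)) N
  · apply sum_congr rfl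
    intro b _
    exact tele_range (fun a => f (a, b) (a, b + 1)) N

/-- the indicator of `{ℓ v, ℓ w} = {x, y}` (for `x ≠ y`), mod 2 -/
def ind {κ : Type*} [DecidableEq κ] (x y : κ) (ℓ : ℕ × ℕ → κ) (v w : ℕ × ℕ) : ZMod 2 :=
  (if ℓ v = x then 1 else 0) * (if ℓ w = y then 1 else 0)
    + (if ℓ v = y then 1 else 0) * (if ℓ w = x then 1 else 0)

/-- For labels with Sperner boundary conditions, the total is odd. -/
lemma sperner (N : ℕ) (ℓ : ℕ × ℕ → Fin 3)
    (hL : ∀ b ≤ N, ℓ (0, b) ≠ 0) (hB : ∀ a ≤ N, ℓ (a, 0) ≠ 1)
    (hR : ∀ b ≤ N, ℓ (N, b) ≠ 2) (hT : ∀ a ≤ N, ℓ (a, N) ≠ 2) :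
    ∑ a ∈ range N, ∑ b ∈ range N,
      (bdL (ind 0 1 ℓ) a b + bdU (ind 0 1 ℓ) a b) = 1 := by
  rw [tele]
  have e1 : ∀ x y : Fin 3, x ≠ 2 → y ≠ 2 →
      ((if x = 0 then (1 : ZMod 2) else 0) * (if y = 1 then 1 else 0)
        + (if x = 1 then 1 else 0) * (if y = 0 then 1 else 0))
      = (if x = 1 then 1 else 0) + (if y = 1 then 1 else 0) := by decide
  have e2 : ∀ x y : Fin 3, x ≠ 0 → y ≠ 0 →
      ((if x = 0 then (1 : ZMod 2) else 0) * (if y = 1 then 1 else 0)
        + (if x = 1 then 1 else 0) * (if y = 0 then 1 else 0)) = 0 := by decide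
  have e3 : ∀ x y : Fin 3, x ≠ 1 → y ≠ 1 →
      ((if x = 0 then (1 : ZMod 2) else 0) * (if y = 1 then 1 else 0)
        + (if x = 1 then 1 else 0) * (if y = 0 then 1 else 0)) = 0 := by decide
  have s1 : ∑ a ∈ range N, (ind 0 1 ℓ (a, 0) (a + 1, 0) + ind 0 1 ℓ (a, N) (a + 1, N))
      = ∑ a ∈ range N, ((if ℓ (a, N) = 1 then 1 else 0)
          + (if ℓ (a + 1, N) = 1 then 1 else 0)) := by
    apply sum_congr rfl
    intro a ha
    have ha' := mem_range.1 ha
    unfold ind
    rw [e3 _ _ (hB a (by omega)) (hB (a + 1) (by omega)),
      e1 _ _ (hT a (by omega)) (hT (a + 1) (by omega)), zero_add]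
  have s2 : ∑ b ∈ range N, (ind 0 1 ℓ (0, b) (0, b + 1) + ind 0 1 ℓ (N, b) (N, b + 1))
      = ∑ b ∈ range N, ((if ℓ (N, b) = 1 then 1 else 0)
          + (if ℓ (N, b + 1) = 1 then 1 else 0)) := by
    apply sum_congr rfl
    intro b hb
    have hb' := mem_range.1 hb
    unfold ind
    rw [e2 _ _ (hL b (by omega)) (hL (b + 1) (by omega)),
      e1 _ _ (hR b (by omega)) (hR (b + 1) (by omega)), zero_add]
  rw [s1, s2, tele_range (fun a => if ℓ (a, N) = 1 then 1 else 0),
    tele_range (fun b => if ℓ (N, b) = 1 then 1 else 0)]
  have c1 : ℓ (0, N) = 1 := by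
    have h1 := hL N le_rfl
    have h2 := hT 0 (Nat.zero_le _)
    revert h1 h2
    generalize ℓ (0, N) = x
    revert x
    decide
  have c2 : ℓ (N, 0) = 0 := by
    have h1 := hB N le_rfl
    have h2 := hR 0 (Nat.zero_le _)
    revert h1 h2
    generalize ℓ (N, 0) = x
    revert x
    decide
  have c3 := zmod2_add_self (if ℓ (N, N) = 1 then (1 : ZMod 2) else 0)
  simp only [c1, c2, if_true]
  have : (if (0 : Fin 3) = 1 then (1 : ZMod 2) else 0) = 0 := by decide
  rw [this]
  linear_combination c3

/-- the three vertices of the triangle with index `(a, b, s)`. -/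
def vert (a b : ℕ) (s : Bool) : Fin 3 → ℕ × ℕ :=
  if s then ![(a + 1, b + 1), (a + 1, b), (a, b + 1)] else ![(a, b), (a + 1, b), (a, b + 1)]

/-- boundary sum of the triangle `(a,b,s)` -/
def bd (f : ℕ × ℕ → ℕ × ℕ → ZMod 2) (a b : ℕ) (s : Bool) : ZMod 2 :=
  if s then bdU f a b else bdL f a b

lemma bd_congr {f g : ℕ × ℕ → ℕ × ℕ → ZMod 2} {a b : ℕ} {s : Bool}
    (h : ∀ j₁ j₂, f (vert a b s j₁) (vert a b s j₂) = g (vert a b s j₁) (vert a b s j₂)) :
    bd f a b s = bd g a b s := by
  cases s
  · have h01 := h 0 1
    have h02 := h 0 2
    have h12 := h 1 2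
    simp only [vert, Bool.false_eq_true, if_false, Matrix.cons_val_zero, Matrix.cons_val_one,
      Matrix.cons_val] at h01 h02 h12
    simp only [bd, Bool.false_eq_true, if_false, bdL, h01, h02, h12]
  · have h20 := h 2 0
    have h10 := h 1 0
    have h12 := h 1 2
    simp only [vert, if_true, Matrix.cons_val_zero, Matrix.cons_val_one,
      Matrix.cons_val] at h20 h10 h12
    simp only [bd, if_true, bdU, h20, h10, h12]

lemma bd_zero {f : ℕ × ℕ → ℕ × ℕ → ZMod 2} {a b : ℕ} {s : Bool}
    (h : ∀ j₁ j₂, f (vert a b s j₁) (vert a b s j₂) = 0) :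
    bd f a b s = 0 := by
  rw [bd_congr (g := fun _ _ => 0) h]
  cases s <;> simp [bd, bdL, bdU]

lemma bd_add (f g : ℕ × ℕ → ℕ × ℕ → ZMod 2) (a b : ℕ) (s : Bool) :
    bd (fun v w => f v w + g v w) a b s = bd f a b s + bd g a b s := by
  cases s <;> simp only [bd, bdL, bdU, if_true, Bool.false_eq_true, if_false] <;> ring

lemma bd_sum {κ : Type*} (S : Finset κ) (f : κ → ℕ × ℕ → ℕ × ℕ → ZMod 2) (a b : ℕ) (s : Bool) :
    bd (fun v w => ∑ k ∈ S, f k v w) a b s = ∑ k ∈ S, bd (f k) a b s := by
  classical
  induction S using Finset.induction_on with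
  | empty => simp only [sum_empty]; exact bd_zero (fun _ _ => rfl)
  | insert k S hk ih =>
    rw [sum_insert hk, ← ih, ← bd_add]
    simp only [sum_insert hk]

lemma bd_ind_rainbow (ℓ : ℕ × ℕ → Fin 3) (a b : ℕ) (s : Bool)
    (h : bd (ind 0 1 ℓ) a b s ≠ 0) : ∀ k : Fin 3, ∃ j, ℓ (vert a b s j) = k := by
  have key : ∀ x y z : Fin 3,
      ((((if x = 0 then (1 : ZMod 2) else 0) * (if y = 1 then 1 else 0)
        + (if x = 1 then 1 else 0) * (if y = 0 then 1 else 0)) +
      ((if x = 0 then (1 : ZMod 2) else 0) * (if z = 1 then 1 else 0)
        + (if x = 1 then 1 else 0) * (if z = 0 then 1 else 0)) +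
      ((if y = 0 then (1 : ZMod 2) else 0) * (if z = 1 then 1 else 0)
        + (if y = 1 then 1 else 0) * (if z = 0 then 1 else 0))) ≠ 0) →
      ∀ k : Fin 3, x = k ∨ y = k ∨ z = k := by decide
  have key' : ∀ x y z : Fin 3,
      ((((if z = 0 then (1 : ZMod 2) else 0) * (if x = 1 then 1 else 0)
        + (if z = 1 then 1 else 0) * (if x = 0 then 1 else 0)) +
      ((if y = 0 then (1 : ZMod 2) else 0) * (if x = 1 then 1 else 0)
        + (if y = 1 then 1 else 0) * (if x = 0 then 1 else 0)) +
      ((if y = 0 then (1 : ZMod 2) else 0) * (if z = 1 then 1 else 0)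
        + (if y = 1 then 1 else 0) * (if z = 0 then 1 else 0))) ≠ 0) →
      ∀ k : Fin 3, x = k ∨ y = k ∨ z = k := by decide
  intro k
  cases s
  · rcases key (ℓ (a, b)) (ℓ (a + 1, b)) (ℓ (a, b + 1)) h k with h | h | h
    · exact ⟨0, h⟩
    · exact ⟨1, h⟩
    · exact ⟨2, h⟩
  · rcases key' (ℓ (a + 1, b + 1)) (ℓ (a + 1, b)) (ℓ (a, b + 1)) h k with h | h | h
    · exact ⟨0, h⟩
    · exact ⟨1, h⟩
    · exact ⟨2, h⟩

lemma tele' (f : ℕ × ℕ → ℕ × ℕ → ZMod 2) (N : ℕ) :
    ∑ a ∈ range N, ∑ b ∈ range N, ∑ s : Bool, bd f a b s
      = ∑ a ∈ range N, (f (a, 0) (a + 1, 0) + f (a, N) (a + 1, N))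
        + ∑ b ∈ range N, (f (0, b) (0, b + 1) + f (N, b) (N, b + 1)) := by
  rw [← tele]
  apply sum_congr rfl; intro a _
  apply sum_congr rfl; intro b _
  simp only [Fintype.sum_bool, bd, if_true, Bool.false_eq_true, if_false]
  rw [add_comm]

/-- All the geometric input of the parity argument. -/
theorem grid_contradiction {ι : Type*} [Fintype ι] [DecidableEq ι] {n : ℕ} (N : ℕ)
    (c : ℕ × ℕ → ι) (ℓ : ℕ × ℕ → Fin 3)
    (hL : ∀ b ≤ N, ℓ (0, b) ≠ 0) (hB : ∀ a ≤ N, ℓ (a, 0) ≠ 1)
    (hR : ∀ b ≤ N, ℓ (N, b) ≠ 2) (hT : ∀ a ≤ N, ℓ (a, N) ≠ 2)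
    -- clusters : `near l v` says that the vertex `v` is near the cluster `l`
    (near : Fin n → ℕ × ℕ → Prop) (lam : Fin n → ι → Fin 3) (E : Fin n → ι → ι → Prop)
    -- every rainbow triangle has a vertex near some cluster
    (hrain : ∀ a < N, ∀ b < N, ∀ s : Bool,
      (∀ k : Fin 3, ∃ j, ℓ (vert a b s j) = k) → ∃ l j, near l (vert a b s j))
    -- near vertices are interior
    (hint : ∀ l v, near l v → 1 ≤ v.1 ∧ v.1 < N ∧ 1 ≤ v.2 ∧ v.2 < N)
    -- a triangle is near at most one cluster
    (huniq : ∀ a < N, ∀ b < N, ∀ s : Bool, ∀ l l' j j',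
      near l (vert a b s j) → near l' (vert a b s j') → l = l')
    -- near a cluster, labels are a function of the colour
    (hlam : ∀ a < N, ∀ b < N, ∀ s : Bool, ∀ l j j', near l (vert a b s j) →
      ℓ (vert a b s j') = lam l (c (vert a b s j')))
    -- on edges without near vertices, of triangles with a near vertex, the colours
    -- are equal or adjacent in `E l`
    (hE : ∀ a < N, ∀ b < N, ∀ s : Bool, ∀ l j j₁ j₂, near l (vert a b s j) →
      ¬ near l (vert a b s j₁) → ¬ near l (vert a b s j₂) →
      c (vert a b s j₁) ≠ c (vert a b s j₂) → E l (c (vert a b s j₁)) (c (vert a b s j₂)))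
    -- `E l` has no cycle
    (hac : ∀ l, ∀ m : ι → ι → ZMod 2, (∀ i, m i i = 0) → (∀ i j, m i j = m j i) →
      (∀ i j, m i j ≠ 0 → E l i j ∨ E l j i) → (∀ i, ∑ j, m i j = 0) → ∀ i j, m i j = 0) :
    False := by
  classical
  have htot : ∑ a ∈ range N, ∑ b ∈ range N, ∑ s : Bool, bd (ind 0 1 ℓ) a b s = 1 := by
    rw [tele', ← tele]
    exact sperner N ℓ hL hB hR hT
  -- split over the clusters
  have hsplit : ∀ a < N, ∀ b < N, ∀ s : Bool, bd (ind 0 1 ℓ) a b s
      = ∑ l : Fin n, if (∃ j, near l (vert a b s j)) then bd (ind 0 1 ℓ) a b s else 0 := by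
    intro a ha b hb s
    by_cases h0 : bd (ind 0 1 ℓ) a b s = 0
    · simp [h0]
    · obtain ⟨l, j, hlj⟩ := hrain a ha b hb s (bd_ind_rainbow ℓ a b s h0)
      rw [sum_eq_single l]
      · rw [if_pos ⟨j, hlj⟩]
      · intro l' _ hl'
        rw [if_neg]
        rintro ⟨j', hj'⟩
        exact hl' (huniq a ha b hb s l' l j' j hj' hlj)
      · intro h; exact absurd (mem_univ l) h
  -- each cluster contributes zero
  have hzero : ∀ l : Fin n, ∑ a ∈ range N, ∑ b ∈ range N, ∑ s : Bool,
      (if (∃ j, near l (vert a b s j)) then bd (ind 0 1 ℓ) a b s else 0) = 0 := by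
    intro l
    -- the colour-pair counts
    set nn : ι → ι → ZMod 2 := fun i j => ∑ a ∈ range N, ∑ b ∈ range N, ∑ s : Bool,
      (if (∃ j, near l (vert a b s j)) then bd (ind i j c) a b s else 0) with hnn
    have hm : ∀ i j, (if i = j then 0 else nn i j) = 0 := by
      apply hac l (fun i j => if i = j then 0 else nn i j)
      · intro i; simp
      · intro i j
        have : ind i j c = ind j i c := by
          funext v w; unfold ind; ring
        by_cases hij : i = j
        · subst hij; rfl
        · simp only [if_neg hij, if_neg (Ne.symm hij), hnn, this]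
      · intro i j hij
        by_cases hij' : i = j
        · simp [hij'] at hij
        simp only [if_neg hij'] at hij
        by_contra hE'
        push Not at hE'
        apply hij
        -- replace `ind i j c` by `g`
        set g : ℕ × ℕ → ℕ × ℕ → ZMod 2 := fun v w =>
          if near l v ∨ near l w then ind i j c v w else 0 with hg
        have : ∀ a < N, ∀ b < N, ∀ s : Bool,
            (if (∃ j, near l (vert a b s j)) then bd (ind i j c) a b s else 0) = bd g a b s := by
          intro a ha b hb s
          by_cases hT : ∃ j, near l (vert a b s j)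
          · rw [if_pos hT]
            obtain ⟨j₀, hj₀⟩ := hT
            apply bd_congr
            intro j₁ j₂
            by_cases hn : near l (vert a b s j₁) ∨ near l (vert a b s j₂)
            · simp only [hg, if_pos hn]
            · simp only [hg, if_neg hn]
              push Not at hn
              unfold ind
              by_cases hc : c (vert a b s j₁) = c (vert a b s j₂)
              · rw [hc]
                by_cases h1 : c (vert a b s j₂) = i
                · have h2 : c (vert a b s j₂) ≠ j := fun h => hij' (h1.symm.trans h)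
                  simp [h1, if_neg hij']
                · simp [if_neg h1]
              · have hEE := hE a ha b hb s l j₀ j₁ j₂ hj₀ hn.1 hn.2 hc
                by_cases h1 : c (vert a b s j₁) = i
                · have h2 : c (vert a b s j₂) ≠ j := by
                    intro h2
                    rw [h1, h2] at hEE
                    exact hE'.1 hEE
                  simp [h1, h2, if_neg hij']
                · by_cases h3 : c (vert a b s j₁) = j
                  · have h4 : c (vert a b s j₂) ≠ i := by
                      intro h4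
                      rw [h3, h4] at hEE
                      exact hE'.2 hEE
                    simp [if_neg h1, h4]
                  · simp [if_neg h1, if_neg h3]
          · rw [if_neg hT]
            symm
            apply bd_zero
            intro j₁ j₂
            push Not at hT
            simp [hg, hT j₁, hT j₂]
        calc nn i j = ∑ a ∈ range N, ∑ b ∈ range N, ∑ s : Bool, bd g a b s := by
              simp only [hnn]
              apply sum_congr rfl; intro a ha
              apply sum_congr rfl; intro b hb
              apply sum_congr rfl; intro s _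
              exact this a (mem_range.1 ha) b (mem_range.1 hb) s
          _ = 0 := by
              rw [tele']
              have z1 : ∀ v, (v.1 = 0 ∨ v.1 = N ∨ v.2 = 0 ∨ v.2 = N) → ¬ near l v := by
                intro v hv hnv
                have := hint l v hnv
                omega
              rw [sum_eq_zero, sum_eq_zero, add_zero]
              · intro b _
                simp [hg, z1 (0, b) (by simp), z1 (0, b + 1) (by simp), z1 (N, b) (by simp),
                  z1 (N, b + 1) (by simp)]
              · intro a _
                simp [hg, z1 (a, 0) (by simp), z1 (a + 1, 0) (by simp), z1 (a, N) (by simp),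
                  z1 (a + 1, N) (by simp)]
      · intro i
        have e1 : ∀ j, (if i = j then 0 else nn i j)
            = ∑ a ∈ range N, ∑ b ∈ range N, ∑ s : Bool,
              (if (∃ j, near l (vert a b s j)) then
                (if i = j then 0 else bd (ind i j c) a b s) else 0) := by
          intro j
          by_cases hij : i = j
          · simp [hij]
          · simp only [if_neg hij, hnn]
        simp only [e1]
        rw [sum_comm]
        apply sum_eq_zero; intro a _
        rw [sum_comm]
        apply sum_eq_zero; intro b _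
        rw [sum_comm]
        apply sum_eq_zero; intro s _
        by_cases hT : ∃ j, near l (vert a b s j)
        · simp only [if_pos hT]
          have e2 : ∀ j, (if i = j then 0 else bd (ind i j c) a b s)
              = bd (fun v w => if i = j then 0 else ind i j c v w) a b s := by
            intro j
            by_cases hij : i = j
            · simp only [if_pos hij]
              exact (bd_zero (fun _ _ => rfl)).symm
            · simp only [if_neg hij]
          simp only [e2]
          rw [← bd_sum]
          have e3 : ∀ v w, (∑ j : ι, if i = j then 0 else ind i j c v w)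
              = (if c v = i then (1 : ZMod 2) else 0) + (if c w = i then 1 else 0) := by
            intro v w
            unfold ind
            by_cases hv : c v = i
            · by_cases hw : c w = i
              · have : ∀ j, (if i = j then (0 : ZMod 2) else
                    (if c v = i then 1 else 0) * (if c w = j then 1 else 0)
                    + (if c v = j then 1 else 0) * (if c w = i then 1 else 0)) = 0 := by
                  intro j
                  by_cases hij : i = j
                  · simp [hij]
                  · simp [if_neg hij, hv, hw]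
                rw [sum_eq_zero (fun j _ => this j)]
                simp only [hv, hw, if_true]
                decide
              · rw [sum_eq_single (c w)]
                · simp [hv, hw, Ne.symm hw]
                · intro j _ hj
                  by_cases hij : i = j
                  · simp [hij]
                  · simp [if_neg hij, hw, Ne.symm hj]
                · intro h; exact absurd (mem_univ _) h
            · by_cases hw : c w = i
              · rw [sum_eq_single (c v)]
                · simp [hv, hw, Ne.symm hv]
                · intro j _ hj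
                  by_cases hij : i = j
                  · simp [hij]
                  · simp [if_neg hij, hv, Ne.symm hj]
                · intro h; exact absurd (mem_univ _) h
              · have : ∀ j, (if i = j then (0 : ZMod 2) else
                    (if c v = i then 1 else 0) * (if c w = j then 1 else 0)
                    + (if c v = j then 1 else 0) * (if c w = i then 1 else 0)) = 0 := by
                  intro j
                  simp [hv, hw]
                rw [sum_eq_zero (fun j _ => this j)]
                simp only [hv, hw, if_false, add_zero]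
          simp only [e3]
          cases s <;> simp only [bd, bdL, bdU, if_true, Bool.false_eq_true, if_false]
          · generalize (if c (a, b) = i then (1 : ZMod 2) else 0) = x
            generalize (if c (a + 1, b) = i then (1 : ZMod 2) else 0) = y
            generalize (if c (a, b + 1) = i then (1 : ZMod 2) else 0) = z
            revert x y z
            decide
          · generalize (if c (a + 1, b + 1) = i then (1 : ZMod 2) else 0) = x
            generalize (if c (a + 1, b) = i then (1 : ZMod 2) else 0) = y
            generalize (if c (a, b + 1) = i then (1 : ZMod 2) else 0) = z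
            revert x y z
            decide
        · simp [if_neg hT]
    -- express the label count by the colour counts
    have hexp : ∀ a < N, ∀ b < N, ∀ s : Bool,
        (if (∃ j, near l (vert a b s j)) then bd (ind 0 1 ℓ) a b s else 0)
        = ∑ i : ι, ∑ j : ι, (if lam l i = 0 ∧ lam l j = 1 then
            (if (∃ j, near l (vert a b s j)) then bd (ind i j c) a b s else 0) else 0) := by
      intro a ha b hb s
      by_cases hT : ∃ j, near l (vert a b s j)
      · simp only [if_pos hT]
        obtain ⟨j₀, hj₀⟩ := hT
        have e4 : ∀ i j, (if lam l i = 0 ∧ lam l j = 1 then bd (ind i j c) a b s else 0)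
            = bd (fun v w => if lam l i = 0 ∧ lam l j = 1 then ind i j c v w else 0) a b s := by
          intro i j
          by_cases h : lam l i = 0 ∧ lam l j = 1
          · simp only [if_pos h]
          · simp only [if_neg h]
            exact (bd_zero (fun _ _ => rfl)).symm
        simp only [e4]
        simp only [← bd_sum]
        apply bd_congr
        intro j₁ j₂
        have hl1 := hlam a ha b hb s l j₀ j₁ hj₀
        have hl2 := hlam a ha b hb s l j₀ j₂ hj₀
        set v := vert a b s j₁
        set w := vert a b s j₂
        unfold ind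
        rw [hl1, hl2]
        have e5 : ∀ i j, (if lam l i = 0 ∧ lam l j = 1 then
            ((if c v = i then (1 : ZMod 2) else 0) * (if c w = j then 1 else 0)
              + (if c v = j then 1 else 0) * (if c w = i then 1 else 0)) else 0)
            = (if c v = i then (if lam l i = 0 then 1 else 0) else 0)
                * (if c w = j then (if lam l j = 1 then 1 else 0) else 0)
              + (if c w = i then (if lam l i = 0 then 1 else 0) else 0)
                * (if c v = j then (if lam l j = 1 then 1 else 0) else 0) := by
          intro i j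
          by_cases h1 : lam l i = 0 <;> by_cases h2 : lam l j = 1 <;> simp [h1, h2]
          by_cases h3 : c w = i <;> by_cases h4 : c v = j <;> simp [h3, h4]
        simp only [e5, sum_add_distrib]
        rw [← sum_mul_sum, ← sum_mul_sum]
        simp only [sum_ite_eq, mem_univ, if_true]
        ring
      · simp [if_neg hT]
    calc ∑ a ∈ range N, ∑ b ∈ range N, ∑ s : Bool,
        (if (∃ j, near l (vert a b s j)) then bd (ind 0 1 ℓ) a b s else 0)
        = ∑ a ∈ range N, ∑ b ∈ range N, ∑ s : Bool,
          ∑ i : ι, ∑ j : ι, (if lam l i = 0 ∧ lam l j = 1 then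
            (if (∃ j, near l (vert a b s j)) then bd (ind i j c) a b s else 0) else 0) := by
          apply sum_congr rfl; intro a ha
          apply sum_congr rfl; intro b hb
          apply sum_congr rfl; intro s _
          exact hexp a (mem_range.1 ha) b (mem_range.1 hb) s
      _ = ∑ i : ι, ∑ j : ι, (if lam l i = 0 ∧ lam l j = 1 then nn i j else 0) := by
          have r1 : ∀ (F : ℕ → ℕ → Bool → ι → ι → ZMod 2),
              ∑ a ∈ range N, ∑ b ∈ range N, ∑ s : Bool, ∑ i : ι, ∑ j : ι, F a b s i j
              = ∑ i : ι, ∑ j : ι, ∑ a ∈ range N, ∑ b ∈ range N, ∑ s : Bool, F a b s i j := by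
            intro F
            have : ∀ a b, ∑ s : Bool, ∑ i : ι, ∑ j : ι, F a b s i j
                = ∑ i : ι, ∑ j : ι, ∑ s : Bool, F a b s i j := by
              intro a b
              rw [sum_comm]
              apply sum_congr rfl; intro i _
              rw [sum_comm]
            simp only [this]
            have : ∀ a, ∑ b ∈ range N, ∑ i : ι, ∑ j : ι, ∑ s : Bool, F a b s i j
                = ∑ i : ι, ∑ j : ι, ∑ b ∈ range N, ∑ s : Bool, F a b s i j := by
              intro a
              rw [sum_comm]
              apply sum_congr rfl; intro i _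
              rw [sum_comm]
            simp only [this]
            rw [sum_comm]
            apply sum_congr rfl; intro i _
            rw [sum_comm]
          rw [r1]
          apply sum_congr rfl; intro i _
          apply sum_congr rfl; intro j _
          by_cases h : lam l i = 0 ∧ lam l j = 1
          · simp only [if_pos h, hnn]
          · simp only [if_neg h, sum_const_zero]
      _ = 0 := by
          apply sum_eq_zero; intro i _
          apply sum_eq_zero; intro j _
          by_cases h : lam l i = 0 ∧ lam l j = 1
          · rw [if_pos h]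
            have hij : i ≠ j := by
              rintro rfl
              rw [h.1] at h
              exact absurd h.2 (by decide)
            have := hm i j
            rwa [if_neg hij] at this
          · rw [if_neg h]
  have : ∑ a ∈ range N, ∑ b ∈ range N, ∑ s : Bool, bd (ind 0 1 ℓ) a b s = 0 := by
    calc ∑ a ∈ range N, ∑ b ∈ range N, ∑ s : Bool, bd (ind 0 1 ℓ) a b s
        = ∑ a ∈ range N, ∑ b ∈ range N, ∑ s : Bool, ∑ l : Fin n,
            (if (∃ j, near l (vert a b s j)) then bd (ind 0 1 ℓ) a b s else 0) := by
          apply sum_congr rfl; intro a ha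
          apply sum_congr rfl; intro b hb
          apply sum_congr rfl; intro s _
          exact hsplit a (mem_range.1 ha) b (mem_range.1 hb) s
      _ = ∑ l : Fin n, ∑ a ∈ range N, ∑ b ∈ range N, ∑ s : Bool,
            (if (∃ j, near l (vert a b s j)) then bd (ind 0 1 ℓ) a b s else 0) := by
          have : ∀ a b, ∑ s : Bool, ∑ l : Fin n,
              (if (∃ j, near l (vert a b s j)) then bd (ind 0 1 ℓ) a b s else 0)
              = ∑ l : Fin n, ∑ s : Bool,
              (if (∃ j, near l (vert a b s j)) then bd (ind 0 1 ℓ) a b s else 0) := by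
            intro a b; rw [sum_comm]
          simp only [this]
          have : ∀ a, ∑ b ∈ range N, ∑ l : Fin n, ∑ s : Bool,
              (if (∃ j, near l (vert a b s j)) then bd (ind 0 1 ℓ) a b s else 0)
              = ∑ l : Fin n, ∑ b ∈ range N, ∑ s : Bool,
              (if (∃ j, near l (vert a b s j)) then bd (ind 0 1 ℓ) a b s else 0) := by
            intro a; rw [sum_comm]
          simp only [this]
          rw [sum_comm]
      _ = 0 := sum_eq_zero (fun l _ => hzero l)
  rw [this] at htot
  exact absurd htot (by decide)

end Crest.Agent.R40.Top
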