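import Mathlib
import Crest.Agent.R40.Top772Grid

/-!
# R40 / T3, block TOP (helper772): existence of an essential point.
-/

namespace Crest.Agent.R40.Top

open Metric Set Filter Topology

variable {ι : Type*} [Fintype ι] [DecidableEq ι]

/-- points whose colour set is exactly `{i, j}` -/
def Pair (F : ι → Set ℂ) (i j : ι) : Set ℂ := {y | ∀ k, y ∈ F k ↔ (k = i ∨ k = j)}

/-- points with at least three colours -/
def Tri (F : ι → Set ℂ) : Set ℂ :=
  {x | ∃ i j k, i ≠ j ∧ i ≠ k ∧ j ≠ k ∧ x ∈ F i ∧ x ∈ F j ∧ x ∈ F k}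

/-- crossing principle: arbitrarily near every point of `F i` there is a centre whose unit
circle misses `F i`. -/
def Sep (F : ι → Set ℂ) : Prop :=
  ∀ i, ∀ p ∈ F i, ∀ δ > 0, ∃ p', dist p p' < δ ∧ ∀ q ∈ F i, dist q p' ≠ 1

omit [DecidableEq ι] in
lemma usc (F : ι → Set ℂ) (hF : ∀ i, IsClosed (F i)) (p : ℂ) :
    ∃ r > 0, ∀ q, dist q p < r → ∀ i, q ∈ F i → p ∈ F i := by
  have : ∀ᶠ q in 𝓝 p, ∀ i, q ∈ F i → p ∈ F i := by
    rw [Filter.eventually_all]
    intro i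
    by_cases hp : p ∈ F i
    · exact Filter.Eventually.of_forall (fun _ _ => hp)
    · have h1 : (F i)ᶜ ∈ 𝓝 p := (hF i).isOpen_compl.mem_nhds hp
      filter_upwards [h1] with q hq hq'
      exact absurd hq' hq
  obtain ⟨r, hr, h⟩ := Metric.eventually_nhds_iff.1 this
  exact ⟨r, hr, fun q hq => h hq⟩

/-! ## chains -/

/-- one step of an `ε`-chain inside `A` -/
def Step (A : Set ℂ) (ε : ℝ) (p q : ℂ) : Prop := p ∈ A ∧ q ∈ A ∧ dist p q ≤ ε

/-- `ε`-chain connected inside `A` -/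
def Conn (A : Set ℂ) (ε : ℝ) (p q : ℂ) : Prop := Relation.ReflTransGen (Step A ε) p q

lemma Step.symm {A : Set ℂ} {ε : ℝ} {p q : ℂ} (h : Step A ε p q) : Step A ε q p :=
  ⟨h.2.1, h.1, by rw [dist_comm]; exact h.2.2⟩

lemma Conn.symm {A : Set ℂ} {ε : ℝ} {p q : ℂ} (h : Conn A ε p q) : Conn A ε q p := by
  induction h with
  | refl => exact Relation.ReflTransGen.refl
  | tail _ hbc ih => exact Relation.ReflTransGen.head hbc.symm ih

lemma Conn.mono {A : Set ℂ} {ε ε' : ℝ} (h : ε ≤ ε') {p q : ℂ} (hc : Conn A ε p q) :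
    Conn A ε' p q := by
  induction hc with
  | refl => exact Relation.ReflTransGen.refl
  | tail _ hbc ih => exact Relation.ReflTransGen.tail ih ⟨hbc.1, hbc.2.1, hbc.2.2.trans h⟩

lemma Conn.mem {A : Set ℂ} {ε : ℝ} {p q : ℂ} (hc : Conn A ε p q) (hp : p ∈ A) : q ∈ A := by
  induction hc with
  | refl => exact hp
  | tail _ hbc _ => exact hbc.2.1

/-- chains stay within `9/8` of their start: local version -/
lemma chain_local {A : Set ℂ} (hA : IsCompact A)
    (hsep : ∀ p ∈ A, ∀ δ > 0, ∃ p', dist p p' < δ ∧ ∀ q ∈ A, dist q p' ≠ 1) (p : ℂ) :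
    ∃ r > 0, ∃ ε > 0, ∀ q₀, dist q₀ p < r → ∀ q, Conn A ε q₀ q → dist q₀ q ≤ 9 / 8 := by
  by_cases hp : p ∈ A
  · obtain ⟨p', hpp', hp'⟩ := hsep p hp (1 / 32) (by norm_num)
    -- positive distance from the circle
    have hne : A.Nonempty := ⟨p, hp⟩
    have hcont : ContinuousOn (fun q : ℂ => |dist q p' - 1|) A := by fun_prop
    obtain ⟨q₁, hq₁, hmin⟩ := hA.exists_isMinOn hne hcont
    have hpos : 0 < |dist q₁ p' - 1| := by
      rw [abs_pos, sub_ne_zero]
      exact hp' q₁ hq₁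
    refine ⟨1 / 32, by norm_num, |dist q₁ p' - 1|, hpos, ?_⟩
    intro q₀ hq₀ q hc
    have h0 : dist q₀ p' < 1 / 16 := by
      calc dist q₀ p' ≤ dist q₀ p + dist p p' := dist_triangle _ _ _
        _ < 1 / 32 + 1 / 32 := by linarith
        _ = 1 / 16 := by norm_num
    have key : dist q p' < 1 := by
      induction hc with
      | refl => linarith
      | @tail b c _ hbc ih =>
        have h1 : |dist q₁ p' - 1| ≤ |dist b p' - 1| := hmin hbc.1
        have h2 : |dist q₁ p' - 1| ≤ |dist c p' - 1| := hmin hbc.2.1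
        have h3 := hbc.2.2
        by_contra hcon
        push Not at hcon
        rw [abs_of_neg (by linarith : dist b p' - 1 < 0)] at h1
        rw [abs_of_nonneg (by linarith : 0 ≤ dist c p' - 1)] at h2
        have h4 : dist c p' ≤ dist b c + dist b p' := by
          have := dist_triangle c b p'
          rw [dist_comm c b] at this
          exact this
        linarith
    calc dist q₀ q ≤ dist q₀ p' + dist p' q := dist_triangle _ _ _
      _ ≤ 1 / 16 + 1 := by rw [dist_comm p' q]; linarith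
      _ ≤ 9 / 8 := by norm_num
  · obtain ⟨r, hr, hr'⟩ := Metric.isOpen_iff.1 hA.isClosed.isOpen_compl p hp
    refine ⟨r, hr, 1, one_pos, ?_⟩
    intro q₀ hq₀ q hc
    have hq₀' : q₀ ∉ A := hr' hq₀
    have : q = q₀ := by
      rcases Relation.ReflTransGen.cases_head hc with h | ⟨b, hb, _⟩
      · exact h.symm
      · exact absurd hb.1 hq₀'
    rw [this, dist_self]
    norm_num

/-- chains stay within `9/8` of their start: global version -/
lemma chain_global {A K : Set ℂ} (hA : IsCompact A) (hK : IsCompact K)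
    (hsep : ∀ p ∈ A, ∀ δ > 0, ∃ p', dist p p' < δ ∧ ∀ q ∈ A, dist q p' ≠ 1) :
    ∃ ε > 0, ∀ q₀ ∈ K, ∀ q, Conn A ε q₀ q → dist q₀ q ≤ 9 / 8 := by
  apply hK.induction_on (p := fun S => ∃ ε > 0, ∀ q₀ ∈ S, ∀ q, Conn A ε q₀ q → dist q₀ q ≤ 9 / 8)
  · exact ⟨1, one_pos, fun q₀ h => absurd h (notMem_empty _)⟩
  · rintro s t hst ⟨ε, hε, h⟩
    exact ⟨ε, hε, fun q₀ hq₀ => h q₀ (hst hq₀)⟩
  · rintro s t ⟨ε, hε, h⟩ ⟨ε', hε', h'⟩
    refine ⟨min ε ε', lt_min hε hε', ?_⟩
    rintro q₀ (hq₀ | hq₀) q hc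
    · exact h q₀ hq₀ q (hc.mono (min_le_left _ _))
    · exact h' q₀ hq₀ q (hc.mono (min_le_right _ _))
  · intro p _
    obtain ⟨r, hr, ε, hε, h⟩ := chain_local hA hsep p
    exact ⟨ball p r, mem_nhdsWithin_of_mem_nhds (ball_mem_nhds p hr), ε, hε,
      fun q₀ hq₀ => h q₀ hq₀⟩

/-! ## the square and labels -/

/-- the square `[0,10]²` -/
def K : Set ℂ := {z | 0 ≤ z.re ∧ z.re ≤ 10 ∧ 0 ≤ z.im ∧ z.im ≤ 10}

lemma isCompact_K : IsCompact K := by
  have : K = (Icc (0 : ℝ) 10) ×ℂ (Icc (0 : ℝ) 10) := by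
    ext z
    simp only [K, mem_ofPred_eq, Complex.mem_reProdIm, mem_Icc]
    tauto
  rw [this]
  exact isCompact_Icc.reProdIm isCompact_Icc

/-- the three sides -/
def H (k : Fin 3) : Set ℂ :=
  if k = 0 then {z | z.re ≤ 1} else if k = 1 then {z | z.im ≤ 1} else {z | 9 ≤ z.re ∨ 9 ≤ z.im}

open Classical in
/-- the label of a component -/
noncomputable def lab (A : Set ℂ) (ε : ℝ) (p : ℂ) : Fin 3 :=
  if (∀ q, Conn A ε p q → q ∉ H 0) then 0 else if (∀ q, Conn A ε p q → q ∉ H 1) then 1 else 2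

lemma lab_congr {A : Set ℂ} {ε : ℝ} {p q : ℂ} (h : Step A ε p q) : lab A ε p = lab A ε q := by
  have h1 : ∀ r, Conn A ε p r ↔ Conn A ε q r := by
    intro r
    constructor
    · intro h2; exact Relation.ReflTransGen.head h.symm h2
    · intro h2; exact Relation.ReflTransGen.head h h2
  have e0 : (∀ q', Conn A ε p q' → q' ∉ H 0) ↔ (∀ q', Conn A ε q q' → q' ∉ H 0) :=
    forall_congr' fun r => imp_congr (h1 r) Iff.rfl
  have e1 : (∀ q', Conn A ε p q' → q' ∉ H 1) ↔ (∀ q', Conn A ε q q' → q' ∉ H 1) :=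
    forall_congr' fun r => imp_congr (h1 r) Iff.rfl
  unfold lab
  by_cases a0 : (∀ q', Conn A ε p q' → q' ∉ H 0)
  · rw [if_pos a0, if_pos (e0.1 a0)]
  · rw [if_neg a0, if_neg (fun h => a0 (e0.2 h))]
    by_cases a1 : (∀ q', Conn A ε p q' → q' ∉ H 1)
    · rw [if_pos a1, if_pos (e1.1 a1)]
    · rw [if_neg a1, if_neg (fun h => a1 (e1.2 h))]

lemma lab_ne {A : Set ℂ} {ε : ℝ}
    (hdiam : ∀ q₀ ∈ K, ∀ q, Conn A ε q₀ q → dist q₀ q ≤ 9 / 8) {p : ℂ} (hp : p ∈ K)
    (k : Fin 3) (hk : p ∈ H k) : lab A ε p ≠ k := by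
  intro hlab
  unfold lab at hlab
  fin_cases k
  · split_ifs at hlab with h1 h2
    · exact h1 p Relation.ReflTransGen.refl hk
    · exact absurd hlab (by decide)
    · exact absurd hlab (by decide)
  · split_ifs at hlab with h1 h2
    · exact absurd hlab (by decide)
    · exact h2 p Relation.ReflTransGen.refl hk
    · exact absurd hlab (by decide)
  · split_ifs at hlab with h1 h2
    · exact absurd hlab (by decide)
    · exact absurd hlab (by decide)
    · push Not at h1 h2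
      obtain ⟨q, hq, hq0⟩ := h1
      obtain ⟨q', hq', hq1⟩ := h2
      have d1 := hdiam p hp q hq
      have d2 := hdiam p hp q' hq'
      have e1 : |p.re - q.re| ≤ 9 / 8 := by
        calc |p.re - q.re| = |(p - q).re| := by simp
          _ ≤ ‖p - q‖ := Complex.abs_re_le_norm _
          _ = dist p q := (dist_eq_norm _ _).symm
          _ ≤ 9 / 8 := d1
      have e2 : |p.im - q'.im| ≤ 9 / 8 := by
        calc |p.im - q'.im| = |(p - q').im| := by simp
          _ ≤ ‖p - q'‖ := Complex.abs_im_le_norm _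
          _ = dist p q' := (dist_eq_norm _ _).symm
          _ ≤ 9 / 8 := d2
      simp [H] at hk hq0 hq1
      rw [abs_le] at e1 e2
      rcases hk with hk | hk <;> linarith

/-! ## compactness lemmas -/

omit [DecidableEq ι] in
/-- Lemma A: near three colours there is a triple point. -/
lemma lemmaA (F : ι → Set ℂ) (hF : ∀ i, IsClosed (F i)) (δ : ℝ) (hδ : 0 < δ) :
    ∃ η > 0, ∀ p ∈ K, ∀ i j k, i ≠ j → i ≠ k → j ≠ k →
      (∃ q ∈ F i, dist q p ≤ η) → (∃ q ∈ F j, dist q p ≤ η) → (∃ q ∈ F k, dist q p ≤ η) →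
      ∃ z ∈ Tri F ∩ K, dist p z < δ := by
  apply isCompact_K.induction_on (p := fun S => ∃ η > 0, ∀ p ∈ S, ∀ i j k, i ≠ j → i ≠ k → j ≠ k →
      (∃ q ∈ F i, dist q p ≤ η) → (∃ q ∈ F j, dist q p ≤ η) → (∃ q ∈ F k, dist q p ≤ η) →
      ∃ z ∈ Tri F ∩ K, dist p z < δ)
  · exact ⟨1, one_pos, fun q₀ h => absurd h (notMem_empty _)⟩
  · rintro s t hst ⟨ε, hε, h⟩
    exact ⟨ε, hε, fun q₀ hq₀ => h q₀ (hst hq₀)⟩
  · rintro s t ⟨ε, hε, h⟩ ⟨ε', hε', h'⟩
    refine ⟨min ε ε', lt_min hε hε', ?_⟩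
    rintro p (hp | hp) i j k hij hik hjk ⟨q1, h1, d1⟩ ⟨q2, h2, d2⟩ ⟨q3, h3, d3⟩
    · exact h p hp i j k hij hik hjk ⟨q1, h1, d1.trans (min_le_left _ _)⟩
        ⟨q2, h2, d2.trans (min_le_left _ _)⟩ ⟨q3, h3, d3.trans (min_le_left _ _)⟩
    · exact h' p hp i j k hij hik hjk ⟨q1, h1, d1.trans (min_le_right _ _)⟩
        ⟨q2, h2, d2.trans (min_le_right _ _)⟩ ⟨q3, h3, d3.trans (min_le_right _ _)⟩
  · intro p₀ hp₀
    obtain ⟨r, hr, hr'⟩ := usc F hF p₀
    by_cases hT : p₀ ∈ Tri F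
    · refine ⟨ball p₀ δ, mem_nhdsWithin_of_mem_nhds (ball_mem_nhds p₀ hδ), 1, one_pos, ?_⟩
      intro p hp i j k _ _ _ _ _ _
      exact ⟨p₀, ⟨hT, hp₀⟩, hp⟩
    · refine ⟨ball p₀ (r / 2), mem_nhdsWithin_of_mem_nhds (ball_mem_nhds p₀ (by linarith)),
        r / 3, by linarith, ?_⟩
      rintro p hp i j k hij hik hjk ⟨q1, h1, d1⟩ ⟨q2, h2, d2⟩ ⟨q3, h3, d3⟩
      exfalso
      have hp' : dist p p₀ < r / 2 := hp
      have aux : ∀ q, dist q p ≤ r / 3 → dist q p₀ < r := by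
        intro q hq
        have := dist_triangle q p p₀
        linarith
      exact hT ⟨i, j, k, hij, hik, hjk, hr' q1 (aux q1 d1) i h1, hr' q2 (aux q2 d2) j h2,
        hr' q3 (aux q3 d3) k h3⟩

/-- Lemma B: away from the triple points, two colours give an exact pair. -/
lemma lemmaB (F : ι → Set ℂ) (hF : ∀ i, IsClosed (F i)) (δ δ' : ℝ) (hδ : 0 < δ) (hδ' : 0 < δ') :
    ∃ η > 0, ∀ p ∈ K, (∀ z ∈ Tri F ∩ K, δ ≤ dist p z) → ∀ i j, i ≠ j →
      (∃ q ∈ F i, dist q p ≤ η) → (∃ q ∈ F j, dist q p ≤ η) →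
      ∃ y ∈ Pair F i j, dist y p < δ' := by
  apply isCompact_K.induction_on (p := fun S => ∃ η > 0, ∀ p ∈ S,
      (∀ z ∈ Tri F ∩ K, δ ≤ dist p z) → ∀ i j, i ≠ j →
      (∃ q ∈ F i, dist q p ≤ η) → (∃ q ∈ F j, dist q p ≤ η) →
      ∃ y ∈ Pair F i j, dist y p < δ')
  · exact ⟨1, one_pos, fun q₀ h => absurd h (notMem_empty _)⟩
  · rintro s t hst ⟨ε, hε, h⟩
    exact ⟨ε, hε, fun q₀ hq₀ => h q₀ (hst hq₀)⟩
  · rintro s t ⟨ε, hε, h⟩ ⟨ε', hε', h'⟩
    refine ⟨min ε ε', lt_min hε hε', ?_⟩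
    rintro p (hp | hp) hz i j hij ⟨q1, h1, d1⟩ ⟨q2, h2, d2⟩
    · exact h p hp hz i j hij ⟨q1, h1, d1.trans (min_le_left _ _)⟩
        ⟨q2, h2, d2.trans (min_le_left _ _)⟩
    · exact h' p hp hz i j hij ⟨q1, h1, d1.trans (min_le_right _ _)⟩
        ⟨q2, h2, d2.trans (min_le_right _ _)⟩
  · intro p₀ hp₀
    obtain ⟨r, hr, hr'⟩ := usc F hF p₀
    by_cases hT : p₀ ∈ Tri F
    · refine ⟨ball p₀ δ, mem_nhdsWithin_of_mem_nhds (ball_mem_nhds p₀ hδ), 1, one_pos, ?_⟩
      intro p hp hz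
      have := hz p₀ ⟨hT, hp₀⟩
      have hp' : dist p p₀ < δ := hp
      linarith
    · refine ⟨ball p₀ (min (r / 2) δ'), mem_nhdsWithin_of_mem_nhds
        (ball_mem_nhds p₀ (lt_min (by linarith) hδ')), r / 3, by linarith, ?_⟩
      rintro p hp _ i j hij ⟨q1, h1, d1⟩ ⟨q2, h2, d2⟩
      have hp' : dist p p₀ < min (r / 2) δ' := hp
      have hp1 := lt_of_lt_of_le hp' (min_le_left _ _)
      have hp2 := lt_of_lt_of_le hp' (min_le_right _ _)
      have aux : ∀ q, dist q p ≤ r / 3 → dist q p₀ < r := by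
        intro q hq
        have := dist_triangle q p p₀
        linarith
      have hi := hr' q1 (aux q1 d1) i h1
      have hj := hr' q2 (aux q2 d2) j h2
      refine ⟨p₀, ?_, by rw [dist_comm]; exact hp2⟩
      intro k
      constructor
      · intro hk
        by_contra hcon
        push Not at hcon
        exact hT ⟨i, j, k, hij, Ne.symm hcon.1, Ne.symm hcon.2, hi, hj, hk⟩
      · rintro (rfl | rfl)
        · exact hi
        · exact hj

/-! ## clusters -/

/-- finite clopen partition of a compact totally disconnected set into small pieces -/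
lemma clusters (T : Set ℂ) (hT : IsCompact T) (htd : IsTotallyDisconnected T) (r : ℂ → ℝ)
    (hr : ∀ x ∈ T, 0 < r x) :
    ∃ (n : ℕ) (A : Fin n → Set ℂ) (x : Fin n → ℂ), (∀ l, x l ∈ T) ∧ (∀ l, IsCompact (A l)) ∧
      (∀ l, A l ⊆ ball (x l) (r (x l))) ∧ (∀ l, A l ⊆ T) ∧ (∀ z ∈ T, ∃ l, z ∈ A l) ∧
      (∀ l l', l ≠ l' → Disjoint (A l) (A l')) := by
  have : CompactSpace T := isCompact_iff_compactSpace.1 hT
  have : TotallyDisconnectedSpace T := totallyDisconnectedSpace_subtype_iff.2 htd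
  -- small clopen neighbourhoods
  have h1 : ∀ t : T, ∃ V : Set T, IsClopen V ∧ t ∈ V ∧ ∀ z ∈ V, (z : ℂ) ∈ ball (t : ℂ) (r t) := by
    intro t
    have hopen : IsOpen {z : T | (z : ℂ) ∈ ball (t : ℂ) (r t)} :=
      isOpen_ball.preimage continuous_subtype_val
    obtain ⟨V, hV, htV, hVs⟩ := compact_exists_isClopen_in_isOpen hopen
      (show t ∈ {z : T | (z : ℂ) ∈ ball (t : ℂ) (r t)} from mem_ball_self (hr t t.2))
    exact ⟨V, hV, htV, fun z hz => hVs hz⟩
  choose V hV htV hVs using h1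
  obtain ⟨s, hs⟩ := isCompact_univ.elim_nhds_subcover V (fun t _ => (hV t).isOpen.mem_nhds (htV t))
  -- enumerate
  set n := s.card with hn
  set e : Fin n ≃ s := s.equivFin.symm with he
  refine ⟨n, fun l => Subtype.val '' (V (e l) \ ⋃ l' : {l' : Fin n // l' < l}, V (e l')),
    fun l => ((e l : T) : ℂ), ?_, ?_, ?_, ?_, ?_, ?_⟩
  · intro l; exact (e l : T).2
  · intro l
    apply IsCompact.image _ continuous_subtype_val
    apply IsClosed.isCompact
    apply IsClosed.sdiff (hV _).isClosed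
    exact isOpen_iUnion (fun l' => (hV _).isOpen)
  · rintro l _ ⟨z, hz, rfl⟩
    exact hVs _ z hz.1
  · rintro l _ ⟨z, hz, rfl⟩
    exact z.2
  · intro z hz
    have hz' : (⟨z, hz⟩ : T) ∈ ⋃ t ∈ s, V t := hs.2 (mem_univ _)
    simp only [mem_iUnion] at hz'
    obtain ⟨t, hts, hzt⟩ := hz'
    -- least index
    have hex : ∃ l : Fin n, (⟨z, hz⟩ : T) ∈ V (e l) := by
      refine ⟨e.symm ⟨t, hts⟩, ?_⟩
      simpa using hzt
    classical
    obtain ⟨l, hl, hmin⟩ : ∃ l : Fin n, (⟨z, hz⟩ : T) ∈ V (e l) ∧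
        ∀ l' : Fin n, l' < l → (⟨z, hz⟩ : T) ∉ V (e l') := by
      let S := Finset.univ.filter (fun l : Fin n => (⟨z, hz⟩ : T) ∈ V (e l))
      have hS : S.Nonempty := by
        obtain ⟨l, hl⟩ := hex
        exact ⟨l, by simp [S, hl]⟩
      refine ⟨S.min' hS, ?_, ?_⟩
      · have := S.min'_mem hS
        simp only [S, Finset.mem_filter, Finset.mem_univ, true_and] at this
        exact this
      · intro l' hl' hcon
        have : l' ∈ S := by simp [S, hcon]
        exact absurd (S.min'_le l' this) (not_le.2 hl')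
    refine ⟨l, ⟨z, hz⟩, ⟨hl, ?_⟩, rfl⟩
    simp only [mem_iUnion, not_exists]
    rintro ⟨l', hl'⟩
    exact hmin l' hl'
  · intro l l' hll'
    rw [Set.disjoint_left]
    rintro _ ⟨z, hz, rfl⟩ ⟨z', hz', hzz⟩
    have : z' = z := Subtype.val_injective hzz
    subst this
    rcases lt_or_gt_of_ne hll' with h | h
    · exact hz'.2 (mem_iUnion.2 ⟨⟨l, h⟩, hz.1⟩)
    · exact hz.2 (mem_iUnion.2 ⟨⟨l', h⟩, hz'.1⟩)

/-! ## the grid in the plane -/

/-- grid point -/
noncomputable def P (h : ℝ) (v : ℕ × ℕ) : ℂ := ⟨h * v.1, h * v.2⟩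

lemma P_mem_K {N : ℕ} (hN : 0 < N) {v : ℕ × ℕ} (h1 : v.1 ≤ N) (h2 : v.2 ≤ N) :
    P (10 / N) v ∈ K := by
  have hN' : (0 : ℝ) < N := by exact_mod_cast hN
  have h1' : (v.1 : ℝ) ≤ N := by exact_mod_cast h1
  have h2' : (v.2 : ℝ) ≤ N := by exact_mod_cast h2
  have e1 : 10 / (N : ℝ) * v.1 ≤ 10 := by
    rw [div_mul_eq_mul_div, div_le_iff₀ hN']
    nlinarith
  have e2 : 10 / (N : ℝ) * v.2 ≤ 10 := by
    rw [div_mul_eq_mul_div, div_le_iff₀ hN']
    nlinarith
  refine ⟨?_, e1, ?_, e2⟩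
  · show 0 ≤ 10 / (N : ℝ) * v.1
    positivity
  · show 0 ≤ 10 / (N : ℝ) * v.2
    positivity

lemma vert_bound (a b : ℕ) (s : Bool) (j : Fin 3) :
    a ≤ (vert a b s j).1 ∧ (vert a b s j).1 ≤ a + 1 ∧ b ≤ (vert a b s j).2 ∧
      (vert a b s j).2 ≤ b + 1 := by
  cases s <;> fin_cases j <;> simp [vert]

lemma dist_P_vert {h : ℝ} (hh : 0 ≤ h) (a b : ℕ) (s : Bool) (j j' : Fin 3) :
    dist (P h (vert a b s j)) (P h (vert a b s j')) ≤ 2 * h := by
  obtain ⟨h1, h2, h3, h4⟩ := vert_bound a b s j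
  obtain ⟨h1', h2', h3', h4'⟩ := vert_bound a b s j'
  set v := vert a b s j
  set w := vert a b s j'
  have e1 : |(v.1 : ℝ) - w.1| ≤ 1 := by
    have a1 : (a : ℝ) ≤ v.1 := by exact_mod_cast h1
    have a2 : (v.1 : ℝ) ≤ a + 1 := by exact_mod_cast h2
    have a3 : (a : ℝ) ≤ w.1 := by exact_mod_cast h1'
    have a4 : (w.1 : ℝ) ≤ a + 1 := by exact_mod_cast h2'
    rw [abs_le]; constructor <;> linarith
  have e2 : |(v.2 : ℝ) - w.2| ≤ 1 := by
    have a1 : (b : ℝ) ≤ v.2 := by exact_mod_cast h3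
    have a2 : (v.2 : ℝ) ≤ b + 1 := by exact_mod_cast h4
    have a3 : (b : ℝ) ≤ w.2 := by exact_mod_cast h3'
    have a4 : (w.2 : ℝ) ≤ b + 1 := by exact_mod_cast h4'
    rw [abs_le]; constructor <;> linarith
  rw [dist_eq_norm]
  have e3 := Complex.norm_le_abs_re_add_abs_im (P h v - P h w)
  have e4 : (P h v - P h w).re = h * (v.1 - w.1) := by simp [P]; ring
  have e5 : (P h v - P h w).im = h * (v.2 - w.2) := by simp [P]; ring
  rw [e4, e5, abs_mul, abs_mul, abs_of_nonneg hh] at e3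
  nlinarith

lemma exists_pos_le {κ : Type*} [Finite κ] (f : κ → ℝ) (hf : ∀ i, 0 < f i) :
    ∃ ε > 0, ∀ i, ε ≤ f i := by
  rcases isEmpty_or_nonempty κ with h | h
  · exact ⟨1, one_pos, fun i => isEmptyElim i⟩
  · obtain ⟨i₀, h⟩ := Finite.exists_min f
    exact ⟨f i₀, hf i₀, h⟩

omit [DecidableEq ι] in
lemma isClosed_Tri (F : ι → Set ℂ) (hF : ∀ i, IsClosed (F i)) : IsClosed (Tri F) := by
  have : Tri F = ⋃ (t : {t : ι × ι × ι // t.1 ≠ t.2.1 ∧ t.1 ≠ t.2.2 ∧ t.2.1 ≠ t.2.2}),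
      (F t.1.1 ∩ F t.1.2.1 ∩ F t.1.2.2) := by
    ext x
    simp only [Tri, mem_ofPred_eq, mem_iUnion, mem_inter_iff]
    constructor
    · rintro ⟨i, j, k, h1, h2, h3, hi, hj, hk⟩
      exact ⟨⟨(i, j, k), h1, h2, h3⟩, ⟨hi, hj⟩, hk⟩
    · rintro ⟨⟨⟨i, j, k⟩, h1, h2, h3⟩, ⟨hi, hj⟩, hk⟩
      exact ⟨i, j, k, h1, h2, h3, hi, hj, hk⟩
  rw [this]
  exact isClosed_iUnion_of_finite (fun t => ((hF _).inter (hF _)).inter (hF _))

omit [Fintype ι] [DecidableEq ι] in
lemma Pair_comm (F : ι → Set ℂ) (i j : ι) : Pair F i j = Pair F j i := by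
  ext y
  simp only [Pair, mem_ofPred_eq]
  constructor
  · intro h k; rw [h k, or_comm]
  · intro h k; rw [h k, or_comm]

omit [DecidableEq ι] in
/-- stability radius for exact pairs -/
lemma stab (F : ι → Set ℂ) (x : ℂ) :
    ∃ r > 0, ∀ i j, ∀ y ∈ Pair F i j, dist y x < 4 * r → x ∈ closure (Pair F i j) := by
  have h1 : ∀ t : ι × ι, ∃ r > 0, ∀ y ∈ Pair F t.1 t.2, dist y x < 4 * r →
      x ∈ closure (Pair F t.1 t.2) := by
    intro t
    by_cases hx : x ∈ closure (Pair F t.1 t.2)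
    · exact ⟨1, one_pos, fun _ _ _ => hx⟩
    · obtain ⟨r, hr, hr'⟩ := Metric.isOpen_iff.1 isClosed_closure.isOpen_compl x hx
      refine ⟨r / 4, by linarith, ?_⟩
      intro y hy hyx
      exfalso
      exact hr' (show y ∈ ball x r by rw [mem_ball]; linarith) (subset_closure hy)
  choose f hf hf' using h1
  obtain ⟨r, hr, hr'⟩ := exists_pos_le f hf
  refine ⟨r, hr, ?_⟩
  intro i j y hy hyx
  exact hf' (i, j) y hy (by have := hr' (i, j); linarith)

/-- **Existence of an essential point.** -/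
theorem exists_cycle_point (F : ι → Set ℂ) (hF : ∀ i, IsClosed (F i))
    (hcov : ∀ x, ∃ i, x ∈ F i) (hsep : Sep F) (htd : IsTotallyDisconnected (Tri F)) :
    ∃ x, ∃ m : ι → ι → ZMod 2, (∀ i, m i i = 0) ∧ (∀ i j, m i j = m j i) ∧
      (∀ i j, m i j ≠ 0 → x ∈ closure (Pair F i j)) ∧ (∀ i, ∑ j, m i j = 0) ∧
      ∃ i j, m i j ≠ 0 := by
  classical
  by_contra hcon
  have hac : ∀ x, ∀ m : ι → ι → ZMod 2, (∀ i, m i i = 0) → (∀ i j, m i j = m j i) →
      (∀ i j, m i j ≠ 0 → x ∈ closure (Pair F i j)) → (∀ i, ∑ j, m i j = 0) →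
      ∀ i j, m i j = 0 := by
    intro x m h1 h2 h3 h4 i j
    by_contra h5
    exact hcon ⟨x, m, h1, h2, h3, h4, i, j, h5⟩
  -- ε
  have hAc : ∀ i, IsCompact (F i ∩ K) := fun i => isCompact_K.inter_left (hF i)
  have hsepA : ∀ i, ∀ p ∈ F i ∩ K, ∀ δ > 0, ∃ p', dist p p' < δ ∧
      ∀ q ∈ F i ∩ K, dist q p' ≠ 1 := by
    intro i p hp δ hδ
    obtain ⟨p', h1, h2⟩ := hsep i p hp.1 δ hδ
    exact ⟨p', h1, fun q hq => h2 q hq.1⟩
  choose ε₁ hε₁ hε₁' using fun i => chain_global (hAc i) isCompact_K (hsepA i)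
  obtain ⟨ε₂, hε₂, hε₂'⟩ := exists_pos_le ε₁ hε₁
  set ε := min ε₂ 1 with hεdef
  have hε : 0 < ε := lt_min hε₂ one_pos
  have hε1 : ε ≤ 1 := min_le_right _ _
  have hdiam : ∀ i, ∀ q₀ ∈ K, ∀ q, Conn (F i ∩ K) ε q₀ q → dist q₀ q ≤ 9 / 8 := by
    intro i q₀ hq₀ q hc
    exact hε₁' i q₀ hq₀ q (hc.mono ((min_le_left _ _).trans (hε₂' i)))
  -- clusters
  have hTc : IsCompact (Tri F ∩ K) := isCompact_K.inter_left (isClosed_Tri F hF)
  have hTd : IsTotallyDisconnected (Tri F ∩ K) :=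
    fun t ht hpre => htd t (ht.trans inter_subset_left) hpre
  choose r₁ hr₁ hr₁' using stab F
  obtain ⟨n, A, x, hxT, hAcomp, hAball, hAT, hAcov, hAdisj⟩ :=
    clusters (Tri F ∩ K) hTc hTd (fun x => min (r₁ x) (ε / 100))
      (fun x _ => lt_min (hr₁ x) (by linarith))
  -- ρ
  have hsepρ : ∀ t : {t : Fin n × Fin n // t.1 ≠ t.2}, ∃ ρ > 0,
      ∀ z ∈ A t.1.1, ∀ z' ∈ A t.1.2, 8 * ρ ≤ dist z z' := by
    rintro ⟨⟨l, l'⟩, hll'⟩
    obtain ⟨ρ, hρ, hρ'⟩ := Metric.exists_pos_forall_lt_edist (hAcomp l) (hAcomp l').isClosed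
      (hAdisj l l' hll')
    refine ⟨ρ / 8, by positivity, ?_⟩
    intro z hz z' hz'
    have h1 := hρ' z hz z' hz'
    rw [edist_nndist, ENNReal.coe_lt_coe] at h1
    have h2 : (ρ : ℝ) < dist z z' := by
      rw [← coe_nndist]; exact_mod_cast h1
    linarith
  choose ρ₁ hρ₁ hρ₁' using hsepρ
  obtain ⟨ρ₂, hρ₂, hρ₂'⟩ := exists_pos_le ρ₁ hρ₁
  obtain ⟨ρ₃, hρ₃, hρ₃'⟩ := exists_pos_le (fun l : Fin n => min (r₁ (x l)) (ε / 100))
    (fun l => lt_min (hr₁ _) (by linarith))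
  set ρ := min (min ρ₂ ρ₃) (ε / 100) with hρdef
  have hρ : 0 < ρ := lt_min (lt_min hρ₂ hρ₃) (by linarith)
  have hρε : ρ ≤ ε / 100 := min_le_right _ _
  have hρr : ∀ l, ρ ≤ r₁ (x l) := fun l =>
    ((min_le_left _ _).trans (min_le_right _ _)).trans ((hρ₃' l).trans (min_le_left _ _))
  have hρd : ∀ l l', l ≠ l' → ∀ z ∈ A l, ∀ z' ∈ A l', 8 * ρ ≤ dist z z' := by
    intro l l' hll' z hz z' hz'
    have h1 := hρ₁' ⟨(l, l'), hll'⟩ z hz z' hz'
    have h2 : ρ ≤ ρ₁ ⟨(l, l'), hll'⟩ :=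
      ((min_le_left _ _).trans (min_le_left _ _)).trans (hρ₂' _)
    linarith
  have hAsmall : ∀ l, ∀ z ∈ A l, dist z (x l) < ε / 100 ∧ dist z (x l) < r₁ (x l) := by
    intro l z hz
    have := hAball l hz
    rw [mem_ball, lt_min_iff] at this
    exact ⟨this.2, this.1⟩
  -- mesh
  obtain ⟨ηA, hηA, hηA'⟩ := lemmaA F hF ρ hρ
  obtain ⟨ηB, hηB, hηB'⟩ := lemmaB F hF ρ ρ hρ hρ
  obtain ⟨N, hN⟩ := exists_nat_gt (20 / min (min ηA ηB) (ρ / 4))
  have hmpos : 0 < min (min ηA ηB) (ρ / 4) := lt_min (lt_min hηA hηB) (by linarith)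
  have hNpos' : (0 : ℝ) < N := lt_trans (by positivity) hN
  have hNpos : 0 < N := by exact_mod_cast hNpos'
  set h : ℝ := 10 / N with hh
  have hhpos : 0 < h := by positivity
  have hhN : h * N = 10 := by rw [hh]; field_simp
  have h2h : 2 * h ≤ min (min ηA ηB) (ρ / 4) := by
    rw [div_lt_iff₀ hmpos] at hN
    have : 2 * h = 20 / N := by rw [hh]; ring
    rw [this, div_le_iff₀ hNpos']
    linarith
  have hhA : 2 * h ≤ ηA := h2h.trans ((min_le_left _ _).trans (min_le_left _ _))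
  have hhB : 2 * h ≤ ηB := h2h.trans ((min_le_left _ _).trans (min_le_right _ _))
  have hhρ : 2 * h ≤ ρ / 4 := h2h.trans (min_le_right _ _)
  -- colours and labels
  choose col hcol using hcov
  set c : ℕ × ℕ → ι := fun v => col (P h v) with hc
  set ℓ : ℕ × ℕ → Fin 3 := fun v => lab (F (c v) ∩ K) ε (P h v) with hℓ
  have hcF : ∀ v, P h v ∈ F (c v) := fun v => hcol _
  have hPK : ∀ v : ℕ × ℕ, v.1 ≤ N → v.2 ≤ N → P h v ∈ K := fun v h1 h2 => P_mem_K hNpos h1 h2
  have hvK : ∀ a < N, ∀ b < N, ∀ s j, P h (vert a b s j) ∈ K := by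
    intro a ha b hb s j
    obtain ⟨h1, h2, h3, h4⟩ := vert_bound a b s j
    exact hPK _ (by omega) (by omega)
  have hlabne : ∀ v : ℕ × ℕ, v.1 ≤ N → v.2 ≤ N → ∀ k, P h v ∈ H k → ℓ v ≠ k := by
    intro v h1 h2 k hk
    exact lab_ne (hdiam (c v)) (hPK v h1 h2) k hk
  refine grid_contradiction N c ℓ ?_ ?_ ?_ ?_
    (fun l v => (∃ z ∈ A l, dist (P h v) z < ρ) ∧
      (∃ z ∈ A l, 1 / 2 ≤ z.re ∧ z.re ≤ 19 / 2 ∧ 1 / 2 ≤ z.im ∧ z.im ≤ 19 / 2))
    (fun l i => if hx : ∃ q, q ∈ F i ∩ K ∧ ∃ z ∈ A l, dist q z < 2 * ρ then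
      lab (F i ∩ K) ε hx.choose else 0)
    (fun l i j => x l ∈ closure (Pair F i j)) ?_ ?_ ?_ ?_ ?_ ?_
  · -- left
    intro b hb
    apply hlabne (0, b) (Nat.zero_le _) hb
    simp [H, P]
  · -- bottom
    intro a ha
    apply hlabne (a, 0) ha (Nat.zero_le _)
    simp [H, P]
  · -- right
    intro b hb
    apply hlabne (N, b) le_rfl hb
    simp only [H, P]
    left
    show (9 : ℝ) ≤ h * N
    rw [hhN]; norm_num
  · -- top
    intro a ha
    apply hlabne (a, N) ha le_rfl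
    simp only [H, P]
    right
    show (9 : ℝ) ≤ h * N
    rw [hhN]; norm_num
  · -- rainbow triangles are near a cluster
    intro a ha b hb s hrb
    obtain ⟨j0, hj0⟩ := hrb 0
    obtain ⟨j1, hj1⟩ := hrb 1
    obtain ⟨j2, hj2⟩ := hrb 2
    have hdd : ∀ j j', dist (P h (vert a b s j)) (P h (vert a b s j')) ≤ 2 * h :=
      fun j j' => dist_P_vert hhpos.le a b s j j'
    -- the three colours are distinct
    have hcol_ne : ∀ j j', ℓ (vert a b s j) ≠ ℓ (vert a b s j') →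
        c (vert a b s j) ≠ c (vert a b s j') := by
      intro j j' hne heq
      apply hne
      show lab (F (c (vert a b s j)) ∩ K) ε _ = lab (F (c (vert a b s j')) ∩ K) ε _
      rw [heq]
      apply lab_congr
      refine ⟨⟨?_, hvK a ha b hb s j⟩, ⟨hcF _, hvK a ha b hb s j'⟩, ?_⟩
      · rw [← heq]; exact hcF _
      · have := hdd j j'
        linarith
    have c01 : c (vert a b s j0) ≠ c (vert a b s j1) := by
      apply hcol_ne; rw [hj0, hj1]; decide
    have c02 : c (vert a b s j0) ≠ c (vert a b s j2) := by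
      apply hcol_ne; rw [hj0, hj2]; decide
    have c12 : c (vert a b s j1) ≠ c (vert a b s j2) := by
      apply hcol_ne; rw [hj1, hj2]; decide
    obtain ⟨z, hz, hdz⟩ := hηA' (P h (vert a b s j0)) (hvK a ha b hb s j0) _ _ _ c01 c02 c12
      ⟨_, hcF _, (hdd _ _).trans hhA⟩ ⟨_, hcF _, (hdd _ _).trans hhA⟩ ⟨_, hcF _, (hdd _ _).trans hhA⟩
    obtain ⟨l, hl⟩ := hAcov z hz
    refine ⟨l, j0, ⟨z, hl, hdz⟩, z, hl, ?_⟩
    -- position
    have hin : ∀ j k, ℓ (vert a b s j) = k → P h (vert a b s j) ∉ H k := by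
      intro j k hjk hmem
      obtain ⟨h1, h2, h3, h4⟩ := vert_bound a b s j
      exact hlabne _ (by omega) (by omega) k hmem hjk
    have p0 := hin j0 0 hj0
    have p1 := hin j1 1 hj1
    have p2 := hin j2 2 hj2
    simp only [H, if_true, mem_ofPred_eq, not_le] at p0
    simp [H] at p1
    simp [H] at p2
    have d0 := hdd j1 j0
    have d2 := hdd j2 j0
    have hre : ∀ p q : ℂ, |p.re - q.re| ≤ dist p q := by
      intro p q
      rw [dist_eq_norm]
      simpa using Complex.abs_re_le_norm (p - q)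
    have him : ∀ p q : ℂ, |p.im - q.im| ≤ dist p q := by
      intro p q
      rw [dist_eq_norm]
      simpa using Complex.abs_im_le_norm (p - q)
    have b1 := abs_le.1 (hre (P h (vert a b s j0)) z)
    have b2 := abs_le.1 (him (P h (vert a b s j0)) z)
    have b3 := abs_le.1 (him (P h (vert a b s j1)) (P h (vert a b s j0)))
    have b4 := abs_le.1 (him (P h (vert a b s j2)) (P h (vert a b s j0)))
    have b5 := abs_le.1 (hre (P h (vert a b s j2)) (P h (vert a b s j0)))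
    refine ⟨?_, ?_, ?_, ?_⟩ <;> linarith [b1.1, b1.2, b2.1, b2.2, b3.1, b3.2, b4.1, b4.2, b5.1, b5.2,
      p2.1, p2.2]
  · -- near vertices are interior
    rintro l v ⟨⟨z, hz, hdz⟩, z', hz', h1, h2, h3, h4⟩
    have e1 := (hAsmall l z hz).1
    have e2 := (hAsmall l z' hz').1
    have e3 : dist (P h v) z' < 1 / 10 := by
      have t1 := dist_triangle (P h v) z z'
      have t2 := dist_triangle_right z z' (x l)
      linarith
    have b1 : |(P h v).re - z'.re| ≤ dist (P h v) z' := by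
      rw [dist_eq_norm]
      simpa using Complex.abs_re_le_norm (P h v - z')
    have b2 : |(P h v).im - z'.im| ≤ dist (P h v) z' := by
      rw [dist_eq_norm]
      simpa using Complex.abs_im_le_norm (P h v - z')
    have f1 : (P h v).re = h * v.1 := rfl
    have f2 : (P h v).im = h * v.2 := rfl
    rw [f1] at b1
    rw [f2] at b2
    obtain ⟨b1l, b1r⟩ := abs_le.1 b1
    obtain ⟨b2l, b2r⟩ := abs_le.1 b2
    refine ⟨?_, ?_, ?_, ?_⟩
    · by_contra hv
      have : v.1 = 0 := by omega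
      rw [this] at b1l
      simp at b1l
      linarith
    · by_contra hv
      push Not at hv
      have : (N : ℝ) ≤ v.1 := by exact_mod_cast hv
      have : h * N ≤ h * v.1 := by gcongr
      linarith
    · by_contra hv
      have : v.2 = 0 := by omega
      rw [this] at b2l
      simp at b2l
      linarith
    · by_contra hv
      push Not at hv
      have : (N : ℝ) ≤ v.2 := by exact_mod_cast hv
      have : h * N ≤ h * v.2 := by gcongr
      linarith
  · -- uniqueness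
    rintro a ha b hb s l l' j j' ⟨⟨z, hz, hdz⟩, -⟩ ⟨⟨z', hz', hdz'⟩, -⟩
    by_contra hll'
    have h1 := hρd l l' hll' z hz z' hz'
    have h2 := dist_P_vert hhpos.le a b s j j'
    have h3 := dist_triangle z (P h (vert a b s j)) z'
    have h4 := dist_triangle (P h (vert a b s j)) (P h (vert a b s j')) z'
    rw [dist_comm z (P h (vert a b s j))] at h3
    linarith
  · -- labels are a function of the colour
    rintro a ha b hb s l j j' ⟨⟨z, hz, hdz⟩, -⟩
    have hex : ∃ q, q ∈ F (c (vert a b s j')) ∩ K ∧ ∃ z ∈ A l, dist q z < 2 * ρ := by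
      refine ⟨P h (vert a b s j'), ⟨hcF _, hvK a ha b hb s j'⟩, z, hz, ?_⟩
      have h2 := dist_P_vert hhpos.le a b s j' j
      have h3 := dist_triangle (P h (vert a b s j')) (P h (vert a b s j)) z
      linarith
    rw [dif_pos hex]
    obtain ⟨hq, z', hz', hdz'⟩ := hex.choose_spec
    show lab _ ε _ = lab _ ε _
    apply lab_congr
    refine ⟨⟨hcF _, hvK a ha b hb s j'⟩, hq, ?_⟩
    have h2 := dist_P_vert hhpos.le a b s j' j
    have h3 := dist_triangle (P h (vert a b s j')) (P h (vert a b s j)) z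
    have h4 := dist_triangle (P h (vert a b s j')) z hex.choose
    have h5 := dist_triangle z z' hex.choose
    have h6 := dist_triangle_right z z' (x l)
    have e1 := (hAsmall l z hz).1
    have e2 := (hAsmall l z' hz').1
    rw [dist_comm z' hex.choose] at h5
    linarith
  · -- edges
    rintro a ha b hb s l j j₁ j₂ ⟨⟨z, hz, hdz⟩, hrel⟩ hn1 hn2 hcc
    have hd1 := dist_P_vert hhpos.le a b s j₁ j
    have hd3 := dist_triangle (P h (vert a b s j₁)) (P h (vert a b s j)) z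
    have hfar : ∀ z' ∈ Tri F ∩ K, ρ ≤ dist (P h (vert a b s j₁)) z' := by
      intro z' hz'
      obtain ⟨l', hl'⟩ := hAcov z' hz'
      by_cases hll' : l' = l
      · subst hll'
        by_contra hcon'
        push Not at hcon'
        exact hn1 ⟨⟨z', hl', hcon'⟩, hrel⟩
      · have h1 := hρd l' l hll' z' hl' z hz
        have h2 := dist_triangle z' (P h (vert a b s j₁)) z
        rw [dist_comm z' (P h (vert a b s j₁))] at h2
        linarith
    obtain ⟨y, hy, hdy⟩ := hηB' (P h (vert a b s j₁)) (hvK a ha b hb s j₁) hfar _ _ hcc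
      ⟨P h (vert a b s j₁), hcF _, by rw [dist_self]; exact hηB.le⟩
      ⟨P h (vert a b s j₂), hcF _, (dist_P_vert hhpos.le a b s j₂ j₁).trans hhB⟩
    apply hr₁' (x l) _ _ y hy
    have e1 := (hAsmall l z hz).2
    have e2 := hρr l
    have t1 := dist_triangle y (P h (vert a b s j₁)) (x l)
    have t2 := dist_triangle (P h (vert a b s j₁)) z (x l)
    linarith
  · -- acyclicity
    intro l m h1 h2 h3 h4
    apply hac (x l) m h1 h2 _ h4
    intro i j hij
    rcases h3 i j hij with h | h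
    · exact h
    · rw [Pair_comm]; exact h

omit [Fintype ι] [DecidableEq ι] in
lemma closure_Pair_subset (F : ι → Set ℂ) (hF : ∀ i, IsClosed (F i)) {i j : ι} {x : ℂ}
    (hx : x ∈ closure (Pair F i j)) : x ∈ F i ∧ x ∈ F j := by
  have h1 : Pair F i j ⊆ F i ∩ F j := fun y hy => ⟨(hy i).2 (Or.inl rfl), (hy j).2 (Or.inr rfl)⟩
  exact closure_minimal h1 ((hF i).inter (hF j)) hx

/-- **Lebesgue version (V0)**: a closed cover with the crossing principle has a triple point. -/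
theorem tri_nonempty (F : ι → Set ℂ) (hF : ∀ i, IsClosed (F i))
    (hcov : ∀ x, ∃ i, x ∈ F i) (hsep : Sep F) : (Tri F).Nonempty := by
  by_contra hne
  rw [not_nonempty_iff_eq_empty] at hne
  obtain ⟨x, m, hd, hsymm, hsupp, heven, i, j, hij⟩ := exists_cycle_point F hF hcov hsep
    (by rw [hne]; exact isTotallyDisconnected_empty)
  have hijne : i ≠ j := by
    rintro rfl
    exact hij (hd i)
  -- a second neighbour of `j`
  have hk : ∃ k, k ≠ i ∧ m j k ≠ 0 := by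
    by_contra hcon
    push Not at hcon
    have h1 := heven j
    rw [Finset.sum_eq_single i (fun k _ hk => hcon k hk)
      (fun h => absurd (Finset.mem_univ i) h)] at h1
    exact hij (by rw [hsymm]; exact h1)
  obtain ⟨k, hki, hjk⟩ := hk
  have hkj : j ≠ k := by
    rintro rfl
    exact hjk (hd j)
  have h1 := closure_Pair_subset F hF (hsupp i j hij)
  have h2 := closure_Pair_subset F hF (hsupp j k hjk)
  have : x ∈ Tri F := ⟨i, j, k, hijne, hki.symm, hkj, h1.1, h1.2, h2.2⟩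
  rw [hne] at this
  exact this

end Crest.Agent.R40.Top
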