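import Crest.Agent.R40.T3Main
import Crest.Agent.R40.Top772

/-!
# R40 / T3 : existence of a point with a cycle of accumulating exact pairs (helper772)
-/

set_option autoImplicit false

open Set Metric Topology Filter

namespace Crest.Agent.R40.T3

/-- in an even symmetric mod-2 function every edge can be continued -/
lemma exists_second {m : Fin 5 → Fin 5 → ZMod 2} (hsymm : ∀ i j, m i j = m j i)
    (heven : ∀ i, ∑ j, m i j = 0) {i j : Fin 5} (hij : m i j ≠ 0) : ∃ k, k ≠ i ∧ m j k ≠ 0 := by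
  by_contra hcon
  push Not at hcon
  have h1 := heven j
  rw [Finset.sum_eq_single i (fun k _ hk => hcon k hk)
    (fun h => absurd (Finset.mem_univ i) h)] at h1
  exact hij (by rw [hsymm]; exact h1)

lemma cycle_of_even {m : Fin 5 → Fin 5 → ZMod 2} (hd : ∀ i, m i i = 0)
    (hsymm : ∀ i j, m i j = m j i) (heven : ∀ i, ∑ j, m i j = 0) {i j : Fin 5}
    (hij : m i j ≠ 0) :
    Tri (fun a b => m a b ≠ 0) ∨ Quad (fun a b => m a b ≠ 0) ∨ Pent (fun a b => m a b ≠ 0) := by
  have hne : ∀ {a b : Fin 5}, m a b ≠ 0 → a ≠ b := by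
    rintro a b h rfl
    exact h (hd a)
  have hij' := hne hij
  obtain ⟨k, hki, hjk⟩ := exists_second hsymm heven hij
  have hjk' := hne hjk
  obtain ⟨l, hlj, hkl⟩ := exists_second hsymm heven hjk
  have hkl' := hne hkl
  by_cases hli : l = i
  · subst hli
    left
    exact ⟨l, j, k, hij', hki.symm, hjk', hij, hjk, hkl⟩
  obtain ⟨p, hpk, hlp⟩ := exists_second hsymm heven hkl
  have hlp' := hne hlp
  by_cases hpi : p = i
  · subst hpi
    right; left
    exact ⟨p, j, k, l, hij', hki.symm, Ne.symm hli, hjk', Ne.symm hlj, hkl', hij, hjk, hkl, hlp⟩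
  by_cases hpj : p = j
  · subst hpj
    left
    exact ⟨p, k, l, hjk', Ne.symm hlj, hkl', hjk, hkl, hlp⟩
  obtain ⟨q, hql, hpq⟩ := exists_second hsymm heven hlp
  have hpq' := hne hpq
  have hq : q = i ∨ q = j ∨ q = k := by
    revert hij' hjk' hkl' hlp' hpq' hki hlj hli hpk hpi hpj hql
    clear hij hjk hkl hlp hpq hne heven hsymm hd
    revert i j k l p q
    decide
  rcases hq with rfl | rfl | rfl
  · right; right
    exact ⟨q, j, k, l, p, hij', hki.symm, Ne.symm hli, Ne.symm hpi, hjk', Ne.symm hlj,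
      Ne.symm hpj, hkl', Ne.symm hpk, hlp', hij, hjk, hkl, hlp, hpq⟩
  · right; left
    exact ⟨q, k, l, p, hjk', Ne.symm hlj, Ne.symm hpj, hkl', Ne.symm hpk, hlp', hjk, hkl, hlp, hpq⟩
  · left
    exact ⟨q, l, p, hkl', Ne.symm hpk, hlp', hkl, hlp, hpq⟩

variable {U : Fin 5 → Set ℂ}

/-- **Existence** (`hex` of `T3_false_of`). -/
theorem exists_cycle (h : Cov U) : ∃ x, Tri (Acc U x) ∨ Quad (Acc U x) ∨ Pent (Acc U x) := by
  have hsep : Top.Sep (F U) := by
    intro i p hp δ hδ
    obtain ⟨p', hp', hd⟩ := Metric.mem_closure_iff.1 hp δ hδ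
    refine ⟨p', hd, ?_⟩
    intro q hq
    exact h.dist_ne_of_mem hq hp'
  have hsub : Top.Tri (F U) ⊆ Th U := by
    rintro x ⟨i, j, k, hij, hik, hjk, hi, hj, hk⟩
    have h1 : ({i, j, k} : Finset (Fin 5)) ⊆ J U x := by
      intro a ha
      simp only [Finset.mem_insert, Finset.mem_singleton] at ha
      rcases ha with rfl | rfl | rfl
      · exact mem_J.2 hi
      · exact mem_J.2 hj
      · exact mem_J.2 hk
    have h2 := Finset.card_le_card h1
    rw [Finset.card_insert_of_notMem (by simp [hij, hik]),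
      Finset.card_insert_of_notMem (by simpa using hjk), Finset.card_singleton] at h2
    exact h2
  have htd : IsTotallyDisconnected (Top.Tri (F U)) := by
    intro t ht hpre
    exact h.isTotallyDisconnected_Th t (ht.trans hsub) hpre
  obtain ⟨x, m, hd, hsymm, hsupp, heven, i, j, hij⟩ :=
    Top.exists_cycle_point (F U) (fun i => isClosed_F i) h.cover hsep htd
  have hacc : ∀ a b, m a b ≠ 0 → Acc U x a b := by
    intro a b hab
    have h1 := mem_closure_iff_frequently.1 (hsupp a b hab)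
    refine h1.mono ?_
    intro z hz
    ext k
    rw [mem_J, hz k]
    simp
  refine ⟨x, ?_⟩
  rcases cycle_of_even hd hsymm heven hij with h3 | h4 | h5
  · left
    obtain ⟨a, b, c, h1, h2, h3, e1, e2, e3⟩ := h3
    exact ⟨a, b, c, h1, h2, h3, hacc _ _ e1, hacc _ _ e2, hacc _ _ e3⟩
  · right; left
    obtain ⟨a, b, c, d, h1, h2, h3, h4, h5, h6, e1, e2, e3, e4⟩ := h4
    exact ⟨a, b, c, d, h1, h2, h3, h4, h5, h6, hacc _ _ e1, hacc _ _ e2, hacc _ _ e3, hacc _ _ e4⟩
  · right; right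
    obtain ⟨a, b, c, d, e, h1, h2, h3, h4, h5, h6, h7, h8, h9, h10, e1, e2, e3, e4, e5⟩ := h5
    exact ⟨a, b, c, d, e, h1, h2, h3, h4, h5, h6, h7, h8, h9, h10, hacc _ _ e1, hacc _ _ e2,
      hacc _ _ e3, hacc _ _ e4, hacc _ _ e5⟩

end Crest.Agent.R40.T3
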