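import Crest.Agent.R40.T3Tot

/-!
# R40 / T3 : the graph `E(x)` of exact pairs accumulating at `x`
-/

set_option autoImplicit false

open Set Metric Topology Filter

namespace Crest.Agent.R40.T3

/-- The graph of exact pairs accumulating at `x`. -/
def EG (U : Fin 5 → Set ℂ) (x : ℂ) : SimpleGraph (Fin 5) where
  Adj a b := a ≠ b ∧ ∃ᶠ z in 𝓝 x, J U z = {a, b}
  symm := ⟨fun a b hab => ⟨hab.1.symm, by rw [Finset.pair_comm]; exact hab.2⟩⟩
  loopless := ⟨fun _ ha => ha.1 rfl⟩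

/-- `x` has exactly the four colours `a, b, c, d` and `E(x)` is the 4-cycle `a b c d`. -/
structure IsC4 (U : Fin 5 → Set ℂ) (x : ℂ) (a b c d : Fin 5) : Prop where
  hab : a ≠ b
  hac : a ≠ c
  had : a ≠ d
  hbc : b ≠ c
  hbd : b ≠ d
  hcd : c ≠ d
  hJ : J U x = {a, b, c, d}
  eab : (EG U x).Adj a b
  ebc : (EG U x).Adj b c
  ecd : (EG U x).Adj c d
  eda : (EG U x).Adj d a
  nac : ¬ (EG U x).Adj a c
  nbd : ¬ (EG U x).Adj b d

section
variable {U : Fin 5 → Set ℂ}

lemma EG_adj {x : ℂ} {a b : Fin 5} :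
    (EG U x).Adj a b ↔ a ≠ b ∧ ∃ᶠ z in 𝓝 x, J U z = {a, b} := Iff.rfl

lemma mem_J_of_adj {x : ℂ} {a b : Fin 5} (h : (EG U x).Adj a b) : a ∈ J U x ∧ b ∈ J U x := by
  obtain ⟨z, hz1, hz2⟩ := (h.2.and_eventually (J_usc (U := U) x)).exists
  rw [hz1] at hz2
  exact ⟨hz2 (by simp), hz2 (by simp)⟩

/-- If `ab` is not in `E(x)` then there are no exact `ab`-points near `x`. -/
lemma eventually_of_not_adj {x : ℂ} {a b : Fin 5} (hab : a ≠ b) (h : ¬ (EG U x).Adj a b) :
    ∀ᶠ z in 𝓝 x, J U z ≠ {a, b} := by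
  by_contra hn
  exact h ⟨hab, fun h' => hn h'⟩

/-- All exact pairs near `x` are edges of `E(x)`. -/
lemma eventually_adj (x : ℂ) : ∀ᶠ z in 𝓝 x, ∀ a b : Fin 5, a ≠ b → J U z = {a, b} →
    (EG U x).Adj a b := by
  rw [eventually_all]
  intro a
  rw [eventually_all]
  intro b
  by_cases hab : a = b
  · exact Eventually.of_forall (fun z h _ => absurd hab h)
  by_cases h : (EG U x).Adj a b
  · exact Eventually.of_forall (fun z _ _ => h)
  · filter_upwards [eventually_of_not_adj hab h] with z hz _ h2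
    exact absurd h2 hz

/-- `E` is upper semicontinuous. -/
lemma EG_usc (x : ℂ) : ∀ᶠ y in 𝓝 x, EG U y ≤ EG U x := by
  filter_upwards [(eventually_adj (U := U) x).eventually_nhds] with y hy a b hab
  obtain ⟨z, hz1, hz2⟩ := (hab.2.and_eventually hy).exists
  exact hz2 a b hab.1 hz1

namespace IsC4
variable {x : ℂ} {a b c d : Fin 5}

lemma rot (h : IsC4 U x a b c d) : IsC4 U x b c d a where
  hab := h.hbc
  hac := h.hbd
  had := h.hab.symm
  hbc := h.hcd
  hbd := h.hac.symm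
  hcd := h.had.symm
  hJ := by rw [h.hJ]; ext i; simp only [Finset.mem_insert, Finset.mem_singleton]; tauto
  eab := h.ebc
  ebc := h.ecd
  ecd := h.eda
  eda := h.eab
  nac := h.nbd
  nbd := fun h' => h.nac h'.symm

lemma refl (h : IsC4 U x a b c d) : IsC4 U x a d c b where
  hab := h.had
  hac := h.hac
  had := h.hab
  hbc := h.hcd.symm
  hbd := h.hbd.symm
  hcd := h.hbc.symm
  hJ := by rw [h.hJ]; ext i; simp only [Finset.mem_insert, Finset.mem_singleton]; tauto
  eab := h.eda.symm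
  ebc := h.ecd.symm
  ecd := h.ebc.symm
  eda := h.eab.symm
  nac := h.nac
  nbd := fun h' => h.nbd h'.symm

end IsC4
end

end Crest.Agent.R40.T3
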