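import Crest.Agent.R40.T3Sol
import Crest.Agent.R40.T3Graph

/-!
# R40 / T3 : rays through a point in directions orthogonal to solid two-coloured arcs (Case III)
-/

set_option autoImplicit false

open Set Metric Topology Filter

namespace Crest.Agent.R40.T3

/-- the point `x + 2 i sin h · uv v` -/
noncomputable def seg (x : ℂ) (v h : ℝ) : ℂ := x + uv (v + h) - uv (v - h)

lemma seg_zero (x : ℂ) (v : ℝ) : seg x v 0 = x := by simp [seg]

lemma continuous_seg (x : ℂ) (v : ℝ) : Continuous (seg x v) := by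
  have := continuous_uv
  unfold seg
  fun_prop

/-- squared distance from a point of the ray to a point of the unit circle about `x` -/
lemma dist_sq_seg_uv (x : ℂ) (v h s : ℝ) :
    dist (seg x v h) (x + uv s) ^ 2 =
      1 - 4 * Real.sin h * (Real.sin (s - v) - Real.sin h) := by
  rw [dist_sq_eq_normSq]
  have h1 : seg x v h - (x + uv s) = uv (v + h) - uv (v - h) - uv s := by rw [seg]; ring
  rw [h1, Complex.normSq_apply]
  simp only [Complex.sub_re, Complex.sub_im, uv_re, uv_im]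
  rw [Real.cos_add, Real.cos_sub, Real.sin_add, Real.sin_sub, Real.sin_sub]
  have e1 := Real.sin_sq_add_cos_sq s
  have e2 := Real.sin_sq_add_cos_sq v
  linear_combination e1 + 4 * Real.sin h ^ 2 * e2

lemma seg_neg_eq (x : ℂ) (v r : ℝ) : seg x v (-r) = seg x (v + Real.pi) r := by
  unfold seg
  have h1 : uv (v + Real.pi + r) = - uv (v + r) := by
    rw [← uv_add_pi]; congr 1; ring
  have h2 : uv (v + Real.pi - r) = - uv (v - r) := by
    rw [← uv_add_pi]; congr 1; ring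
  rw [h1, h2]
  have h3 : v + -r = v - r := by ring
  have h4 : v - -r = v + r := by ring
  rw [h3, h4]; ring

/-- in an open nonempty set of angles there is one not parallel to `s` -/
lemma exists_sin_ne_467 {A : Set ℝ} (hA : IsOpen A) (hAn : A.Nonempty) (s : ℝ) :
    ∃ v ∈ A, Real.sin (s - v) ≠ 0 := by
  obtain ⟨v, hv⟩ := hAn
  by_cases h0 : Real.sin (s - v) = 0
  · have hc : Tendsto (fun r : ℝ => v + r) (𝓝[>] 0) (𝓝 v) := by
      have : Continuous (fun r : ℝ => v + r) := by fun_prop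
      have := this.tendsto 0
      rw [add_zero] at this
      exact this.mono_left nhdsWithin_le_nhds
    obtain ⟨r, ⟨hr1, hr2⟩, hr3⟩ := (((hc.eventually (hA.mem_nhds hv)).and
      (nhdsWithin_le_nhds (eventually_lt_nhds Real.pi_pos) : ∀ᶠ r : ℝ in 𝓝[>] 0, r < Real.pi)).and
      (self_mem_nhdsWithin : ∀ᶠ r : ℝ in 𝓝[>] 0, r ∈ Ioi (0:ℝ))).exists
    have hr3 : 0 < r := hr3
    refine ⟨v + r, hr1, ?_⟩
    have e : s - (v + r) = s - v - r := by ring
    rw [e, Real.sin_sub, h0, zero_mul, zero_sub, neg_ne_zero]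
    have hs : 0 < Real.sin r := Real.sin_pos_of_pos_of_lt_pi hr3 hr2
    have hc : Real.cos (s - v) ≠ 0 := by
      intro hc0
      have := Real.sin_sq_add_cos_sq (s - v)
      rw [h0, hc0] at this
      norm_num at this
    exact mul_ne_zero hc hs.ne'
  · exact ⟨v, hv, h0⟩

section
variable {U : Fin 5 → Set ℂ} {x : ℂ} {k : Fin 5}

namespace Cov
variable (h : Cov U)
include h

/-- (F2), inner form. -/
theorem cross_inner {Q : Set ℂ} {z p : ℂ} (hQ : IsPreconnected Q) (hQF : Q ⊆ F U k)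
    (hx : x ∈ Q) (hz : z ∈ Q) (hzp : dist z p < 1) :
    ∀ᶠ q in 𝓝 p, q ∈ F U k → dist q x ≤ 1 := by
  have ho : ∀ᶠ q in 𝓝 p, dist z q < 1 := by
    have hc : Continuous (fun q : ℂ => dist z q) := by fun_prop
    exact (hc.tendsto p).eventually (gt_mem_nhds hzp)
  filter_upwards [ho] with q hq hqk
  by_contra hlt
  push Not at hlt
  exact h.not_cross hQ hQF hqk hz hx hq (by rwa [dist_comm])

/-- (F2), outer form. -/
theorem cross_outer {Q : Set ℂ} {z p : ℂ} (hQ : IsPreconnected Q) (hQF : Q ⊆ F U k)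
    (hx : x ∈ Q) (hz : z ∈ Q) (hzp : 1 < dist z p) :
    ∀ᶠ q in 𝓝 p, q ∈ F U k → 1 ≤ dist q x := by
  have ho : ∀ᶠ q in 𝓝 p, 1 < dist z q := by
    have hc : Continuous (fun q : ℂ => dist z q) := by fun_prop
    exact (hc.tendsto p).eventually (lt_mem_nhds hzp)
  filter_upwards [ho] with q hq hqk
  by_contra hlt
  push Not at hlt
  exact h.not_cross hQ hQF hqk hx hz (by rwa [dist_comm]) hq

/-- A path starting at `x` which is generically two-coloured without exact pairs is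
monochromatic. -/
theorem path_mono {b d : Fin 5} {γ : ℝ → ℂ} (hγ : Continuous γ) {η : ℝ} (hη : 0 < η)
    (hJ : ∀ r ∈ Ioc 0 η, J U (γ r) ⊆ {b, d}) (hn : ∀ r ∈ Ioc 0 η, J U (γ r) ≠ {b, d}) :
    ∃ k, (k = b ∨ k = d) ∧ ∀ r ∈ Icc 0 η, γ r ∈ F U k := by
  have hQ : IsPreconnected (γ '' Ioc 0 η) := isPreconnected_Ioc.image _ hγ.continuousOn
  have hcl : ∀ k, γ '' Ioc 0 η ⊆ U k → ∀ r ∈ Icc 0 η, γ r ∈ F U k := by
    intro k hk r hr
    have h1 : Ioc 0 η ⊆ γ ⁻¹' F U k := fun s hs => subset_F k (hk ⟨s, hs, rfl⟩)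
    have h2 : IsClosed (γ ⁻¹' F U k) := (isClosed_F k).preimage hγ
    have h3 : closure (Ioc 0 η) ⊆ γ ⁻¹' F U k := closure_minimal h1 h2
    rw [closure_Ioc hη.ne] at h3
    exact h3 hr
  rcases h.mono_two hQ (i := b) (j := d) (by rintro _ ⟨r, hr, rfl⟩; exact hJ r hr)
    (by rintro _ ⟨r, hr, rfl⟩; exact hn r hr) with h1 | h1
  · exact ⟨b, Or.inl rfl, hcl b h1⟩
  · exact ⟨d, Or.inr rfl, hcl d h1⟩

/-- points of the line through `x` orthogonal to a solid direction `v` -/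
theorem seg_colour {a b c d : Fin 5} (hJ : J U x ⊆ {a, b, c, d}) (hbd : ¬ Acc U x b d) {v : ℝ}
    (hva : v ∈ Sol U a x) (hvc : v ∈ Sol U c x) :
    ∃ η > 0, ∀ r : ℝ, r ≠ 0 → |r| ≤ η → J U (seg x v r) ⊆ {b, d} ∧ J U (seg x v r) ≠ {b, d} := by
  have hev : ∀ᶠ z in 𝓝 x, J U z ⊆ {a, b, c, d} ∧ J U z ≠ {b, d} := by
    have h1 : ∀ᶠ z in 𝓝 x, J U z ≠ {b, d} := by
      by_contra hn
      exact hbd (fun h' => hn h')
    filter_upwards [h1, J_usc (U := U) x] with z hz1 hz2 using ⟨hz2.trans hJ, hz1⟩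
  have ht : Tendsto (seg x v) (𝓝 0) (𝓝 x) := by
    have := (continuous_seg x v).tendsto 0
    rwa [seg_zero] at this
  have hva' : ∀ᶠ r in 𝓝 (0 : ℝ), v + r ∈ Sol U a x := by
    have hc : Tendsto (fun r : ℝ => v + r) (𝓝 0) (𝓝 v) := by
      have : Continuous (fun r : ℝ => v + r) := by fun_prop
      simpa using this.tendsto 0
    exact hc.eventually (isOpen_Sol.mem_nhds hva)
  have hvc' : ∀ᶠ r in 𝓝 (0 : ℝ), v + r ∈ Sol U c x := by
    have hc : Tendsto (fun r : ℝ => v + r) (𝓝 0) (𝓝 v) := by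
      have : Continuous (fun r : ℝ => v + r) := by fun_prop
      simpa using this.tendsto 0
    exact hc.eventually (isOpen_Sol.mem_nhds hvc)
  obtain ⟨ε, hε, hε'⟩ := Metric.eventually_nhds_iff.1 ((ht.eventually hev).and (hva'.and hvc'))
  refine ⟨min (ε / 2) 1, lt_min (by linarith) one_pos, fun r hr hrε => ?_⟩
  have hr1 : |r| < ε := lt_of_le_of_lt (hrε.trans (min_le_left _ _)) (by linarith)
  have hr2 : |r| ≤ 1 := hrε.trans (min_le_right _ _)
  obtain ⟨⟨h1, h2⟩, h3, h4⟩ := hε' (y := r) (by rwa [Real.dist_eq, sub_zero])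
  refine ⟨fun i hi => ?_, h2⟩
  have hsin : Real.sin (v + r - (v - r)) ≠ 0 := by
    have e : v + r - (v - r) = 2 * r := by ring
    rw [e]
    obtain ⟨hl, hu⟩ := abs_le.1 hr2
    have hpi := Real.pi_gt_three
    rcases lt_or_gt_of_ne hr with hneg | hpos
    · exact (Real.sin_neg_of_neg_of_neg_pi_lt (by linarith) (by linarith)).ne
    · exact (Real.sin_pos_of_pos_of_lt_pi (by linarith) (by linarith)).ne'
  have hp : x + uv (v + r) - uv (v - r) ∈ F U i := mem_J.1 hi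
  have h5 := (h.P5 hsin hp).1
  have h6 := h1 hi
  simp only [Finset.mem_insert, Finset.mem_singleton] at h6 ⊢
  rcases h6 with rfl | rfl | rfl | rfl
  · exact absurd h3 h5
  · exact Or.inl rfl
  · exact absurd h4 h5
  · exact Or.inr rfl

/-- Both rays of the line are monochromatic. -/
theorem ray {a b c d : Fin 5} (hJ : J U x ⊆ {a, b, c, d}) (hbd : ¬ Acc U x b d) {v : ℝ}
    (hva : v ∈ Sol U a x) (hvc : v ∈ Sol U c x) :
    ∃ η > 0, ∃ kp km, (kp = b ∨ kp = d) ∧ (km = b ∨ km = d) ∧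
      (∀ r ∈ Icc 0 η, seg x v r ∈ F U kp) ∧ (∀ r ∈ Icc 0 η, seg x v (-r) ∈ F U km) := by
  obtain ⟨η, hη, hs⟩ := h.seg_colour hJ hbd hva hvc
  obtain ⟨kp, hkp, h1⟩ := h.path_mono (b := b) (d := d) (continuous_seg x v) hη
    (fun r hr => (hs r hr.1.ne' (by rw [abs_of_pos hr.1]; exact hr.2)).1)
    (fun r hr => (hs r hr.1.ne' (by rw [abs_of_pos hr.1]; exact hr.2)).2)
  obtain ⟨km, hkm, h2⟩ := h.path_mono (b := b) (d := d) (γ := fun r => seg x v (-r))
    ((continuous_seg x v).comp continuous_neg) hη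
    (fun r hr => (hs (-r) (neg_ne_zero.2 hr.1.ne') (by rw [abs_neg, abs_of_pos hr.1]; exact hr.2)).1)
    (fun r hr => (hs (-r) (neg_ne_zero.2 hr.1.ne') (by rw [abs_neg, abs_of_pos hr.1]; exact hr.2)).2)
  exact ⟨η, hη, kp, km, hkp, hkm, h1, h2⟩

/-- A monochromatic positive ray: points of its colour near the circle on the side of the ray are
inside. -/
theorem ray_inner {v η : ℝ} (hη : 0 < η) (hr : ∀ r ∈ Icc 0 η, seg x v r ∈ F U k) {s : ℝ}
    (hs : 0 < Real.sin (s - v)) : ∀ᶠ q in 𝓝 (x + uv s), q ∈ F U k → dist q x ≤ 1 := by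
  have hQ : IsPreconnected (seg x v '' Icc 0 η) :=
    isPreconnected_Icc.image _ (continuous_seg x v).continuousOn
  have hQF : seg x v '' Icc 0 η ⊆ F U k := by rintro _ ⟨r, hr', rfl⟩; exact hr r hr'
  -- choose a small parameter
  have hlim : Tendsto (fun r : ℝ => Real.sin r) (𝓝[>] 0) (𝓝 0) := by
    have := Real.continuous_sin.tendsto 0
    rw [Real.sin_zero] at this
    exact this.mono_left nhdsWithin_le_nhds
  obtain ⟨r, ⟨⟨hr1, hr2⟩, hr3⟩, hr4⟩ := ((((hlim.eventually (gt_mem_nhds hs)).and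
    (nhdsWithin_le_nhds (eventually_lt_nhds hη) : ∀ᶠ r : ℝ in 𝓝[>] 0, r < η)).and
    (nhdsWithin_le_nhds (eventually_lt_nhds Real.pi_pos) : ∀ᶠ r : ℝ in 𝓝[>] 0, r < Real.pi)).and
    (self_mem_nhdsWithin : ∀ᶠ r : ℝ in 𝓝[>] 0, r ∈ Ioi (0:ℝ))).exists
  have hr4 : 0 < r := hr4
  have hsr : 0 < Real.sin r := Real.sin_pos_of_pos_of_lt_pi hr4 hr3
  have hd : dist (seg x v r) (x + uv s) < 1 := by
    have h1 := dist_sq_seg_uv x v r s
    have h2 : 0 < Real.sin r * (Real.sin (s - v) - Real.sin r) := mul_pos hsr (by linarith)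
    nlinarith [dist_nonneg (x := seg x v r) (y := x + uv s)]
  exact h.cross_inner hQ hQF ⟨0, ⟨le_rfl, hη.le⟩, seg_zero x v⟩ ⟨r, ⟨hr4.le, hr2.le⟩, rfl⟩ hd

/-- A monochromatic positive ray: points of its colour near the circle on the other side of the
ray are outside. -/
theorem ray_outer {v η : ℝ} (hη : 0 < η) (hr : ∀ r ∈ Icc 0 η, seg x v r ∈ F U k) {s : ℝ}
    (hs : Real.sin (s - v) < 0) : ∀ᶠ q in 𝓝 (x + uv s), q ∈ F U k → 1 ≤ dist q x := by
  have hQ : IsPreconnected (seg x v '' Icc 0 η) :=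
    isPreconnected_Icc.image _ (continuous_seg x v).continuousOn
  have hQF : seg x v '' Icc 0 η ⊆ F U k := by rintro _ ⟨r, hr', rfl⟩; exact hr r hr'
  set r : ℝ := min η 1 with hrdef
  have hr0 : 0 < r := lt_min hη one_pos
  have hr1 : r ≤ 1 := min_le_right _ _
  have hsr : 0 < Real.sin r := Real.sin_pos_of_pos_of_lt_pi hr0 (by linarith [Real.pi_gt_three])
  have hd : 1 < dist (seg x v r) (x + uv s) := by
    have h1 := dist_sq_seg_uv x v r s
    have h2 : Real.sin r * (Real.sin (s - v) - Real.sin r) < 0 :=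
      mul_neg_of_pos_of_neg hsr (by linarith)
    nlinarith [dist_nonneg (x := seg x v r) (y := x + uv s)]
  exact h.cross_outer hQ hQF ⟨0, ⟨le_rfl, hη.le⟩, seg_zero x v⟩ ⟨r, ⟨hr0.le, min_le_left _ _⟩, rfl⟩ hd

theorem ray_inner' {v η : ℝ} (hη : 0 < η) (hr : ∀ r ∈ Icc 0 η, seg x v (-r) ∈ F U k) {s : ℝ}
    (hs : Real.sin (s - v) < 0) : ∀ᶠ q in 𝓝 (x + uv s), q ∈ F U k → dist q x ≤ 1 := by
  refine h.ray_inner hη (v := v + Real.pi) (fun r hr' => ?_) ?_
  · rw [← seg_neg_eq]; exact hr r hr'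
  · have : s - (v + Real.pi) = s - v - Real.pi := by ring
    rw [this, Real.sin_sub_pi]; linarith

theorem ray_outer' {v η : ℝ} (hη : 0 < η) (hr : ∀ r ∈ Icc 0 η, seg x v (-r) ∈ F U k) {s : ℝ}
    (hs : 0 < Real.sin (s - v)) : ∀ᶠ q in 𝓝 (x + uv s), q ∈ F U k → 1 ≤ dist q x := by
  refine h.ray_outer hη (v := v + Real.pi) (fun r hr' => ?_) ?_
  · rw [← seg_neg_eq]; exact hr r hr'
  · have : s - (v + Real.pi) = s - v - Real.pi := by ring
    rw [this, Real.sin_sub_pi]; linarith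

/-- (III-cd) Near the unit circle about `x`, points having both colours `b`, `d` lie on the
circle. -/
theorem III_cd {a b c d : Fin 5} (hJ : J U x ⊆ {a, b, c, d}) (hbd : ¬ Acc U x b d)
    (hA : (Sol U a x ∩ Sol U c x).Nonempty) (s : ℝ) :
    ∀ᶠ q in 𝓝 (x + uv s), q ∈ F U b → q ∈ F U d → dist q x = 1 := by
  obtain ⟨v, ⟨hva, hvc⟩, hsv⟩ := exists_sin_ne_467 (isOpen_Sol.inter isOpen_Sol) hA s
  obtain ⟨η, hη, kp, km, hkp, hkm, h1, h2⟩ := h.ray hJ hbd hva hvc
  have hmem : ∀ {k : Fin 5} {q : ℂ}, (k = b ∨ k = d) → q ∈ F U b → q ∈ F U d → q ∈ F U k := by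
    rintro k q (rfl | rfl) hb hd
    · exact hb
    · exact hd
  rcases lt_or_gt_of_ne hsv with hneg | hpos
  · filter_upwards [h.ray_outer hη h1 hneg, h.ray_inner' hη h2 hneg] with q hq1 hq2 hb hd
    exact le_antisymm (hq2 (hmem hkm hb hd)) (hq1 (hmem hkp hb hd))
  · filter_upwards [h.ray_inner hη h1 hpos, h.ray_outer' hη h2 hpos] with q hq1 hq2 hb hd
    exact le_antisymm (hq1 (hmem hkp hb hd)) (hq2 (hmem hkm hb hd))

end Cov
end

end Crest.Agent.R40.T3
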