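import Crest.Agent.R40.T3Sol

/-!
# R40 / T3 : separation by the circle `C(y)` near the centre `x` (SEP)

`y = x + uv (t + π/3)`.  If rectangles (or just curves) of one colour `k` accumulate at `y` on
the correct side, then near `x` the class `F k` lies on one side of the circle `C(y)`.
-/

set_option autoImplicit false

open Set Metric Topology Filter
open scoped Real

namespace Crest.Agent.R40.T3.Sep

section

lemma uv_add (a b : ℝ) : uv (a + b) = uv a * uv b := by
  simp only [uv]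
  rw [← Complex.exp_add]
  congr 1
  push_cast
  ring

lemma norm_uv (t : ℝ) : ‖uv t‖ = 1 := Complex.norm_exp_ofReal_mul_I t

lemma uv_re (t : ℝ) : (uv t).re = Real.cos t := by
  simp [uv, Complex.exp_ofReal_mul_I_re]

lemma uv_im (t : ℝ) : (uv t).im = Real.sin t := by
  simp [uv, Complex.exp_ofReal_mul_I_im]

lemma norm_sq_uv_add (a b : ℝ) : ‖uv a + uv b‖ ^ 2 = 2 + 2 * Real.cos (a - b) := by
  rw [Complex.sq_norm, Complex.normSq_apply]
  simp only [Complex.add_re, Complex.add_im, uv_re, uv_im]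
  rw [Real.cos_sub]
  have h1 := Real.sin_sq_add_cos_sq a
  have h2 := Real.sin_sq_add_cos_sq b
  nlinarith

lemma norm_sq_uv_sub (a b : ℝ) : ‖uv a - uv b‖ ^ 2 = 2 - 2 * Real.cos (a - b) := by
  rw [Complex.sq_norm, Complex.normSq_apply]
  simp only [Complex.sub_re, Complex.sub_im, uv_re, uv_im]
  rw [Real.cos_sub]
  have h1 := Real.sin_sq_add_cos_sq a
  have h2 := Real.sin_sq_add_cos_sq b
  nlinarith

/-- `e^{it} + e^{i(t+2π/3)} = e^{i(t+π/3)}` -/
lemma uv_add_uv (t : ℝ) : uv t + uv (t + 2 * π / 3) = uv (t + π / 3) := by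
  have h1 : uv t = uv (t + π / 3) * uv (-(π / 3)) := by
    rw [← uv_add]; congr 1; ring
  have h2 : uv (t + 2 * π / 3) = uv (t + π / 3) * uv (π / 3) := by
    rw [← uv_add]; congr 1; ring
  rw [h1, h2, ← mul_add]
  have h3 : uv (-(π / 3)) + uv (π / 3) = 1 := by
    apply Complex.ext
    · simp only [Complex.add_re, uv_re, Real.cos_neg, Real.cos_pi_div_three, Complex.one_re]
      norm_num
    · simp only [Complex.add_im, uv_im, Real.sin_neg, Complex.one_im]
      ring
  rw [h3, mul_one]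

end

section
variable {U : Fin 5 → Set ℂ}

/-- general form: `G p q` two-parameter family, `G t t = y`, `G s t` strictly inside `D(x)`;
curves `p ↦ G p q` of colour `k` for `q → t`. -/
lemma sep_aux (h : Cov U) {x y : ℂ} {k : Fin 5} {G : ℝ → ℝ → ℂ}
    (hG : Continuous (fun pq : ℝ × ℝ => G pq.1 pq.2)) {s t : ℝ} (hy : G t t = y)
    (hs : dist (G s t) x < 1) {f : Filter ℝ} (hf : f ≤ 𝓝 t)
    (hk : ∃ᶠ q in f, ∀ p ∈ uIoo s t, G p q ∈ U k) :
    ∀ᶠ z in 𝓝 x, z ∈ F U k → dist z y ≤ 1 := by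
  have h1 : ∀ᶠ z in 𝓝 x, dist (G s t) z < 1 := by
    have : Continuous (fun z => dist (G s t) z) := by fun_prop
    exact this.continuousAt.eventually_lt continuousAt_const hs
  filter_upwards [h1] with z hz hzk
  by_contra hcon
  push Not at hcon
  have hq1 : ∀ᶠ q in 𝓝 t, dist (G s q) z < 1 := by
    have hc : Continuous (fun q => dist (G s q) z) :=
      (hG.comp (continuous_const.prodMk continuous_id)).dist continuous_const
    exact hc.continuousAt.eventually_lt continuousAt_const hz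
  have hq2 : ∀ᶠ q in 𝓝 t, 1 < dist (G t q) z := by
    have hc : Continuous (fun q => dist (G t q) z) :=
      (hG.comp (continuous_const.prodMk continuous_id)).dist continuous_const
    refine continuousAt_const.eventually_lt hc.continuousAt ?_
    simp only [hy]
    rwa [dist_comm]
  obtain ⟨q, hq, hqs, hqt⟩ := (hk.and_eventually (hf (hq1.and hq2))).exists
  have hc : Continuous (fun p => dist (G p q) z) :=
    (hG.comp (continuous_id.prodMk continuous_const)).dist continuous_const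
  have hst : s ≠ t := by
    rintro rfl
    linarith
  obtain ⟨p, hp, hp1⟩ : ∃ p ∈ uIoo s t, dist (G p q) z = 1 := by
    rcases lt_or_gt_of_ne hst with hlt | hgt
    · rw [uIoo_of_lt hlt]
      exact intermediate_value_Ioo hlt.le hc.continuousOn ⟨hqs, hqt⟩
    · rw [uIoo_of_gt hgt]
      exact intermediate_value_Ioo' hgt.le hc.continuousOn ⟨hqs, hqt⟩
  exact h.dist_ne_of_mem hzk (hq p hp) (by rw [dist_comm]; exact hp1)

lemma sep_aux' (h : Cov U) {x y : ℂ} {k : Fin 5} {G : ℝ → ℝ → ℂ}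
    (hG : Continuous (fun pq : ℝ × ℝ => G pq.1 pq.2)) {s t : ℝ} (hy : G t t = y)
    (hs : 1 < dist (G s t) x) {f : Filter ℝ} (hf : f ≤ 𝓝 t)
    (hk : ∃ᶠ q in f, ∀ p ∈ uIoo s t, G p q ∈ U k) :
    ∀ᶠ z in 𝓝 x, z ∈ F U k → 1 ≤ dist z y := by
  have h1 : ∀ᶠ z in 𝓝 x, 1 < dist (G s t) z := by
    have : Continuous (fun z => dist (G s t) z) := by fun_prop
    exact continuousAt_const.eventually_lt this.continuousAt hs
  filter_upwards [h1] with z hz hzk
  by_contra hcon
  push Not at hcon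
  have hq1 : ∀ᶠ q in 𝓝 t, 1 < dist (G s q) z := by
    have hc : Continuous (fun q => dist (G s q) z) :=
      (hG.comp (continuous_const.prodMk continuous_id)).dist continuous_const
    exact continuousAt_const.eventually_lt hc.continuousAt hz
  have hq2 : ∀ᶠ q in 𝓝 t, dist (G t q) z < 1 := by
    have hc : Continuous (fun q => dist (G t q) z) :=
      (hG.comp (continuous_const.prodMk continuous_id)).dist continuous_const
    refine hc.continuousAt.eventually_lt continuousAt_const ?_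
    simp only [hy]
    rwa [dist_comm]
  obtain ⟨q, hq, hqs, hqt⟩ := (hk.and_eventually (hf (hq1.and hq2))).exists
  have hc : Continuous (fun p => dist (G p q) z) :=
    (hG.comp (continuous_id.prodMk continuous_const)).dist continuous_const
  have hst : s ≠ t := by
    rintro rfl
    linarith
  obtain ⟨p, hp, hp1⟩ : ∃ p ∈ uIoo s t, dist (G p q) z = 1 := by
    rcases lt_or_gt_of_ne hst with hlt | hgt
    · rw [uIoo_of_lt hlt]
      exact intermediate_value_Ioo' hlt.le hc.continuousOn ⟨hqt, hqs⟩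
    · rw [uIoo_of_gt hgt]
      exact intermediate_value_Ioo hgt.le hc.continuousOn ⟨hqt, hqs⟩
  exact h.dist_ne_of_mem hzk (hq p hp) (by rw [dist_comm]; exact hp1)

lemma cos_two_pi_div_three' : Real.cos (2 * π / 3) = -1 / 2 := by
  rw [show 2 * π / 3 = π - π / 3 by ring, Real.cos_pi_sub, Real.cos_pi_div_three]
  norm_num

lemma cos_lt_of {δ : ℝ} (h0 : 0 < δ) (h1 : δ ≤ π / 3) : Real.cos (2 * π / 3 + δ) < -1 / 2 := by
  rw [← cos_two_pi_div_three']
  have := Real.pi_pos
  exact Real.cos_lt_cos_of_nonneg_of_le_pi (by positivity) (by linarith) (by linarith)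

lemma lt_cos_of {δ : ℝ} (h0 : 0 < δ) (h1 : δ ≤ π / 3) : -1 / 2 < Real.cos (2 * π / 3 - δ) := by
  rw [← cos_two_pi_div_three']
  have := Real.pi_pos
  exact Real.cos_lt_cos_of_nonneg_of_le_pi (by linarith) (by linarith) (by linarith)

lemma dist_mixed_sq (x : ℂ) (p q : ℝ) :
    dist (x + uv p + uv (q + 2 * π / 3)) x ^ 2 = 2 + 2 * Real.cos (2 * π / 3 + (q - p)) := by
  rw [dist_eq_norm, show x + uv p + uv (q + 2 * π / 3) - x = uv p + uv (q + 2 * π / 3) by ring,
    norm_sq_uv_add, ← Real.cos_neg]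
  congr 3
  ring

lemma mixed_lt_one (x : ℂ) {p q : ℝ} (h0 : p < q) (h1 : q ≤ p + π / 3) :
    dist (x + uv p + uv (q + 2 * π / 3)) x < 1 := by
  have h2 := dist_mixed_sq x p q
  have h3 := cos_lt_of (δ := q - p) (by linarith) (by linarith)
  have h4 : dist (x + uv p + uv (q + 2 * π / 3)) x ^ 2 < 1 ^ 2 := by linarith
  exact lt_of_pow_lt_pow_left₀ 2 zero_le_one h4

lemma one_lt_mixed (x : ℂ) {p q : ℝ} (h0 : q < p) (h1 : p ≤ q + π / 3) :
    1 < dist (x + uv p + uv (q + 2 * π / 3)) x := by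
  have h2 := dist_mixed_sq x p q
  have h3 := lt_cos_of (δ := p - q) (by linarith) (by linarith)
  have h5 : 2 * π / 3 + (q - p) = 2 * π / 3 - (p - q) := by ring
  rw [h5] at h2
  have h4 : 1 ^ 2 < dist (x + uv p + uv (q + 2 * π / 3)) x ^ 2 := by linarith
  exact lt_of_pow_lt_pow_left₀ 2 dist_nonneg h4

lemma continuous_uv' : Continuous uv := by unfold uv; fun_prop

lemma continuous_mixed (x : ℂ) :
    Continuous (fun pq : ℝ × ℝ => x + uv pq.1 + uv (pq.2 + 2 * π / 3)) := by
  have := continuous_uv'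
  fun_prop

lemma continuous_mixed' (x : ℂ) :
    Continuous (fun pq : ℝ × ℝ => x + uv pq.2 + uv (pq.1 + 2 * π / 3)) := by
  have := continuous_uv'
  fun_prop

lemma mixed_diag (x : ℂ) (t : ℝ) : x + uv t + uv (t + 2 * π / 3) = x + uv (t + π / 3) := by
  rw [add_assoc, uv_add_uv]

/-- SEP, inside: curves with `p` left of `t`, `q → t` (usually from the right). -/
lemma sep_minus (h : Cov U) {x : ℂ} {k : Fin 5} {t δ : ℝ} (hδ : 0 < δ) {f : Filter ℝ}
    (hf : f ≤ 𝓝 t)
    (hk : ∃ᶠ q in f, ∀ p ∈ Ioo (t - δ) t, x + uv p + uv (q + 2 * π / 3) ∈ U k) :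
    ∀ᶠ z in 𝓝 x, z ∈ F U k → dist z (x + uv (t + π / 3)) ≤ 1 := by
  have hpi := Real.pi_pos
  have hm : 0 < min δ (π / 3) := lt_min hδ (by positivity)
  have hm1 := min_le_left δ (π / 3)
  have hm2 := min_le_right δ (π / 3)
  refine sep_aux h (G := fun p q => x + uv p + uv (q + 2 * π / 3)) (continuous_mixed x) (s := t - min δ (π / 3)) (mixed_diag x t) ?_
    hf ?_
  · exact mixed_lt_one x (by linarith) (by linarith)
  · refine hk.mono fun q hq p hp => hq p ?_
    rw [uIoo_of_lt (by linarith)] at hp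
    exact ⟨by linarith [hp.1], hp.2⟩

/-- SEP, inside, mirror version: `p → t` (usually from the left), `q` right of `t`. -/
lemma sep_minus' (h : Cov U) {x : ℂ} {k : Fin 5} {t δ : ℝ} (hδ : 0 < δ) {f : Filter ℝ}
    (hf : f ≤ 𝓝 t)
    (hk : ∃ᶠ p in f, ∀ q ∈ Ioo t (t + δ), x + uv p + uv (q + 2 * π / 3) ∈ U k) :
    ∀ᶠ z in 𝓝 x, z ∈ F U k → dist z (x + uv (t + π / 3)) ≤ 1 := by
  have hpi := Real.pi_pos
  have hm : 0 < min δ (π / 3) := lt_min hδ (by positivity)
  have hm1 := min_le_left δ (π / 3)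
  have hm2 := min_le_right δ (π / 3)
  refine sep_aux h (G := fun p q => x + uv q + uv (p + 2 * π / 3)) (continuous_mixed' x) (s := t + min δ (π / 3)) (mixed_diag x t) ?_
    hf ?_
  · exact mixed_lt_one x (by linarith) (by linarith)
  · refine hk.mono fun q hq p hp => hq p ?_
    rw [uIoo_of_gt (by linarith)] at hp
    exact ⟨hp.1, by linarith [hp.2]⟩

/-- SEP, outside: `p → t` (usually from the right), curves with `q` left of `t`. -/
lemma sep_plus (h : Cov U) {x : ℂ} {k : Fin 5} {t δ : ℝ} (hδ : 0 < δ) {f : Filter ℝ}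
    (hf : f ≤ 𝓝 t)
    (hk : ∃ᶠ p in f, ∀ q ∈ Ioo (t - δ) t, x + uv p + uv (q + 2 * π / 3) ∈ U k) :
    ∀ᶠ z in 𝓝 x, z ∈ F U k → 1 ≤ dist z (x + uv (t + π / 3)) := by
  have hpi := Real.pi_pos
  have hm : 0 < min δ (π / 3) := lt_min hδ (by positivity)
  have hm1 := min_le_left δ (π / 3)
  have hm2 := min_le_right δ (π / 3)
  refine sep_aux' h (G := fun p q => x + uv q + uv (p + 2 * π / 3)) (continuous_mixed' x) (s := t - min δ (π / 3)) (mixed_diag x t) ?_
    hf ?_
  · exact one_lt_mixed x (by linarith) (by linarith)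
  · refine hk.mono fun q hq p hp => hq p ?_
    rw [uIoo_of_lt (by linarith)] at hp
    exact ⟨by linarith [hp.1], hp.2⟩

/-- SEP, outside, mirror version: curves with `p` right of `t`, `q → t` (usually from the left). -/
lemma sep_plus' (h : Cov U) {x : ℂ} {k : Fin 5} {t δ : ℝ} (hδ : 0 < δ) {f : Filter ℝ}
    (hf : f ≤ 𝓝 t)
    (hk : ∃ᶠ q in f, ∀ p ∈ Ioo t (t + δ), x + uv p + uv (q + 2 * π / 3) ∈ U k) :
    ∀ᶠ z in 𝓝 x, z ∈ F U k → 1 ≤ dist z (x + uv (t + π / 3)) := by
  have hpi := Real.pi_pos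
  have hm : 0 < min δ (π / 3) := lt_min hδ (by positivity)
  have hm1 := min_le_left δ (π / 3)
  have hm2 := min_le_right δ (π / 3)
  refine sep_aux' h (G := fun p q => x + uv p + uv (q + 2 * π / 3)) (continuous_mixed x) (s := t + min δ (π / 3)) (mixed_diag x t) ?_
    hf ?_
  · exact one_lt_mixed x (by linarith) (by linarith)
  · refine hk.mono fun q hq p hp => hq p ?_
    rw [uIoo_of_gt (by linarith)] at hp
    exact ⟨hp.1, by linarith [hp.2]⟩

/-- pigeonhole for the colour of accumulating curves -/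
lemma frequently_exists_fin {α : Type*} {f : Filter α} {P : α → Fin 5 → Prop}
    (hP : ∃ᶠ a in f, ∃ k, P a k) : ∃ k, ∃ᶠ a in f, P a k := by
  by_contra hcon
  push Not at hcon
  apply hP
  have : ∀ᶠ a in f, ∀ k, ¬ P a k := by
    rw [eventually_all]
    intro k
    exact hcon k
  filter_upwards [this] with a ha
  push Not
  exact ha

/-- a class near `x` cannot lie on a unit circle. -/
lemma sep_ne (h : Cov U) {x y : ℂ} {k : Fin 5} (hk : k ∈ J U x)
    (h1 : ∀ᶠ z in 𝓝 x, z ∈ F U k → dist z y ≤ 1)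
    (h2 : ∀ᶠ z in 𝓝 x, z ∈ F U k → 1 ≤ dist z y) : False := by
  have hx : x ∈ closure (U k) := mem_J.1 hk
  obtain ⟨O, hO, hOo, hxO⟩ := _root_.eventually_nhds_iff.1 (h1.and h2)
  obtain ⟨z, hzO, hzU⟩ := mem_closure_iff.1 hx O hOo hxO
  have hW : O ∩ U k ∈ 𝓝 z := (hOo.inter (h.isOpen k)).mem_nhds ⟨hzO, hzU⟩
  have hd : ∀ z' ∈ O ∩ U k, dist z' y = 1 := fun z' hz' =>
    le_antisymm ((hO z' hz'.1).1 (subset_closure hz'.2)) ((hO z' hz'.1).2 (subset_closure hz'.2))
  -- move radially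
  have hc : Continuous (fun s : ℝ => y + ((1 + s : ℝ) : ℂ) * (z - y)) := by fun_prop
  have h0 : (fun s : ℝ => y + ((1 + s : ℝ) : ℂ) * (z - y)) 0 = z := by simp
  have hev : ∀ᶠ s in 𝓝 (0 : ℝ), (fun s : ℝ => y + ((1 + s : ℝ) : ℂ) * (z - y)) s ∈ O ∩ U k := by
    apply hc.continuousAt.eventually
    rw [h0]
    exact hW
  have hev2 : ∀ᶠ s in 𝓝[>] (0 : ℝ), (fun s : ℝ => y + ((1 + s : ℝ) : ℂ) * (z - y)) s ∈ O ∩ U k :=
    hev.filter_mono nhdsWithin_le_nhds
  obtain ⟨s, hs, hs0⟩ := (hev2.and self_mem_nhdsWithin).exists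
  have h3 := hd _ hs
  have h4 := hd z ⟨hzO, hzU⟩
  have hs0' : (0 : ℝ) < s := hs0
  rw [dist_eq_norm] at h3 h4
  simp only [add_sub_cancel_left, norm_mul, h4, mul_one, Complex.norm_real, Real.norm_eq_abs] at h3
  rw [abs_of_pos (by linarith)] at h3
  linarith

end

end Crest.Agent.R40.T3.Sep
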