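import Crest.Agent.R40.T3CaseI638
import Crest.Agent.R40.T3Sol2

/-!
# R40 / T3 : Case I, Claim C and Step 1 (helper638)
-/

set_option autoImplicit false

open Set Metric Topology Filter

namespace Crest.Agent.R40.T3CaseI

open Crest.Agent.R40.T3 Crest.Agent.R40.T3Geo

/-- a curve crossing a unit circle transversally -/
lemma both_sides_of_deriv {γ : ℝ → ℂ} {t : ℝ} {γ' q : ℂ} (hγ : HasDerivAt γ γ' t)
    (h1 : dist (γ t) q = 1) (hne : ((starRingEnd ℂ) (γ t - q) * γ').re ≠ 0) {δ : ℝ}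
    (hδ : 0 < δ) : ∃ s ∈ Ioo (t - δ) (t + δ), ∃ s' ∈ Ioo (t - δ) (t + δ),
      dist (γ s) q < 1 ∧ 1 < dist (γ s') q := by
  rcases lt_or_gt_of_ne hne with h | h
  · obtain ⟨s, hs, hs1⟩ := exists_right (side_of_neg hγ h1 h).1 hδ
    obtain ⟨s', hs', hs1'⟩ := exists_left (side_of_neg hγ h1 h).2 hδ
    exact ⟨s, ⟨by linarith [hs.1], hs.2⟩, s', ⟨hs'.1, by linarith [hs'.2]⟩, hs1, hs1'⟩
  · obtain ⟨s, hs, hs1⟩ := exists_right (side_of_pos hγ h1 h).1 hδ
    obtain ⟨s', hs', hs1'⟩ := exists_left (side_of_pos hγ h1 h).2 hδ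
    exact ⟨s', ⟨hs'.1, by linarith [hs'.2]⟩, s, ⟨by linarith [hs.1], hs.2⟩, hs1', hs1⟩

lemma sin_two_pi_div_three_pos : 0 < Real.sin (2 * Real.pi / 3) := by
  rw [show 2 * Real.pi / 3 = Real.pi - Real.pi / 3 by ring, Real.sin_pi_sub]
  exact sin_pi_div_three_pos

section
variable {U : Fin 5 → Set ℂ} {x : ℂ} {a b c d e : Fin 5}

namespace Ctx
variable (X : Ctx U x a b c d e)
include X

lemma shift_two {w : ℝ} (hw : w ∈ Sol U d x) : w + 2 * Real.pi / 3 ∈ Sol U d x := by
  have := X.swapDE.shift (X.shift hw)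
  have h2 : w + Real.pi / 3 + Real.pi / 3 = w + 2 * Real.pi / 3 := by ring
  rwa [h2] at this

/-- a point without the colours `c`, `d`, `e` is not at distance one from an exact `ab`-point -/
lemma no_other {p z : ℂ} (hp : J U p = {a, b}) (hz : dist z p = 1) (hc : c ∉ J U z)
    (hd : d ∉ J U z) (he : e ∉ J U z) : False := by
  obtain ⟨k, hk, hka, hkb⟩ := X.h.exists_other hp hz
  rcases X.col k with h | h | h | h | h
  · exact hka h
  · exact hkb h
  · exact hc (h ▸ hk)
  · exact hd (h ▸ hk)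
  · exact he (h ▸ hk)

/-- Claim C. -/
theorem claimC {t : ℝ} (ht : Swi (Sol U d x) (Sol U e x) t)
    (hc : c ∉ J U (x + uv (t + Real.pi / 3))) :
    ∀ᶠ p in 𝓝 x, J U p = {a, b} → dist p (x + uv (t + Real.pi / 3)) = 1 := by
  obtain ⟨⟨r, hr, hsub⟩, hfr⟩ := ht
  have hy : P x t t = x + uv (t + Real.pi / 3) := P_diag x t
  -- a good box
  have h1 : ∀ᶠ q : ℝ × ℝ in 𝓝 (t, t), c ∉ J U (P x q.1 q.2) ∧
      Real.sin (q.1 - (q.2 + 2 * Real.pi / 3)) ≠ 0 := by
    apply Filter.Eventually.and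
    · have h2 : Tendsto (fun q : ℝ × ℝ => P x q.1 q.2) (𝓝 (t, t))
          (𝓝 (x + uv (t + Real.pi / 3))) := by
        have := (continuous_P x).tendsto (t, t)
        rwa [hy] at this
      filter_upwards [h2.eventually (J_usc _)] with q hq hq2 using hc (hq hq2)
    · have h2 : Continuous (fun q : ℝ × ℝ => Real.sin (q.1 - (q.2 + 2 * Real.pi / 3))) := by
        fun_prop
      apply h2.continuousAt.eventually_ne
      show Real.sin (t - (t + 2 * Real.pi / 3)) ≠ 0
      rw [sub_add_cancel_left, Real.sin_neg, neg_ne_zero]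
      exact sin_two_pi_div_three_pos.ne'
  obtain ⟨ε, hε, hbox⟩ := Metric.eventually_nhds_iff.1 h1
  have hbox' : ∀ v w : ℝ, |v - t| < ε → |w - t| < ε → c ∉ J U (P x v w) ∧
      Real.sin (v - (w + 2 * Real.pi / 3)) ≠ 0 := by
    intro v w hv hw
    apply hbox (y := (v, w))
    rw [Prod.dist_eq, Real.dist_eq, Real.dist_eq]
    exact max_lt hv hw
  have hm : 0 < min ε r := lt_min hε hr
  obtain ⟨v₁, hv₁, hout⟩ := leaf_out x t hm
  obtain ⟨w₁, hw₁, hin⟩ := leaf_in x t hm
  have hεl : min ε r ≤ ε := min_le_left _ _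
  have hrl : min ε r ≤ r := min_le_right _ _
  have hnear : ∀ᶠ w in 𝓝 t, |w - t| < ε := by
    have := Metric.ball_mem_nhds t hε
    filter_upwards [this] with w hw
    rwa [mem_ball, Real.dist_eq] at hw
  filter_upwards [hout, hin] with p hp1 hp2 hJp
  by_contra hne
  rw [dist_comm] at hne
  rcases lt_or_gt_of_ne hne with h2 | h2
  · obtain ⟨v, hv, ⟨hv2, hv3⟩, hv4⟩ :=
      (hfr.and_eventually (nhdsWithin_le_nhds ((hp2 h2).and hnear))).exists
    obtain ⟨w, hw, hw2⟩ := ivt_dist' (continuous_P_right x v) hw₁.2 hv2 hv3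
    have hwt : |w - t| < ε := by
      rw [abs_lt]; constructor <;> linarith [hw.1, hw.2, hw₁.1]
    obtain ⟨h3, h4⟩ := hbox' v w hv4 hwt
    have hwd : w ∈ Sol U d x := hsub ⟨by linarith [hw.1, hw₁.1], hw.2⟩
    have hmix := X.swapDE.mixed hv (X.shift_two hwd) h4
    exact X.no_other hJp hw2 h3 hmix.2 hmix.1
  · obtain ⟨w, hw, ⟨hw2, hw3⟩, hw4⟩ :=
      (hfr.and_eventually (nhdsWithin_le_nhds ((hp1 h2).and hnear))).exists
    obtain ⟨v, hv, hv2⟩ := ivt_dist (continuous_P_left x w) hv₁.2 hw2 hw3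
    have hvt : |v - t| < ε := by
      rw [abs_lt]; constructor <;> linarith [hv.1, hv.2, hv₁.1]
    obtain ⟨h3, h4⟩ := hbox' v w hvt hw4
    have hvd : v ∈ Sol U d x := hsub ⟨by linarith [hv.1, hv₁.1], hv.2⟩
    have hmix := X.mixed hvd (X.swapDE.shift_two hw) h4
    exact X.no_other hJp hv2 h3 hmix.1 hmix.2

/-- (X') -/
theorem exclude {q z y : ℂ} (hq : J U q = {a, b}) (hz : dist z q = 1) (hd : d ∉ J U z)
    (he : e ∉ J U z) (hy : dist z y = 1)
    (him : ((z - q) * (starRingEnd ℂ) (y - q)).im ≠ 0) : c ∉ J U y := by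
  intro hcy
  set γ : ℝ → ℂ := rot q (z - q) with hγ
  have hγc : Continuous γ := continuous_rot q (z - q)
  have hγ0 : γ 0 = z := by rw [hγ, rot_zero]; ring
  have hγd : HasDerivAt γ (Complex.I * (z - q)) 0 := by
    have h1 := ((hasDerivAt_u 0).mul_const (z - q)).const_add q
    have h2 : u 0 = 1 := by
      apply Complex.ext <;> simp
    rw [h2, mul_one] at h1
    exact h1
  have hev : ∀ᶠ θ in 𝓝 (0 : ℝ), γ θ ∈ F U c := by
    have h1 : Tendsto γ (𝓝 0) (𝓝 z) := by
      have := hγc.tendsto 0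
      rwa [hγ0] at this
    filter_upwards [h1.eventually (J_usc z)] with θ hθ
    by_contra hn
    refine X.no_other hq (z := γ θ) ?_ (fun h2 => hn (mem_J.1 h2)) (fun h2 => hd (hθ h2))
      (fun h2 => he (hθ h2))
    rw [hγ, dist_rot_center, ← dist_eq_norm, hz]
  obtain ⟨δ, hδ, hsub⟩ := Metric.eventually_nhds_iff.1 hev
  have hre : ((starRingEnd ℂ) (γ 0 - y) * (Complex.I * (z - q))).re ≠ 0 := by
    rw [hγ0]
    have : ((starRingEnd ℂ) (z - y) * (Complex.I * (z - q))).re
        = ((z - q) * (starRingEnd ℂ) (y - q)).im := by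
      simp
      ring
    rw [this]
    exact him
  obtain ⟨s, hs, s', hs', h1, h2⟩ := both_sides_of_deriv hγd (by rw [hγ0, hy]) hre hδ
  have hQ : IsPreconnected (γ '' Ioo (0 - δ) (0 + δ)) :=
    isPreconnected_Ioo.image _ hγc.continuousOn
  refine X.h.not_cross hQ ?_ (mem_J.1 hcy) ⟨s, hs, rfl⟩ ⟨s', hs', rfl⟩ h1 h2
  rintro _ ⟨r, hr, rfl⟩
  apply hsub
  rw [Real.dist_eq, sub_zero, abs_lt]
  constructor <;> linarith [hr.1, hr.2]

/-- switch from the left side: `c` is missing at `x + uv τ` -/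
theorem kill_left (he : e ∉ J U x) {t τ r : ℝ} (hr : 0 < r) (hτ : Ioo (τ - r) τ ⊆ Sol U e x)
    (hs : Real.sin (τ - t) ≠ 0)
    (hq : ∃ᶠ q in 𝓝 (x + uv t), J U q = {a, b} ∧ 0 < (1 - dist x q) * Real.sin (τ - t)) :
    c ∉ J U (x + uv τ) := by
  -- the open condition
  have hopen : IsOpen {p : ℂ × ℂ | ((p.1 - p.2) * (starRingEnd ℂ) (x + uv τ - p.2)).im ≠ 0} := by
    apply isOpen_ne_fun
    · have := Complex.continuous_conj
      fun_prop
    · fun_prop
  have hmem : (x, x + uv t) ∈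
      {p : ℂ × ℂ | ((p.1 - p.2) * (starRingEnd ℂ) (x + uv τ - p.2)).im ≠ 0} := by
    show ((x - (x + uv t)) * (starRingEnd ℂ) (x + uv τ - (x + uv t))).im ≠ 0
    have : ((x - (x + uv t)) * (starRingEnd ℂ) (x + uv τ - (x + uv t))).im
        = Real.sin (τ - t) := by
      rw [Real.sin_sub]
      simp [uv_re, uv_im]
      ring
    rw [this]; exact hs
  have hW := hopen.mem_nhds hmem
  rw [nhds_prod_eq, Filter.mem_prod_iff] at hW
  obtain ⟨N1, hN1, N2, hN2, hsubW⟩ := hW
  have hcont : Tendsto (fun β : ℝ => x + uv τ - uv β) (𝓝 τ) (𝓝 x) := by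
    have h1 : Continuous (fun β : ℝ => x + uv τ - uv β) := by
      have := continuous_uv
      fun_prop
    have := h1.tendsto τ
    simpa using this
  obtain ⟨ε, hε, hsmall⟩ := Metric.eventually_nhds_iff.1
    ((hcont.eventually hN1).and (hcont.eventually (J_usc x)))
  set η : ℝ := min (min ε r) 1 with hη
  have hη0 : 0 < η := lt_min (lt_min hε hr) one_pos
  have hηε : η ≤ ε := (min_le_left _ _).trans (min_le_left _ _)
  have hηr : η ≤ r := (min_le_left _ _).trans (min_le_right _ _)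
  have hη1 : η ≤ 1 := min_le_right _ _
  have hcross : ∀ᶠ q in 𝓝 (x + uv t), 0 < (1 - dist x q) * Real.sin (τ - t) →
      ∃ β ∈ Ioo (τ - η) τ, dist (x + uv τ - uv β) q = 1 := by
    rcases lt_or_gt_of_ne hs with h | h
    · have := cross_be_out x h hη0
      filter_upwards [this] with q hq h1
      apply hq
      by_contra hcon
      push Not at hcon
      nlinarith
    · have := cross_be_in x h hη0
      filter_upwards [this] with q hq h1
      apply hq
      by_contra hcon
      push Not at hcon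
      nlinarith
  obtain ⟨q, ⟨hq1, hq2⟩, hq3, hq4⟩ := (hq.and_eventually (hcross.and hN2)).exists
  obtain ⟨β, hβ, hβ2⟩ := hq3 hq2
  have hβd : dist β τ < ε := by
    rw [Real.dist_eq, abs_lt]; constructor <;> linarith [hβ.1, hβ.2]
  obtain ⟨hz1, hz2⟩ := hsmall hβd
  have hβe : β ∈ Sol U e x := hτ ⟨by linarith [hβ.1], hβ.2⟩
  have hsin : Real.sin (τ - β) ≠ 0 := by
    apply ne_of_gt
    apply Real.sin_pos_of_pos_of_lt_pi
    · linarith [hβ.2]
    · linarith [hβ.1, Real.pi_gt_three]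
  apply X.exclude hq1 hβ2
  · intro h1
    exact (X.h.P5 hsin (mem_J.1 h1)).2 (X.swapDE.shift_pi hβe)
  · intro h1
    exact he (hz2 h1)
  · rw [dist_eq_norm, sub_sub_cancel_left, norm_neg, norm_uv]
  · exact hsubW (show (x + uv τ - uv β, q) ∈ N1 ×ˢ N2 from ⟨hz1, hq4⟩)

/-- switch from the right side: `c` is missing at `x - uv τ` -/
theorem kill_right (he : e ∉ J U x) {t τ r : ℝ} (hr : 0 < r) (hτ : Ioo τ (τ + r) ⊆ Sol U d x)
    (hs : Real.sin (τ - t) ≠ 0)
    (hq : ∃ᶠ q in 𝓝 (x + uv t), J U q = {a, b} ∧ 0 < (1 - dist x q) * Real.sin (τ - t)) :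
    c ∉ J U (x - uv τ) := by
  have hopen : IsOpen {p : ℂ × ℂ | ((p.1 - p.2) * (starRingEnd ℂ) (x - uv τ - p.2)).im ≠ 0} := by
    apply isOpen_ne_fun
    · have := Complex.continuous_conj
      fun_prop
    · fun_prop
  have hmem : (x, x + uv t) ∈
      {p : ℂ × ℂ | ((p.1 - p.2) * (starRingEnd ℂ) (x - uv τ - p.2)).im ≠ 0} := by
    show ((x - (x + uv t)) * (starRingEnd ℂ) (x - uv τ - (x + uv t))).im ≠ 0
    have : ((x - (x + uv t)) * (starRingEnd ℂ) (x - uv τ - (x + uv t))).im
        = - Real.sin (τ - t) := by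
      rw [Real.sin_sub]
      simp [uv_re, uv_im]
      ring
    rw [this, neg_ne_zero]; exact hs
  have hW := hopen.mem_nhds hmem
  rw [nhds_prod_eq, Filter.mem_prod_iff] at hW
  obtain ⟨N1, hN1, N2, hN2, hsubW⟩ := hW
  have hcont : Tendsto (fun α : ℝ => x + uv α - uv τ) (𝓝 τ) (𝓝 x) := by
    have h1 : Continuous (fun α : ℝ => x + uv α - uv τ) := by
      have := continuous_uv
      fun_prop
    have := h1.tendsto τ
    simpa using this
  obtain ⟨ε, hε, hsmall⟩ := Metric.eventually_nhds_iff.1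
    ((hcont.eventually hN1).and (hcont.eventually (J_usc x)))
  set η : ℝ := min (min ε r) 1 with hη
  have hη0 : 0 < η := lt_min (lt_min hε hr) one_pos
  have hηε : η ≤ ε := (min_le_left _ _).trans (min_le_left _ _)
  have hηr : η ≤ r := (min_le_left _ _).trans (min_le_right _ _)
  have hη1 : η ≤ 1 := min_le_right _ _
  have hcross : ∀ᶠ q in 𝓝 (x + uv t), 0 < (1 - dist x q) * Real.sin (τ - t) →
      ∃ α ∈ Ioo τ (τ + η), dist (x + uv α - uv τ) q = 1 := by
    rcases lt_or_gt_of_ne hs with h | h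
    · have := cross_al_out x h hη0
      filter_upwards [this] with q hq h1
      apply hq
      by_contra hcon
      push Not at hcon
      nlinarith
    · have := cross_al_in x h hη0
      filter_upwards [this] with q hq h1
      apply hq
      by_contra hcon
      push Not at hcon
      nlinarith
  obtain ⟨q, ⟨hq1, hq2⟩, hq3, hq4⟩ := (hq.and_eventually (hcross.and hN2)).exists
  obtain ⟨α, hα, hα2⟩ := hq3 hq2
  have hαd : dist α τ < ε := by
    rw [Real.dist_eq, abs_lt]; constructor <;> linarith [hα.1, hα.2]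
  obtain ⟨hz1, hz2⟩ := hsmall hαd
  have hαe : α ∈ Sol U d x := hτ ⟨hα.1, by linarith [hα.2]⟩
  have hsin : Real.sin (α - τ) ≠ 0 := by
    apply ne_of_gt
    apply Real.sin_pos_of_pos_of_lt_pi
    · linarith [hα.1]
    · linarith [hα.2, Real.pi_gt_three]
  apply X.exclude hq1 hα2
  · intro h1
    exact (X.h.P5 hsin (mem_J.1 h1)).1 hαe
  · intro h1
    exact he (hz2 h1)
  · rw [dist_eq_norm]
    have : x + uv α - uv τ - (x - uv τ) = uv α := by ring
    rw [this, norm_uv]
  · exact hsubW (show (x + uv α - uv τ, q) ∈ N1 ×ˢ N2 from ⟨hz1, hq4⟩)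

/-- all exact `ab`-points near `x` on two different circles: impossible -/
theorem two_circles_false {y y' : ℂ} (hne : y ≠ y') (hy : dist x y = 1) (hy' : dist x y' = 1)
    (h1 : ∀ᶠ p in 𝓝 x, J U p = {a, b} → dist p y = 1)
    (h2 : ∀ᶠ p in 𝓝 x, J U p = {a, b} → dist p y' = 1) : False := by
  have h3 := two_circles hne hy hy'
  rw [eventually_nhdsWithin_iff] at h3
  obtain ⟨p, hp, hp1, hp2, hp3⟩ := (X.hab.and_eventually (h1.and (h2.and h3))).exists
  refine hp3 ?_ ⟨hp1 hp, hp2 hp⟩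
  rintro rfl
  have := X.mem_c
  rw [hp] at this
  simp only [Finset.mem_insert, Finset.mem_singleton] at this
  rcases this with h | h
  · exact X.ac h.symm
  · exact X.bc h.symm

omit X in
lemma dist_x_add (t : ℝ) : dist x (x + uv t) = 1 := by
  rw [dist_comm]; exact T3.dist_add_uv x t

/-- end of Step 1 when `e` is missing at `x` -/
theorem step1_alpha_aux (he : e ∉ J U x) {t τ : ℝ} (hsw : Swi (Sol U e x) (Sol U d x) τ)
    (hs : Real.sin (τ - t) ≠ 0)
    (hq : ∃ᶠ q in 𝓝 (x + uv t), J U q = {a, b} ∧ 0 < (1 - dist x q) * Real.sin (τ - t)) :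
    False := by
  obtain ⟨⟨r, hr, hsub⟩, -⟩ := id hsw
  have hcy : c ∉ J U (x + uv τ) := X.kill_left he hr hsub hs hq
  have hsw' : Swi (Sol U d x) (Sol U e x) (τ - Real.pi / 3) := X.swapDE.swi_shift' hsw
  have hττ : τ - Real.pi / 3 + Real.pi / 3 = τ := by ring
  have hC1 := X.claimC hsw' (by rw [hττ]; exact hcy)
  rw [hττ] at hC1
  by_cases hiso : ∃ r > 0, Ioo (τ - Real.pi / 3) (τ - Real.pi / 3 + r) ⊆ Sol U e x
  · obtain ⟨r', hr', hsub'⟩ := hiso
    have hsub2 : Ioo τ (τ + r') ⊆ Sol U d x := by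
      intro s hs
      have := X.swapDE.shift (hsub' (show s - Real.pi / 3 ∈ Ioo (τ - Real.pi / 3)
        (τ - Real.pi / 3 + r') from ⟨by linarith [hs.1], by linarith [hs.2]⟩))
      rwa [sub_add_cancel] at this
    have hcy' : c ∉ J U (x - uv τ) := X.kill_right he hr' hsub2 hs hq
    have hpi : x - uv τ = x + uv (τ + Real.pi) := by rw [uv_add_pi]; ring
    rw [hpi] at hcy'
    have hsw2 : Swi (Sol U e x) (Sol U d x) (τ + Real.pi / 3 + Real.pi / 3) :=
      X.swi_shift (X.swapDE.swi_shift hsw)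
    have h3 : τ + Real.pi / 3 + Real.pi / 3 + Real.pi / 3 = τ + Real.pi := by ring
    have hC2 := X.swapDE.claimC hsw2 (by rw [h3]; exact hcy')
    rw [h3] at hC2
    refine X.two_circles_false (y := x + uv τ) (y' := x + uv (τ + Real.pi)) ?_
      (dist_x_add _) (dist_x_add _) hC1 hC2
    intro h4
    rw [uv_add_pi] at h4
    have h5 : uv τ = 0 := by
      have h6 : uv τ = - uv τ := add_left_cancel h4
      exact self_eq_neg.1 h6
    exact uv_ne_zero τ h5
  · push Not at hiso
    have hev : ∀ᶠ s in 𝓝 (τ - Real.pi / 3), c ∉ J U (x + uv (s + Real.pi / 3)) := by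
      have h1 : Tendsto (fun s : ℝ => x + uv (s + Real.pi / 3)) (𝓝 (τ - Real.pi / 3))
          (𝓝 (x + uv τ)) := by
        have h2 : Continuous (fun s : ℝ => x + uv (s + Real.pi / 3)) := by
          have := continuous_uv
          fun_prop
        have := h2.tendsto (τ - Real.pi / 3)
        rwa [hττ] at this
      filter_upwards [h1.eventually (J_usc _)] with s hs hs2 using hcy (hs hs2)
    obtain ⟨ε, hε, hev'⟩ := Metric.eventually_nhds_iff.1 hev
    have hε1 : 0 < min ε 1 := lt_min hε one_pos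
    have hεl : min ε 1 ≤ ε := min_le_left _ _
    have hεr : min ε 1 ≤ 1 := min_le_right _ _
    obtain ⟨s2, hs2, hs2'⟩ := not_subset.1 (hiso (min ε 1) hε1)
    have hfr := hsw'.2
    have hlt : ∀ᶠ s in 𝓝[>] (τ - Real.pi / 3), s < s2 :=
      nhdsWithin_le_nhds (eventually_lt_nhds hs2.1)
    obtain ⟨s1, hs1, hs1a, hs1b⟩ := (hfr.and_eventually (hlt.and self_mem_nhdsWithin)).exists
    have hs1b : τ - Real.pi / 3 < s1 := hs1b
    obtain ⟨t'', ht'', hsw2⟩ := X.swapDE.exists_switch hs1 hs2' hs1a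
    have hlow : τ - Real.pi / 3 < t'' := hs1b.trans ht''.1
    have hup : t'' < τ - Real.pi / 3 + 1 := by linarith [ht''.2, hs2.2]
    have hc2 : c ∉ J U (x + uv (t'' + Real.pi / 3)) := by
      apply hev'
      rw [Real.dist_eq, abs_lt]
      constructor <;> linarith [ht''.2, hs2.2]
    have hC2 := X.swapDE.claimC hsw2 hc2
    refine X.two_circles_false (y := x + uv τ) (y' := x + uv (t'' + Real.pi / 3)) ?_
      (dist_x_add _) (dist_x_add _) hC1 hC2
    intro h4
    have h5 : uv τ = uv (t'' + Real.pi / 3) := add_left_cancel h4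
    have h6 : Real.sin (t'' + Real.pi / 3 - τ) = 0 := by
      rw [Real.sin_sub, ← uv_re, ← uv_im, ← uv_re, ← uv_im, ← h5]
      ring
    have h7 : 0 < Real.sin (t'' + Real.pi / 3 - τ) := by
      apply Real.sin_pos_of_pos_of_lt_pi
      · linarith
      · linarith [Real.pi_gt_three]
    exact h7.ne' h6

/-- Step 1 when `e` is missing at `x` -/
theorem step1_alpha (he : e ∉ J U x) {t : ℝ}
    (ht : Swi (Sol U d x) (Sol U e x) t ∨ Swi (Sol U e x) (Sol U d x) t) :
    ¬ Acc U (x + uv t) a b := by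
  intro hacc
  have h2 : ∃ᶠ q in 𝓝 (x + uv t), (J U q = {a, b} ∧ dist x q < 1) ∨
      (J U q = {a, b} ∧ 1 < dist x q) := by
    refine hacc.mono fun q hq => ?_
    have hne : dist x q ≠ 1 := by
      apply X.dist_ne
      · rw [hq]; simp [X.ad.symm, X.bd.symm]
      · rw [hq]; simp [X.ae.symm, X.be.symm]
    rcases lt_or_gt_of_ne hne with h | h
    · exact Or.inl ⟨hq, h⟩
    · exact Or.inr ⟨hq, h⟩
  have hp3 := sin_pi_div_three_pos
  have hp23 := sin_two_pi_div_three_pos
  rw [frequently_or_distrib] at h2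
  rcases h2 with h2 | h2
  · rcases ht with ht | ht
    · have e1 : t + Real.pi / 3 - t = Real.pi / 3 := by ring
      refine X.step1_alpha_aux he (t := t) (X.swi_shift ht) (by rw [e1]; exact hp3.ne') ?_
      refine h2.mono fun q hq => ⟨hq.1, ?_⟩
      rw [e1]
      exact mul_pos (by linarith [hq.2]) hp3
    · have e1 : t + Real.pi / 3 + Real.pi / 3 - t = 2 * Real.pi / 3 := by ring
      refine X.step1_alpha_aux he (t := t) (X.swi_shift (X.swapDE.swi_shift ht))
        (by rw [e1]; exact hp23.ne') ?_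
      refine h2.mono fun q hq => ⟨hq.1, ?_⟩
      rw [e1]
      exact mul_pos (by linarith [hq.2]) hp23
  · rcases ht with ht | ht
    · have e1 : t - Real.pi / 3 - t = -(Real.pi / 3) := by ring
      refine X.step1_alpha_aux he (t := t) (X.swi_shift' ht)
        (by rw [e1, Real.sin_neg, neg_ne_zero]; exact hp3.ne') ?_
      refine h2.mono fun q hq => ⟨hq.1, ?_⟩
      rw [e1, Real.sin_neg]
      exact mul_pos_of_neg_of_neg (by linarith [hq.2]) (by linarith)
    · have e1 : t - Real.pi / 3 - Real.pi / 3 - t = -(2 * Real.pi / 3) := by ring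
      refine X.step1_alpha_aux he (t := t) (X.swi_shift' (X.swapDE.swi_shift' ht))
        (by rw [e1, Real.sin_neg, neg_ne_zero]; exact hp23.ne') ?_
      refine h2.mono fun q hq => ⟨hq.1, ?_⟩
      rw [e1, Real.sin_neg]
      exact mul_pos_of_neg_of_neg (by linarith [hq.2]) (by linarith)

/-- Step 1 when `d` and `e` are both present at `x` -/
theorem step1_beta (hd : d ∈ J U x) (he : e ∈ J U x) (t : ℝ) : ¬ Acc U (x + uv t) a b := by
  intro hacc
  -- `c` does not occur at generic angles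
  have key : ∀ θ ∈ GenC U x, Real.sin (θ - t) ≠ 0 → c ∉ J U (x + uv θ) := by
    intro θ hθ hsin hc
    have hcs : θ ∈ Sol U c x := (mem_Sol_iff hθ).2 hc
    have main : ∀ {d e : Fin 5}, Ctx U x a b c d e → θ ∈ Sol U d x → False := by
      intro d e X hds
      have hevs : ∀ᶠ s in 𝓝 θ, s ∈ Sol U c x ∧ s ∈ Sol U d x :=
        Filter.inter_mem (isOpen_Sol.mem_nhds hcs) (isOpen_Sol.mem_nhds hds)
      obtain ⟨ε, hε, hsmall⟩ := Metric.eventually_nhds_iff.1 hevs
      have hm : 0 < min ε 1 := lt_min hε one_pos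
      obtain ⟨q, hq, hq2⟩ := (hacc.and_eventually (exists_sector x hsin hm)).exists
      have hne : dist x q ≠ 1 := by
        apply X.dist_ne
        · rw [hq]; simp [X.ad.symm, X.bd.symm]
        · rw [hq]; simp [X.ae.symm, X.be.symm]
      obtain ⟨s, hs0, hs1, hs2⟩ := hq2 hne
      have hs3 : |s| < ε := hs1.trans_le (min_le_left _ _)
      have hs4 : |s| < 1 := hs1.trans_le (min_le_right _ _)
      have hp : θ + s ∈ Sol U c x ∧ θ + s ∈ Sol U d x :=
        hsmall (by rw [Real.dist_eq, add_sub_cancel_left]; exact hs3)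
      have hm2 : θ - s ∈ Sol U c x ∧ θ - s ∈ Sol U d x :=
        hsmall (by rw [Real.dist_eq, sub_sub_cancel_left, abs_neg]; exact hs3)
      have hsn : Real.sin ((θ + s) - (θ - s)) ≠ 0 := by
        have e1 : (θ + s) - (θ - s) = 2 * s := by ring
        rw [e1]
        rw [abs_lt] at hs4
        rcases lt_or_gt_of_ne hs0 with h | h
        · apply ne_of_lt
          apply Real.sin_neg_of_neg_of_neg_pi_lt <;> linarith [Real.pi_gt_three]
        · apply ne_of_gt
          apply Real.sin_pos_of_pos_of_lt_pi <;> linarith [Real.pi_gt_three]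
      apply X.no_other hq (z := x + uv (θ + s) - uv (θ - s)) hs2
      · intro h1
        exact (X.h.P5 hsn (mem_J.1 h1)).1 hp.1
      · intro h1
        exact (X.h.P5 hsn (mem_J.1 h1)).1 hp.2
      · intro h1
        exact (X.h.P5 hsn (mem_J.1 h1)).2 (X.shift_pi hm2.2)
    rcases X.one_of_gen hθ with h1 | h1
    · exact main X h1
    · exact main X.swapDE h1
  -- hence `a` or `b` occurs
  have key2 : ∀ θ ∈ GenC U x, Real.sin (θ - t) ≠ 0 → θ ∈ Sol U a x ∪ Sol U b x := by
    intro θ hθ hsin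
    by_contra hcon
    rw [mem_union, mem_Sol_iff hθ, mem_Sol_iff hθ] at hcon
    push Not at hcon
    obtain ⟨ha, hb⟩ := hcon
    have hc := key θ hθ hsin
    have hde : ∀ {d e : Fin 5}, Ctx U x a b c d e → d ∈ J U x → d ∈ J U (x + uv θ) → False := by
      intro d e X hd h1
      have h2 : e ∉ J U (x + uv θ) := by
        intro h3
        exact X.disj ((mem_Sol_iff hθ).2 h1) ((mem_Sol_iff hθ).2 h3)
      have h3 : J U (x + uv θ) ⊆ {d} := by
        intro i hi
        rcases X.col i with h | h | h | h | h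
        · exact absurd (h ▸ hi) ha
        · exact absurd (h ▸ hi) hb
        · exact absurd (h ▸ hi) hc
        · rw [h]; simp
        · exact absurd (h ▸ hi) h2
      exact X.h.single_not_mem h3 (T3.dist_add_uv x θ) hd
    rcases X.one_of_gen hθ with h1 | h1
    · exact hde X hd (mem_J.2 (sol_mem h1))
    · exact hde X.swapDE he (mem_J.2 (sol_mem h1))
  have hdense : Dense (Sol U a x ∪ Sol U b x) := by
    rw [dense_iff_inter_open]
    intro O hO hOn
    obtain ⟨θ0, hθ0, hθ1⟩ := (dense_GenC (U := U) (x := x)).inter_open_nonempty O hO hOn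
    have hO2 : IsOpen (O ∩ GenC U x) := hO.inter isOpen_GenC
    obtain ⟨δ, hδ, hball⟩ := Metric.isOpen_iff.1 hO2 θ0 ⟨hθ0, hθ1⟩
    -- a point of the ball with nonzero sine
    obtain ⟨θ, hθ, hsin⟩ : ∃ θ ∈ ball θ0 δ, Real.sin (θ - t) ≠ 0 := by
      by_cases h0 : Real.sin (θ0 - t) ≠ 0
      · exact ⟨θ0, mem_ball_self hδ, h0⟩
      · push Not at h0
        set η : ℝ := min (δ / 2) 1 with hη
        have hη0 : 0 < η := lt_min (by linarith) one_pos
        have hηδ : η < δ := lt_of_le_of_lt (min_le_left _ _) (by linarith)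
        have hη1 : η ≤ 1 := min_le_right _ _
        refine ⟨θ0 + η, ?_, ?_⟩
        · rw [mem_ball, Real.dist_eq, add_sub_cancel_left, abs_of_pos hη0]; exact hηδ
        · have e1 : θ0 + η - t = (θ0 - t) + η := by ring
          rw [e1, Real.sin_add, h0, zero_mul, zero_add]
          apply mul_ne_zero
          · intro hc0
            have := Real.sin_sq_add_cos_sq (θ0 - t)
            rw [h0, hc0] at this
            norm_num at this
          · apply ne_of_gt
            apply Real.sin_pos_of_pos_of_lt_pi hη0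
            linarith [Real.pi_gt_three]
    have h3 := hball hθ
    exact ⟨θ, h3.1, key2 θ h3.2 hsin⟩
  refine X.h.G1' hdense ?_ X.hab
  intro h1
  have := X.mem_c
  rw [h1] at this
  simp only [Finset.mem_insert, Finset.mem_singleton] at this
  rcases this with h | h
  · exact X.ac h.symm
  · exact X.bc h.symm

/-- **Step 1**: exact `ab`-points do not accumulate at the unit neighbours `x + uv t`, `t` a
switch. -/
theorem step1 {t : ℝ} (ht : Swi (Sol U d x) (Sol U e x) t ∨ Swi (Sol U e x) (Sol U d x) t) :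
    ¬ Acc U (x + uv t) a b := by
  by_cases he : e ∈ J U x
  · by_cases hd : d ∈ J U x
    · exact X.step1_beta hd he t
    · exact X.swapDE.step1_alpha hd ht.symm
  · exact X.step1_alpha he ht

end Ctx
end

end Crest.Agent.R40.T3CaseI
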