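import Crest.Agent.R40.T3Main

/-!
# R40 / T3, Case I, Step 3 (helper772)

Exact points of one pair near `x` cannot lie on two different unit circles through `x`; with more
than three circles and only three pairs this is a contradiction.
-/

set_option autoImplicit false

open Set Metric Topology Filter

namespace Crest.Agent.R40.T3

/-- Two different unit circles through `x` meet in `x` and in `y + y' - x` only. -/
lemma two_circles {x y y' p : ℂ} (hyy : y ≠ y') (h1 : dist x y = 1) (h2 : dist x y' = 1)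
    (h3 : dist p y = 1) (h4 : dist p y' = 1) : p = x ∨ p = y + y' - x := by
  have key : ∀ a b : ℂ, dist a b = 1 → (a.re - b.re) ^ 2 + (a.im - b.im) ^ 2 = 1 := by
    intro a b hab
    have h : dist a b ^ 2 = 1 := by rw [hab]; norm_num
    rw [Complex.dist_eq, Complex.sq_norm, Complex.normSq_apply] at h
    simp only [Complex.sub_re, Complex.sub_im] at h
    nlinarith [h]
  have e1 := key _ _ h1
  have e2 := key _ _ h2
  have e3 := key _ _ h3
  have e4 := key _ _ h4
  set w1 : ℝ := y'.re - y.re with hw1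
  set w2 : ℝ := y'.im - y.im with hw2
  set a1 : ℝ := p.re - x.re with ha1
  set a2 : ℝ := p.im - x.im with ha2
  set b1 : ℝ := p.re + x.re - y.re - y'.re with hb1
  set b2 : ℝ := p.im + x.im - y.im - y'.im with hb2
  have haw : a1 * w1 + a2 * w2 = 0 := by
    rw [ha1, ha2, hw1, hw2]; nlinarith [e1, e2, e3, e4]
  have hbw : b1 * w1 + b2 * w2 = 0 := by
    rw [hb1, hb2, hw1, hw2]; nlinarith [e1, e2, e3, e4]
  have hab : a1 * b1 + a2 * b2 = 0 := by
    rw [ha1, ha2, hb1, hb2]; nlinarith [e1, e2, e3, e4]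
  have hw : w1 ^ 2 + w2 ^ 2 ≠ 0 := by
    intro hw0
    have h1' : w1 = 0 := by nlinarith [sq_nonneg w1, sq_nonneg w2]
    have h2' : w2 = 0 := by nlinarith [sq_nonneg w1, sq_nonneg w2]
    apply hyy
    apply Complex.ext
    · rw [hw1] at h1'; linarith
    · rw [hw2] at h2'; linarith
  -- `a = s (-w2, w1)`, `b = t (-w2, w1)`
  have hst : (a2 * w1 - a1 * w2) * (b2 * w1 - b1 * w2) = 0 := by
    have : (a2 * w1 - a1 * w2) * (b2 * w1 - b1 * w2)
        = (a1 * b1 + a2 * b2) * (w1 ^ 2 + w2 ^ 2) - (a1 * w1 + a2 * w2) * (b1 * w1 + b2 * w2) := by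
      ring
    rw [this, hab, haw]; ring
  rcases mul_eq_zero.1 hst with h0 | h0
  · left
    have hs1 : a1 * (w1 ^ 2 + w2 ^ 2) = 0 := by
      have : a1 * (w1 ^ 2 + w2 ^ 2) = (a1 * w1 + a2 * w2) * w1 - (a2 * w1 - a1 * w2) * w2 := by ring
      rw [this, haw, h0]; ring
    have hs2 : a2 * (w1 ^ 2 + w2 ^ 2) = 0 := by
      have : a2 * (w1 ^ 2 + w2 ^ 2) = (a1 * w1 + a2 * w2) * w2 + (a2 * w1 - a1 * w2) * w1 := by ring
      rw [this, haw, h0]; ring
    have h1' := (mul_eq_zero.1 hs1).resolve_right hw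
    have h2' := (mul_eq_zero.1 hs2).resolve_right hw
    apply Complex.ext
    · rw [ha1] at h1'; linarith
    · rw [ha2] at h2'; linarith
  · right
    have hs1 : b1 * (w1 ^ 2 + w2 ^ 2) = 0 := by
      have : b1 * (w1 ^ 2 + w2 ^ 2) = (b1 * w1 + b2 * w2) * w1 - (b2 * w1 - b1 * w2) * w2 := by ring
      rw [this, hbw, h0]; ring
    have hs2 : b2 * (w1 ^ 2 + w2 ^ 2) = 0 := by
      have : b2 * (w1 ^ 2 + w2 ^ 2) = (b1 * w1 + b2 * w2) * w2 + (b2 * w1 - b1 * w2) * w1 := by ring
      rw [this, hbw, h0]; ring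
    have h1' := (mul_eq_zero.1 hs1).resolve_right hw
    have h2' := (mul_eq_zero.1 hs2).resolve_right hw
    apply Complex.ext
    · simp only [Complex.add_re, Complex.sub_re]; rw [hb1] at h1'; linarith
    · simp only [Complex.add_im, Complex.sub_im]; rw [hb2] at h2'; linarith

/-- Near `x`, two different unit circles through `x` meet only in `x`. -/
lemma eventually_two_circles {x y y' : ℂ} (hyy : y ≠ y') (h1 : dist x y = 1)
    (h2 : dist x y' = 1) : ∀ᶠ p in 𝓝 x, dist p y = 1 → dist p y' = 1 → p = x := by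
  by_cases hx : y + y' - x = x
  · refine Eventually.of_forall fun p h3 h4 => ?_
    rcases two_circles hyy h1 h2 h3 h4 with h | h
    · exact h
    · rw [h, hx]
  · filter_upwards [isOpen_ne.mem_nhds (Ne.symm hx : x ≠ y + y' - x)] with p hp h3 h4
    exact (two_circles hyy h1 h2 h3 h4).resolve_right hp

section
variable {U : Fin 5 → Set ℂ} {x : ℂ} {a b c : Fin 5}

/-- If exact `ab`-points accumulate at `x` and `J x ≠ {a, b}`, then the `ab`-points near `x` do not
all lie on two different unit circles through `x`. -/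
lemma Acc.not_two_circles (hacc : Acc U x a b) (hJ : J U x ≠ {a, b}) {y y' : ℂ} (hyy : y ≠ y')
    (h1 : dist x y = 1) (h2 : dist x y' = 1)
    (H1 : ∀ᶠ p in 𝓝 x, J U p = {a, b} → dist p y = 1)
    (H2 : ∀ᶠ p in 𝓝 x, J U p = {a, b} → dist p y' = 1) : False := by
  obtain ⟨p, hp, ⟨hp1, hp2⟩, hp3⟩ :=
    (hacc.and_eventually ((H1.and H2).and (eventually_two_circles hyy h1 h2))).exists
  apply hJ
  rw [← hp3 (hp1 hp) (hp2 hp), hp]

/-- **Step 3**, general form: more than three centres. -/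
theorem step3_of_card {ι : Type*} [Fintype ι] (hcard : 3 < Fintype.card ι)
    (hab : a ≠ b) (hac : a ≠ c) (hbc : b ≠ c)
    (h1 : Acc U x a b) (h2 : Acc U x b c) (h3 : Acc U x a c)
    (y : ι → ℂ) (hy : Function.Injective y) (hd : ∀ i, dist x (y i) = 1)
    (H : ∀ i, (∀ᶠ p in 𝓝 x, J U p = {a, b} → dist p (y i) = 1) ∨
      (∀ᶠ p in 𝓝 x, J U p = {b, c} → dist p (y i) = 1) ∨
      (∀ᶠ p in 𝓝 x, J U p = {a, c} → dist p (y i) = 1)) : False := by
  have ha : a ∈ J U x := h1.mem_J_left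
  have hb : b ∈ J U x := h1.mem_J_right
  have hc : c ∈ J U x := h2.mem_J_right
  let P : Fin 3 → Fin 5 × Fin 5 := ![(a, b), (b, c), (a, c)]
  have hP : ∀ k, Acc U x (P k).1 (P k).2 ∧ J U x ≠ {(P k).1, (P k).2} := by
    intro k
    fin_cases k
    · refine ⟨h1, fun h => ?_⟩
      have : c ∈ ({a, b} : Finset (Fin 5)) := h ▸ hc
      simp [hac.symm, hbc.symm] at this
    · refine ⟨h2, fun h => ?_⟩
      have : a ∈ ({b, c} : Finset (Fin 5)) := h ▸ ha
      simp [hab, hac] at this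
    · refine ⟨h3, fun h => ?_⟩
      have : b ∈ ({a, c} : Finset (Fin 5)) := h ▸ hb
      simp [hab.symm, hbc] at this
  have H' : ∀ i, ∃ k : Fin 3, ∀ᶠ p in 𝓝 x, J U p = {(P k).1, (P k).2} → dist p (y i) = 1 := by
    intro i
    rcases H i with h | h | h
    · exact ⟨0, h⟩
    · exact ⟨1, h⟩
    · exact ⟨2, h⟩
  choose k hk using H'
  obtain ⟨i, j, hij, hkij⟩ := Fintype.exists_ne_map_eq_of_card_lt k (by simpa using hcard)
  have hj := hk j
  rw [← hkij] at hj
  exact (hP (k i)).1.not_two_circles (hP (k i)).2 (hy.ne hij) (hd i) (hd j) (hk i) hj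

/-- **Step 3** with six centres. -/
theorem step3 (hab : a ≠ b) (hac : a ≠ c) (hbc : b ≠ c)
    (h1 : Acc U x a b) (h2 : Acc U x b c) (h3 : Acc U x a c)
    (y : Fin 6 → ℂ) (hy : Function.Injective y) (hd : ∀ i, dist x (y i) = 1)
    (H : ∀ i, (∀ᶠ p in 𝓝 x, J U p = {a, b} → dist p (y i) = 1) ∨
      (∀ᶠ p in 𝓝 x, J U p = {b, c} → dist p (y i) = 1) ∨
      (∀ᶠ p in 𝓝 x, J U p = {a, c} → dist p (y i) = 1)) : False :=
  step3_of_card (by simp) hab hac hbc h1 h2 h3 y hy hd H

end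

end Crest.Agent.R40.T3
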