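import Crest.Agent.R40.T3Base

/-!
# R40 / T3 : `{|J| ≥ 3}` is closed and totally disconnected
-/

set_option autoImplicit false

open Set Metric Topology Filter

namespace Crest.Agent.R40.T3

/-- Boundary bumping in a proper metric space. -/
lemma boundary_bump {X : Type*} [MetricSpace X] [ProperSpace X] {Q : Set X} (hQc : IsClosed Q)
    (hQ : IsPreconnected Q) {q q' : X} (hq : q ∈ Q) (hq' : q' ∈ Q) {r : ℝ}
    (hr' : r < dist q' q) (hr : 0 < r) :
    ∃ C : Set X, IsPreconnected C ∧ C ⊆ Q ∩ closedBall q r ∧ q ∈ C ∧ ∃ c ∈ C, dist c q = r := by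
  classical
  set K : Set X := Q ∩ closedBall q r with hK
  have hKc : IsCompact K := (isCompact_closedBall q r).inter_left hQc
  have : CompactSpace K := isCompact_iff_compactSpace.1 hKc
  have hqK : q ∈ K := ⟨hq, mem_closedBall_self hr.le⟩
  by_contra hcon
  push Not at hcon
  -- the component of `q`
  set x0 : K := ⟨q, hqK⟩ with hx0
  have hcomp := hcon (Subtype.val '' connectedComponent x0)
    (isPreconnected_connectedComponent.image _ continuous_subtype_val.continuousOn)
    (by rintro _ ⟨y, _, rfl⟩; exact y.2) ⟨x0, mem_connectedComponent, rfl⟩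
  have hclop := connectedComponent_eq_iInter_isClopen x0
  -- a clopen set avoiding the sphere
  have hex : ∃ s : { s : Set K // IsClopen s ∧ x0 ∈ s }, (s : Set K) ⊆ {y : K | dist (y : X) q ≠ r} := by
    have : Nonempty { s : Set K // IsClopen s ∧ x0 ∈ s } := ⟨⟨univ, isClopen_univ, mem_univ _⟩⟩
    apply exists_subset_nhds_of_compactSpace (V := fun s : { s : Set K // IsClopen s ∧ x0 ∈ s } => (s : Set K))
    · rintro ⟨s, hs, hs'⟩ ⟨t, ht, ht'⟩
      exact ⟨⟨s ∩ t, hs.inter ht, hs', ht'⟩, inter_subset_left, inter_subset_right⟩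
    · rintro ⟨s, hs, hs'⟩
      exact hs.isClosed
    · intro y hy
      have hy' : y ∈ connectedComponent x0 := by
        rw [hclop]; exact hy
      have h1 : dist (y : X) q ≠ r := hcomp _ ⟨y, hy', rfl⟩
      have ho : IsOpen {y : K | dist (y : X) q ≠ r} :=
        isOpen_ne_fun (by fun_prop) continuous_const
      exact ho.mem_nhds h1
  obtain ⟨⟨V, hV, hV0⟩, hVs⟩ := hex
  simp only at hVs
  set V' : Set X := Subtype.val '' V with hV'
  have hV'c : IsClosed V' := by
    have : IsCompact V := hV.isClosed.isCompact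
    exact (this.image continuous_subtype_val).isClosed
  have hWc : IsClosed (Subtype.val '' (Vᶜ : Set K)) := by
    have : IsCompact (Vᶜ : Set K) := hV.compl.isClosed.isCompact
    exact (this.image continuous_subtype_val).isClosed
  have hRc : IsClosed (Q ∩ {x | r ≤ dist x q}) :=
    hQc.inter (isClosed_le continuous_const (by fun_prop))
  rw [isPreconnected_iff_subset_of_disjoint_closed] at hQ
  have hsub := hQ V' ((Q ∩ {x | r ≤ dist x q}) ∪ (Subtype.val '' (Vᶜ : Set K))) hV'c
    (hRc.union hWc) (by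
      intro x hx
      by_cases hxr : r ≤ dist x q
      · exact Or.inr (Or.inl ⟨hx, hxr⟩)
      · push Not at hxr
        have hxK : x ∈ K := ⟨hx, mem_closedBall.2 hxr.le⟩
        by_cases hxV : (⟨x, hxK⟩ : K) ∈ V
        · exact Or.inl ⟨_, hxV, rfl⟩
        · exact Or.inr (Or.inr ⟨_, hxV, rfl⟩)) (by
      ext x
      simp only [mem_inter_iff, mem_empty_iff_false, iff_false]
      rintro ⟨_, ⟨y, hy, rfl⟩, h2 | ⟨w, hw, hwy⟩⟩
      · have h3 := hVs hy
        simp only [mem_ofPred_eq] at h3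
        have h4 : dist (y : X) q ≤ r := y.2.2
        exact h3 (le_antisymm h4 h2.2)
      · have : w = y := Subtype.ext hwy
        exact hw (this ▸ hy))
  rcases hsub with h1 | h1
  · obtain ⟨y, hy, hyq⟩ := h1 hq'
    have : dist (y : X) q ≤ r := y.2.2
    rw [hyq] at this
    linarith
  · rcases h1 hq with h2 | ⟨w, hw, hwq⟩
    · have := h2.2
      simp only [mem_ofPred_eq, dist_self] at this
      linarith
    · have : w = x0 := Subtype.ext hwq
      exact hw (this ▸ hV0)

section
variable {U : Fin 5 → Set ℂ}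

/-- The set of points with at least three colours. -/
def Th (U : Fin 5 → Set ℂ) : Set ℂ := {x | 3 ≤ (J U x).card}

lemma isClosed_Th : IsClosed (Th U) := by
  rw [← isOpen_compl_iff, isOpen_iff_mem_nhds]
  intro x hx
  have hx' : (J U x).card < 3 := by simpa [Th] using hx
  filter_upwards [J_usc (U := U) x] with y hy
  simp only [Th, mem_compl_iff, mem_ofPred_eq, not_le]
  exact lt_of_le_of_lt (Finset.card_le_card hy) hx'

/-- Local constancy of palettes at suitable points of any nonempty set. -/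
lemma exists_local_const {X ι : Type*} [TopologicalSpace X] (P : Finset ι) (γ : ι → X → ℂ)
    (hγ : ∀ k ∈ P, Continuous (γ k)) {O : Set X} (hO : O.Nonempty) :
    ∃ x₀ ∈ O, ∀ᶠ x in 𝓝[O] x₀, ∀ k ∈ P, J U (γ k x) = J U (γ k x₀) := by
  classical
  obtain ⟨x₀, hx₀, hmin⟩ :=
    exists_minimalFor_of_wellFoundedLT (fun x => x ∈ O) (fun x => ∑ k ∈ P, (J U (γ k x)).card) hO
  refine ⟨x₀, hx₀, ?_⟩
  have h1 : ∀ᶠ x in 𝓝[O] x₀, ∀ k ∈ P, J U (γ k x) ⊆ J U (γ k x₀) := by
    have h2 : ∀ᶠ x in 𝓝 x₀, ∀ k ∈ P, J U (γ k x) ⊆ J U (γ k x₀) := by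
      rw [Filter.eventually_all_finset]
      intro k hk
      exact ((hγ k hk).tendsto x₀).eventually (J_usc (U := U) (γ k x₀))
    exact nhdsWithin_le_nhds h2
  filter_upwards [h1, self_mem_nhdsWithin] with x hx hxO k hk
  have hle : ∀ j ∈ P, (J U (γ j x)).card ≤ (J U (γ j x₀)).card :=
    fun j hj => Finset.card_le_card (hx j hj)
  have hsum : ∑ j ∈ P, (J U (γ j x₀)).card ≤ ∑ j ∈ P, (J U (γ j x)).card :=
    hmin hxO (Finset.sum_le_sum hle)
  have heq := (Finset.sum_eq_sum_iff_of_le hle).1 (le_antisymm (Finset.sum_le_sum hle) hsum) k hk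
  exact Finset.eq_of_subset_of_card_le (hx k hk) heq.ge

namespace Cov
variable (h : Cov U)
include h

theorem isTotallyDisconnected_Th : IsTotallyDisconnected (Th U) := by
  intro t ht htp q hq q' hq'
  by_contra hne
  set Q : Set ℂ := closure t with hQ
  have hQp : IsPreconnected Q := htp.closure
  have hQT : Q ⊆ Th U := closure_minimal ht isClosed_Th
  have hqQ : q ∈ Q := subset_closure hq
  have hq'Q : q' ∈ Q := subset_closure hq'
  obtain ⟨q1, hq1, hev⟩ := exists_local_const (U := U) (X := ℂ) {()} (fun _ => id)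
    (fun _ _ => continuous_id) (O := Q) ⟨q, hqQ⟩
  have hev' : ∀ᶠ x in 𝓝[Q] q1, J U x = J U q1 := by
    filter_upwards [hev] with x hx using hx () (by simp)
  obtain ⟨ρ, hρ, hρ'⟩ := Metric.mem_nhdsWithin_iff.1 hev'
  -- another point
  obtain ⟨q2, hq2, hne2⟩ : ∃ q2 ∈ Q, q2 ≠ q1 := by
    by_cases h1 : q = q1
    · exact ⟨q', hq'Q, fun h2 => hne (h1.trans h2.symm)⟩
    · exact ⟨q, hqQ, h1⟩
  set r : ℝ := min (ρ / 2) (dist q2 q1 / 2) with hr
  have hd : 0 < dist q2 q1 := dist_pos.2 hne2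
  have hr0 : 0 < r := lt_min (by linarith) (by linarith)
  have hr1 : r < ρ := lt_of_le_of_lt (min_le_left _ _) (by linarith)
  have hr2 : r < dist q2 q1 := lt_of_le_of_lt (min_le_right _ _) (by linarith)
  obtain ⟨C, hC, hCs, hC1, c, hc, hcd⟩ := boundary_bump isClosed_closure hQp hq1 hq2 hr2 hr0
  have hJ : ∀ x ∈ C, J U x = J U q1 := by
    intro x hx
    refine hρ' ⟨?_, (hCs hx).1⟩
    exact mem_ball.2 (lt_of_le_of_lt (mem_closedBall.1 (hCs hx).2) hr1)
  have h3 : 3 ≤ (J U q1).card := hQT hq1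
  obtain ⟨T, hT, hT3⟩ := Finset.exists_subset_card_eq h3
  obtain ⟨a, b, d, hab, had, hbd, rfl⟩ := Finset.card_eq_three.1 hT3
  have hsub : ∀ i ∈ ({a, b, d} : Finset (Fin 5)), C ⊆ F U i := by
    intro i hi x hx
    rw [← mem_J, hJ x hx]
    exact hT hi
  have := h.no_triple_connected hab had hbd hC (hsub a (by simp)) (hsub b (by simp))
    (hsub d (by simp)) hc hC1
  rw [this, dist_self] at hcd
  linarith

end Cov
end

end Crest.Agent.R40.T3
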